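import Claimed.Agent.R315.Ct.Defs
import Claimed.Agent.R315.Pack004
import Claimed.Agent.R315.Pack002

/-!
# Row 315, package Ct, part 1: sets of finite perimeter on a Core manifold (GLOBAL BV TOOLKIT)

Architect post **A4**.  All statements are obtained from the chart statements of `Lib/Gmt`
(`BvBasic`, `BvAniso`, `BvGlue`, `BvCompact`, `GgMeas*`) by a countable atlas and smooth partitions
of unity.  THE UNIVERSAL TRICK: for `g ≥ 0` continuous with compact support in a chart image,
`∫ g d(wper A) = Gmt.gmtPer ((g ∘ ψ)² • ctA h t ψ) (ctPre ψ U A) U` (degenerate integrand; the chart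
lemmas on lower semicontinuity and gluing need no positivity of the integrand), and
`∫ g d(wper A) = ∑_k ∫ χ_k g d(wper A)` is a finite sum.

Sections: V0 volume, V1 the perimeter measure, V3 lower semicontinuity, V4 lattice inequality,
V5 gluing along levels of a smooth function (SHARP interface cost), V6 compactness,
V7 Gauss-Green in scalar form.

THIS FILE (V0) IS PROVED (helper274) from `If/Lin`, `If/VolInt`, `If/Sub`, `If/Top`; extra lemmas: `CtGeo.ten`,
`CtGeo.drift_continuousOn`, `ctW`, `ct_wvol_eq`, `ct_measurable_W`, `ct_wvol_ac`, `ct_vol_ac`, `ct_rho_continuousOn`, `ct_rho_pos`,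
`ct_lintegral_wvol_chart`, `ct_wvol_restrict_M`.
-/

set_option autoImplicit false
set_option linter.unusedSectionVars false
open scoped ContDiff ENNReal Topology NNReal
open MeasureTheory Claims.C0499 Set Filter

namespace Claimed.Agent.R315

variable {V : Type} [NormedAddCommGroup V] [NormedSpace ℝ V] [FiniteDimensional ℝ V]
  [MeasurableSpace V] [BorelSpace V]
variable {d : ℕ} {M : Set V} {h : Ten V} {t : V → ℝ}

/-! ### V0: open pieces, volume -/

omit [MeasurableSpace V] [BorelSpace V] in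
/-- open pieces. -/
theorem CtGeo.inter (hG : CtGeo d M h t) {O : Set V} (hO : IsOpen O) : CtGeo d (M ∩ O) h t :=
  ⟨if_mfd_inter hG.mfd hO, if_isMetricOn_inter hG.met hO, if_smoothAlong_inter hG.drift hO⟩

omit [MeasurableSpace V] [BorelSpace V] in
theorem CtGeo.ten (hG : CtGeo d M h t) : IsTenOn d M h := (if_isMetricOn_iff.1 hG.met).1

omit [MeasurableSpace V] [BorelSpace V] in
theorem CtGeo.drift_continuousOn (hG : CtGeo d M h t) : ContinuousOn t M :=
  if_smoothAlong_continuousOn hG.mfd hG.drift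

theorem ct_measurableSet (hM : IsMfd d M) : MeasurableSet M := if_measurableSet hM

theorem ct_vol_spec (hG : CtGeo d M h t) : IsVol d M h (vol d M h) := if_isVol_vol hG.mfd h

theorem ct_vol_inter (hG : CtGeo d M h t) {O : Set V} (hO : IsOpen O) :
    vol d (M ∩ O) h = (vol d M h).restrict O := if_vol_inter hG.mfd h hO

/-- the density of the weighted volume, as a function with values in `ℝ≥0`. -/
noncomputable def ctW (M : Set V) (t : V → ℝ) : V → ℝ≥0 :=
  M.indicator fun x => (Real.exp (-t x)).toNNReal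

omit [FiniteDimensional ℝ V] in
theorem ct_wvol_eq (d : ℕ) (M : Set V) (h : Ten V) (t : V → ℝ) :
    wvol d M h t = (vol d M h).withDensity fun x => (ctW M t x : ℝ≥0∞) := by
  unfold wvol ctW
  congr 1
  funext x
  by_cases hx : x ∈ M
  · simp only [indicator_of_mem hx]
    rfl
  · simp only [indicator_of_notMem hx]
    rfl

theorem ct_measurable_W (hG : CtGeo d M h t) : Measurable (ctW M t) := by
  classical
  have hm := ct_measurableSet hG.mfd
  have h1 : ContinuousOn (fun x => (Real.exp (-t x)).toNNReal) M :=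
    continuous_real_toNNReal.comp_continuousOn
      (Real.continuous_exp.comp_continuousOn hG.drift_continuousOn.neg)
  have h2 := h1.measurable_piecewise (g := fun _ => (0 : ℝ≥0)) continuousOn_const hm
  have h3 : ctW M t = M.piecewise (fun x => (Real.exp (-t x)).toNNReal) fun _ => (0 : ℝ≥0) := by
    funext x
    by_cases hx : x ∈ M
    · simp [ctW, hx]
    · simp [ctW, hx]
  rw [h3]
  exact h2

omit [FiniteDimensional ℝ V] [MeasurableSpace V] [BorelSpace V] in
theorem ct_W_of_mem {x : V} (hx : x ∈ M) : ctW M t x = (Real.exp (-t x)).toNNReal := by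
  simp [ctW, hx]

omit [FiniteDimensional ℝ V] [MeasurableSpace V] [BorelSpace V] in
theorem ct_W_pos {x : V} (hx : x ∈ M) : 0 < ctW M t x := by
  rw [ct_W_of_mem hx]
  exact Real.toNNReal_pos.2 (Real.exp_pos _)

theorem ct_wvol_ac (d : ℕ) (M : Set V) (h : Ten V) (t : V → ℝ) : wvol d M h t ≪ vol d M h :=
  withDensity_absolutelyContinuous _ _

theorem ct_wvol_inter (hG : CtGeo d M h t) {O : Set V} (hO : IsOpen O) :
    wvol d (M ∩ O) h t = (wvol d M h t).restrict O := by
  rw [ct_wvol_eq, ct_wvol_eq, ct_vol_inter hG hO, restrict_withDensity hO.measurableSet]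
  refine withDensity_congr_ae ?_
  refine (ae_restrict_iff' hO.measurableSet).2 (Eventually.of_forall fun x hx => ?_)
  show (ctW (M ∩ O) t x : ℝ≥0∞) = ctW M t x
  by_cases hxM : x ∈ M
  · rw [ct_W_of_mem hxM, ct_W_of_mem (M := M ∩ O) ⟨hxM, hx⟩]
  · have h1 : x ∉ M ∩ O := fun h' => hxM h'.1
    simp [ctW, hxM, h1]

theorem ct_wvol_compl (hG : CtGeo d M h t) : wvol d M h t Mᶜ = 0 :=
  ct_wvol_ac d M h t (if_vol_compl hG.mfd h)

omit [FiniteDimensional ℝ V] [MeasurableSpace V] [BorelSpace V] in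
theorem ct_rho_eq (h : Ten V) (t : V → ℝ) (ψ : E d → V) (u : E d) :
    ctRho h t ψ u = Real.exp (-t (ψ u)) * if_vd h ψ u := rfl

theorem ct_rho_continuousOn (hG : CtGeo d M h t) {ψ : E d → V} {U : Set (E d)}
    (hψ : IsParam M ψ U) : ContinuousOn (ctRho h t ψ) U :=
  (Real.continuous_exp.comp_continuousOn (hG.drift ψ U hψ).continuousOn.neg).mul
    (if_vd_continuousOn hG.ten hψ)

theorem ct_rho_pos (hG : CtGeo d M h t) {ψ : E d → V} {U : Set (E d)} (hψ : IsParam M ψ U)
    {u : E d} (hu : u ∈ U) : 0 < ctRho h t ψ u :=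
  mul_pos (Real.exp_pos _) (if_vd_pos hG.met hψ hu)

theorem ct_lintegral_wvol_chart (hG : CtGeo d M h t) {ψ : E d → V} {U : Set (E d)}
    (hψ : IsParam M ψ U) {B : Set (E d)} (hB : B ⊆ U) (hBm : MeasurableSet B) (f : V → ℝ≥0∞) :
    ∫⁻ x in ψ '' B, f x ∂(wvol d M h t) = ∫⁻ u in B, ENNReal.ofReal (ctRho h t ψ u) * f (ψ u) := by
  have hm := if_measurableSet_image hψ hBm hB
  rw [ct_wvol_eq, setLIntegral_withDensity_eq_setLIntegral_mul_non_measurable _
    (ct_measurable_W hG).coe_nnreal_ennreal _ hm (Eventually.of_forall fun x => ENNReal.coe_lt_top),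
    if_lintegral_vol_image hG.mfd hG.ten hψ hB hBm]
  refine setLIntegral_congr_fun hBm fun u hu => ?_
  simp only [Pi.mul_apply]
  rw [ct_W_of_mem (if_mem hψ (hB hu)), ← mul_assoc, ct_rho_eq, mul_comm (Real.exp _),
    ENNReal.ofReal_mul (if_vd_nonneg h ψ u)]
  rfl

theorem ct_wvol_chart (hG : CtGeo d M h t) {ψ : E d → V} {U : Set (E d)} (hψ : IsParam M ψ U)
    {B : Set (E d)} (hB : B ⊆ U) (hBm : MeasurableSet B) :
    wvol d M h t (ψ '' B) = ∫⁻ u in B, ENNReal.ofReal (ctRho h t ψ u) := by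
  have := ct_lintegral_wvol_chart hG hψ hB hBm fun _ => 1
  simpa using this

theorem ct_integral_wvol_chart (hG : CtGeo d M h t) {ψ : E d → V} {U : Set (E d)}
    (hψ : IsParam M ψ U) {B : Set (E d)} (hB : B ⊆ U) (hBm : MeasurableSet B) (f : V → ℝ) :
    ∫ x in ψ '' B, f x ∂(wvol d M h t) = ∫ u in B, f (ψ u) * ctRho h t ψ u := by
  have hm := if_measurableSet_image hψ hBm hB
  rw [ct_wvol_eq, setIntegral_withDensity_eq_setIntegral_smul (ct_measurable_W hG) _ hm,
    if_integral_vol_image hG.mfd hG.ten hψ hB hBm]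
  refine setIntegral_congr_fun hBm fun u hu => ?_
  show if_vd h ψ u • ctW M t (ψ u) • f (ψ u) = f (ψ u) * ctRho h t ψ u
  rw [ct_W_of_mem (if_mem hψ (hB hu)), ct_rho_eq, NNReal.smul_def,
    Real.coe_toNNReal _ (Real.exp_pos _).le, smul_eq_mul, smul_eq_mul]
  ring

theorem ct_wvol_compact (hG : CtGeo d M h t) {K : Set V} (hK : IsCompact K) (hKM : K ⊆ M) :
    wvol d M h t K ≠ ⊤ := by
  have hc : ContinuousOn (fun x => Real.exp (-t x)) K :=
    Real.continuous_exp.comp_continuousOn (hG.drift_continuousOn.mono hKM).neg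
  obtain ⟨C, hC⟩ := hK.bddAbove_image hc
  rw [ct_wvol_eq, withDensity_apply _ hK.measurableSet]
  have h1 : ∫⁻ x in K, (ctW M t x : ℝ≥0∞) ∂(vol d M h) ≤ ∫⁻ _ in K, ENNReal.ofReal C ∂(vol d M h) := by
    refine setLIntegral_mono measurable_const fun x hx => ?_
    rw [ct_W_of_mem (hKM hx)]
    exact ENNReal.ofReal_le_ofReal (hC (mem_image_of_mem _ hx))
  rw [setLIntegral_const] at h1
  exact ne_top_of_le_ne_top (ENNReal.mul_ne_top ENNReal.ofReal_ne_top
    (if_vol_lt_top_of_isCompact hG.mfd hG.ten hK hKM).ne) h1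

theorem ct_vol_ac (hG : CtGeo d M h t) : vol d M h ≪ wvol d M h t := by
  rw [ct_wvol_eq]
  refine withDensity_absolutelyContinuous' (ct_measurable_W hG).coe_nnreal_ennreal.aemeasurable ?_
  have h0 : ∀ᵐ x ∂(vol d M h), x ∈ M := by
    rw [ae_iff]
    exact if_vol_compl hG.mfd h
  filter_upwards [h0] with x hx
  exact (ENNReal.coe_pos.2 (ct_W_pos hx)).ne'

theorem ct_wvol_eq_zero_iff (hG : CtGeo d M h t) (B : Set V) :
    wvol d M h t B = 0 ↔ vol d M h B = 0 :=
  ⟨fun h0 => ct_vol_ac hG h0, fun h0 => ct_wvol_ac d M h t h0⟩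

theorem ct_wvol_restrict_M (hG : CtGeo d M h t) : (wvol d M h t).restrict M = wvol d M h t :=
  Measure.restrict_eq_self_of_ae_mem (by rw [ae_iff]; exact ct_wvol_compl hG)

/-- a function which is continuous on `M` is a.e. strongly measurable. -/
theorem ct_aestronglyMeasurable (hG : CtGeo d M h t) {f : V → ℝ} (hf : ContinuousOn f M) :
    AEStronglyMeasurable f (wvol d M h t) := by
  rw [← ct_wvol_restrict_M hG]
  exact hf.aestronglyMeasurable (ct_measurableSet hG.mfd)

/-- nonempty relatively open sets have positive volume. -/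
theorem ct_wvol_pos (hG : CtGeo d M h t) {O : Set V} (hO : IsOpen O) (hne : (M ∩ O).Nonempty) :
    0 < wvol d M h t O := by
  obtain ⟨x, hxM, hxO⟩ := hne
  obtain ⟨ψ, U, hψ, u, hu, rfl⟩ := hG.mfd x hxM
  have hBo : IsOpen (U ∩ ψ ⁻¹' O) := (if_continuousOn hψ).isOpen_inter_preimage (if_open hψ) hO
  have hsub : ψ '' (U ∩ ψ ⁻¹' O) ⊆ O := by
    rintro _ ⟨w, hw, rfl⟩
    exact hw.2
  refine lt_of_lt_of_le ?_ (measure_mono hsub)
  rw [ct_wvol_chart hG hψ inter_subset_left hBo.measurableSet, pos_iff_ne_zero]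
  intro h0
  have hae : AEMeasurable (fun u => ENNReal.ofReal (ctRho h t ψ u))
      ((volume : Measure (E d)).restrict (U ∩ ψ ⁻¹' O)) :=
    ENNReal.measurable_ofReal.comp_aemeasurable
      (((ct_rho_continuousOn hG hψ).mono inter_subset_left).aemeasurable hBo.measurableSet)
  rw [lintegral_eq_zero_iff' hae, EventuallyEq, ae_restrict_iff' hBo.measurableSet] at h0
  have h1 : ∀ᵐ w ∂(volume : Measure (E d)), w ∉ U ∩ ψ ⁻¹' O := by
    filter_upwards [h0] with w hw hmem
    have := hw hmem
    simp only [Pi.zero_apply, ENNReal.ofReal_eq_zero] at this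
    exact absurd (ct_rho_pos hG hψ hmem.1) (not_lt.2 this)
  have h2 : (volume : Measure (E d)) (U ∩ ψ ⁻¹' O) = 0 := by
    rw [ae_iff] at h1
    exact measure_mono_null (fun w hw => not_not.2 hw) h1
  exact (hBo.measure_pos volume ⟨u, hu, hxO⟩).ne' h2

omit [FiniteDimensional ℝ V] in
/-- only the values of the data along `M` matter. -/
theorem ct_vol_congr_data {h' : Ten V} (hh : ∀ x ∈ M, h x = h' x) : vol d M h = vol d M h' := by
  have e : IsVol d M h = IsVol d M h' := by
    funext μ
    unfold IsVol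
    refine propext (and_congr Iff.rfl ?_)
    refine forall_congr' fun ψ => forall_congr' fun U => forall_congr' fun hψ =>
      forall_congr' fun A => forall_congr' fun hA => forall_congr' fun hAm => ?_
    rw [setLIntegral_congr_fun hAm fun u hu => by
      rw [if_cm_congr (hh _ (if_mem hψ (hA hu)))]]
  classical
  have key : ∀ P Q : Measure V → Prop, P = Q →
      (if H : ∃ μ, P μ then H.choose else 0) = if H : ∃ μ, Q μ then H.choose else 0 := by
    rintro P _ rfl
    rfl
  exact key _ _ e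

omit [FiniteDimensional ℝ V] in
theorem ct_wvol_congr_data {h' : Ten V} {t' : V → ℝ} (hh : ∀ x ∈ M, h x = h' x)
    (ht : ∀ x ∈ M, t x = t' x) : wvol d M h t = wvol d M h' t' := by
  unfold wvol
  rw [ct_vol_congr_data hh]
  congr 1
  funext x
  by_cases hx : x ∈ M
  · simp only [indicator_of_mem hx, ht x hx]
  · simp only [indicator_of_notMem hx]

end Claimed.Agent.R315
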