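import Claimed.Agent.R315.Ct.BvBa
import Claimed.Agent.R315.Pack003

/-!
# Row 315, package Ct: file `BvB.lean`, section V1: the perimeter measure (general description: header of `Ct/BvA.lean`)

PROVED (helper274) from `Ct/BvBa.lean` (chart data, transition maps), `If/GlueMeas.lean` (gluing of chart measures) and the black boxes of
`Lib/Gmt`: `gmtPerM_spec`, `gmtPerM_open` (GgMeasA), `gmtPer_ne_top_iff` (LamBase), `gmtP_eq_zero_const` (BvIsoA), package L-GMT-DiffeoA.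
`IsWPer d M h t A μ` is `if_IsGlued d M (ctNu h t A) μ`, `ctNu h t A ψ U = Gmt.gmtPerM (ctA h t ψ) (ctPre ψ U A)`.
-/

set_option autoImplicit false
set_option linter.unusedSectionVars false
set_option linter.unusedVariables false
open scoped ContDiff ENNReal Topology
open MeasureTheory Claims.C0499 Set Filter

namespace Claimed.Agent.Gmt

variable {m : ℕ}

theorem gmtPer_empty (A : E m → Bil m) (U : Set (E m)) : gmtPer A ∅ U = 0 := by
  unfold gmtPer
  simp

theorem gmtPerM_empty (A : E m → Bil m) : gmtPerM A ∅ = 0 := by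
  rw [← Measure.measure_univ_eq_zero, gmtPerM_open A ∅ isOpen_univ, gmtPer_empty]

theorem gmtPerM_compl (A : E m → Bil m) {S : Set (E m)} (hS : MeasurableSet S) (C : Set (E m)) :
    gmtPerM A Sᶜ C = gmtPerM A S C :=
  le_antisymm
    (gmtPerM_le_of_open isOpen_univ (fun O _ _ => (gmtPer_compl A hS O).le) (subset_univ C))
    (gmtPerM_le_of_open isOpen_univ (fun O _ _ => (gmtPer_compl A hS O).ge) (subset_univ C))

/-- the perimeter vanishes on open sets in which `S` is null or full. -/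
theorem gmtPer_eq_zero_of_null (A : E m → Bil m) {S U : Set (E m)} (hS : MeasurableSet S)
    (h : volume (S ∩ U) = 0 ∨ volume (U \ S) = 0) : gmtPer A S U = 0 := by
  rcases h with h | h
  · rw [gmtPer_congr A hS MeasurableSet.empty (U := U), gmtPer_empty]
    rw [empty_inter]
    exact ae_eq_empty.2 h
  · rw [← gmtPer_compl A hS, gmtPer_congr A hS.compl MeasurableSet.empty (U := U), gmtPer_empty]
    rw [empty_inter]
    refine ae_eq_empty.2 ?_
    rwa [inter_comm, ← sdiff_eq]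

/-- the perimeter measure (any integrand) lives on `gmtBd S`. -/
theorem gmtPerM_compl_gmtBd (A : E m → Bil m) {S : Set (E m)} (hS : MeasurableSet S) :
    gmtPerM A S (gmtBd S)ᶜ = 0 := by
  refine measure_null_of_locally_null _ fun x hx => ?_
  have hx' : ¬ ∀ r > 0, 0 < volume (S ∩ Metric.ball x r) ∧ 0 < volume (Metric.ball x r \ S) := hx
  push Not at hx'
  obtain ⟨r, hr, h1⟩ := hx'
  refine ⟨Metric.ball x r, mem_nhdsWithin_of_mem_nhds (Metric.ball_mem_nhds x hr), ?_⟩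
  rw [gmtPerM_open A S Metric.isOpen_ball]
  refine gmtPer_eq_zero_of_null A hS ?_
  by_cases h2 : 0 < volume (S ∩ Metric.ball x r)
  · exact Or.inr (le_antisymm (h1 h2) zero_le)
  · exact Or.inl (le_antisymm (not_lt.1 h2) zero_le)

end Claimed.Agent.Gmt

namespace Claimed.Agent.R315

variable {V : Type} [NormedAddCommGroup V] [NormedSpace ℝ V] [FiniteDimensional ℝ V]
  [MeasurableSpace V] [BorelSpace V]
variable {d : ℕ} {M : Set V} {h : Ten V} {t : V → ℝ}

/-- the family of chart perimeter measures. -/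
noncomputable def ctNu (h : Ten V) (t : V → ℝ) (A : Set V) (ψ : E d → V) (U : Set (E d)) :
    Measure (E d) := Gmt.gmtPerM (ctA h t ψ) (ctPre ψ U A)

theorem ct_isWPer_iff {A : Set V} {μ : Measure V} :
    IsWPer d M h t A μ ↔ if_IsGlued d M (ctNu h t A) μ := Iff.rfl

theorem ct_compat (h : Ten V) (t : V → ℝ) {A : Set V} (hA : MeasurableSet A) :
    if_Compat d M (ctNu h t A) :=
  fun _ _ _ _ hψ hψ' _ hB _ => ct_perM_transition' h t hψ hψ' hA hB

theorem ct_wper_unique (hG : CtGeo d M h t) {A : Set V} {μ : Measure V}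
    (hμ : IsWPer d M h t A μ) : μ = wper d M h t A := by
  have H : ∃ μ : Measure V, IsWPer d M h t A μ := ⟨μ, hμ⟩
  unfold wper
  rw [dif_pos H]
  exact if_isGlued_unique hG.mfd hμ H.choose_spec

theorem ct_wper_spec (hG : CtGeo d M h t) {A : Set V} (hA : MeasurableSet A) :
    IsWPer d M h t A (wper d M h t A) := by
  obtain ⟨μ, hμ⟩ := if_exists_glued hG.mfd (ct_compat (d := d) (M := M) h t hA)
  rw [← ct_wper_unique hG (ct_isWPer_iff.2 hμ)]
  exact hμ

theorem ct_wper_compl_M (hG : CtGeo d M h t) {A : Set V} (hA : MeasurableSet A) :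
    wper d M h t A Mᶜ = 0 := (ct_wper_spec hG hA).1

theorem ct_wper_chart (hG : CtGeo d M h t) {ψ : E d → V} {U : Set (E d)} (hψ : IsParam M ψ U)
    {A : Set V} (hA : MeasurableSet A) {B : Set (E d)} (hB : B ⊆ U) (hBm : MeasurableSet B) :
    wper d M h t A (ψ '' B) = Gmt.gmtPerM (ctA h t ψ) (ctPre ψ U A) B :=
  (ct_wper_spec hG hA).2 ψ U hψ B hB hBm

theorem ct_lintegral_wper_chart' (hG : CtGeo d M h t) {ψ : E d → V} {U : Set (E d)}
    (hψ : IsParam M ψ U) {A : Set V} (hA : MeasurableSet A) {B : Set (E d)} (hB : B ⊆ U)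
    (hBm : MeasurableSet B) (g : V → ℝ≥0∞) :
    ∫⁻ x in ψ '' B, g x ∂(wper d M h t A) =
      ∫⁻ u in B, g (ψ u) ∂(Gmt.gmtPerM (ctA h t ψ) (ctPre ψ U A)) :=
  (ct_isWPer_iff.1 (ct_wper_spec hG hA)).lintegral_image hψ hB hBm g

theorem ct_lintegral_wper_chart (hG : CtGeo d M h t) {ψ : E d → V} {U : Set (E d)}
    (hψ : IsParam M ψ U) {A : Set V} (hA : MeasurableSet A) {B : Set (E d)} (hB : B ⊆ U)
    (hBm : MeasurableSet B) {g : V → ℝ≥0∞} (hg : Measurable g) :
    ∫⁻ x in ψ '' B, g x ∂(wper d M h t A) =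
      ∫⁻ u in B, g (ψ u) ∂(Gmt.gmtPerM (ctA h t ψ) (ctPre ψ U A)) :=
  ct_lintegral_wper_chart' hG hψ hA hB hBm g

theorem ct_integral_wper_chart (hG : CtGeo d M h t) {ψ : E d → V} {U : Set (E d)}
    (hψ : IsParam M ψ U) {A : Set V} (hA : MeasurableSet A) {B : Set (E d)} (hB : B ⊆ U)
    (hBm : MeasurableSet B) (g : V → ℝ) :
    ∫ x in ψ '' B, g x ∂(wper d M h t A) =
      ∫ u in B, g (ψ u) ∂(Gmt.gmtPerM (ctA h t ψ) (ctPre ψ U A)) :=
  (ct_isWPer_iff.1 (ct_wper_spec hG hA)).integral_image hψ hB hBm g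

/-- value of the restriction to an open set on a chart piece. -/
theorem ct_wper_restrict_chart (hG : CtGeo d M h t) {ψ : E d → V} {U : Set (E d)}
    (hψ : IsParam M ψ U) {A O : Set V} (hA : MeasurableSet A) (hO : IsOpen O) {C : Set (E d)}
    (hC : C ⊆ U) (hCm : MeasurableSet C) :
    (wper d M h t A).restrict O (ψ '' C) =
      Gmt.gmtPerM (ctA h t ψ) (ctPre ψ U A) (C ∩ ψ ⁻¹' O) := by
  rw [Measure.restrict_apply (if_measurableSet_image hψ hCm hC), ← image_inter_preimage,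
    ct_wper_chart hG hψ hA (inter_subset_left.trans hC)
      (if_measurableSet_inter_preimage hψ hC hCm hO.measurableSet)]

theorem ct_wper_restrict_compl (hG : CtGeo d M h t) {A : Set V} (hA : MeasurableSet A)
    (O : Set V) : (wper d M h t A).restrict O Mᶜ = 0 :=
  le_antisymm ((Measure.restrict_apply_le _ _).trans (ct_wper_compl_M hG hA).le) zero_le

/-- locality. -/
theorem ct_wper_congr (hG : CtGeo d M h t) {A B O : Set V} (hA : MeasurableSet A)
    (hB : MeasurableSet B) (hO : IsOpen O) (hAB : vol d M h (symmDiff A B ∩ O) = 0) :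
    (wper d M h t A).restrict O = (wper d M h t B).restrict O := by
  refine if_measure_ext_charts hG.mfd (ct_wper_restrict_compl hG hA O)
    (ct_wper_restrict_compl hG hB O) fun ψ U hψ C hC hCm => ?_
  rw [ct_wper_restrict_chart hG hψ hA hO hC hCm, ct_wper_restrict_chart hG hψ hB hO hC hCm]
  have hW : IsOpen (U ∩ ψ ⁻¹' O) := (if_continuousOn hψ).isOpen_inter_preimage (if_open hψ) hO
  refine Gmt.gmtPerM_congr_set _ hW (ct_measurableSet_pre hψ hA) (ct_measurableSet_pre hψ hB) ?_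
    (inter_subset_inter_left _ hC)
  have hnull := ct_chart_null hG hψ hAB
  have hae : ∀ᵐ u ∂(volume : Measure (E d)), u ∉ U ∩ ψ ⁻¹' (symmDiff A B ∩ O) :=
    measure_eq_zero_iff_ae_notMem.1 hnull
  filter_upwards [hae] with u hu
  refine propext ?_
  constructor
  · rintro ⟨⟨h1, h2⟩, h3⟩
    refine ⟨⟨?_, h2⟩, h3⟩
    by_contra h4
    exact hu ⟨h2, Or.inl ⟨h1, h4⟩, h3.2⟩
  · rintro ⟨⟨h1, h2⟩, h3⟩
    refine ⟨⟨?_, h2⟩, h3⟩
    by_contra h4
    exact hu ⟨h2, Or.inr ⟨h1, h4⟩, h3.2⟩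

theorem ct_wper_inter (hG : CtGeo d M h t) {A O : Set V} (hA : MeasurableSet A)
    (hO : IsOpen O) : wper d (M ∩ O) h t (A ∩ O) = (wper d M h t A).restrict O := by
  refine (ct_wper_unique (hG.inter hO) ⟨?_, fun ψ U hψ C hC hCm => ?_⟩).symm
  · have hm : MeasurableSet (M ∩ O)ᶜ :=
      ((ct_measurableSet hG.mfd).inter hO.measurableSet).compl
    rw [Measure.restrict_apply hm]
    refine measure_mono_null ?_ (ct_wper_compl_M hG hA)
    rintro x ⟨hx, hxO⟩ hxM
    exact hx ⟨hxM, hxO⟩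
  · obtain ⟨hψM, hsub⟩ := (if_param_inter_iff hO).1 hψ
    rw [ct_wper_restrict_chart hG hψM hA hO hC hCm]
    have e1 : C ∩ ψ ⁻¹' O = C := inter_eq_left.2 fun u hu => hsub (mem_image_of_mem ψ (hC hu))
    have e2 : ctPre ψ U (A ∩ O) = ctPre ψ U A := by
      ext u
      constructor
      · rintro ⟨⟨h1, -⟩, h2⟩
        exact ⟨h1, h2⟩
      · rintro ⟨h1, h2⟩
        exact ⟨⟨h1, hsub (mem_image_of_mem ψ h2)⟩, h2⟩
    rw [e1, e2]

theorem ct_wper_diff (hG : CtGeo d M h t) {A : Set V} (hA : MeasurableSet A) :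
    wper d M h t (M \ A) = wper d M h t A := by
  refine (ct_wper_unique hG ⟨ct_wper_compl_M hG hA, fun ψ U hψ C hC hCm => ?_⟩).symm
  have hS := ct_measurableSet_pre hψ hA
  rw [ct_wper_chart hG hψ hA hC hCm, ← Gmt.gmtPerM_compl _ hS]
  refine Gmt.gmtPerM_congr_set _ (if_open hψ) hS.compl
    (ct_measurableSet_pre hψ ((ct_measurableSet hG.mfd).diff hA))
    (Eventually.of_forall fun u => propext ?_) hC
  constructor
  · rintro ⟨h1, h2⟩
    exact ⟨⟨⟨if_mem hψ h2, fun h3 => h1 ⟨h3, h2⟩⟩, h2⟩, h2⟩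
  · rintro ⟨⟨⟨-, h1⟩, -⟩, h2⟩
    exact ⟨fun h3 => h1 h3.1, h2⟩

theorem ct_wper_empty (hG : CtGeo d M h t) : wper d M h t ∅ = 0 := by
  refine (ct_wper_unique hG ⟨rfl, fun ψ U hψ C hC hCm => ?_⟩).symm
  have : ctPre ψ U (∅ : Set V) = ∅ := by simp [ctPre]
  rw [this, Gmt.gmtPerM_empty]
  rfl

theorem ct_wper_univ (hG : CtGeo d M h t) : wper d M h t M = 0 := by
  have := ct_wper_diff hG (A := ∅) MeasurableSet.empty
  rwa [sdiff_empty, ct_wper_empty hG] at this

/-- the perimeter measure lives on the boundary. -/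
theorem ct_wper_compl_bd (hG : CtGeo d M h t) {A : Set V} (hA : MeasurableSet A) :
    wper d M h t A (ctBd d M A)ᶜ = 0 := by
  refine (ct_isWPer_iff.1 (ct_wper_spec hG hA)).null hG.mfd fun ψ U hψ => ?_
  refine measure_mono_null ?_ (Gmt.gmtPerM_compl_gmtBd (ctA h t ψ) (ct_measurableSet_pre hψ hA))
  rintro u ⟨hu, hx⟩ hb
  exact hx ⟨ψ, U, u, hψ, hu, rfl, hb⟩

/-- `A` read in a chart has locally finite perimeter. -/
theorem CtLF.chart (hG : CtGeo d M h t) {A : Set V} (hA : CtLF d M h t A) {ψ : E d → V}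
    {U : Set (E d)} (hψ : IsParam M ψ U) : Gmt.GmtLF (ctPre ψ U A) U := by
  refine ⟨ct_measurableSet_pre hψ hA.meas, fun W hW => ?_⟩
  obtain ⟨hWo, hWc, hWU⟩ := hW
  rw [← Gmt.gmtPer_ne_top_iff (if_open hψ) (ct_gmtInt hG hψ) ⟨hWo, hWc, hWU⟩,
    ← Gmt.gmtPerM_open _ _ hWo]
  have h1 : wper d M h t A (ψ '' closure W) ≠ ⊤ :=
    hA.fin _ (hWc.image_of_continuousOn ((if_continuousOn hψ).mono hWU))
      ((image_mono hWU).trans (if_image_subset hψ))
  rw [ct_wper_chart hG hψ hA.meas hWU isClosed_closure.measurableSet] at h1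
  exact ne_top_of_le_ne_top h1 (measure_mono subset_closure)

theorem ctLF_of_chart (hG : CtGeo d M h t) {A : Set V} (hA : MeasurableSet A) (hAM : A ⊆ M)
    (hc : ∀ x ∈ M, ∃ (ψ : E d → V) (U : Set (E d)), IsParam M ψ U ∧ x ∈ ψ '' U ∧
      Gmt.GmtLF (ctPre ψ U A) U) : CtLF d M h t A := by
  refine ⟨hA, hAM, fun K hK hKM => ?_⟩
  have hloc : ∀ x ∈ K, ∃ s ∈ 𝓝[K] x, wper d M h t A s < ⊤ := by
    intro x hx
    obtain ⟨ψ, U, hψ, ⟨u, hu, rfl⟩, hLF⟩ := hc x (hKM hx)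
    obtain ⟨r, hr, hball⟩ := Metric.nhds_basis_closedBall.mem_iff.1 ((if_open hψ).mem_nhds hu)
    have hbU : Metric.ball u r ⊆ U := Metric.ball_subset_closedBall.trans hball
    have hCC : Gmt.GmtCC (Metric.ball u r) U :=
      ⟨Metric.isOpen_ball, (isCompact_closedBall u r).of_isClosed_subset isClosed_closure
        Metric.closure_ball_subset_closedBall, Metric.closure_ball_subset_closedBall.trans hball⟩
    refine ⟨ψ '' Metric.ball u r, ?_, ?_⟩
    · exact nhdsWithin_mono _ hKM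
        (if_image_mem_nhdsWithin (if_mono hψ Metric.isOpen_ball hbU) (Metric.mem_ball_self hr))
    · rw [ct_wper_chart hG hψ hA hbU Metric.isOpen_ball.measurableSet,
        Gmt.gmtPerM_open _ _ Metric.isOpen_ball, lt_top_iff_ne_top,
        Gmt.gmtPer_ne_top_iff (if_open hψ) (ct_gmtInt hG hψ) hCC]
      exact hLF.2 _ hCC
  exact (hK.induction_on (p := fun s => wper d M h t A s < ⊤) (by simp)
    (fun s s' hss hs' => lt_of_le_of_lt (measure_mono hss) hs')
    (fun s s' hs hs' => lt_of_le_of_lt (measure_union_le s s') (ENNReal.add_lt_top.2 ⟨hs, hs'⟩))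
    hloc).ne

theorem CtLF.diff (hG : CtGeo d M h t) {A : Set V} (hA : CtLF d M h t A) :
    CtLF d M h t (M \ A) :=
  ⟨(ct_measurableSet hG.mfd).diff hA.meas, sdiff_subset, fun K hK hKM => by
    rw [ct_wper_diff hG hA.meas]
    exact hA.fin K hK hKM⟩

theorem CtLF.inter_open (hG : CtGeo d M h t) {A O : Set V} (hA : CtLF d M h t A)
    (hO : IsOpen O) : CtLF d (M ∩ O) h t (A ∩ O) :=
  ⟨hA.meas.inter hO.measurableSet, inter_subset_inter_left O hA.sub, fun K hK hKM => by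
    rw [ct_wper_inter hG hA.meas hO]
    exact ne_top_of_le_ne_top (hA.fin K hK (hKM.trans inter_subset_left))
      (Measure.restrict_apply_le _ _)⟩

theorem ctLF_empty (hG : CtGeo d M h t) : CtLF d M h t ∅ :=
  ⟨MeasurableSet.empty, empty_subset M, fun K _ _ => by rw [ct_wper_empty hG]; simp⟩

theorem ctLF_univ (hG : CtGeo d M h t) : CtLF d M h t M :=
  ⟨ct_measurableSet hG.mfd, Subset.rfl, fun K _ _ => by rw [ct_wper_univ hG]; simp⟩

/-- local constancy. -/
theorem ct_constancy_local (hG : CtGeo d M h t) {A O : Set V} (hA : MeasurableSet A)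
    (hO : IsOpen O) (h0 : wper d M h t A O = 0) {x : V} (hx : x ∈ M ∩ O) :
    ∃ N : Set V, IsOpen N ∧ x ∈ N ∧ (vol d M h (A ∩ N) = 0 ∨ vol d M h (N \ A) = 0) := by
  obtain ⟨hxM, hxO⟩ := hx
  obtain ⟨ψ, U, hψ, u, hu, rfl⟩ := hG.mfd x hxM
  have hW : IsOpen (U ∩ ψ ⁻¹' O) := (if_continuousOn hψ).isOpen_inter_preimage (if_open hψ) hO
  obtain ⟨r, hr, hball⟩ := Metric.nhds_basis_closedBall.mem_iff.1 (hW.mem_nhds ⟨hu, hxO⟩)
  have hbW : Metric.ball u r ⊆ U ∩ ψ ⁻¹' O := Metric.ball_subset_closedBall.trans hball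
  have hbU : Metric.ball u r ⊆ U := hbW.trans inter_subset_left
  have hS := ct_measurableSet_pre hψ hA
  have h1 : Gmt.gmtPer (ctA h t ψ) (ctPre ψ U A) (Metric.ball u r) = 0 := by
    rw [← Gmt.gmtPerM_open _ _ Metric.isOpen_ball,
      ← ct_wper_chart hG hψ hA hbU Metric.isOpen_ball.measurableSet]
    refine measure_mono_null ?_ h0
    rintro _ ⟨w, hw, rfl⟩
    exact (hbW hw).2
  obtain ⟨c, C, hc, -, hb⟩ := Gmt.gmtInt_bounds (if_open hψ) (ct_gmtInt hG hψ)
    (isCompact_closedBall u r) (hball.trans inter_subset_left)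
  have h2 := Gmt.mul_gmtP_le_gmtPer (A := ctA h t ψ) (U := Metric.ball u r) hc.le
    (fun y hy ξ => (hb y (Metric.ball_subset_closedBall hy) ξ).1) (ctPre ψ U A)
  rw [h1] at h2
  have h3 : Gmt.gmtP (ctPre ψ U A) (Metric.ball u r) = 0 := by
    have h4 := le_antisymm h2 zero_le
    rcases mul_eq_zero.1 h4 with h5 | h5
    · exact absurd (ENNReal.ofReal_eq_zero.1 h5) (not_le.2 hc)
    · exact h5
  have h4 := Gmt.gmtP_eq_zero_const Metric.isOpen_ball (convex_ball u r).isPreconnected hS h3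
  obtain ⟨N, hN, he⟩ := if_image_open hψ Metric.isOpen_ball hbU
  have huN : ψ u ∈ N := by
    have : ψ u ∈ M ∩ N := he ▸ mem_image_of_mem ψ (Metric.mem_ball_self hr)
    exact this.2
  have hMc := if_vol_compl hG.mfd h
  refine ⟨N, hN, huN, ?_⟩
  rcases h4 with h4 | h4
  · left
    have h5 := ct_vol_image_null hG hψ (inter_subset_right.trans hbU) h4
    refine measure_mono_null ?_ (measure_union_null h5 hMc)
    rintro y ⟨hyA, hyN⟩
    by_cases hyM : y ∈ M
    · have : y ∈ ψ '' Metric.ball u r := he ▸ ⟨hyM, hyN⟩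
      obtain ⟨w, hw, rfl⟩ := this
      exact Or.inl ⟨w, ⟨⟨hyA, hbU hw⟩, hw⟩, rfl⟩
    · exact Or.inr hyM
  · right
    have h5 := ct_vol_image_null hG hψ (sdiff_subset.trans hbU) h4
    refine measure_mono_null ?_ (measure_union_null h5 hMc)
    rintro y ⟨hyN, hyA⟩
    by_cases hyM : y ∈ M
    · have : y ∈ ψ '' Metric.ball u r := he ▸ ⟨hyM, hyN⟩
      obtain ⟨w, hw, rfl⟩ := this
      exact Or.inl ⟨w, ⟨hw, fun h6 => hyA h6.1⟩, rfl⟩
    · exact Or.inr hyM

/-- constancy. -/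
theorem ct_constancy (hG : CtGeo d M h t) {A O : Set V} (hA : MeasurableSet A) (hO : IsOpen O)
    (hc : IsPreconnected (M ∩ O)) (h0 : wper d M h t A O = 0) :
    vol d M h (A ∩ O) = 0 ∨ vol d M h (O \ A) = 0 := by
  set u₀ : Set V := ⋃₀ {N | IsOpen N ∧ vol d M h (A ∩ N) = 0} with hu₀
  set u₁ : Set V := ⋃₀ {N | IsOpen N ∧ vol d M h (N \ A) = 0} with hu₁
  have ho₀ : IsOpen u₀ := isOpen_sUnion fun N hN => hN.1
  have ho₁ : IsOpen u₁ := isOpen_sUnion fun N hN => hN.1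
  have hMc := if_vol_compl hG.mfd h
  have hn₀ : vol d M h (A ∩ u₀) = 0 := by
    refine measure_null_of_locally_null _ fun y hy => ?_
    obtain ⟨N, ⟨hN, hN0⟩, hyN⟩ := hy.2
    exact ⟨A ∩ N, mem_nhdsWithin.2 ⟨N, hN, hyN, fun z hz => ⟨hz.2.1, hz.1⟩⟩, hN0⟩
  have hn₁ : vol d M h (u₁ \ A) = 0 := by
    refine measure_null_of_locally_null _ fun y hy => ?_
    obtain ⟨N, ⟨hN, hN0⟩, hyN⟩ := hy.1
    exact ⟨N \ A, mem_nhdsWithin.2 ⟨N, hN, hyN, fun z hz => ⟨hz.1, hz.2.2⟩⟩, hN0⟩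
  have hcov : M ∩ O ⊆ u₀ ∪ u₁ := by
    intro x hx
    obtain ⟨N, hN, hxN, h1 | h1⟩ := ct_constancy_local hG hA hO h0 hx
    · exact Or.inl ⟨N, ⟨hN, h1⟩, hxN⟩
    · exact Or.inr ⟨N, ⟨hN, h1⟩, hxN⟩
  by_cases hne₀ : (M ∩ O ∩ u₀).Nonempty
  · by_cases hne₁ : (M ∩ O ∩ u₁).Nonempty
    · exfalso
      obtain ⟨z, hz, hz₀, hz₁⟩ := hc u₀ u₁ ho₀ ho₁ hcov hne₀ hne₁
      have hpos := ct_wvol_pos hG (ho₀.inter ho₁) ⟨z, hz.1, hz₀, hz₁⟩
      have hzero : vol d M h (u₀ ∩ u₁) = 0 := by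
        refine measure_mono_null ?_ (measure_union_null hn₀ hn₁)
        rintro y ⟨hy₀, hy₁⟩
        by_cases hyA : y ∈ A
        · exact Or.inl ⟨hyA, hy₀⟩
        · exact Or.inr ⟨hy₁, hyA⟩
      exact hpos.ne' ((ct_wvol_eq_zero_iff hG _).2 hzero)
    · left
      refine measure_mono_null ?_ (measure_union_null hn₀ hMc)
      rintro y ⟨hyA, hyO⟩
      by_cases hyM : y ∈ M
      · rcases hcov ⟨hyM, hyO⟩ with h1 | h1
        · exact Or.inl ⟨hyA, h1⟩
        · exact absurd ⟨y, ⟨hyM, hyO⟩, h1⟩ hne₁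
      · exact Or.inr hyM
  · right
    refine measure_mono_null ?_ (measure_union_null hn₁ hMc)
    rintro y ⟨hyO, hyA⟩
    by_cases hyM : y ∈ M
    · rcases hcov ⟨hyM, hyO⟩ with h1 | h1
      · exact absurd ⟨y, ⟨hyM, hyO⟩, h1⟩ hne₀
      · exact Or.inl ⟨h1, hyA⟩
    · exact Or.inr hyM

end Claimed.Agent.R315
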