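import Claimed.Agent.R315.Ct.BvA
import Claimed.Agent.R315.Pack002
import Claimed.Agent.Lib.Gmt.DiffeoB

/-!
# Row 315, package Ct, section V1, part a: chart data of the perimeter measure, invariance under transition maps

PROVED (helper274) modulo `Lib/Gmt/DiffeoA.lean` (package L-GMT-DiffeoA) and `gmtPerM_spec`, `gmtPerM_open` (`GgMeasA`).
* `ct_gmtInt`, `ct_gmtData`, `ct_measurableSet_pre`;
* `ct_diffeo`: the transition maps are `Gmt.GmtDiffeo`; `ct_pull_eq`: `τ^* (ctA h t ψ') = ctA h t ψ`;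
* `ct_perM_transition`;
* `ct_chart_null`: `vol`-null sets are Lebesgue null in charts; `ct_vol_image_null`.
-/

set_option autoImplicit false
set_option linter.unusedSectionVars false
set_option linter.unusedVariables false
open scoped ContDiff ENNReal Topology RealInnerProductSpace
open MeasureTheory Claims.C0499 Set Filter

namespace Claimed.Agent.R315

section linalg

variable {d : ℕ}

theorem if_bil_smul (c : ℝ) (A : Matrix (Fin d) (Fin d) ℝ) : if_bil (c • A) = c • if_bil A := by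
  ext X Y
  simp only [if_bil_apply, Matrix.smul_apply, smul_eq_mul, smul_apply, Finset.mul_sum, mul_assoc]

theorem if_bil_pos {A : Matrix (Fin d) (Fin d) ℝ} (hA : A.PosDef) {X : E d} (hX : X ≠ 0) :
    0 < if_bil A X X := by
  rw [if_bil_eq_dot]
  have hne : (X : Fin d → ℝ) ≠ 0 := by
    intro h0
    apply hX
    ext i
    exact congrFun h0 i
  have := hA.dotProduct_mulVec_pos hne
  rwa [star_trivial] at this

theorem if_contDiffOn_sum₂ {K : Type} [NormedAddCommGroup K] [NormedSpace ℝ K] {U : Set (E d)}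
    {c : Fin d → Fin d → E d → ℝ} (hc : ∀ i j, ContDiffOn ℝ ∞ (c i j) U) (k : Fin d → Fin d → K) :
    ContDiffOn ℝ ∞ (fun u => ∑ i, ∑ j, c i j u • k i j) U :=
  ContDiffOn.sum fun i _ => ContDiffOn.sum fun j _ => (hc i j).smul contDiffOn_const

theorem if_bil_contDiffOn {U : Set (E d)} {G : E d → Matrix (Fin d) (Fin d) ℝ}
    (hG : if_SmOn U G) : ContDiffOn ℝ ∞ (fun u => if_bil (G u)) U := by
  unfold if_bil
  exact if_contDiffOn_sum₂ (K := E d →L[ℝ] E d →L[ℝ] ℝ) (c := fun i j u => G u i j) hG _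

theorem if_jac_det (A : E d →L[ℝ] E d) : (if_jac A).det = A.det := by
  have h1 : if_jac A = LinearMap.toMatrix (EuclideanSpace.basisFun (Fin d) ℝ).toBasis
      (EuclideanSpace.basisFun (Fin d) ℝ).toBasis (A : E d →ₗ[ℝ] E d) := by
    ext a i
    simp [if_jac, LinearMap.toMatrix_apply]
  rw [h1, LinearMap.det_toMatrix]

theorem if_bil_inv_eq_ctr (G : Matrix (Fin d) (Fin d) ℝ) (ξ η : E d) :
    if_bil G⁻¹ ξ η = if_ctr G (Matrix.of fun i j => ξ i * η j) := by
  rw [if_bil_apply]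
  rfl

theorem if_inner_eb (v : E d) (i : Fin d) : ⟪v, eb i⟫ = v i := by
  simp [EuclideanSpace.inner_single_right]

/-- transformation of the inverse metric -/
theorem if_bil_inv_pull {G G' : Matrix (Fin d) (Fin d) ℝ} {A L : E d →L[ℝ] E d}
    (hLA : L.comp A = ContinuousLinearMap.id ℝ (E d))
    (hG : ∀ i j, G i j = if_bil G' (A (eb i)) (A (eb j))) (ξ η : E d) :
    if_bil G⁻¹ ξ η = if_bil G'⁻¹ (ContinuousLinearMap.adjoint L ξ)
      (ContinuousLinearMap.adjoint L η) := by
  have hLA' : ∀ X, L (A X) = X := fun X => congrArg (fun B : E d →L[ℝ] E d => B X) hLA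
  have hinj : Function.Injective A := fun X Y hXY => by rw [← hLA' X, ← hLA' Y, hXY]
  rw [if_bil_inv_eq_ctr, if_bil_inv_eq_ctr]
  refine if_ctr_pull hinj hG fun i j => ?_
  have key := if_bil_mul (innerSL ℝ (ContinuousLinearMap.adjoint L ξ))
    (innerSL ℝ (ContinuousLinearMap.adjoint L η)) (A (eb i)) (A (eb j))
  have e1 : (Matrix.of fun a b => innerSL ℝ (ContinuousLinearMap.adjoint L ξ) (eb a) *
      innerSL ℝ (ContinuousLinearMap.adjoint L η) (eb b)) = Matrix.of fun a b =>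
        (ContinuousLinearMap.adjoint L ξ) a * (ContinuousLinearMap.adjoint L η) b := by
    ext a b
    simp only [Matrix.of_apply, innerSL_apply_apply, if_inner_eb]
  rw [e1] at key
  rw [key, Matrix.of_apply, innerSL_apply_apply, innerSL_apply_apply,
    ContinuousLinearMap.adjoint_inner_left, ContinuousLinearMap.adjoint_inner_left, hLA', hLA',
    if_inner_eb, if_inner_eb]

end linalg

variable {V : Type} [NormedAddCommGroup V] [NormedSpace ℝ V] [FiniteDimensional ℝ V]
  [MeasurableSpace V] [BorelSpace V]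
variable {d : ℕ} {M : Set V} {h : Ten V} {t : V → ℝ}

/-! ### V1: the perimeter measure -/

theorem ct_A_apply (h : Ten V) (t : V → ℝ) (ψ : E d → V) (u ξ η : E d) :
    ctA h t ψ u ξ η =
      Real.exp (-(2 * t (ψ u))) * (cm h ψ u).det * if_bil (cm h ψ u)⁻¹ ξ η := by
  unfold ctA
  rw [if_bil_smul]
  rfl

/-- chart data are admissible data of `Lib/Gmt`. -/
theorem ct_gmtInt (hG : CtGeo d M h t) {ψ : E d → V} {U : Set (E d)} (hψ : IsParam M ψ U) :
    Gmt.GmtInt U (ctA h t ψ) := by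
  have hC := if_metC hG.met hψ
  refine ⟨?_, fun x hx ξ η => ?_, fun x hx ξ hξ => ?_⟩
  · unfold ctA
    refine if_bil_contDiffOn fun i j => ?_
    have h1 : ContDiffOn ℝ ∞ (fun u => Real.exp (-(2 * t (ψ u)))) U :=
      (contDiffOn_const.mul (hG.drift ψ U hψ)).neg.exp
    exact (h1.mul (if_det_contDiffOn hC.smooth)).mul (if_inv_contDiffOn hC.smooth hC.det_ne i j)
  · rw [ct_A_apply, ct_A_apply, if_bil_symm (if_isSymm_of_posSemidef (hC.posDef x hx).inv.posSemidef)]
  · rw [ct_A_apply]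
    exact mul_pos (mul_pos (Real.exp_pos _) (hC.det_pos hx)) (if_bil_pos (hC.posDef x hx).inv hξ)

theorem ct_rho_contDiffOn (hG : CtGeo d M h t) {ψ : E d → V} {U : Set (E d)}
    (hψ : IsParam M ψ U) : ContDiffOn ℝ ∞ (ctRho h t ψ) U := by
  have hC := if_metC hG.met hψ
  exact (hG.drift ψ U hψ).neg.exp.mul (if_sqrt_det_contDiffOn hC.smooth hC.det_ne)

theorem ct_gmtData (hG : CtGeo d M h t) {p : V → ℝ} (hp : SmoothAlong d M p) {ψ : E d → V}
    {U : Set (E d)} (hψ : IsParam M ψ U) : Gmt.GmtData U (ctA h t ψ) (ctF h t p ψ) :=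
  ⟨if_open hψ, ct_gmtInt hG hψ, (hp ψ U hψ).mul (ct_rho_contDiffOn hG hψ)⟩

theorem ct_measurableSet_pre {ψ : E d → V} {U : Set (E d)} (hψ : IsParam M ψ U) {A : Set V}
    (hA : MeasurableSet A) : MeasurableSet (ctPre ψ U A) := by
  unfold ctPre
  rw [inter_comm]
  exact if_measurableSet_preimage hψ hA

/-- the transition maps are diffeomorphisms. -/
theorem ct_diffeo {ψ ψ' : E d → V} {U U' : Set (E d)} (hψ : IsParam M ψ U)
    (hψ' : IsParam M ψ' U') :
    Gmt.GmtDiffeo (if_trDom ψ U ψ' U') (if_trDom ψ' U' ψ U) (if_tr ψ' U' ψ) (if_tr ψ U ψ') :=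
  ⟨if_isOpen_trDom hψ hψ', if_isOpen_trDom hψ' hψ, if_tr_contDiffOn hψ hψ',
    if_tr_contDiffOn hψ' hψ, if_tr_mapsTo, if_tr_mapsTo, fun _ hx => if_tr_tr hψ hx,
    fun _ hy => if_tr_tr hψ' hy⟩

/-- the chart integrands are related by the transition maps. -/
theorem ct_pull_eq (h : Ten V) (t : V → ℝ) {ψ ψ' : E d → V} {U U' : Set (E d)}
    (hψ : IsParam M ψ U) (hψ' : IsParam M ψ' U') {x : E d} (hx : x ∈ if_trDom ψ U ψ' U') :
    Gmt.gmtPull (if_tr ψ' U' ψ) (if_tr ψ U ψ') (ctA h t ψ') x = ctA h t ψ x := by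
  have hcm := if_cm_tr h hψ hψ' hx
  have hLA := if_fderiv_tr_comp hψ hψ' hx
  ext ξ η
  simp only [Gmt.gmtPull, smul_apply, ContinuousLinearMap.bilinearComp_apply, smul_eq_mul]
  rw [ct_A_apply, ct_A_apply, if_tr_spec hx, if_det_pull hcm, if_jac_det,
    if_bil_inv_pull hLA hcm ξ η]
  ring

/-- **invariance of the chart perimeter measures under transition maps** (the only place where the
transformation rule of `Gmt.gmtPer` under diffeomorphisms is used).  `B` may be any subset. -/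
theorem ct_perM_transition' (h : Ten V) (t : V → ℝ) {ψ ψ' : E d → V} {U U' : Set (E d)}
    (hψ : IsParam M ψ U) (hψ' : IsParam M ψ' U') {A : Set V} (hA : MeasurableSet A)
    {B : Set (E d)} (hB : B ⊆ if_trDom ψ U ψ' U') :
    Gmt.gmtPerM (ctA h t ψ') (ctPre ψ' U' A) (if_tr ψ' U' ψ '' B) =
      Gmt.gmtPerM (ctA h t ψ) (ctPre ψ U A) B := by
  have hD := ct_diffeo hψ hψ'
  have hm' := ct_measurableSet_pre hψ' hA
  rw [Gmt.gmtPerM_diffeo hD _ hm' hB,
    Gmt.gmtPerM_congr_int _ hD.opn (fun x hx ξ => by rw [ct_pull_eq h t hψ hψ' hx]) hB]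
  refine Gmt.gmtPerM_congr_set _ hD.opn (hD.measurableSet_preimage hm')
    (ct_measurableSet_pre hψ hA) (Eventually.of_forall fun x => propext ?_) hB
  constructor
  · rintro ⟨⟨⟨h1, -⟩, -⟩, h3⟩
    have h1' : ψ' (if_tr ψ' U' ψ x) ∈ A := h1
    rw [if_tr_spec h3] at h1'
    exact ⟨⟨h1', h3.1⟩, h3⟩
  · rintro ⟨⟨h1, -⟩, h3⟩
    refine ⟨⟨⟨?_, if_tr_mem h3⟩, h3⟩, h3⟩
    show ψ' (if_tr ψ' U' ψ x) ∈ A
    rw [if_tr_spec h3]
    exact h1

theorem ct_perM_transition (hG : CtGeo d M h t) {ψ ψ' : E d → V} {U U' : Set (E d)}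
    (hψ : IsParam M ψ U) (hψ' : IsParam M ψ' U') {A : Set V} (hA : MeasurableSet A)
    {B : Set (E d)} (hB : B ⊆ if_trDom ψ U ψ' U') (hBm : MeasurableSet B) :
    Gmt.gmtPerM (ctA h t ψ') (ctPre ψ' U' A) (if_tr ψ' U' ψ '' B) =
      Gmt.gmtPerM (ctA h t ψ) (ctPre ψ U A) B :=
  ct_perM_transition' h t hψ hψ' hA hB

/-! ### null sets -/

/-- a `vol`-null set is Lebesgue null in every chart (`N` arbitrary). -/
theorem ct_chart_null (hG : CtGeo d M h t) {ψ : E d → V} {U : Set (E d)} (hψ : IsParam M ψ U)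
    {N : Set V} (hN : vol d M h N = 0) : (volume : Measure (E d)) (U ∩ ψ ⁻¹' N) = 0 := by
  set N' := toMeasurable (vol d M h) N with hN'
  have hN'm : MeasurableSet N' := measurableSet_toMeasurable _ _
  have hN'0 : vol d M h N' = 0 := by rw [hN', measure_toMeasurable, hN]
  have hZm : MeasurableSet (U ∩ ψ ⁻¹' N') := if_measurableSet_preimage hψ hN'm
  refine measure_mono_null (t := U ∩ ψ ⁻¹' N')
    (inter_subset_inter_right U (preimage_mono (subset_toMeasurable (vol d M h) N))) ?_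
  have h1 : vol d M h (ψ '' (U ∩ ψ ⁻¹' N')) = 0 := by
    refine measure_mono_null ?_ hN'0
    rintro _ ⟨u, hu, rfl⟩
    exact hu.2
  rw [if_vol_image hG.mfd h hψ inter_subset_left hZm] at h1
  have hae : AEMeasurable (fun u => ENNReal.ofReal (Real.sqrt (cm h ψ u).det))
      ((volume : Measure (E d)).restrict (U ∩ ψ ⁻¹' N')) :=
    ENNReal.measurable_ofReal.comp_aemeasurable
      (((if_vd_continuousOn hG.ten hψ).mono inter_subset_left).aemeasurable hZm)
  rw [lintegral_eq_zero_iff' hae, EventuallyEq, ae_restrict_iff' hZm] at h1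
  have h2 : ∀ᵐ w ∂(volume : Measure (E d)), w ∉ U ∩ ψ ⁻¹' N' := by
    filter_upwards [h1] with w hw hmem
    have := hw hmem
    simp only [Pi.zero_apply, ENNReal.ofReal_eq_zero] at this
    exact absurd (if_vd_pos hG.met hψ hmem.1) (not_lt.2 this)
  rw [ae_iff] at h2
  exact measure_mono_null (fun w hw => not_not.2 hw) h2

/-- the image of a Lebesgue null set is `vol`-null (`Z` arbitrary). -/
theorem ct_vol_image_null (hG : CtGeo d M h t) {ψ : E d → V} {U : Set (E d)} (hψ : IsParam M ψ U)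
    {Z : Set (E d)} (hZU : Z ⊆ U) (hZ : (volume : Measure (E d)) Z = 0) :
    vol d M h (ψ '' Z) = 0 := by
  set Z' := toMeasurable (volume : Measure (E d)) Z ∩ U with hZ'
  have hZ'm : MeasurableSet Z' := (measurableSet_toMeasurable _ _).inter (if_open hψ).measurableSet
  have hZ'0 : (volume : Measure (E d)) Z' = 0 :=
    measure_mono_null inter_subset_left (by rw [measure_toMeasurable, hZ])
  refine measure_mono_null (t := ψ '' Z')
    (image_mono (subset_inter (subset_toMeasurable (volume : Measure (E d)) Z) hZU)) ?_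
  rw [if_vol_image hG.mfd h hψ inter_subset_right hZ'm]
  exact setLIntegral_measure_zero _ _ hZ'0

end Claimed.Agent.R315
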