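import Claimed.Agent.R315.Ct.BvP

/-!
# Row 315, package Ct: file `BvC.lean` = V3 (lower semicontinuity) + V4 (lattice inequality).
Architect: helper75.   Package `L-Ct-BvC`.   Tools: `Ct/BvP.lean` (partition of unity `CtPou`, `ctPull`), `Lib/Gmt/GgWeight.lean`, `Lib/Gmt/GgMeas.lean`.

PLAN
* `ct_wper_lsc_weight`.  Take `P : CtPou d M ψ U χ` (`ct_exists_pou hG.mfd`).  For every measurable `B`:
  `∫⁻ ofReal g d(wper B) = ∑' a, ∫⁻ ofReal (χ a) * ofReal g d(wper B)` (`CtPou.lintegral_eq_tsum`, `ct_wper_compl_M`)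
  `= ∑' a, ∫⁻ u in U a, ofReal (w_a u) d(gmtPerM (ctA ..) (ctPre .. B))`, `w_a = ctPull (ψ a) (U a) (χ a · g)` (`CtPou.lintegral_wper`; on `U a`: `ofReal (χ) * ofReal (g) = ofReal (χ g)`, `setLIntegral_congr_fun`).
  `w_a` is continuous, `≥ 0` (`CtPou.continuous_w`); `ctConv_chart` + `ct_measurableSet_pre` + `Gmt.gmtPerM_lsc_weight` give the inequality for each `a`;
  `∑' a, liminf_i ≤ liminf_i ∑' a` = Fatou for the counting measure (`ENNReal.tsum_eq_lintegral_count`?  use `lintegral_liminf_le` with `Measure.count`, `lintegral_count`).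
* `ct_wper_lsc`: apply `ct_wper_lsc_weight` on the manifold `M ∩ O` (`CtGeo.inter`) with `g = 1` to the sets `A i ∩ O`: `ct_wper_inter` gives `wper (M ∩ O) (A ∩ O) univ = wper M A O`;
  `CtConv d (M ∩ O) h (A i ∩ O) (A' ∩ O)`: compact subsets of `M ∩ O` are compact subsets of `M`, `ct_vol_inter`.
* `ct_wper_lattice`: `ct_measure_le_of_chart` (`μ Mᶜ = 0` by `ct_wper_compl_M`); in a chart `wper X (ψ '' B) = gmtPerM (ctA ..) (ctPre ψ U X) B` (`ct_wper_spec`), `ctPre` commutes with `∩`, `∪`; `Gmt.gmtPerM_lattice` (`ct_gmtInt`), evaluated on `B ⊆ U` (`Measure.restrict_apply`, `Measure.le_iff`).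
* `CtLF.inter/union`: evaluate the lattice inequality on `K` (`Measure.le_iff'`), `ENNReal.add_ne_top`.
-/

set_option autoImplicit false
open scoped ContDiff ENNReal Topology
open MeasureTheory Claims.C0499 Set Filter

namespace Claimed.Agent.R315

variable {V : Type} [NormedAddCommGroup V] [NormedSpace ℝ V] [FiniteDimensional ℝ V]
  [MeasurableSpace V] [BorelSpace V]
variable {d : ℕ} {M : Set V} {h : Ten V} {t : V → ℝ}

/-! ### V3: lower semicontinuity -/

/-- one member of the partition of unity. -/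
theorem ct_wper_lsc_pou (hG : CtGeo d M h t) {κ : Type} {ψ : κ → E d → V} {U : κ → Set (E d)}
    {χ : κ → V → ℝ} (P : CtPou d M ψ U χ) (a : κ) {A : ℕ → Set V} {A' : Set V}
    (hA : ∀ i, MeasurableSet (A i)) (hA' : MeasurableSet A') (hc : CtConv d M h A A')
    {g : V → ℝ} (hg : ContinuousOn g M) (hg0 : ∀ x, 0 ≤ g x) (hgm : Measurable g) :
    ∫⁻ x, ENNReal.ofReal (χ a x) * ENNReal.ofReal (g x) ∂(wper d M h t A') ≤
      liminf (fun i => ∫⁻ x, ENNReal.ofReal (χ a x) * ENNReal.ofReal (g x) ∂(wper d M h t (A i)))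
        atTop := by
  have hψ := P.param a
  have hUm : MeasurableSet (U a) := (if_open hψ).measurableSet
  have key : ∀ B : Set V, MeasurableSet B →
      ∫⁻ x, ENNReal.ofReal (χ a x) * ENNReal.ofReal (g x) ∂(wper d M h t B) =
        ∫⁻ u in U a, ENNReal.ofReal (ctPull (ψ a) (U a) (fun x => χ a x * g x) u)
          ∂(Gmt.gmtPerM (ctA h t (ψ a)) (ctPre (ψ a) (U a) B)) := by
    intro B hB
    rw [P.lintegral_wper hG a hB hgm.ennreal_ofReal]
    refine setLIntegral_congr_fun hUm fun u hu => ?_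
    show _ = ENNReal.ofReal (ctPull (ψ a) (U a) (fun x => χ a x * g x) u)
    unfold ctPull
    rw [indicator_of_mem hu, Function.comp_apply, ENNReal.ofReal_mul (P.nonneg a _)]
  rw [key A' hA']
  simp only [key _ (hA _)]
  refine Gmt.gmtPerM_lsc_weight (if_open hψ) (ctA h t (ψ a)) (fun i => ct_measurableSet_pre hψ (hA i))
    (ct_measurableSet_pre hψ hA') (ctConv_chart hG hc hψ) (P.continuous_w a hg).1.continuousOn fun u hu => ?_
  unfold ctPull
  rw [indicator_of_mem hu]
  exact mul_nonneg (P.nonneg a _) (hg0 _)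

/-- Fatou for series. -/
theorem ct_tsum_liminf_le {κ : Type} [Countable κ] (F : ℕ → κ → ℝ≥0∞) :
    ∑' a, liminf (fun i => F i a) atTop ≤ liminf (fun i => ∑' a, F i a) atTop := by
  let _ : MeasurableSpace κ := ⊤
  have : MeasurableSingletonClass κ := ⟨fun _ => MeasurableSpace.measurableSet_top⟩
  have h := lintegral_liminf_le (μ := (Measure.count : Measure κ)) (f := F) (u := atTop)
    (fun i => measurable_from_top)
  simpa only [lintegral_count] using h

theorem ct_wper_lsc_weight (hG : CtGeo d M h t) {A : ℕ → Set V} {A' : Set V}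
    (hA : ∀ i, MeasurableSet (A i)) (hA' : MeasurableSet A') (hc : CtConv d M h A A')
    {g : V → ℝ} (hg : ContinuousOn g M) (hg0 : ∀ x, 0 ≤ g x) (hgm : Measurable g) :
    ∫⁻ x, ENNReal.ofReal (g x) ∂(wper d M h t A') ≤
      liminf (fun i => ∫⁻ x, ENNReal.ofReal (g x) ∂(wper d M h t (A i))) atTop := by
  obtain ⟨κ, hκ, ψ, U, χ, P⟩ := ct_exists_pou hG.mfd
  have key : ∀ B : Set V, MeasurableSet B → ∫⁻ x, ENNReal.ofReal (g x) ∂(wper d M h t B) =
      ∑' a, ∫⁻ x, ENNReal.ofReal (χ a x) * ENNReal.ofReal (g x) ∂(wper d M h t B) := fun B hB =>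
    P.lintegral_eq_tsum (ct_wper_compl_M hG hB) hgm.ennreal_ofReal
  rw [key A' hA']
  simp only [key _ (hA _)]
  exact (ENNReal.tsum_le_tsum fun a => ct_wper_lsc_pou hG P a hA hA' hc hg hg0 hgm).trans
    (ct_tsum_liminf_le _)

theorem CtConv.inter_open (hG : CtGeo d M h t) {A : ℕ → Set V} {A' : Set V}
    (hc : CtConv d M h A A') {O : Set V} (hO : IsOpen O) :
    CtConv d (M ∩ O) h (fun i => A i ∩ O) (A' ∩ O) := by
  intro K hK hKM
  refine tendsto_of_tendsto_of_tendsto_of_le_of_le tendsto_const_nhds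
    (hc K hK (hKM.trans inter_subset_left)) (fun _ => zero_le) fun i => ?_
  show vol d (M ∩ O) h (symmDiff (A i ∩ O) (A' ∩ O) ∩ K) ≤ vol d M h (symmDiff (A i) A' ∩ K)
  rw [ct_vol_inter hG hO]
  refine (Measure.restrict_apply_le _ _).trans (measure_mono (inter_subset_inter_left _ ?_))
  rintro x (⟨⟨h1, h2⟩, h3⟩ | ⟨⟨h1, h2⟩, h3⟩)
  · exact Or.inl ⟨h1, fun h4 => h3 ⟨h4, h2⟩⟩
  · exact Or.inr ⟨h1, fun h4 => h3 ⟨h4, h2⟩⟩

theorem ct_wper_lsc (hG : CtGeo d M h t) {A : ℕ → Set V} {A' : Set V}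
    (hA : ∀ i, MeasurableSet (A i)) (hA' : MeasurableSet A') (hc : CtConv d M h A A')
    {O : Set V} (hO : IsOpen O) :
    wper d M h t A' O ≤ liminf (fun i => wper d M h t (A i) O) atTop := by
  have h1 := ct_wper_lsc_weight (hG.inter hO) (fun i => (hA i).inter hO.measurableSet)
    (hA'.inter hO.measurableSet) (hc.inter_open hG hO) (g := fun _ => 1) continuousOn_const
    (fun _ => zero_le_one) measurable_const
  simpa only [ENNReal.ofReal_one, lintegral_one, ct_wper_inter hG hA' hO, ct_wper_inter hG (hA _) hO,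
    Measure.restrict_apply_univ] using h1

/-! ### V4: lattice inequality -/

theorem ct_wper_lattice (hG : CtGeo d M h t) {A B : Set V} (hA : MeasurableSet A)
    (hB : MeasurableSet B) :
    wper d M h t (A ∩ B) + wper d M h t (A ∪ B) ≤ wper d M h t A + wper d M h t B := by
  refine ct_measure_le_of_chart hG.mfd ?_ fun ψ U hψ C hC hCm => ?_
  · rw [Measure.add_apply, ct_wper_compl_M hG (hA.inter hB), ct_wper_compl_M hG (hA.union hB), add_zero]
  · rw [Measure.add_apply, Measure.add_apply, ct_wper_chart hG hψ (hA.inter hB) hC hCm,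
      ct_wper_chart hG hψ (hA.union hB) hC hCm, ct_wper_chart hG hψ hA hC hCm, ct_wper_chart hG hψ hB hC hCm]
    have e1 : ctPre ψ U (A ∩ B) = ctPre ψ U A ∩ ctPre ψ U B := by
      ext u
      simp only [ctPre, mem_inter_iff, mem_preimage]
      tauto
    have e2 : ctPre ψ U (A ∪ B) = ctPre ψ U A ∪ ctPre ψ U B := by
      ext u
      simp only [ctPre, mem_inter_iff, mem_union, mem_preimage]
      tauto
    rw [e1, e2]
    have h1 := Measure.le_iff'.1 (Gmt.gmtPerM_lattice (if_open hψ) (ct_gmtInt hG hψ)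
      (ct_measurableSet_pre hψ hA) (ct_measurableSet_pre hψ hB)) C
    simpa only [Measure.add_apply, Measure.restrict_apply hCm, inter_eq_left.2 hC] using h1

theorem CtLF.inter (hG : CtGeo d M h t) {A B : Set V} (hA : CtLF d M h t A)
    (hB : CtLF d M h t B) : CtLF d M h t (A ∩ B) := by
  refine ⟨hA.meas.inter hB.meas, inter_subset_left.trans hA.sub, fun K hK hKM => ?_⟩
  have h1 := Measure.le_iff'.1 (ct_wper_lattice hG hA.meas hB.meas) K
  rw [Measure.add_apply, Measure.add_apply] at h1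
  exact ne_top_of_le_ne_top (ENNReal.add_ne_top.2 ⟨hA.fin K hK hKM, hB.fin K hK hKM⟩)
    (le_self_add.trans h1)

theorem CtLF.union (hG : CtGeo d M h t) {A B : Set V} (hA : CtLF d M h t A)
    (hB : CtLF d M h t B) : CtLF d M h t (A ∪ B) := by
  refine ⟨hA.meas.union hB.meas, union_subset hA.sub hB.sub, fun K hK hKM => ?_⟩
  have h1 := Measure.le_iff'.1 (ct_wper_lattice hG hA.meas hB.meas) K
  rw [Measure.add_apply, Measure.add_apply] at h1
  exact ne_top_of_le_ne_top (ENNReal.add_ne_top.2 ⟨hA.fin K hK hKM, hB.fin K hK hKM⟩)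
    (le_add_self.trans h1)

end Claimed.Agent.R315
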