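import Claimed.Agent.R315.Ct.BvC

/-!
# Row 315, package Ct: file `BvD.lean` = V5, part 1: levels of a smooth function (everything except `ct_glue_level`, which is in `BvDL.lean`).
Architect: helper75.  PROVED: helper6.   Package `L-Ct-BvD`.

PLAN
* `ct_exists_open_lt/gt`: `f` is continuous on `M` (`if_smoothAlong_continuousOn hG.mfd hf`); `continuousOn_iff'` gives an open `O` with `f ⁻¹' Iio τ ∩ M = O ∩ M`.
* `ct_measurableSet_lt`: `= M ∩ O`, `ct_measurableSet`.   `ct_measurableSet_glue`: `A_i ⊆ M`, so `ctGlue f τ A₁ A₂ = (A₁ ∩ {x ∈ M | f x < τ}) ∪ (A₂ \ {x ∈ M | f x < τ})`.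
* `ct_glue_lt`: `O` from `ct_exists_open_lt`; `symmDiff (ctGlue ..) A₁ ∩ O = ∅` (all sets are in `M`), `ct_wper_congr` gives `(wper G).restrict O = (wper A₁).restrict O`;
  for arbitrary `B`: `wper X (B ∩ {f < τ}) = wper X (B ∩ O)` because the two sets agree on `M` and `wper X Mᶜ = 0` (`measure_congr`, `ae_eq_set`; or `le_antisymm` with `measure_mono` + `measure_union_le` + null set), `Measure.restrict_apply' hO.measurableSet`.   `ct_glue_gt` the same with `{τ < f}` (there `G = A₂`).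
* `ct_level_null`: `wper A` is s-finite/σ-finite: `M` is a countable union of compact sets `K_n ⊆ M` (atlas + exhaustion of each `U k`: `Gmt.gmt_exists_exhaustion`, images) of finite measure.
  For fixed `n`: the sets `K_n ∩ {f = τ}` are measurable (closed in `K_n`), pairwise disjoint, in a set of finite measure: `Measure.countable_meas_pos_of_disjoint_of_meas_iUnion_ne_top` (or `Measure.countable_meas_pos_of_disjoint_iUnion` for the finite measure `(wper A).restrict (K n)`); countable union over `n`.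
* `ct_iface_mono`: `lintegral_mono_set`, `ENNReal.toReal_mono`; finiteness: `∫⁻_{K₀} ofReal (gradN f) dμ ≤ sup_{K₀} gradN f · μ K₀ < ∞` (`gradN f` continuous on `M`: `if_gradSq_smoothAlong`, `Real.continuous_sqrt`; `ct_wvol_compact`).
* `ct_iface_integral_le`: `MonotoneOn.intervalIntegral_deriv_mem_uIcc` on `[a,b]`; `ctIface .. a a = 0`.
* `ct_deriv_tendsto_zero := Gmt.gmt_deriv_tendsto_zero`.
-/

set_option autoImplicit false
open scoped ContDiff ENNReal Topology
open MeasureTheory Claims.C0499 Set Filter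

namespace Claimed.Agent.R315

variable {V : Type} [NormedAddCommGroup V] [NormedSpace ℝ V] [FiniteDimensional ℝ V]
  [MeasurableSpace V] [BorelSpace V]
variable {d : ℕ} {M : Set V} {h : Ten V} {t : V → ℝ}

/-! ### V5: gluing along almost every level of a smooth function -/

/-- relatively open sublevel sets are traces of open sets. -/
theorem ct_exists_open_lt (hG : CtGeo d M h t) {f : V → ℝ} (hf : SmoothAlong d M f) (τ : ℝ) :
    ∃ O : Set V, IsOpen O ∧ M ∩ O = {x | x ∈ M ∧ f x < τ} := by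
  have hc := if_smoothAlong_continuousOn hG.mfd hf
  obtain ⟨O, hO, he⟩ := continuousOn_iff'.1 hc (Iio τ) isOpen_Iio
  refine ⟨O, hO, ?_⟩
  rw [inter_comm, ← he]
  ext x
  simp [and_comm]

theorem ct_exists_open_gt (hG : CtGeo d M h t) {f : V → ℝ} (hf : SmoothAlong d M f) (τ : ℝ) :
    ∃ O : Set V, IsOpen O ∧ M ∩ O = {x | x ∈ M ∧ τ < f x} := by
  have hc := if_smoothAlong_continuousOn hG.mfd hf
  obtain ⟨O, hO, he⟩ := continuousOn_iff'.1 hc (Ioi τ) isOpen_Ioi
  refine ⟨O, hO, ?_⟩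
  rw [inter_comm, ← he]
  ext x
  simp [and_comm]

theorem ct_measurableSet_lt (hG : CtGeo d M h t) {f : V → ℝ} (hf : SmoothAlong d M f) (τ : ℝ) :
    MeasurableSet {x | x ∈ M ∧ f x < τ} := by
  obtain ⟨O, hO, he⟩ := ct_exists_open_lt hG hf τ
  rw [← he]
  exact (ct_measurableSet hG.mfd).inter hO.measurableSet

theorem ct_measurableSet_glue (hG : CtGeo d M h t) {f : V → ℝ} (hf : SmoothAlong d M f)
    {A₁ A₂ : Set V} (h₁ : MeasurableSet A₁) (h₂ : MeasurableSet A₂) (h₁M : A₁ ⊆ M) (h₂M : A₂ ⊆ M)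
    (τ : ℝ) : MeasurableSet (ctGlue f τ A₁ A₂) := by
  have hm := ct_measurableSet_lt hG hf τ
  have e : ctGlue f τ A₁ A₂ =
      (A₁ ∩ {x | x ∈ M ∧ f x < τ}) ∪ (A₂ \ {x | x ∈ M ∧ f x < τ}) := by
    ext x
    simp only [ctGlue, mem_union, mem_inter_iff, mem_diff, mem_setOf_eq]
    constructor
    · rintro (⟨h1, h2⟩ | ⟨h1, h2⟩)
      · exact Or.inl ⟨h1, h₁M h1, h2⟩
      · exact Or.inr ⟨h1, fun h' => h2 h'.2⟩
    · rintro (⟨h1, _, h2⟩ | ⟨h1, h2⟩)
      · exact Or.inl ⟨h1, h2⟩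
      · exact Or.inr ⟨h1, fun h' => h2 ⟨h₂M h1, h'⟩⟩
  rw [e]
  exact (h₁.inter hm).union (h₂.diff hm)

omit [MeasurableSpace V] [BorelSpace V] in
/-- `M` is a countable union of compact sets. -/
theorem ct_exists_compact_exhaustion (hM : IsMfd d M) :
    ∃ K : ℕ → Set V, (∀ n, IsCompact (K n)) ∧ (∀ n, K n ⊆ M) ∧ M = ⋃ n, K n := by
  obtain ⟨ψ, U, hp, he⟩ := if_exists_atlas hM
  have hex : ∀ k, ∃ K : ℕ → Set (E d), (∀ n, IsCompact (K n)) ∧ (∀ n, K n ⊆ U k) ∧
      (∀ n, K n ⊆ interior (K (n + 1))) ∧ ⋃ n, K n = U k :=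
    fun k => Gmt.gmt_exists_exhaustion (if_open (hp k))
  choose K hKc hKU _ hKun using hex
  refine ⟨fun n => ψ n.unpair.1 '' K n.unpair.1 n.unpair.2, fun n => ?_, fun n => ?_, ?_⟩
  · exact (hKc _ _).image_of_continuousOn ((if_continuousOn (hp _)).mono (hKU _ _))
  · exact (image_mono (hKU _ _)).trans (if_image_subset (hp _))
  · rw [he]
    ext x
    simp only [mem_iUnion]
    constructor
    · rintro ⟨k, u, hu, rfl⟩
      rw [← hKun k] at hu
      obtain ⟨n, hn⟩ := mem_iUnion.1 hu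
      refine ⟨Nat.pair k n, ?_⟩
      simp only [Nat.unpair_pair]
      exact ⟨u, hn, rfl⟩
    · rintro ⟨n, u, hu, rfl⟩
      exact ⟨n.unpair.1, u, hKU _ _ hu, rfl⟩

/-- the perimeter measure only sees the trace on `M`. -/
theorem ct_wper_congr_M (hG : CtGeo d M h t) {X : Set V} (hX : MeasurableSet X) {B B' : Set V}
    (hB : ∀ x ∈ M, x ∈ B ↔ x ∈ B') : wper d M h t X B = wper d M h t X B' := by
  apply measure_congr
  have hM : ∀ᵐ x ∂(wper d M h t X), x ∈ M := by
    rw [ae_iff]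
    exact ct_wper_compl_M hG hX
  rw [Filter.eventuallyEq_set]
  filter_upwards [hM] with x hx
  exact hB x hx

/-- locality, for a relatively open set `M ∩ P = M ∩ O`. -/
theorem ct_wper_eq_of_open (hG : CtGeo d M h t) {X Y O P : Set V} (hX : MeasurableSet X)
    (hY : MeasurableSet Y) (hXM : X ⊆ M) (hYM : Y ⊆ M) (hO : IsOpen O)
    (hOP : ∀ x ∈ M, x ∈ O ↔ x ∈ P) (hXY : ∀ x ∈ M, x ∈ P → (x ∈ X ↔ x ∈ Y)) (B : Set V) :
    wper d M h t X (B ∩ P) = wper d M h t Y (B ∩ P) := by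
  have hc : (wper d M h t X).restrict O = (wper d M h t Y).restrict O := by
    refine ct_wper_congr hG hX hY hO ?_
    have : symmDiff X Y ∩ O = ∅ := by
      ext x
      simp only [mem_inter_iff, mem_symmDiff, mem_empty_iff_false, iff_false, not_and]
      rintro (⟨h1, h2⟩ | ⟨h1, h2⟩) hxO
      · exact h2 ((hXY x (hXM h1) ((hOP x (hXM h1)).1 hxO)).1 h1)
      · exact h2 ((hXY x (hYM h1) ((hOP x (hYM h1)).1 hxO)).2 h1)
    rw [this, measure_empty]
  have e : ∀ x ∈ M, x ∈ B ∩ P ↔ x ∈ B ∩ O := fun x hx => by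
    simp only [mem_inter_iff, hOP x hx]
  rw [ct_wper_congr_M hG hX e, ct_wper_congr_M hG hY e,
    ← Measure.restrict_apply' hO.measurableSet, ← Measure.restrict_apply' hO.measurableSet, hc]

omit [FiniteDimensional ℝ V] [MeasurableSpace V] [BorelSpace V] in
theorem ctGlue_subset {f : V → ℝ} {τ : ℝ} {A₁ A₂ : Set V} (h₁ : A₁ ⊆ M) (h₂ : A₂ ⊆ M) :
    ctGlue f τ A₁ A₂ ⊆ M := by
  rintro x (hx | hx)
  · exact h₁ hx.1
  · exact h₂ hx.1

theorem ct_glue_lt (hG : CtGeo d M h t) {f : V → ℝ} (hf : SmoothAlong d M f) {A₁ A₂ : Set V}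
    (h₁ : CtLF d M h t A₁) (h₂ : CtLF d M h t A₂) (τ : ℝ) (B : Set V) :
    wper d M h t (ctGlue f τ A₁ A₂) (B ∩ {x | f x < τ}) = wper d M h t A₁ (B ∩ {x | f x < τ}) := by
  obtain ⟨O, hO, he⟩ := ct_exists_open_lt hG hf τ
  refine ct_wper_eq_of_open hG (ct_measurableSet_glue hG hf h₁.meas h₂.meas h₁.sub h₂.sub τ)
    h₁.meas (ctGlue_subset h₁.sub h₂.sub) h₁.sub hO (fun x hx => ?_) (fun x _ hxP => ?_) B
  · have : x ∈ M ∩ O ↔ x ∈ {x | x ∈ M ∧ f x < τ} := by rw [he]
    simpa [hx] using this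
  · have hxP' : f x < τ := hxP
    simp [ctGlue, hxP']

theorem ct_glue_gt (hG : CtGeo d M h t) {f : V → ℝ} (hf : SmoothAlong d M f) {A₁ A₂ : Set V}
    (h₁ : CtLF d M h t A₁) (h₂ : CtLF d M h t A₂) (τ : ℝ) (B : Set V) :
    wper d M h t (ctGlue f τ A₁ A₂) (B ∩ {x | τ < f x}) = wper d M h t A₂ (B ∩ {x | τ < f x}) := by
  obtain ⟨O, hO, he⟩ := ct_exists_open_gt hG hf τ
  refine ct_wper_eq_of_open hG (ct_measurableSet_glue hG hf h₁.meas h₂.meas h₁.sub h₂.sub τ)
    h₂.meas (ctGlue_subset h₁.sub h₂.sub) h₂.sub hO (fun x hx => ?_) (fun x _ hxP => ?_) B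
  · have : x ∈ M ∩ O ↔ x ∈ {x | x ∈ M ∧ τ < f x} := by rw [he]
    simpa [hx] using this
  · have hxP' : ¬ f x < τ := not_lt.2 (le_of_lt hxP)
    simp [ctGlue, hxP']

/-- all but countably many levels are not charged. -/
theorem ct_level_null (hG : CtGeo d M h t) {f : V → ℝ} (hf : SmoothAlong d M f) {A : Set V}
    (hA : CtLF d M h t A) : {τ : ℝ | wper d M h t A {x | f x = τ} ≠ 0}.Countable := by
  obtain ⟨K, hKc, hKM, hKun⟩ := ct_exists_compact_exhaustion hG.mfd
  have hc := if_smoothAlong_continuousOn hG.mfd hf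
  have hn : ∀ n, {τ : ℝ | 0 < wper d M h t A (K n ∩ f ⁻¹' {τ})}.Countable := by
    intro n
    refine Measure.countable_meas_pos_of_disjoint_of_meas_iUnion_ne_top _ (fun τ => ?_) ?_ ?_
    · exact ((hc.mono (hKM n)).preimage_isClosed_of_isClosed (hKc n).isClosed
        isClosed_singleton).measurableSet
    · intro τ τ' hne
      rw [Function.onFun, disjoint_left]
      rintro x ⟨_, h1⟩ ⟨_, h2⟩
      exact hne (h1.symm.trans h2)
    · exact ne_top_of_le_ne_top (hA.fin _ (hKc n) (hKM n))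
        (measure_mono (iUnion_subset fun τ => inter_subset_left))
  refine (countable_iUnion hn).mono ?_
  intro τ hτ
  by_contra hcon
  apply hτ
  simp only [mem_iUnion, mem_setOf_eq, not_exists, not_lt, nonpos_iff_eq_zero] at hcon
  have e : wper d M h t A {x | f x = τ} = wper d M h t A (⋃ n, K n ∩ f ⁻¹' {τ}) := by
    refine ct_wper_congr_M hG hA.meas fun x hx => ?_
    rw [← iUnion_inter, ← hKun]
    simp [hx]
  rw [e]
  exact measure_iUnion_null hcon

omit [MeasurableSpace V] [BorelSpace V] in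
theorem ct_bvd_gradN_continuousOn (hG : CtGeo d M h t) {f : V → ℝ} (hf : SmoothAlong d M f) :
    ContinuousOn (gradN d M h f) M :=
  (if_smoothAlong_continuousOn hG.mfd (if_gradSq_smoothAlong hG.met hf)).sqrt

/-- finiteness of the interface integrals. -/
theorem ct_iface_ne_top (hG : CtGeo d M h t) {g : V → ℝ} (hg : ContinuousOn g M) {D K₀ : Set V}
    (hK₀ : IsCompact K₀) (hK₀M : K₀ ⊆ M) (hD : D ⊆ K₀) :
    ∫⁻ x in D, ENNReal.ofReal (g x) ∂(wvol d M h t) ≠ ⊤ := by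
  obtain ⟨C, hC⟩ := hK₀.exists_bound_of_continuousOn (hg.mono hK₀M)
  have h1 : ∫⁻ x in D, ENNReal.ofReal (g x) ∂(wvol d M h t) ≤
      ENNReal.ofReal C * wvol d M h t K₀ := by
    calc ∫⁻ x in D, ENNReal.ofReal (g x) ∂(wvol d M h t)
        ≤ ∫⁻ x in K₀, ENNReal.ofReal (g x) ∂(wvol d M h t) := lintegral_mono_set hD
      _ ≤ ∫⁻ _ in K₀, ENNReal.ofReal C ∂(wvol d M h t) :=
          setLIntegral_mono' hK₀.measurableSet fun x hx =>
            ENNReal.ofReal_le_ofReal ((le_abs_self _).trans (hC x hx))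
      _ = ENNReal.ofReal C * wvol d M h t K₀ := setLIntegral_const _ _
  exact ne_top_of_le_ne_top (ENNReal.mul_ne_top ENNReal.ofReal_ne_top (ct_wvol_compact hG hK₀ hK₀M))
    h1

theorem ct_iface_mono (hG : CtGeo d M h t) {f : V → ℝ} (hf : SmoothAlong d M f) {D K₀ : Set V}
    {a b : ℝ} (hK₀ : IsCompact K₀) (hK₀M : K₀ ⊆ M) (hD : D ∩ {x | a < f x ∧ f x < b} ⊆ K₀) :
    MonotoneOn (ctIface d M h t f D a) (Iic b) := by
  intro s _ s' hs' hss'
  have hsub : ∀ {s s' : ℝ}, s ≤ s' →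
      D ∩ {x | a < f x ∧ f x < s} ⊆ D ∩ {x | a < f x ∧ f x < s'} := fun hle =>
    inter_subset_inter_right _ fun x hx => ⟨hx.1, hx.2.trans_le hle⟩
  unfold ctIface
  apply ENNReal.toReal_mono
  · exact ct_iface_ne_top hG (ct_bvd_gradN_continuousOn hG hf) hK₀ hK₀M ((hsub hs').trans hD)
  · exact lintegral_mono_set (hsub hss')

theorem ct_iface_integral_le (hG : CtGeo d M h t) {f : V → ℝ} (hf : SmoothAlong d M f)
    {D K₀ : Set V} {a b : ℝ} (hab : a ≤ b) (hK₀ : IsCompact K₀) (hK₀M : K₀ ⊆ M)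
    (hD : D ∩ {x | a < f x ∧ f x < b} ⊆ K₀) :
    ∫ s in a..b, deriv (ctIface d M h t f D a) s ≤ ctIface d M h t f D a b := by
  have hm : MonotoneOn (ctIface d M h t f D a) (uIcc a b) := by
    rw [uIcc_of_le hab]
    exact (ct_iface_mono hG hf hK₀ hK₀M hD).mono Icc_subset_Iic_self
  have h1 := hm.intervalIntegral_deriv_mem_uIcc
  have h0 : ctIface d M h t f D a a = 0 := by
    unfold ctIface
    have : D ∩ {x | a < f x ∧ f x < a} = ∅ := by
      ext x
      simp only [mem_inter_iff, mem_setOf_eq, mem_empty_iff_false, iff_false, not_and, not_lt]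
      intro _ h2
      exact h2.le
    rw [this]
    simp
  have h2 : 0 ≤ ctIface d M h t f D a b := ENNReal.toReal_nonneg
  rw [h0, sub_zero, uIcc_of_le h2] at h1
  exact h1.2

/-- real analysis: monotone functions with total increase tending to `0` have, along a
subsequence, derivatives tending to `0` almost everywhere. -/
theorem ct_deriv_tendsto_zero {I : ℕ → ℝ → ℝ} {a b : ℝ} (hab : a < b)
    (hm : ∀ k, MonotoneOn (I k) (Icc a b))
    (hlim : Tendsto (fun k => I k b - I k a) atTop (𝓝 0)) :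
    ∃ φ : ℕ → ℕ, StrictMono φ ∧ ∀ᵐ τ : ℝ, τ ∈ Ioo a b →
      Tendsto (fun k => deriv (I (φ k)) τ) atTop (𝓝 0) :=
  Gmt.gmt_deriv_tendsto_zero hab hm hlim

end Claimed.Agent.R315
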