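import Claimed.Agent.R315.Ct.BvD

/-!
# Row 315, package Ct: file `BvDL.lean` = V5, part 2: THE GLUING THEOREM `ct_glue_level` (sharp interface cost).
Architect: helper75.   Package `L-Ct-BvDL`.   PROVED: helper6.   Chart lemma: `Gmt.gmtPerM_glue_weight` (`Lib/Gmt/GgWeight.lean`).

Notation: `P : CtPou d M ψ U χ`; `D = symmDiff A₁ A₂`; `G τ = ctGlue f τ A₁ A₂`;
`ctIfaceP χ₀ s = (∫⁻_{D ∩ {a<f<s}} ofReal (χ₀ · gradN f) dμ).toReal` (the interface function with a weight `χ₀`).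

PLAN
* `ctPre_glue`: set algebra: `ctPre ψ U (ctGlue f τ A₁ A₂) = Gmt.gmtGlue (ctPull ψ U f) τ (ctPre ψ U A₁) (ctPre ψ U A₂)` (on `U`: `ctPull ψ U f u = f (ψ u)`; all sets are contained in `U`).
* `ct_ifaceP_chart`: `ctIfaceP (χ a) s = Gmt.gmtIfaceW (fun u => w_a u * Gmt.gmtDens (ctA ..) (ctPull .. f) u) (ctPull .. f) (symmDiff (pre A₁) (pre A₂) ∩ U a) a s`, `w_a = ctPull (ψ a) (U a) (χ a)`:
  `CtPou.lintegral_wvol` with `g = indicator of D ∩ {a<f<s}` times `ofReal (gradN f)`, `ct_gmtDens_ctPull` (`w ρ |df| = w √(A∇f∇f)`), `lintegral_indicator`/`setLIntegral` bookkeeping (the sets are measurable: `ct_measurableSet_lt`, `if_measurableSet_preimage`).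
* `ct_glue_level_pou` (one member `a`): `Gmt.gmtPerM_glue_weight` in the chart `(ψ a, U a)` with `f := ctPull (ψ a) (U a) f` (`ctPull_measurable`, `ctPull_contDiffOn`), `S_i = ctPre .. A_i` (`CtLF.chart`), `w = w_a` (`CtPou.continuous_w` with `g = 1`), `ct_gmtInt`;
  translate with `ctPre_glue`, `ct_ifaceP_chart`, and `CtPou.lintegral_wper` (with `g = 1` and with `g = indicator {f = τ}`; `{x ∈ M | f x = τ}` is measurable; replace `{f = τ}` by `M ∩ {f = τ}` using `ct_wper_compl_M`).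
* `ct_ifaceP_sum`: for `s ≤ b`: `ctIface .. D a s = ∑ a ∈ F, ctIfaceP (χ a) s`, `F` = `CtPou.exists_finset` for `K₀` (on `D ∩ {a<f<s} ⊆ K₀`: `∑_{a ∈ F} χ a = 1`; `lintegral_finset_sum'`, `ENNReal.toReal_sum`, finiteness as in `ct_iface_mono`);
  for `a ∉ F`: `ctIfaceP (χ a) s = 0`.
* `ct_glue_level`: `ae_all_iff` over the countable index set `κ`: a.e. `τ ∈ (a,b)` is good for all `a`, and all `ctIfaceP (χ a)` (`a ∈ F`) are differentiable at `τ` (monotone on `Iic b`: `MonotoneOn.ae_differentiableWithinAt_of_mem`, interior point).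
  (i) `CtLF (G τ)`: for `K ⊆ M` compact, `wper (G τ) K ≤ ∑_{a ∈ F_K} ∫⁻ χ a d(wper (G τ)) < ∞` (`CtPou.exists_finset` for `K`).
  (ii) `wper (G τ) {f = τ} = ∑' a ∫⁻ χ a 1_{f=τ} d(wper (G τ))` (`CtPou.lintegral_eq_tsum`) `≤ ∑' a ofReal (deriv (ctIfaceP (χ a)) τ) = ∑_{a ∈ F} .. = ofReal (∑_{a∈F} deriv ..) = ofReal (deriv (ctIface ..) τ)`
  (`tsum_eq_sum`; `deriv = 0` for `a ∉ F` since the function vanishes near `τ`; `ENNReal.ofReal_sum_of_nonneg`, derivatives of monotone functions are `≥ 0`; `deriv_sum` + `Filter.EventuallyEq.deriv_eq` from `ct_ifaceP_sum` on the neighbourhood `Iio b` of `τ`).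
-/

set_option autoImplicit false
open scoped ContDiff ENNReal Topology
open MeasureTheory Claims.C0499 Set Filter

namespace Claimed.Agent.R315

variable {V : Type} [NormedAddCommGroup V] [NormedSpace ℝ V] [FiniteDimensional ℝ V]
  [MeasurableSpace V] [BorelSpace V]
variable {d : ℕ} {M : Set V} {h : Ten V} {t : V → ℝ}

/-- the interface function with a weight. -/
noncomputable def ctIfaceP (d : ℕ) (M : Set V) (h : Ten V) (t f χ₀ : V → ℝ) (D : Set V) (a s : ℝ) :
    ℝ :=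
  (∫⁻ x in D ∩ {x | a < f x ∧ f x < s}, ENNReal.ofReal (χ₀ x * gradN d M h f x)
    ∂(wvol d M h t)).toReal

omit [FiniteDimensional ℝ V] [MeasurableSpace V] [BorelSpace V] in
theorem ctPull_of_mem (ψ : E d → V) {U : Set (E d)} (g : V → ℝ) {u : E d} (hu : u ∈ U) :
    ctPull ψ U g u = g (ψ u) := by
  simp [ctPull, hu]

omit [FiniteDimensional ℝ V] [MeasurableSpace V] [BorelSpace V] in
theorem ctPull_of_notMem (ψ : E d → V) {U : Set (E d)} (g : V → ℝ) {u : E d} (hu : u ∉ U) :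
    ctPull ψ U g u = 0 := by
  simp [ctPull, hu]

omit [FiniteDimensional ℝ V] [MeasurableSpace V] [BorelSpace V] in
theorem ctPre_glue (ψ : E d → V) (U : Set (E d)) (f : V → ℝ) (τ : ℝ) (A₁ A₂ : Set V) :
    ctPre ψ U (ctGlue f τ A₁ A₂) =
      Gmt.gmtGlue (ctPull ψ U f) τ (ctPre ψ U A₁) (ctPre ψ U A₂) := by
  ext u
  by_cases hu : u ∈ U
  · have e : ctPull ψ U f u = f (ψ u) := ctPull_of_mem ψ f hu
    simp only [ctPre, ctGlue, Gmt.gmtGlue, mem_inter_iff, mem_preimage, mem_union, mem_diff,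
      mem_setOf_eq, e, hu, and_true]
  · simp [ctPre, Gmt.gmtGlue, hu]

theorem ct_measurableSet_gt (hG : CtGeo d M h t) {f : V → ℝ} (hf : SmoothAlong d M f) (τ : ℝ) :
    MeasurableSet {x | x ∈ M ∧ τ < f x} := by
  obtain ⟨O, hO, he⟩ := ct_exists_open_gt hG hf τ
  rw [← he]
  exact (ct_measurableSet hG.mfd).inter hO.measurableSet

theorem ct_measurableSet_slab (hG : CtGeo d M h t) {f : V → ℝ} (hf : SmoothAlong d M f)
    (a s : ℝ) : MeasurableSet {x | x ∈ M ∧ a < f x ∧ f x < s} := by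
  have e : {x | x ∈ M ∧ a < f x ∧ f x < s} = {x | x ∈ M ∧ a < f x} ∩ {x | x ∈ M ∧ f x < s} := by
    ext x
    simp only [mem_setOf_eq, mem_inter_iff]
    tauto
  rw [e]
  exact (ct_measurableSet_gt hG hf a).inter (ct_measurableSet_lt hG hf s)

theorem ct_measurableSet_level (hG : CtGeo d M h t) {f : V → ℝ} (hf : SmoothAlong d M f)
    (τ : ℝ) : MeasurableSet {x | x ∈ M ∧ f x = τ} := by
  have e : {x | x ∈ M ∧ f x = τ} = M \ ({x | x ∈ M ∧ τ < f x} ∪ {x | x ∈ M ∧ f x < τ}) := by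
    ext x
    simp only [mem_setOf_eq, mem_diff, mem_union, not_or, not_and, not_lt]
    constructor
    · rintro ⟨h1, h2⟩
      exact ⟨h1, fun _ => h2.le, fun _ => h2.ge⟩
    · rintro ⟨h1, h2, h3⟩
      exact ⟨h1, le_antisymm (h2 h1) (h3 h1)⟩
  rw [e]
  exact (ct_measurableSet hG.mfd).diff ((ct_measurableSet_gt hG hf τ).union
    (ct_measurableSet_lt hG hf τ))

theorem ct_wvol_ae_mem (hG : CtGeo d M h t) : ∀ᵐ x ∂(wvol d M h t), x ∈ M := by
  rw [ae_iff]
  exact ct_wvol_compl hG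

/-- the weighted volume only sees the trace on `M`. -/
theorem ct_wvol_restrict_congr (hG : CtGeo d M h t) {B B' : Set V}
    (hB : ∀ x ∈ M, x ∈ B ↔ x ∈ B') : (wvol d M h t).restrict B = (wvol d M h t).restrict B' := by
  apply Measure.restrict_congr_set
  rw [Filter.eventuallyEq_set]
  filter_upwards [ct_wvol_ae_mem hG] with x hx
  exact hB x hx

section pou

variable {κ : Type} {ψ : κ → E d → V} {U : κ → Set (E d)} {χ : κ → V → ℝ}

theorem ct_ifaceP_chart (hG : CtGeo d M h t) (P : CtPou d M ψ U χ) (k : κ) {f : V → ℝ}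
    (hf : SmoothAlong d M f) {A₁ A₂ : Set V} (h₁ : MeasurableSet A₁) (h₂ : MeasurableSet A₂)
    (a s : ℝ) :
    ctIfaceP d M h t f (χ k) (symmDiff A₁ A₂) a s =
      Gmt.gmtIfaceW (fun u => ctPull (ψ k) (U k) (χ k) u *
          Gmt.gmtDens (ctA h t (ψ k)) (ctPull (ψ k) (U k) f) u) (ctPull (ψ k) (U k) f)
        (symmDiff (ctPre (ψ k) (U k) A₁) (ctPre (ψ k) (U k) A₂) ∩ U k) a s := by
  have hψ := P.param k
  have hUm : MeasurableSet (U k) := (if_open hψ).measurableSet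
  set Dm : Set V := symmDiff A₁ A₂ ∩ {x | x ∈ M ∧ a < f x ∧ f x < s} with hDm
  have hDmm : MeasurableSet Dm := (h₁.symmDiff h₂).inter (ct_measurableSet_slab hG hf a s)
  set Q : Set (E d) := U k ∩ ψ k ⁻¹' Dm with hQ
  have hQm : MeasurableSet Q := if_measurableSet_preimage hψ hDmm
  have hQe : Q = (symmDiff (ctPre (ψ k) (U k) A₁) (ctPre (ψ k) (U k) A₂) ∩ U k) ∩
      ctPull (ψ k) (U k) f ⁻¹' Ioo a s := by
    ext u
    by_cases hu : u ∈ U k
    · have e : ctPull (ψ k) (U k) f u = f (ψ k u) := ctPull_of_mem _ f hu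
      have hM : ψ k u ∈ M := if_mem hψ hu
      simp only [hQ, hDm, ctPre, mem_inter_iff, mem_preimage, mem_symmDiff, mem_setOf_eq, mem_Ioo,
        e, hu, hM, and_true, true_and]
    · simp [hQ, hu]
  unfold ctIfaceP Gmt.gmtIfaceW
  congr 1
  rw [← hQe, ct_wvol_restrict_congr hG (B' := Dm) (fun x hx => by
    simp only [hDm, mem_inter_iff, mem_setOf_eq, hx, true_and])]
  have e2 : ∫⁻ x in Dm, ENNReal.ofReal (χ k x * gradN d M h f x) ∂(wvol d M h t) =
      ∫⁻ x, ENNReal.ofReal (χ k x) *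
        Dm.indicator (fun x => ENNReal.ofReal (gradN d M h f x)) x ∂(wvol d M h t) := by
    rw [← lintegral_indicator hDmm]
    refine lintegral_congr fun x => ?_
    by_cases hx : x ∈ Dm
    · rw [indicator_of_mem hx, indicator_of_mem hx, ENNReal.ofReal_mul (P.nonneg k x)]
    · rw [indicator_of_notMem hx, indicator_of_notMem hx, mul_zero]
  rw [e2, P.lintegral_wvol hG k]
  have e3 : ∫⁻ u in U k, ENNReal.ofReal (χ k (ψ k u) * ctRho h t (ψ k) u) *
        Dm.indicator (fun x => ENNReal.ofReal (gradN d M h f x)) (ψ k u) =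
      ∫⁻ u in U k, Q.indicator (fun u => ENNReal.ofReal (ctPull (ψ k) (U k) (χ k) u *
          Gmt.gmtDens (ctA h t (ψ k)) (ctPull (ψ k) (U k) f) u)) u := by
    refine setLIntegral_congr_fun hUm fun u hu => ?_
    by_cases hx : ψ k u ∈ Dm
    · have hq : u ∈ Q := ⟨hu, hx⟩
      simp only [indicator_of_mem hx, indicator_of_mem hq]
      rw [ctPull_of_mem _ _ hu, ct_gmtDens_ctPull hG hf hψ hu,
        ← ENNReal.ofReal_mul (mul_nonneg (P.nonneg k _) (ctRho_pos hG hψ hu).le), mul_assoc]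
    · have hq : u ∉ Q := fun hq => hx hq.2
      simp only [indicator_of_notMem hx, indicator_of_notMem hq, mul_zero]
  rw [e3, lintegral_indicator hQm, Measure.restrict_restrict hQm,
    inter_eq_left.2 (inter_subset_left : Q ⊆ U k)]

theorem ct_glue_level_pou (hG : CtGeo d M h t) (P : CtPou d M ψ U χ) (k : κ) {f : V → ℝ}
    (hf : SmoothAlong d M f) {A₁ A₂ : Set V} (h₁ : CtLF d M h t A₁) (h₂ : CtLF d M h t A₂)
    (a b : ℝ) :
    ∀ᵐ τ : ℝ, τ ∈ Ioo a b →
      ∫⁻ x, ENNReal.ofReal (χ k x) ∂(wper d M h t (ctGlue f τ A₁ A₂)) ≠ ⊤ ∧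
      ∫⁻ x in {x | x ∈ M ∧ f x = τ}, ENNReal.ofReal (χ k x) ∂(wper d M h t (ctGlue f τ A₁ A₂)) ≤
        ENNReal.ofReal (deriv (ctIfaceP d M h t f (χ k) (symmDiff A₁ A₂) a) τ) := by
  have hψ := P.param k
  have hUm : MeasurableSet (U k) := (if_open hψ).measurableSet
  have hc := if_smoothAlong_continuousOn hG.mfd hf
  obtain ⟨hw1, hw2, hw3⟩ := P.continuous_w k (g := fun _ => (1 : ℝ)) continuousOn_const
  have e1 : (fun x => χ k x * (1 : ℝ)) = χ k := by
    funext x
    simp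
  rw [e1] at hw1 hw2 hw3
  have hw0 : ∀ u, 0 ≤ ctPull (ψ k) (U k) (χ k) u := fun u =>
    indicator_nonneg (fun u _ => P.nonneg k _) u
  have hFm : Measurable (ctPull (ψ k) (U k) f) := ctPull_measurable hc hψ
  have key := Gmt.gmtPerM_glue_weight (if_open hψ) (ct_gmtInt hG hψ) hFm
    ((ctPull_contDiffOn hf hψ).of_le (by exact_mod_cast le_top)) (a := a) (b := b)
    (h₁.chart hG hψ) (h₂.chart hG hψ) hw1 hw2 hw3 hw0
  have efun : ctIfaceP d M h t f (χ k) (symmDiff A₁ A₂) a =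
      Gmt.gmtIfaceW (fun u => ctPull (ψ k) (U k) (χ k) u *
          Gmt.gmtDens (ctA h t (ψ k)) (ctPull (ψ k) (U k) f) u) (ctPull (ψ k) (U k) f)
        (symmDiff (ctPre (ψ k) (U k) A₁) (ctPre (ψ k) (U k) A₂) ∩ U k) a :=
    funext fun s => ct_ifaceP_chart hG P k hf h₁.meas h₂.meas a s
  filter_upwards [key] with τ hτ hτab
  obtain ⟨k1, k2⟩ := hτ hτab
  have hGm := ct_measurableSet_glue hG hf h₁.meas h₂.meas h₁.sub h₂.sub τ
  rw [← ctPre_glue] at k1 k2
  rw [efun]
  constructor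
  · have h3 := P.lintegral_wper hG k hGm (g := fun _ => 1) measurable_const
    simp only [mul_one] at h3
    rw [h3, setLIntegral_congr_fun hUm (g := fun u => ENNReal.ofReal (ctPull (ψ k) (U k) (χ k) u))
      (fun u hu => by simp only [ctPull_of_mem _ _ hu])]
    exact k1
  · have hZ := ct_measurableSet_level hG hf τ
    set Z : Set V := {x | x ∈ M ∧ f x = τ} with hZdef
    have h3 := P.lintegral_wper hG k hGm (g := Z.indicator fun _ => 1)
      (measurable_const.indicator hZ)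
    have e2 : ∫⁻ x in Z, ENNReal.ofReal (χ k x) ∂(wper d M h t (ctGlue f τ A₁ A₂)) =
        ∫⁻ x, ENNReal.ofReal (χ k x) * Z.indicator (fun _ => 1) x
          ∂(wper d M h t (ctGlue f τ A₁ A₂)) := by
      rw [← lintegral_indicator hZ]
      refine lintegral_congr fun x => ?_
      by_cases hx : x ∈ Z
      · rw [indicator_of_mem hx, indicator_of_mem hx, mul_one]
      · rw [indicator_of_notMem hx, indicator_of_notMem hx, mul_zero]
    set Q : Set (E d) := U k ∩ {u | ctPull (ψ k) (U k) f u = τ} with hQ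
    have hQm : MeasurableSet Q := hUm.inter (hFm (measurableSet_singleton τ))
    have e3 : ∫⁻ u in U k, ENNReal.ofReal (χ k (ψ k u)) * Z.indicator (fun _ => 1) (ψ k u)
          ∂(Gmt.gmtPerM (ctA h t (ψ k)) (ctPre (ψ k) (U k) (ctGlue f τ A₁ A₂))) =
        ∫⁻ u in U k, Q.indicator (fun u => ENNReal.ofReal (ctPull (ψ k) (U k) (χ k) u)) u
          ∂(Gmt.gmtPerM (ctA h t (ψ k)) (ctPre (ψ k) (U k) (ctGlue f τ A₁ A₂))) := by
      refine setLIntegral_congr_fun hUm fun u hu => ?_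
      have hM : ψ k u ∈ M := if_mem hψ hu
      by_cases hx : f (ψ k u) = τ
      · have hz : ψ k u ∈ Z := ⟨hM, hx⟩
        have hq : u ∈ Q := ⟨hu, by
          show ctPull (ψ k) (U k) f u = τ
          rw [ctPull_of_mem _ _ hu, hx]⟩
        simp only [indicator_of_mem hz, indicator_of_mem hq, mul_one, ctPull_of_mem _ _ hu]
      · have hz : ψ k u ∉ Z := fun hz => hx hz.2
        have hq : u ∉ Q := fun hq => hx (by
          have h4 : ctPull (ψ k) (U k) f u = τ := hq.2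
          rwa [ctPull_of_mem _ _ hu] at h4)
        simp only [indicator_of_notMem hz, indicator_of_notMem hq, mul_zero]
    rw [e2, h3, e3, lintegral_indicator hQm, Measure.restrict_restrict hQm,
      inter_eq_left.2 (inter_subset_left : Q ⊆ U k)]
    exact k2

/-- finiteness of integrals against one member of the partition of unity. -/
theorem ct_ifaceP_ne_top (hG : CtGeo d M h t) (P : CtPou d M ψ U χ) (k : κ) {g : V → ℝ}
    (hg : ContinuousOn g M) (D : Set V) :
    ∫⁻ x in D, ENNReal.ofReal (χ k x * g x) ∂(wvol d M h t) ≠ ⊤ := by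
  obtain ⟨C, hC, hCU, hsupp⟩ := P.cpt k
  have hψ := P.param k
  have hK : IsCompact (ψ k '' C) := hC.image_of_continuousOn ((if_continuousOn hψ).mono hCU)
  have hKM : ψ k '' C ⊆ M := (image_mono hCU).trans (if_image_subset hψ)
  obtain ⟨B, hB⟩ := hK.exists_bound_of_continuousOn
    (((P.smooth k).continuous.continuousOn.mul hg).mono hKM)
  have h1 : ∫⁻ x in D, ENNReal.ofReal (χ k x * g x) ∂(wvol d M h t) ≤
      ENNReal.ofReal B * wvol d M h t (ψ k '' C) := by
    calc ∫⁻ x in D, ENNReal.ofReal (χ k x * g x) ∂(wvol d M h t)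
        ≤ ∫⁻ x, ENNReal.ofReal (χ k x * g x) ∂(wvol d M h t) := setLIntegral_le_lintegral _ _
      _ ≤ ∫⁻ x, (ψ k '' C).indicator (fun _ => ENNReal.ofReal B) x ∂(wvol d M h t) := by
          refine lintegral_mono_ae ?_
          filter_upwards [ct_wvol_ae_mem hG] with x hx
          by_cases hxK : x ∈ ψ k '' C
          · rw [indicator_of_mem hxK]
            exact ENNReal.ofReal_le_ofReal ((le_abs_self _).trans (hB x hxK))
          · have : χ k x = 0 := by
              by_contra hne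
              exact hxK (hsupp x hx hne)
            rw [indicator_of_notMem hxK, this, zero_mul, ENNReal.ofReal_zero]
      _ = ENNReal.ofReal B * wvol d M h t (ψ k '' C) :=
          lintegral_indicator_const hK.measurableSet _
  exact ne_top_of_le_ne_top (ENNReal.mul_ne_top ENNReal.ofReal_ne_top (ct_wvol_compact hG hK hKM))
    h1

theorem ct_ifaceP_mono (hG : CtGeo d M h t) (P : CtPou d M ψ U χ) (k : κ) {f : V → ℝ}
    (hf : SmoothAlong d M f) (D : Set V) (a : ℝ) : Monotone (ctIfaceP d M h t f (χ k) D a) := by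
  intro s s' hss'
  unfold ctIfaceP
  apply ENNReal.toReal_mono (ct_ifaceP_ne_top hG P k (ct_bvd_gradN_continuousOn hG hf) _)
  exact lintegral_mono_set (inter_subset_inter_right _ fun x (hx : a < f x ∧ f x < s) =>
    (⟨hx.1, hx.2.trans_le hss'⟩ : a < f x ∧ f x < s'))

theorem ct_ifaceP_sum (hG : CtGeo d M h t) (P : CtPou d M ψ U χ) {f : V → ℝ}
    (hf : SmoothAlong d M f) {D K₀ : Set V} {a b : ℝ} (hK₀ : IsCompact K₀) (hK₀M : K₀ ⊆ M)
    (hD : D ∩ {x | a < f x ∧ f x < b} ⊆ K₀) :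
    ∃ F : Finset κ, (∀ k ∉ F, ∀ s ≤ b, ctIfaceP d M h t f (χ k) D a s = 0) ∧
      ∀ s ≤ b, ctIface d M h t f D a s = ∑ k ∈ F, ctIfaceP d M h t f (χ k) D a s := by
  obtain ⟨F, hF0, hF1⟩ := P.exists_finset hK₀ hK₀M
  have hgc := ct_bvd_gradN_continuousOn hG hf
  have hsub : ∀ s ≤ b, D ∩ {x | a < f x ∧ f x < s} ⊆ K₀ := fun s hs =>
    (inter_subset_inter_right _ fun x (hx : a < f x ∧ f x < s) =>
      (⟨hx.1, hx.2.trans_le hs⟩ : a < f x ∧ f x < b)).trans hD
  refine ⟨F, fun k hk s hs => ?_, fun s hs => ?_⟩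
  · unfold ctIfaceP
    have h0 : ∫⁻ x in D ∩ {x | a < f x ∧ f x < s}, ENNReal.ofReal (χ k x * gradN d M h f x)
        ∂(wvol d M h t) = 0 := by
      refine le_antisymm ?_ zero_le
      calc ∫⁻ x in D ∩ {x | a < f x ∧ f x < s}, ENNReal.ofReal (χ k x * gradN d M h f x)
            ∂(wvol d M h t)
          ≤ ∫⁻ x in K₀, ENNReal.ofReal (χ k x * gradN d M h f x) ∂(wvol d M h t) :=
            lintegral_mono_set (hsub s hs)
        _ = ∫⁻ _ in K₀, 0 ∂(wvol d M h t) :=
            setLIntegral_congr_fun hK₀.measurableSet fun x hx => by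
              simp only [hF0 k hk x hx, zero_mul, ENNReal.ofReal_zero]
        _ = 0 := lintegral_zero
    rw [h0]
    rfl
  · unfold ctIface ctIfaceP
    rw [← ENNReal.toReal_sum fun k _ => ct_ifaceP_ne_top hG P k hgc _]
    congr 1
    have hae : ∀ k ∈ F, AEMeasurable (fun x => ENNReal.ofReal (χ k x * gradN d M h f x))
        ((wvol d M h t).restrict (D ∩ {x | a < f x ∧ f x < s})) := fun k _ =>
      (((P.smooth k).continuous.measurable.aemeasurable.mul
        (ct_aestronglyMeasurable hG hgc).aemeasurable).ennreal_ofReal).restrict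
    rw [← lintegral_finsetSum' F hae]
    apply lintegral_congr_ae
    have h1 : ∀ᵐ x ∂((wvol d M h t).restrict K₀), ENNReal.ofReal (gradN d M h f x) =
        ∑ k ∈ F, ENNReal.ofReal (χ k x * gradN d M h f x) := by
      refine (ae_restrict_iff' hK₀.measurableSet).2 (Eventually.of_forall fun x hx => ?_)
      have hgn : 0 ≤ gradN d M h f x := Real.sqrt_nonneg _
      rw [← ENNReal.ofReal_sum_of_nonneg fun k _ =>
        mul_nonneg (P.nonneg k x) hgn, ← Finset.sum_mul, hF1 x hx, one_mul]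
    exact h1.filter_mono (ae_mono (Measure.restrict_mono (hsub s hs) le_rfl))

end pou

/-- **GLUING** (sharp constant).  `A₁` and `A₂` differ in the slab `{a < f < b}` only inside a compact
set.  For a.e. level `τ` the glued set has locally finite perimeter and the level set carries at
most the derivative of `s ↦ ∫_{(A₁ △ A₂) ∩ {a < f < s}} |df| dμ`. -/
theorem ct_glue_level (hG : CtGeo d M h t) {f : V → ℝ} (hf : SmoothAlong d M f) {A₁ A₂ : Set V}
    (h₁ : CtLF d M h t A₁) (h₂ : CtLF d M h t A₂) {a b : ℝ} {K₀ : Set V} (hK₀ : IsCompact K₀)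
    (hK₀M : K₀ ⊆ M) (hD : symmDiff A₁ A₂ ∩ {x | a < f x ∧ f x < b} ⊆ K₀) :
    ∀ᵐ τ : ℝ, τ ∈ Ioo a b → CtLF d M h t (ctGlue f τ A₁ A₂) ∧
      wper d M h t (ctGlue f τ A₁ A₂) {x | f x = τ} ≤
        ENNReal.ofReal (deriv (ctIface d M h t f (symmDiff A₁ A₂) a) τ) := by
  obtain ⟨κ, hκ, ψ, U, χ, P⟩ := ct_exists_pou hG.mfd
  obtain ⟨F, hF0, hFsum⟩ := ct_ifaceP_sum hG P hf hK₀ hK₀M hD
  have hpou := ae_all_iff.2 fun k => ct_glue_level_pou hG P k hf h₁ h₂ a b
  have hdiff : ∀ᵐ τ : ℝ, ∀ k, DifferentiableAt ℝ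
      (ctIfaceP d M h t f (χ k) (symmDiff A₁ A₂) a) τ :=
    ae_all_iff.2 fun k => (ct_ifaceP_mono hG P k hf (symmDiff A₁ A₂) a).ae_differentiableAt
  filter_upwards [hpou, hdiff] with τ h3 h4 hτ
  have hGm := ct_measurableSet_glue hG hf h₁.meas h₂.meas h₁.sub h₂.sub τ
  have hχm : ∀ k, Measurable fun x => ENNReal.ofReal (χ k x) := fun k =>
    ENNReal.measurable_ofReal.comp (P.smooth k).continuous.measurable
  constructor
  · refine ⟨hGm, ctGlue_subset h₁.sub h₂.sub, fun K hK hKM => ?_⟩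
    obtain ⟨FK, -, hFK1⟩ := P.exists_finset hK hKM
    have h5 : wper d M h t (ctGlue f τ A₁ A₂) K ≤
        ∑ k ∈ FK, ∫⁻ x, ENNReal.ofReal (χ k x) ∂(wper d M h t (ctGlue f τ A₁ A₂)) := by
      calc wper d M h t (ctGlue f τ A₁ A₂) K
          = ∫⁻ _ in K, 1 ∂(wper d M h t (ctGlue f τ A₁ A₂)) := (setLIntegral_one _).symm
        _ = ∫⁻ x in K, ∑ k ∈ FK, ENNReal.ofReal (χ k x) ∂(wper d M h t (ctGlue f τ A₁ A₂)) :=
            setLIntegral_congr_fun hK.measurableSet fun x hx => by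
              rw [← ENNReal.ofReal_sum_of_nonneg fun k _ => P.nonneg k x, hFK1 x hx,
                ENNReal.ofReal_one]
        _ ≤ ∫⁻ x, ∑ k ∈ FK, ENNReal.ofReal (χ k x) ∂(wper d M h t (ctGlue f τ A₁ A₂)) :=
            setLIntegral_le_lintegral _ _
        _ = ∑ k ∈ FK, ∫⁻ x, ENNReal.ofReal (χ k x) ∂(wper d M h t (ctGlue f τ A₁ A₂)) :=
            lintegral_finsetSum _ fun k _ => hχm k
    exact ne_top_of_le_ne_top (ENNReal.sum_ne_top.2 fun k _ => (h3 k hτ).1) h5
  · have hZ := ct_measurableSet_level hG hf τ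
    set Z : Set V := {x | x ∈ M ∧ f x = τ} with hZdef
    have e1 : wper d M h t (ctGlue f τ A₁ A₂) {x | f x = τ} =
        wper d M h t (ctGlue f τ A₁ A₂) Z :=
      ct_wper_congr_M hG hGm fun x hx => by simp [hZdef, hx]
    have e2 : wper d M h t (ctGlue f τ A₁ A₂) Z =
        ∑' k, ∫⁻ x in Z, ENNReal.ofReal (χ k x) ∂(wper d M h t (ctGlue f τ A₁ A₂)) := by
      have h6 := P.lintegral_eq_tsum (ct_wper_compl_M hG hGm) (g := Z.indicator fun _ => 1)
        (measurable_const.indicator hZ)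
      rw [lintegral_indicator_const hZ, one_mul] at h6
      rw [h6]
      refine tsum_congr fun k => ?_
      rw [← lintegral_indicator hZ]
      refine lintegral_congr fun x => ?_
      by_cases hx : x ∈ Z
      · rw [indicator_of_mem hx, indicator_of_mem hx, mul_one]
      · rw [indicator_of_notMem hx, indicator_of_notMem hx, mul_zero]
    have hnb : Iio b ∈ 𝓝 τ := Iio_mem_nhds hτ.2
    have hd0 : ∀ k ∉ F, deriv (ctIfaceP d M h t f (χ k) (symmDiff A₁ A₂) a) τ = 0 := by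
      intro k hk
      have : ctIfaceP d M h t f (χ k) (symmDiff A₁ A₂) a =ᶠ[𝓝 τ] fun _ => 0 := by
        filter_upwards [hnb] with s hs
        exact hF0 k hk s (le_of_lt hs)
      rw [this.deriv_eq, deriv_const]
    have hds : deriv (ctIface d M h t f (symmDiff A₁ A₂) a) τ =
        ∑ k ∈ F, deriv (ctIfaceP d M h t f (χ k) (symmDiff A₁ A₂) a) τ := by
      have : ctIface d M h t f (symmDiff A₁ A₂) a =ᶠ[𝓝 τ]
          fun s => ∑ k ∈ F, ctIfaceP d M h t f (χ k) (symmDiff A₁ A₂) a s := by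
        filter_upwards [hnb] with s hs
        exact hFsum s (le_of_lt hs)
      rw [this.deriv_eq, deriv_fun_sum fun k _ => h4 k]
    rw [e1, e2, hds, ENNReal.ofReal_sum_of_nonneg fun k _ =>
      (ct_ifaceP_mono hG P k hf (symmDiff A₁ A₂) a).deriv_nonneg]
    calc ∑' k, ∫⁻ x in Z, ENNReal.ofReal (χ k x) ∂(wper d M h t (ctGlue f τ A₁ A₂))
        ≤ ∑' k, ENNReal.ofReal (deriv (ctIfaceP d M h t f (χ k) (symmDiff A₁ A₂) a) τ) :=
          ENNReal.tsum_le_tsum fun k => (h3 k hτ).2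
      _ = ∑ k ∈ F, ENNReal.ofReal (deriv (ctIfaceP d M h t f (χ k) (symmDiff A₁ A₂) a) τ) :=
          tsum_eq_sum fun k hk => by rw [hd0 k hk, ENNReal.ofReal_zero]

end Claimed.Agent.R315
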