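import Claimed.Agent.R315.Ct.BvDL
import Claimed.Agent.Lib.Gmt.BvConvAe

/-!
# Row 315, package Ct: file `BvE.lean` = V6: compactness.
Architect: helper75.   Package `L-Ct-BvE`.   Chart lemmas: `Gmt.gmtP_compactness`, `Gmt.GmtConv.exists_subseq_ae`, `Gmt.gmtConv_of_ae`, `Gmt.gmt_diag`, `Gmt.mul_gmtP_le_gmtPer`.

PLAN
* `ct_chart_bound`: `x ∈ U`, `closedBall x r ⊆ U`.  `gmtP S (ball x r) ≤ c · gmtPer (ctA ..) S (ball x r)` with `c` depending only on the ellipticity of `ctA` on the compact set `closedBall x r`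
  (`Gmt.gmtInt_bounds`, `Gmt.mul_gmtP_le_gmtPer`; see `Lib/Gmt/BvBasic.lean`, `BvInt.lean`), `gmtPer = gmtPerM` on open sets (`Gmt.gmtPerM_open`), `gmtPerM (..) (pre A) (ball x r) = wper A (ψ '' ball x r) ≤ wper A (ψ '' closedBall x r)` (`ct_wper_spec`), and `ψ '' closedBall x r` is a compact subset of `M`.
* `ct_compact_chart`: in ONE chart: every subsequence `φ` has a further subsequence `φ ∘ σ` and a measurable set `S'` with `GmtLF S' U` such that for a.e. `u ∈ U` eventually `u ∈ pre (A (φ (σ i))) ↔ u ∈ S'`: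
  `Gmt.gmtP_compactness` (hypothesis from `ct_chart_bound`; `∀ᶠ` passes to subsequences by `StrictMono.tendsto_atTop`), then `Gmt.GmtConv.exists_subseq_ae`.
* `ct_compact`: countable atlas `(ψ k, U k)` (`if_exists_atlas`).  `Gmt.gmt_diag` with `P k φ := ∃ S', MeasurableSet S' ∧ GmtLF S' (U k) ∧ ∀ᵐ u, u ∈ U k → ∀ᶠ i, (u ∈ pre_k (A (φ i)) ↔ u ∈ S')`
  (hereditary: `Gmt.gmt_tendsto_of_range` applied pointwise to the sequence of propositions / to `Filter.Eventually` rewritten as `Tendsto _ atTop (𝓟 _)`).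
  Put `A' = {x ∈ M | ∀ᶠ i, x ∈ A (φ i)}` (measurable: `⋃ N ⋂ i ≥ N`, `ct_measurableSet`).  Then `pre_k A' =ᵐ S'_k ∩ U k`, so `GmtLF (pre_k A') (U k)` (`Gmt.gmtP` only depends on the a.e. class in `U k`: `Gmt.gmtPer_congr`-type lemma in `BvBasicA`),
  `CtLF A'` by `ctLF_of_chart`, `GmtConv (U k) (pre_k (A (φ i))) (pre_k A')` by `Gmt.gmtConv_of_ae`, and `CtConv` by `ctConv_of_chart`.
* `ct_conv_unique`: `symmDiff A' A'' ⊆ symmDiff (A i) A' ∪ symmDiff (A i) A''`; `vol (.. ∩ K) = 0` for all compact `K ⊆ M` (`le_of_tendsto`), `ct_exists_compact_exhaustion`, `measure_iUnion_null`, `vol Mᶜ = 0` (`ct_vol_spec`).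
* `ct_conv_integral`: `|∫_{A i ∩ K} p - ∫_{A' ∩ K} p| ≤ sup_K |p| · wvol (symmDiff (A i) A' ∩ K)`, `wvol ≤ sup_K e^{-t} · vol` on subsets of `K` (`withDensity`, `setLIntegral_le..`); `p` is integrable on `K` (bounded, `ct_aestronglyMeasurable`, `ct_wvol_compact`);
  `integral_diff`/`integral_indicator` bookkeeping: `∫_{A∩K} p - ∫_{A'∩K} p = ∫_{(A \ A') ∩ K} p - ∫_{(A' \ A) ∩ K} p`.
-/

set_option autoImplicit false
open scoped ContDiff ENNReal Topology
open MeasureTheory Claims.C0499 Set Filter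

namespace Claimed.Agent.R315

variable {V : Type} [NormedAddCommGroup V] [NormedSpace ℝ V] [FiniteDimensional ℝ V]
  [MeasurableSpace V] [BorelSpace V]
variable {d : ℕ} {M : Set V} {h : Ten V} {t : V → ℝ}

/-! ### V6: compactness -/

/-- the Euclidean perimeter in a chart ball is controlled by the weighted perimeter. -/
theorem ct_chart_bound (hG : CtGeo d M h t) {ψ : E d → V} {U : Set (E d)} (hψ : IsParam M ψ U)
    {x : E d} {r : ℝ} (hr : 0 < r) (hxr : Metric.closedBall x r ⊆ U) :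
    ∃ c : ℝ≥0∞, c ≠ ⊤ ∧ ∀ A : Set V, MeasurableSet A →
      Gmt.gmtP (ctPre ψ U A) (Metric.ball x r) ≤ c * wper d M h t A (ψ '' Metric.closedBall x r) := by
  obtain ⟨c, C, hc, -, hb⟩ := Gmt.gmtInt_bounds (if_open hψ) (ct_gmtInt hG hψ)
    (isCompact_closedBall x r) hxr
  have h0 : ENNReal.ofReal c ≠ 0 := (ENNReal.ofReal_pos.2 hc).ne'
  refine ⟨(ENNReal.ofReal c)⁻¹, ENNReal.inv_ne_top.2 h0, fun A hA => ?_⟩
  rw [← ENNReal.mul_le_iff_le_inv h0 ENNReal.ofReal_ne_top]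
  have hbU : Metric.ball x r ⊆ U := Metric.ball_subset_closedBall.trans hxr
  calc ENNReal.ofReal c * Gmt.gmtP (ctPre ψ U A) (Metric.ball x r)
      ≤ Gmt.gmtPer (ctA h t ψ) (ctPre ψ U A) (Metric.ball x r) :=
        Gmt.mul_gmtP_le_gmtPer hc.le
          (fun y hy ξ => (hb y (Metric.ball_subset_closedBall hy) ξ).1) _
    _ = Gmt.gmtPerM (ctA h t ψ) (ctPre ψ U A) (Metric.ball x r) :=
        (Gmt.gmtPerM_open _ _ Metric.isOpen_ball).symm
    _ = wper d M h t A (ψ '' Metric.ball x r) :=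
        (ct_wper_chart hG hψ hA hbU Metric.isOpen_ball.measurableSet).symm
    _ ≤ wper d M h t A (ψ '' Metric.closedBall x r) :=
        measure_mono (image_mono Metric.ball_subset_closedBall)

/-- compactness in one chart, with a.e. convergence. -/
theorem ct_compact_chart (hG : CtGeo d M h t) (A : ℕ → Set V) (hA : ∀ i, MeasurableSet (A i))
    (hb : ∀ K, IsCompact K → K ⊆ M → ∃ C : ℝ≥0∞, C ≠ ⊤ ∧ ∀ᶠ i in atTop, wper d M h t (A i) K ≤ C)
    {ψ : E d → V} {U : Set (E d)} (hψ : IsParam M ψ U) (φ : ℕ → ℕ) (hφ : StrictMono φ) :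
    ∃ σ : ℕ → ℕ, StrictMono σ ∧ ∃ S' : Set (E d), MeasurableSet S' ∧ Gmt.GmtLF S' U ∧
      ∀ᵐ u : E d, u ∈ U → ∀ᶠ i in atTop, (u ∈ ctPre ψ U (A ((φ ∘ σ) i)) ↔ u ∈ S') := by
  have hm : ∀ i, MeasurableSet (ctPre ψ U (A (φ i))) := fun i => ct_measurableSet_pre hψ (hA _)
  obtain ⟨σ₁, S', hσ₁, hS', hLF, hconv⟩ := Gmt.gmtP_compactness (if_open hψ)
    (S := fun i => ctPre ψ U (A (φ i))) hm (by
      intro x hx
      obtain ⟨r, hr, hball⟩ := Metric.nhds_basis_closedBall.mem_iff.1 ((if_open hψ).mem_nhds hx)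
      obtain ⟨c, hc, hcb⟩ := ct_chart_bound hG hψ hr hball
      obtain ⟨C, hC, hCb⟩ := hb (ψ '' Metric.closedBall x r)
        ((isCompact_closedBall x r).image_of_continuousOn ((if_continuousOn hψ).mono hball))
        ((image_mono hball).trans (if_image_subset hψ))
      refine ⟨r, hr, c * C, ENNReal.mul_ne_top hc hC, ?_⟩
      filter_upwards [hφ.tendsto_atTop.eventually hCb] with i hi
      exact (hcb _ (hA _)).trans (mul_le_mul_right hi c))
  obtain ⟨σ₂, hσ₂, hae⟩ := Gmt.GmtConv.exists_subseq_ae (if_open hψ) (fun i => hm (σ₁ i)) hS' hconv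
  exact ⟨σ₁ ∘ σ₂, hσ₁.comp hσ₂, S', hS', hLF, hae⟩

theorem ct_compact (hG : CtGeo d M h t) (A : ℕ → Set V) (hA : ∀ i, MeasurableSet (A i))
    (hAM : ∀ i, A i ⊆ M)
    (hb : ∀ K, IsCompact K → K ⊆ M → ∃ C : ℝ≥0∞, C ≠ ⊤ ∧ ∀ᶠ i in atTop, wper d M h t (A i) K ≤ C) :
    ∃ (φ : ℕ → ℕ) (A' : Set V), StrictMono φ ∧ CtLF d M h t A' ∧
      CtConv d M h (fun i => A (φ i)) A' := by
  obtain ⟨ψ, U, hp, he⟩ := if_exists_atlas hG.mfd
  obtain ⟨φ, hφ, hP⟩ := Gmt.gmt_diag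
    (fun k φ => ∃ S' : Set (E d), MeasurableSet S' ∧ Gmt.GmtLF S' (U k) ∧
      ∀ᵐ u : E d, u ∈ U k → ∀ᶠ i in atTop, (u ∈ ctPre (ψ k) (U k) (A (φ i)) ↔ u ∈ S'))
    (fun k φ hφ => by
      obtain ⟨σ, hσ, S', h1, h2, h3⟩ := ct_compact_chart hG A hA hb (hp k) φ hφ
      exact ⟨σ, hσ, S', h1, h2, h3⟩)
    (fun k φ φ' hφ hPk hφ' hr => by
      obtain ⟨S', h1, h2, h3⟩ := hPk
      refine ⟨S', h1, h2, ?_⟩
      filter_upwards [h3] with u hu huU
      have h4 : Tendsto (fun i => φ i) atTop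
          (𝓟 {n | u ∈ ctPre (ψ k) (U k) (A n) ↔ u ∈ S'}) := tendsto_principal.2 (hu huU)
      exact tendsto_principal.1 (Gmt.gmt_tendsto_of_range (x := fun n : ℕ => n) hφ h4 hφ' hr))
  choose S' hS'm hS'LF hS'ae using hP
  set A' : Set V := M ∩ {x | ∀ᶠ i in atTop, x ∈ A (φ i)} with hA'
  have hA'm : MeasurableSet A' := by
    refine (ct_measurableSet hG.mfd).inter ?_
    have : {x | ∀ᶠ i in atTop, x ∈ A (φ i)} = ⋃ N : ℕ, ⋂ i : ℕ, ⋂ _ : N ≤ i, A (φ i) := by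
      ext x
      simp only [mem_ofPred_eq, eventually_atTop, mem_iUnion, mem_iInter]
    rw [this]
    exact MeasurableSet.iUnion fun N => MeasurableSet.iInter fun i => MeasurableSet.iInter fun _ =>
      hA _
  have hiff : ∀ k, ∀ᵐ u : E d, u ∈ U k → (u ∈ ctPre (ψ k) (U k) A' ↔ u ∈ S' k) := by
    intro k
    filter_upwards [hS'ae k] with u hu huU
    have hev := hu huU
    constructor
    · rintro ⟨⟨-, h1⟩, -⟩
      have h1' : ∀ᶠ i in atTop, ψ k u ∈ A (φ i) := h1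
      obtain ⟨i, hi1, hi2⟩ := (hev.and h1').exists
      exact hi1.1 ⟨hi2, huU⟩
    · intro hS
      refine ⟨⟨if_mem (hp k) huU, ?_⟩, huU⟩
      show ∀ᶠ i in atTop, ψ k u ∈ A (φ i)
      filter_upwards [hev] with i hi
      exact (hi.2 hS).1
  have hpm : ∀ k, MeasurableSet (ctPre (ψ k) (U k) A') := fun k => ct_measurableSet_pre (hp k) hA'm
  have hLF : ∀ k, Gmt.GmtLF (ctPre (ψ k) (U k) A') (U k) := by
    intro k
    refine ⟨hpm k, fun W hW => ?_⟩
    have hWU : W ⊆ U k := subset_closure.trans hW.2.2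
    rw [Gmt.gmtP_congr (hpm k) (hS'm k) (S' := S' k)]
    · exact (hS'LF k).2 W hW
    · filter_upwards [hiff k] with u hu
      refine propext ?_
      constructor
      · rintro ⟨h1, h2⟩
        exact ⟨(hu (hWU h2)).1 h1, h2⟩
      · rintro ⟨h1, h2⟩
        exact ⟨(hu (hWU h2)).2 h1, h2⟩
  have hcv : ∀ k, Gmt.GmtConv (U k) (fun i => ctPre (ψ k) (U k) (A (φ i)))
      (ctPre (ψ k) (U k) A') := by
    intro k
    refine Gmt.gmtConv_of_ae (fun i => ct_measurableSet_pre (hp k) (hA _)) (hpm k) ?_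
    filter_upwards [hiff k, hS'ae k] with u h1 h2 huU
    filter_upwards [h2 huU] with i hi
    exact hi.trans (h1 huU).symm
  have hchart : ∀ x ∈ M, ∃ k, x ∈ ψ k '' U k := fun x hx => by
    rw [he] at hx
    exact mem_iUnion.1 hx
  refine ⟨φ, A', hφ, ctLF_of_chart hG hA'm inter_subset_left fun x hx => ?_,
    ctConv_of_chart hG fun x hx => ?_⟩
  · obtain ⟨k, hk⟩ := hchart x hx
    exact ⟨ψ k, U k, hp k, hk, hLF k⟩
  · obtain ⟨k, hk⟩ := hchart x hx
    exact ⟨ψ k, U k, hp k, hk, hcv k⟩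

theorem ct_conv_unique (hG : CtGeo d M h t) {A : ℕ → Set V} {A' A'' : Set V}
    (h' : CtConv d M h A A') (h'' : CtConv d M h A A'') : vol d M h (symmDiff A' A'') = 0 := by
  obtain ⟨K, hK, hKM, hMe⟩ := ct_exists_compact_exhaustion hG.mfd
  have h0 : ∀ n, vol d M h (symmDiff A' A'' ∩ K n) = 0 := by
    intro n
    have ht := (h' (K n) (hK n) (hKM n)).add (h'' (K n) (hK n) (hKM n))
    rw [add_zero] at ht
    refine le_antisymm (ge_of_tendsto' ht fun i => ?_) zero_le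
    refine (measure_mono ?_).trans (measure_union_le _ _)
    rintro x ⟨hx, hxK⟩
    by_cases hxA : x ∈ A i
    · rcases hx with ⟨h1, h2⟩ | ⟨h1, h2⟩
      · exact Or.inr ⟨Or.inl ⟨hxA, h2⟩, hxK⟩
      · exact Or.inl ⟨Or.inl ⟨hxA, h2⟩, hxK⟩
    · rcases hx with ⟨h1, h2⟩ | ⟨h1, h2⟩
      · exact Or.inl ⟨Or.inr ⟨h1, hxA⟩, hxK⟩
      · exact Or.inr ⟨Or.inr ⟨h1, hxA⟩, hxK⟩
  refine measure_mono_null (t := (⋃ n, symmDiff A' A'' ∩ K n) ∪ Mᶜ) ?_
    (measure_union_null (measure_iUnion_null h0) (if_vol_compl hG.mfd h))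
  intro x hx
  by_cases hxM : x ∈ M
  · rw [hMe] at hxM
    obtain ⟨n, hn⟩ := mem_iUnion.1 hxM
    exact Or.inl (mem_iUnion.2 ⟨n, hx, hn⟩)
  · exact Or.inr hxM

/-- on compact sets `wvol` and `vol` are comparable. -/
theorem ct_wvol_le_vol (hG : CtGeo d M h t) {K : Set V} (hK : IsCompact K) (hKM : K ⊆ M) :
    ∃ c : ℝ≥0∞, c ≠ ⊤ ∧ ∀ B ⊆ K, wvol d M h t B ≤ c * vol d M h B := by
  have hc : ContinuousOn (fun x => Real.exp (-t x)) K :=
    (Real.continuous_exp.comp_continuousOn (hG.drift_continuousOn.neg)).mono hKM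
  obtain ⟨C₀, hC₀⟩ := hK.bddAbove_image hc
  refine ⟨ENNReal.ofReal C₀, ENNReal.ofReal_ne_top, fun B hB => ?_⟩
  have hTm : MeasurableSet (toMeasurable (vol d M h) B ∩ K) :=
    (measurableSet_toMeasurable _ _).inter hK.measurableSet
  have hBT : B ⊆ toMeasurable (vol d M h) B ∩ K := fun x hx => ⟨subset_toMeasurable _ _ hx, hB hx⟩
  calc wvol d M h t B ≤ wvol d M h t (toMeasurable (vol d M h) B ∩ K) := measure_mono hBT
    _ = ∫⁻ x in toMeasurable (vol d M h) B ∩ K, (ctW M t x : ℝ≥0∞) ∂(vol d M h) := by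
        rw [ct_wvol_eq, withDensity_apply _ hTm]
    _ ≤ ∫⁻ _ in toMeasurable (vol d M h) B ∩ K, ENNReal.ofReal C₀ ∂(vol d M h) := by
        refine setLIntegral_mono' hTm fun x hx => ?_
        rw [ct_W_of_mem (hKM hx.2)]
        exact ENNReal.ofReal_le_ofReal (hC₀ (mem_image_of_mem _ hx.2))
    _ = ENNReal.ofReal C₀ * vol d M h (toMeasurable (vol d M h) B ∩ K) := by
        rw [setLIntegral_const]
    _ ≤ ENNReal.ofReal C₀ * vol d M h (toMeasurable (vol d M h) B) := by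
        gcongr; exact inter_subset_left
    _ = ENNReal.ofReal C₀ * vol d M h B := by rw [measure_toMeasurable]

/-- convergence of the volume terms. -/
theorem ct_conv_integral (hG : CtGeo d M h t) {A : ℕ → Set V} {A' : Set V}
    (hA : ∀ i, MeasurableSet (A i)) (hA' : MeasurableSet A') (hc : CtConv d M h A A')
    {p : V → ℝ} (hp : ContinuousOn p M) {K : Set V} (hK : IsCompact K) (hKM : K ⊆ M) :
    Tendsto (fun i => ∫ x in A i ∩ K, p x ∂(wvol d M h t)) atTop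
      (𝓝 (∫ x in A' ∩ K, p x ∂(wvol d M h t))) := by
  have hKm : MeasurableSet K := hK.measurableSet
  obtain ⟨C₀, hC₀⟩ := hK.exists_bound_of_continuousOn (hp.mono hKM)
  obtain ⟨C, hC0, hC⟩ : ∃ C : ℝ, 0 ≤ C ∧ ∀ x ∈ K, ‖p x‖ ≤ C :=
    ⟨max C₀ 0, le_max_right _ _, fun x hx => (hC₀ x hx).trans (le_max_left _ _)⟩
  have hKfin : wvol d M h t K ≠ ⊤ := ct_wvol_compact hG hK hKM
  have hint : IntegrableOn p K (wvol d M h t) :=
    IntegrableOn.of_bound hKfin.lt_top (ct_aestronglyMeasurable hG hp).restrict C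
      ((ae_restrict_iff' hKm).2 (Eventually.of_forall hC))
  obtain ⟨c, hc0, hcB⟩ := ct_wvol_le_vol hG hK hKM
  have h1 : Tendsto (fun i => wvol d M h t (symmDiff (A i) A' ∩ K)) atTop (𝓝 0) := by
    have h2 : Tendsto (fun i => c * vol d M h (symmDiff (A i) A' ∩ K)) atTop (𝓝 0) := by
      have := ENNReal.Tendsto.const_mul (hc K hK hKM) (Or.inr hc0)
      simpa using this
    exact tendsto_of_tendsto_of_tendsto_of_le_of_le tendsto_const_nhds h2 (fun _ => zero_le)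
      fun i => hcB _ inter_subset_right
  have h2 : Tendsto (fun i => 2 * (C * (wvol d M h t (symmDiff (A i) A' ∩ K)).toReal)) atTop
      (𝓝 0) := by
    have := ((ENNReal.tendsto_toReal ENNReal.zero_ne_top).comp h1).const_mul C |>.const_mul 2
    simpa using this
  rw [tendsto_iff_norm_sub_tendsto_zero]
  refine squeeze_zero (fun _ => norm_nonneg _) (fun i => ?_) h2
  have hsub : ∀ S : Set V, S ⊆ K → IntegrableOn p S (wvol d M h t) := fun S hS => hint.mono_set hS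
  have e1 := integral_inter_add_sdiff (μ := wvol d M h t) (f := p) (s := A i ∩ K) hA'
    (hsub _ inter_subset_right)
  have e2 := integral_inter_add_sdiff (μ := wvol d M h t) (f := p) (s := A' ∩ K) (hA i)
    (hsub _ inter_subset_right)
  have e3 : A i ∩ K ∩ A' = A' ∩ K ∩ A i := by
    ext x; simp only [mem_inter_iff]; tauto
  rw [e3] at e1
  have hbd : ∀ S : Set V, S ⊆ symmDiff (A i) A' ∩ K →
      ‖∫ x in S, p x ∂(wvol d M h t)‖ ≤ C * (wvol d M h t (symmDiff (A i) A' ∩ K)).toReal := by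
    intro S hS
    have hSfin : wvol d M h t S < ⊤ :=
      lt_of_le_of_lt (measure_mono (hS.trans inter_subset_right)) hKfin.lt_top
    refine (norm_setIntegral_le_of_norm_le_const hSfin fun x hx => hC x (hS hx).2).trans ?_
    refine mul_le_mul_of_nonneg_left ?_ hC0
    exact ENNReal.toReal_mono
      (ne_top_of_le_ne_top hKfin (measure_mono inter_subset_right)) (measure_mono hS)
  have b1 := hbd ((A i ∩ K) \ A') (fun x hx => ⟨Or.inl ⟨hx.1.1, hx.2⟩, hx.1.2⟩)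
  have b2 := hbd ((A' ∩ K) \ A i) (fun x hx => ⟨Or.inr ⟨hx.1.1, hx.2⟩, hx.1.2⟩)
  have e4 : ∫ x in A i ∩ K, p x ∂(wvol d M h t) - ∫ x in A' ∩ K, p x ∂(wvol d M h t) =
      ∫ x in (A i ∩ K) \ A', p x ∂(wvol d M h t) - ∫ x in (A' ∩ K) \ A i, p x ∂(wvol d M h t) := by
    linarith
  rw [e4]
  calc _ ≤ ‖∫ x in (A i ∩ K) \ A', p x ∂(wvol d M h t)‖ +
      ‖∫ x in (A' ∩ K) \ A i, p x ∂(wvol d M h t)‖ := norm_sub_le _ _
    _ ≤ _ := by linarith

end Claimed.Agent.R315
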