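import Claimed.Agent.R315.Ct.BvE
import Claimed.Agent.Lib.Gmt.GgDef

/-!
# Row 315, package Ct: file `BvF.lean` = V7: Gauss-Green in scalar form.
Architect: helper75.   Package `L-Ct-BvF`.   PROVED: helper6.   Chart lemmas: `Gmt.gmt_div_le_lintegral` (`GgWeight`), `Gmt.gmt_def_mu`, `Gmt.gmt_def_gg`, `Gmt.gmt_def_perM_null` (`GgDef`), `Gmt.integral_gmtDiv_eq_zero`-type lemma of `BvBasicA`.

THE CHART FIELD.  For `a, f` smooth along `M`, `(ψ, U)` a parametrisation, `G = cm h ψ`, `ρ = ctRho h t ψ`: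
`ctField h t ψ U a f u = ρ(u) a(ψ u) G⁻¹(u) ∇(f ∘ ψ)(u)` on `U`, `0` outside.   Facts (`u ∈ U`):
 (F1) `ct_field_div`   : `gmtDiv (ctField ..) u = wdiv d M h t a f (ψ u) * ρ u`     [`if_lap_eq`, `if_gradIp_eq`: `lapC = (√det)⁻¹ ∑ ∂_i(√det G^{ij} ∂_j f)`, `ρ = e^{-t∘ψ} √det`; product rule];
 (F2) `ct_field_inner` : `⟪ctField .. u, ∇(k ∘ ψ) u⟫ = ρ u * a (ψ u) * gradIp d M h f k (ψ u)`;
 (F3) `ct_field_adm`   : `⟪ctField .. u, ξ⟫ ≤ |a (ψ u)| * gradN d M h f (ψ u) * √(ctA h t ψ u ξ ξ)`   [Cauchy-Schwarz for the positive definite form `G⁻¹`: `Gmt.gmtInt_cauchy` for `ctA` (`ct_gmtInt`), `ctA = ρ² G⁻¹`];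
 (F4) `ct_field_test`  : if `a = χ k · a'` with `P : CtPou ..` then `ctField ..` is a `Gmt.GmtTest (U k)` field (smooth on `U k`, supported in the compact set `C ⊆ U k`; as `CtPou.smooth_w`).

PLAN
* `ct_wdiv_sum`: let `K` be the compact set of `CtCS M a`, `F` = `CtPou.exists_finset` for `K`.  Then `a = ∑_{k∈F} χ k a` on ALL of `M` (on `K`: `∑ = 1`; off `K`: `a = 0`).  `wdiv a f x` (`x ∈ M`) only depends on `a|_M`
  (chart formulas `if_lap_eq`, `if_gradIp_eq`: only `a ∘ ψ` on `U` enters) and is additive in `a` for finite sums (`gradIpC` is additive in its first slot: `fderiv_sum`/`fderiv_fun_sum`, smoothness of `(χ k a) ∘ ψ` on `U`).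
* `ct_ibp`: `∫ wdiv a f dμ = ∑_{k∈F} ∫ wdiv (χ k a) f dμ = ∑_k ∫_{U k} gmtDiv (ctField ..) = 0` (`ct_integral_wvol_chart`, (F1), (F4), divergence theorem for test fields).
* `ct_gg_le`: the same sum over `A`: `∫_A wdiv (χ k a) f dμ = ∫_{pre A} gmtDiv T_k ≤ ∫ w_k d(gmtPerM ..)`, `w_k = (χ k |a| gradN f) ∘ ψ k` ((F3), `Gmt.gmt_div_le_lintegral`, `CtLF.chart`) `= ∫ χ k |a| gradN f d(wper A)` (`CtPou.lintegral_wper`); sum over `k ∈ F`; pass from `∫⁻` to `∫` (`integral_eq_lintegral_of_nonneg_ae`, finiteness: compact support + `CtLF.fin`).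
* `CtDef.lf`: `ctLF_of_chart` + `Gmt.gmt_def_mu` with `φ ∘ ψ` (no critical points: `gradSq > 0` and `if_gradSq_eq`; `pre A =ᵐ {φ ∘ ψ < 0}` from `CtDef.eq` and `ctConv_chart`-type comparison `volume ≪ vol ∘ ψ` on `U`: lemma `ct_null_chart`).
* `ct_gg_def`: as `ct_gg_le` with `Gmt.gmt_def_gg` and (F2): `⟪T, ∇φ̃⟫/√(A∇φ̃∇φ̃) = a ⟨df,dφ⟩/|dφ|` (`ct_gmtDens`).
* `ct_wper_def_level`: `ct_measure_le_of_chart`-type argument / countable atlas + `Gmt.gmt_def_perM_null`.
-/

set_option autoImplicit false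
open scoped ContDiff ENNReal Topology RealInnerProductSpace
open MeasureTheory Claims.C0499 Set Filter

namespace Claimed.Agent.R315

variable {V : Type} [NormedAddCommGroup V] [NormedSpace ℝ V] [FiniteDimensional ℝ V]
  [MeasurableSpace V] [BorelSpace V]
variable {d : ℕ} {M : Set V} {h : Ten V} {t : V → ℝ}

/-! ### V7: Gauss-Green in scalar form -/

/-- the chart field `ρ a G⁻¹ ∇f`. -/
noncomputable def ctField {d : ℕ} (h : Ten V) (t : V → ℝ) (ψ : E d → V) (U : Set (E d))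
    (a f : V → ℝ) : E d → E d :=
  U.indicator fun u => (ctRho h t ψ u * a (ψ u)) •
    WithLp.toLp 2 ((cm h ψ u)⁻¹.mulVec fun j => pdiff (f ∘ ψ) j u)

omit [FiniteDimensional ℝ V] [MeasurableSpace V] [BorelSpace V] in
/-- components of the chart field. -/
theorem ctField_apply (h : Ten V) (t : V → ℝ) (ψ : E d → V) {U : Set (E d)} (a f : V → ℝ) {u : E d}
    (hu : u ∈ U) (i : Fin d) :
    ctField h t ψ U a f u i =
      ctRho h t ψ u * a (ψ u) * ∑ j, (cm h ψ u)⁻¹ i j * pdiff (f ∘ ψ) j u := by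
  unfold ctField
  rw [indicator_of_mem hu]
  simp [Matrix.mulVec, dotProduct]

/-- the vector of partial derivatives. -/
noncomputable def ctPd {d : ℕ} (g : E d → ℝ) (u : E d) : E d := WithLp.toLp 2 fun j => pdiff g j u

theorem ctPd_apply {d : ℕ} (g : E d → ℝ) (u : E d) (j : Fin d) : ctPd g u j = pdiff g j u := rfl

theorem ctPd_eq_gradient {d : ℕ} (g : E d → ℝ) (u : E d) : gradient g u = ctPd g u := by
  ext i
  rw [ctPd_apply, ← if_inner_eb]
  unfold gradient pdiff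
  rw [InnerProductSpace.toDual_symm_apply]

omit [FiniteDimensional ℝ V] [MeasurableSpace V] [BorelSpace V] in
/-- pairing of the chart field with a covector. -/
theorem ctField_inner (h : Ten V) (t : V → ℝ) (ψ : E d → V) {U : Set (E d)} (a f : V → ℝ) {u : E d}
    (hu : u ∈ U) (ξ : E d) :
    ⟪ctField h t ψ U a f u, ξ⟫ =
      ctRho h t ψ u * a (ψ u) * if_bil (cm h ψ u)⁻¹ ξ (ctPd (f ∘ ψ) u) := by
  rw [if_bil_apply, PiLp.inner_apply, Finset.mul_sum]
  refine Finset.sum_congr rfl fun i _ => ?_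
  rw [ctField_apply h t ψ a f hu i]
  simp only [ctPd_apply, RCLike.inner_apply, conj_trivial, Finset.mul_sum]
  refine Finset.sum_congr rfl fun j _ => ?_
  ring

omit [MeasurableSpace V] [BorelSpace V] in
theorem ct_field_contDiffOn (hG : CtGeo d M h t) {a f : V → ℝ} (ha : SmoothAlong d M a)
    (hf : SmoothAlong d M f) {ψ : E d → V} {U : Set (E d)} (hψ : IsParam M ψ U) :
    ContDiffOn ℝ ∞ (ctField h t ψ U a f) U := by
  let _ : MeasurableSpace V := borel V
  have _ : BorelSpace V := ⟨rfl⟩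
  have hC := if_metC hG.met hψ
  rw [contDiffOn_euclidean]
  intro i
  have h1 : ContDiffOn ℝ ∞ (fun u => ctRho h t ψ u * a (ψ u) *
      ∑ j, (cm h ψ u)⁻¹ i j * pdiff (f ∘ ψ) j u) U :=
    ((ct_rho_contDiffOn hG hψ).mul (ha ψ U hψ)).mul (ContDiffOn.sum fun j _ =>
      (if_inv_contDiffOn hC.smooth hC.det_ne i j).mul
        (if_pdiff_contDiffOn (if_open hψ) (hf ψ U hψ) j))
  exact h1.congr fun u hu => ctField_apply h t ψ a f hu i

omit [MeasurableSpace V] [BorelSpace V] in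
theorem ct_field_div (hG : CtGeo d M h t) {a f : V → ℝ} (ha : SmoothAlong d M a)
    (hf : SmoothAlong d M f) {ψ : E d → V} {U : Set (E d)} (hψ : IsParam M ψ U) {u : E d}
    (hu : u ∈ U) :
    Gmt.gmtDiv (ctField h t ψ U a f) u = wdiv d M h t a f (ψ u) * ctRho h t ψ u := by
  have hC := if_metC hG.met hψ
  have hUo := if_open hψ
  have hUn : U ∈ 𝓝 u := hUo.mem_nhds hu
  have dA : ∀ {g : E d → ℝ}, ContDiffOn ℝ ∞ g U → DifferentiableAt ℝ g u := fun hg =>
    (hg.contDiffAt hUn).differentiableAt (by simp)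
  have hTd : DifferentiableAt ℝ (ctField h t ψ U a f) u :=
    ((ct_field_contDiffOn hG ha hf hψ).contDiffAt hUn).differentiableAt (by simp)
  set s : E d → ℝ := fun w => Real.sqrt (cm h ψ w).det with hs
  set e : E d → ℝ := fun w => Real.exp (-t (ψ w)) with he
  set Y : Fin d → E d → ℝ := fun i w => ∑ j, (cm h ψ w)⁻¹ i j * pdiff (f ∘ ψ) j w with hY
  set X : Fin d → E d → ℝ := fun i w => s w * Y i w with hX
  have hsd : ContDiffOn ℝ ∞ s U := if_sqrt_det_contDiffOn hC.smooth hC.det_ne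
  have hXd : ∀ i, DifferentiableAt ℝ (X i) u := fun i => dA (hsd.mul (ContDiffOn.sum fun j _ =>
    (if_inv_contDiffOn hC.smooth hC.det_ne i j).mul (if_pdiff_contDiffOn hUo (hf ψ U hψ) j)))
  have htd : DifferentiableAt ℝ (t ∘ ψ) u := dA (hG.drift ψ U hψ)
  have had : DifferentiableAt ℝ (a ∘ ψ) u := dA (ha ψ U hψ)
  have hed : DifferentiableAt ℝ e u := dA (hG.drift ψ U hψ).neg.exp
  have hpe : ∀ i, pdiff e i u = - e u * pdiff (t ∘ ψ) i u := by
    intro i
    have h1 : HasDerivAt (fun r : ℝ => Real.exp (-r)) (Real.exp (-(t ∘ ψ) u) * (-1)) ((t ∘ ψ) u) :=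
      (hasDerivAt_neg _).exp
    have h2 := rm_pdiff_comp (i := i) (φ := fun r : ℝ => Real.exp (-r)) (f := t ∘ ψ) (u := u)
      h1.differentiableAt htd
    rw [h1.deriv] at h2
    show pdiff (fun w => Real.exp (-(t ∘ ψ) w)) i u = _
    rw [h2]
    simp only [he, Function.comp]
    ring
  have hcomp : ∀ i, fderiv ℝ (ctField h t ψ U a f) u (eb i) i =
      pdiff (fun w => (e w * (a ∘ ψ) w) * X i w) i u := by
    intro i
    have h1 : HasFDerivAt (fun w => ctField h t ψ U a f w i)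
        ((EuclideanSpace.proj i : E d →L[ℝ] ℝ).comp (fderiv ℝ (ctField h t ψ U a f) u)) u :=
      (EuclideanSpace.proj i : E d →L[ℝ] ℝ).hasFDerivAt.comp u hTd.hasFDerivAt
    have h2 : (fun w => ctField h t ψ U a f w i) =ᶠ[𝓝 u] fun w => (e w * (a ∘ ψ) w) * X i w := by
      filter_upwards [hUn] with w hw
      rw [ctField_apply h t ψ a f hw i]
      simp only [hs, he, hX, hY, ctRho, Function.comp]
      ring
    unfold pdiff
    rw [← h2.fderiv_eq, h1.fderiv]
    rfl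
  have hprod : ∀ i, pdiff (fun w => (e w * (a ∘ ψ) w) * X i w) i u =
      (- e u * pdiff (t ∘ ψ) i u * a (ψ u) + e u * pdiff (a ∘ ψ) i u) * (s u * Y i u) +
        e u * a (ψ u) * pdiff (X i) i u := by
    intro i
    rw [rm_pdiff_mul (f := fun w => e w * (a ∘ ψ) w) (hed.mul had) (hXd i),
      rm_pdiff_mul hed had, hpe]
    rfl
  have hs0 : s u ≠ 0 := (Real.sqrt_pos.2 (hC.det_pos hu)).ne'
  have e1 : ∀ g : E d → ℝ, gradIpC (cm h ψ) g (f ∘ ψ) u = ∑ i, pdiff g i u * Y i u := by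
    intro g
    unfold gradIpC
    refine Finset.sum_congr rfl fun i _ => ?_
    rw [hY, Finset.mul_sum]
    exact Finset.sum_congr rfl fun j _ => by ring
  have e2 : lapC (cm h ψ) (f ∘ ψ) u = (s u)⁻¹ * ∑ i, pdiff (X i) i u := rfl
  have hL : Gmt.gmtDiv (ctField h t ψ U a f) u =
      -(e u * a (ψ u) * s u) * ∑ i, pdiff (t ∘ ψ) i u * Y i u +
        e u * s u * ∑ i, pdiff (a ∘ ψ) i u * Y i u + e u * a (ψ u) * ∑ i, pdiff (X i) i u := by
    unfold Gmt.gmtDiv
    rw [Finset.mul_sum, Finset.mul_sum, Finset.mul_sum, ← Finset.sum_add_distrib,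
      ← Finset.sum_add_distrib]
    refine Finset.sum_congr rfl fun i _ => ?_
    rw [hcomp i, hprod i]
    ring
  rw [hL]
  unfold wdiv wlap
  rw [if_lap_eq hG.met hf hψ hu, if_gradIp_eq hG.met hG.drift hf hψ hu,
    if_gradIp_eq hG.met ha hf hψ hu, e1, e1, e2]
  have e3 : ctRho h t ψ u = e u * s u := rfl
  rw [e3]
  field_simp
  ring

omit [MeasurableSpace V] [BorelSpace V] in
theorem ct_field_inner (hG : CtGeo d M h t) {a f k : V → ℝ} (hf : SmoothAlong d M f)
    (hk : SmoothAlong d M k) {ψ : E d → V} {U : Set (E d)} (hψ : IsParam M ψ U) {u : E d}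
    (hu : u ∈ U) :
    ⟪ctField h t ψ U a f u, gradient (k ∘ ψ) u⟫ =
      ctRho h t ψ u * a (ψ u) * gradIp d M h f k (ψ u) := by
  have hC := if_metC hG.met hψ
  have hsym : ((cm h ψ u)⁻¹).IsSymm := if_isSymm_of_posSemidef (hC.posDef u hu).inv.posSemidef
  rw [if_gradIp_eq hG.met hf hk hψ hu, ctField_inner h t ψ a f hu, ctPd_eq_gradient,
    if_bil_symm hsym, if_bil_apply]
  unfold gradIpC
  congr 1
  refine Finset.sum_congr rfl fun i _ => Finset.sum_congr rfl fun j _ => ?_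
  rw [ctPd_apply, ctPd_apply]
  ring

omit [MeasurableSpace V] [BorelSpace V] in
theorem ct_field_adm (hG : CtGeo d M h t) {a f : V → ℝ} (hf : SmoothAlong d M f) {ψ : E d → V}
    {U : Set (E d)} (hψ : IsParam M ψ U) {u : E d} (hu : u ∈ U) (ξ : E d) :
    ⟪ctField h t ψ U a f u, ξ⟫ ≤
      |a (ψ u)| * gradN d M h f (ψ u) * Real.sqrt (ctA h t ψ u ξ ξ) := by
  let _ : MeasurableSpace V := borel V
  have _ : BorelSpace V := ⟨rfl⟩
  have hC := if_metC hG.met hψ
  have hps : ((cm h ψ u)⁻¹).PosSemidef := (hC.posDef u hu).inv.posSemidef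
  have hρ : 0 < ctRho h t ψ u := ct_rho_pos hG hψ hu
  set B := if_bil (cm h ψ u)⁻¹ with hB
  set Pv := ctPd (f ∘ ψ) u with hPv
  have h1 : gradN d M h f (ψ u) = Real.sqrt (B Pv Pv) := by
    unfold gradN
    rw [if_gradSq_eq hG.met hf hψ hu, hB, if_bil_apply]
    unfold gradSqC
    congr 1
    refine Finset.sum_congr rfl fun i _ => Finset.sum_congr rfl fun j _ => ?_
    rw [hPv, ctPd_apply, ctPd_apply]
    ring
  have h2 : ctA h t ψ u ξ ξ = ctRho h t ψ u ^ 2 * B ξ ξ := by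
    rw [ct_A_apply]
    congr 1
    unfold ctRho
    rw [mul_pow, Real.sq_sqrt (hC.det_pos hu).le, ← Real.exp_nat_mul]
    congr 2
    push_cast
    ring
  have h3 : |B ξ Pv| ≤ Real.sqrt (B ξ ξ) * Real.sqrt (B Pv Pv) := by
    rw [← Real.sqrt_mul (if_bil_nonneg hps ξ)]
    exact Real.abs_le_sqrt (if_bil_cs hps ξ Pv)
  rw [ctField_inner h t ψ a f hu, h1, h2, Real.sqrt_mul (sq_nonneg _), Real.sqrt_sq hρ.le]
  calc ctRho h t ψ u * a (ψ u) * B ξ Pv ≤ |ctRho h t ψ u * a (ψ u) * B ξ Pv| := le_abs_self _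
    _ = ctRho h t ψ u * |a (ψ u)| * |B ξ Pv| := by rw [abs_mul, abs_mul, abs_of_pos hρ]
    _ ≤ ctRho h t ψ u * |a (ψ u)| * (Real.sqrt (B ξ ξ) * Real.sqrt (B Pv Pv)) :=
        mul_le_mul_of_nonneg_left h3 (mul_nonneg hρ.le (abs_nonneg _))
    _ = |a (ψ u)| * Real.sqrt (B Pv Pv) * (ctRho h t ψ u * Real.sqrt (B ξ ξ)) := by ring

omit [MeasurableSpace V] [BorelSpace V] in
theorem ct_smoothAlong_pou_mul {κ : Type} {ψ : κ → E d → V} {U : κ → Set (E d)}
    {χ : κ → V → ℝ} (P : CtPou d M ψ U χ) (k : κ) {a : V → ℝ} (ha : SmoothAlong d M a) :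
    SmoothAlong d M fun x => χ k x * a x := fun ψ' U' h' =>
  ((if_smoothAlong_of_contDiff (P.smooth k)) ψ' U' h').mul (ha ψ' U' h')

omit [MeasurableSpace V] [BorelSpace V] in
theorem ct_field_test (hG : CtGeo d M h t) {κ : Type} {ψ : κ → E d → V} {U : κ → Set (E d)}
    {χ : κ → V → ℝ} (P : CtPou d M ψ U χ) (k : κ) {a f : V → ℝ} (ha : SmoothAlong d M a)
    (hf : SmoothAlong d M f) :
    Gmt.GmtTest (U k) (ctField h t (ψ k) (U k) (fun x => χ k x * a x) f) := by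
  obtain ⟨C, hC, hCU, hsupp⟩ := P.cpt k
  have hψ := P.param k
  have hsm := ct_field_contDiffOn hG (ct_smoothAlong_pou_mul P k ha) hf hψ
  have h0 : ∀ u, u ∉ C → ctField h t (ψ k) (U k) (fun x => χ k x * a x) f u = 0 := by
    intro u hu
    by_cases huU : u ∈ U k
    · have h1 : χ k (ψ k u) = 0 := by
        by_contra hne
        obtain ⟨c, hc, hcu⟩ := hsupp _ (if_mem hψ huU) hne
        exact hu ((if_injOn hψ (hCU hc) huU hcu) ▸ hc)
      unfold ctField
      rw [indicator_of_mem huU]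
      simp [h1]
    · unfold ctField
      exact indicator_of_notMem huU _
  have hts : tsupport (ctField h t (ψ k) (U k) (fun x => χ k x * a x) f) ⊆ C :=
    closure_minimal (fun u hu => by_contra fun hn => hu (h0 u hn)) hC.isClosed
  refine ⟨?_, HasCompactSupport.intro hC h0, hts.trans hCU⟩
  rw [contDiff_iff_contDiffAt]
  intro u
  by_cases hu : u ∈ U k
  · exact (hsm.contDiffAt ((if_open hψ).mem_nhds hu)).of_le (by exact_mod_cast le_top)
  · have h1 : ctField h t (ψ k) (U k) (fun x => χ k x * a x) f =ᶠ[𝓝 u] fun _ => 0 := by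
      filter_upwards [hC.isClosed.isOpen_compl.mem_nhds (fun hc => hu (hCU hc))] with w hw
      exact h0 w hw
    exact contDiffAt_const.congr_of_eventuallyEq h1


/-! ### calculus of `wdiv` -/

omit [MeasurableSpace V] [BorelSpace V] in
theorem ct_wdiv_smoothAlong (hG : CtGeo d M h t) {a f : V → ℝ} (ha : SmoothAlong d M a)
    (hf : SmoothAlong d M f) : SmoothAlong d M (wdiv d M h t a f) := fun ψ U hψ =>
  ((ha ψ U hψ).mul ((if_lap_smoothAlong hG.met hf ψ U hψ).sub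
    (if_gradIp_smoothAlong hG.met hG.drift hf ψ U hψ))).add
      (if_gradIp_smoothAlong hG.met ha hf ψ U hψ)

omit [MeasurableSpace V] [BorelSpace V] in
/-- `wdiv b f` vanishes where `b` vanishes on a relatively open subset of `M`. -/
theorem ct_bvf_wdiv_eq_zero (hG : CtGeo d M h t) {b f : V → ℝ} (hb : SmoothAlong d M b)
    (hf : SmoothAlong d M f) {O : Set V} (hO : IsOpen O) (h0 : ∀ y ∈ M, y ∈ O → b y = 0) {x : V}
    (hx : x ∈ M) (hxO : x ∈ O) : wdiv d M h t b f x = 0 := by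
  obtain ⟨ψ, U, hψ, u, hu, rfl⟩ := hG.mfd x hx
  unfold wdiv
  rw [h0 _ hx hxO, zero_mul, zero_add, if_gradIp_eq hG.met hb hf hψ hu]
  unfold gradIpC
  have hn : U ∩ ψ ⁻¹' O ∈ 𝓝 u :=
    ((if_continuousOn hψ).isOpen_inter_preimage (if_open hψ) hO).mem_nhds ⟨hu, hxO⟩
  have hp : ∀ i, pdiff (b ∘ ψ) i u = 0 := by
    intro i
    have h1 : (b ∘ ψ) =ᶠ[𝓝 u] fun _ => (0 : ℝ) := by
      filter_upwards [hn] with w hw
      exact h0 _ (if_mem hψ hw.1) hw.2
    rw [rm_pdiff_congr h1, rm_pdiff_const]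
  simp [hp]

omit [MeasurableSpace V] [BorelSpace V] in
/-- finite decomposition of `wdiv a f` by a partition of unity. -/
theorem ct_wdiv_sum (hG : CtGeo d M h t) {κ : Type} {ψ : κ → E d → V} {U : κ → Set (E d)}
    {χ : κ → V → ℝ} (P : CtPou d M ψ U χ) {a f : V → ℝ} (ha : SmoothAlong d M a)
    (hf : SmoothAlong d M f) (hc : CtCS M a) :
    ∃ F : Finset κ, (∀ x ∈ M, a x = ∑ k ∈ F, χ k x * a x) ∧
      ∀ x ∈ M, wdiv d M h t a f x = ∑ k ∈ F, wdiv d M h t (fun y => χ k y * a y) f x := by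
  obtain ⟨K, hK, hKM, hK0⟩ := hc
  obtain ⟨F, hF0, hF1⟩ := P.exists_finset hK hKM
  have hsum : ∀ x ∈ M, a x = ∑ k ∈ F, χ k x * a x := by
    intro x hx
    by_cases hxK : x ∈ K
    · rw [← Finset.sum_mul, hF1 x hxK, one_mul]
    · rw [hK0 x hx hxK]
      simp
  refine ⟨F, hsum, fun x hx => ?_⟩
  obtain ⟨ψ', U', hψ', u, hu, rfl⟩ := hG.mfd x hx
  unfold wdiv
  rw [Finset.sum_add_distrib, ← Finset.sum_mul, ← hsum _ hx]
  congr 1
  rw [if_gradIp_eq hG.met ha hf hψ' hu]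
  simp_rw [if_gradIp_eq hG.met (ct_smoothAlong_pou_mul P _ ha) hf hψ' hu]
  unfold gradIpC
  have hp : ∀ i, pdiff (a ∘ ψ') i u = ∑ k ∈ F, pdiff ((fun y => χ k y * a y) ∘ ψ') i u := by
    intro i
    rw [← rm_pdiff_sum F (fun k _ => ((ct_smoothAlong_pou_mul P k ha ψ' U' hψ').contDiffAt
      ((if_open hψ').mem_nhds hu)).differentiableAt (by simp))]
    apply rm_pdiff_congr
    filter_upwards [(if_open hψ').mem_nhds hu] with w hw
    exact hsum _ (if_mem hψ' hw)
  rw [Finset.sum_comm (s := F)]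
  refine Finset.sum_congr rfl fun i _ => ?_
  rw [Finset.sum_comm (s := F)]
  refine Finset.sum_congr rfl fun j _ => ?_
  rw [hp i, Finset.mul_sum, Finset.sum_mul]

/-- null sets in charts. -/
theorem ct_null_chart (hG : CtGeo d M h t) {ψ : E d → V} {U : Set (E d)} (hψ : IsParam M ψ U)
    {B : Set V} (hB : vol d M h B = 0) : volume (ctPre ψ U B) = 0 := by
  unfold ctPre
  rw [inter_comm]
  exact ct_chart_null hG hψ hB

/-! ### integrability -/

omit [FiniteDimensional ℝ V] in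
/-- continuous functions with compact support in `M` are integrable for Radon measures on `M`. -/
theorem ct_integrable_cs (hM : MeasurableSet M) {μ : Measure V} (hμ : μ Mᶜ = 0)
    (hfin : ∀ K, IsCompact K → K ⊆ M → μ K ≠ ⊤) {g : V → ℝ} (hg : ContinuousOn g M)
    (hc : CtCS M g) : Integrable g μ := by
  obtain ⟨K, hK, hKM, hK0⟩ := hc
  obtain ⟨B, hB⟩ := hK.exists_bound_of_continuousOn (hg.mono hKM)
  have hfm : IsFiniteMeasure (μ.restrict K) :=
    ⟨by rw [Measure.restrict_apply_univ]; exact (hfin K hK hKM).lt_top⟩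
  have h1 : IntegrableOn g K μ :=
    Integrable.of_bound ((hg.mono hKM).aestronglyMeasurable hK.measurableSet) B
      ((ae_restrict_iff' hK.measurableSet).2 (Eventually.of_forall fun x hx => hB x hx))
  refine h1.integrable_of_ae_notMem_eq_zero ?_
  have hMae : ∀ᵐ x ∂μ, x ∈ M := by
    rw [ae_iff]
    exact hμ
  filter_upwards [hMae] with x hx hxK
  exact hK0 x hx hxK

section pou

variable {κ : Type} {ψ : κ → E d → V} {U : κ → Set (E d)} {χ : κ → V → ℝ}

omit [FiniteDimensional ℝ V] [MeasurableSpace V] [BorelSpace V] in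
/-- a member of the partition of unity times anything has compact support in `M`. -/
theorem CtPou.cs_mul (P : CtPou d M ψ U χ) (k : κ) (g : V → ℝ) : CtCS M fun x => χ k x * g x := by
  obtain ⟨C, hC, hCU, hsupp⟩ := P.cpt k
  have hψ := P.param k
  refine ⟨ψ k '' C, hC.image_of_continuousOn ((if_continuousOn hψ).mono hCU),
    (image_mono hCU).trans (if_image_subset hψ), fun x hx hxC => ?_⟩
  have : χ k x = 0 := by
    by_contra hne
    exact hxC (hsupp x hx hne)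
  simp only [this, zero_mul]

omit [MeasurableSpace V] [BorelSpace V] in
theorem CtPou.cs_wdiv (P : CtPou d M ψ U χ) (hG : CtGeo d M h t) (k : κ) {a f : V → ℝ}
    (ha : SmoothAlong d M a) (hf : SmoothAlong d M f) :
    ∃ C, IsCompact C ∧ C ⊆ U k ∧
      ∀ x ∈ M, x ∉ ψ k '' C → wdiv d M h t (fun y => χ k y * a y) f x = 0 := by
  obtain ⟨C, hC, hCU, hsupp⟩ := P.cpt k
  have hψ := P.param k
  have hK : IsCompact (ψ k '' C) := hC.image_of_continuousOn ((if_continuousOn hψ).mono hCU)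
  refine ⟨C, hC, hCU, fun x hx hxC => ?_⟩
  refine ct_bvf_wdiv_eq_zero hG (ct_smoothAlong_pou_mul P k ha) hf hK.isClosed.isOpen_compl
    (fun y hy hyC => ?_) hx hxC
  have : χ k y = 0 := by
    by_contra hne
    exact hyC (hsupp y hy hne)
  simp only [this, zero_mul]

theorem CtPou.integrable_wdiv (P : CtPou d M ψ U χ) (hG : CtGeo d M h t) (k : κ) {a f : V → ℝ}
    (ha : SmoothAlong d M a) (hf : SmoothAlong d M f) :
    Integrable (wdiv d M h t (fun y => χ k y * a y) f) (wvol d M h t) := by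
  obtain ⟨C, hC, hCU, h0⟩ := P.cs_wdiv hG k ha hf
  have hψ := P.param k
  exact ct_integrable_cs (ct_measurableSet hG.mfd) (ct_wvol_compl hG)
    (fun K hK hKM => ct_wvol_compact hG hK hKM)
    (if_smoothAlong_continuousOn hG.mfd (ct_wdiv_smoothAlong hG (ct_smoothAlong_pou_mul P k ha) hf))
    ⟨ψ k '' C, hC.image_of_continuousOn ((if_continuousOn hψ).mono hCU),
      (image_mono hCU).trans (if_image_subset hψ), h0⟩

/-- one member: `∫_A Div_ω (χ a ∇f) dμ` in the chart. -/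
theorem ct_integral_wdiv_pou (hG : CtGeo d M h t) {κ : Type} {ψ : κ → E d → V}
    {U : κ → Set (E d)} {χ : κ → V → ℝ} (P : CtPou d M ψ U χ) (k : κ) {a f : V → ℝ}
    (ha : SmoothAlong d M a) (hf : SmoothAlong d M f) {A : Set V} (hA : MeasurableSet A) :
    ∫ x in A, wdiv d M h t (fun y => χ k y * a y) f x ∂(wvol d M h t) =
      ∫ u in ctPre (ψ k) (U k) A,
        Gmt.gmtDiv (ctField h t (ψ k) (U k) (fun x => χ k x * a x) f) u := by
  obtain ⟨C, hC, hCU, h0⟩ := P.cs_wdiv hG k ha hf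
  have hψ := P.param k
  have hb := ct_smoothAlong_pou_mul P k ha
  have hpre : MeasurableSet (ctPre (ψ k) (U k) A) := ct_measurableSet_pre hψ hA
  have himg : ψ k '' ctPre (ψ k) (U k) A = A ∩ ψ k '' U k := image_preimage_inter _ _ _
  have h1 := ct_integral_wvol_chart hG hψ (B := ctPre (ψ k) (U k) A) inter_subset_right hpre
    (wdiv d M h t (fun y => χ k y * a y) f)
  rw [himg] at h1
  have h2 : ∫ u in ctPre (ψ k) (U k) A,
        Gmt.gmtDiv (ctField h t (ψ k) (U k) (fun x => χ k x * a x) f) u =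
      ∫ u in ctPre (ψ k) (U k) A,
        wdiv d M h t (fun y => χ k y * a y) f (ψ k u) * ctRho h t (ψ k) u :=
    setIntegral_congr_fun hpre fun u hu => ct_field_div hG hb hf hψ hu.2
  rw [h2, ← h1]
  refine setIntegral_eq_of_subset_of_ae_sdiff_eq_zero hA.nullMeasurableSet inter_subset_left ?_
  filter_upwards [ct_wvol_ae_mem hG] with x hx hxA
  exact h0 x hx fun hxC => hxA.2 ⟨hxA.1, image_mono hCU hxC⟩

/-- the decomposition of the integral. -/
theorem ct_setIntegral_wdiv_sum (hG : CtGeo d M h t) (P : CtPou d M ψ U χ) {a f : V → ℝ}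
    (ha : SmoothAlong d M a) (hf : SmoothAlong d M f) {F : Finset κ}
    (hF : ∀ x ∈ M, wdiv d M h t a f x = ∑ k ∈ F, wdiv d M h t (fun y => χ k y * a y) f x)
    (A : Set V) :
    ∫ x in A, wdiv d M h t a f x ∂(wvol d M h t) =
      ∑ k ∈ F, ∫ x in A, wdiv d M h t (fun y => χ k y * a y) f x ∂(wvol d M h t) := by
  rw [← integral_finsetSum _ fun k _ => (P.integrable_wdiv hG k ha hf).integrableOn]
  refine integral_congr_ae (ae_restrict_of_ae ?_)
  filter_upwards [ct_wvol_ae_mem hG] with x hx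
  exact hF x hx

omit [FiniteDimensional ℝ V] [MeasurableSpace V] [BorelSpace V] in
/-- the partition of unity sums to one where `a ≠ 0`. -/
theorem ct_pou_sum_mul {a : V → ℝ} {F : Finset κ} (hF : ∀ x ∈ M, a x = ∑ k ∈ F, χ k x * a x)
    {x : V} (hx : x ∈ M) {c : ℝ} (hc : a x = 0 → c = 0) : ∑ k ∈ F, χ k x * c = c := by
  by_cases h0 : a x = 0
  · simp [hc h0]
  · have h1 := hF x hx
    rw [← Finset.sum_mul] at h1
    have h2 : ∑ k ∈ F, χ k x = 1 := by
      have h3 : (∑ k ∈ F, χ k x - 1) * a x = 0 := by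
        rw [sub_mul, ← h1, one_mul, sub_self]
      rcases mul_eq_zero.1 h3 with h4 | h4
      · linarith
      · exact absurd h4 h0
    rw [← Finset.sum_mul, h2, one_mul]

/-- integrals against the perimeter measure, decomposed. -/
theorem ct_integral_wper_sum (hG : CtGeo d M h t) (P : CtPou d M ψ U χ) {A : Set V}
    (hA : CtLF d M h t A) {a : V → ℝ} {F : Finset κ}
    (hF : ∀ x ∈ M, a x = ∑ k ∈ F, χ k x * a x) {g : V → ℝ} (hg : ContinuousOn g M)
    (hga : ∀ x ∈ M, a x = 0 → g x = 0) :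
    (∀ k, Integrable (fun x => χ k x * g x) (wper d M h t A)) ∧
    ∫ x, g x ∂(wper d M h t A) = ∑ k ∈ F, ∫ x, χ k x * g x ∂(wper d M h t A) := by
  have hint : ∀ k, Integrable (fun x => χ k x * g x) (wper d M h t A) := fun k =>
    ct_integrable_cs (ct_measurableSet hG.mfd) (ct_wper_compl_M hG hA.meas) hA.fin
      ((P.smooth k).continuous.continuousOn.mul hg) (P.cs_mul k g)
  refine ⟨hint, ?_⟩
  rw [← integral_finsetSum _ fun k _ => hint k]
  refine integral_congr_ae ?_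
  have hMae : ∀ᵐ x ∂(wper d M h t A), x ∈ M := by
    rw [ae_iff]
    exact ct_wper_compl_M hG hA.meas
  filter_upwards [hMae] with x hx
  exact (ct_pou_sum_mul hF hx (hga x hx)).symm

/-- integral of one member against the perimeter measure, in the chart. -/
theorem ct_bvf_integral_wper (P : CtPou d M ψ U χ) (hG : CtGeo d M h t) (k : κ) {A : Set V}
    (hA : MeasurableSet A) (g : V → ℝ) :
    ∫ x, χ k x * g x ∂(wper d M h t A) =
      ∫ u in U k, χ k (ψ k u) * g (ψ k u) ∂(Gmt.gmtPerM (ctA h t (ψ k)) (ctPre (ψ k) (U k) A)) := by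
  obtain ⟨C, hC, hCU, hsupp⟩ := P.cpt k
  have hψ := P.param k
  rw [← ct_integral_wper_chart hG hψ hA subset_rfl (if_open hψ).measurableSet
    (fun x => χ k x * g x)]
  symm
  refine setIntegral_eq_integral_of_ae_compl_eq_zero ?_
  have hMae : ∀ᵐ x ∂(wper d M h t A), x ∈ M := by
    rw [ae_iff]
    exact ct_wper_compl_M hG hA
  filter_upwards [hMae] with x hx hxU
  have : χ k x = 0 := by
    by_contra hne
    exact hxU (image_mono hCU (hsupp x hx hne))
  simp only [this, zero_mul]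

end pou

/-- integration by parts on `M`. -/
theorem ct_ibp (hG : CtGeo d M h t) {a f : V → ℝ} (ha : SmoothAlong d M a)
    (hf : SmoothAlong d M f) (hc : CtCS M a) : ∫ x, wdiv d M h t a f x ∂(wvol d M h t) = 0 := by
  obtain ⟨κ, hκ, ψ, U, χ, P⟩ := ct_exists_pou hG.mfd
  obtain ⟨F, hFa, hFw⟩ := ct_wdiv_sum hG P ha hf hc
  rw [← setIntegral_univ, ct_setIntegral_wdiv_sum hG P ha hf hFw univ]
  refine Finset.sum_eq_zero fun k _ => ?_
  have hT := ct_field_test hG P k ha hf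
  have e : ctPre (ψ k) (U k) univ = U k := by simp [ctPre]
  rw [ct_integral_wdiv_pou hG P k ha hf MeasurableSet.univ, e,
    setIntegral_eq_integral_of_forall_compl_eq_zero
      (fun x hx => Gmt.gmtDiv_eq_zero_of_notMem (fun h' => hx (hT.sub h'))),
    Gmt.integral_gmtDiv_eq_zero hT]

/-- `∫_A Div_ω (a ∇f) dμ ≤ ∫ |a| |df| dP_ω(A)`. -/
theorem ct_gg_le (hG : CtGeo d M h t) {A : Set V} (hA : CtLF d M h t A) {a f : V → ℝ}
    (ha : SmoothAlong d M a) (hf : SmoothAlong d M f) (hc : CtCS M a) :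
    ∫ x in A, wdiv d M h t a f x ∂(wvol d M h t) ≤
      ∫ x, |a x| * gradN d M h f x ∂(wper d M h t A) := by
  obtain ⟨κ, hκ, ψ, U, χ, P⟩ := ct_exists_pou hG.mfd
  obtain ⟨F, hFa, hFw⟩ := ct_wdiv_sum hG P ha hf hc
  have hgc : ContinuousOn (fun x => |a x| * gradN d M h f x) M :=
    (if_smoothAlong_continuousOn hG.mfd ha).abs.mul (ct_bvd_gradN_continuousOn hG hf)
  obtain ⟨hint, hsum⟩ := ct_integral_wper_sum hG P hA hFa hgc
    (fun x _ h0 => by simp only [h0, abs_zero, zero_mul])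
  rw [ct_setIntegral_wdiv_sum hG P ha hf hFw A, hsum]
  refine Finset.sum_le_sum fun k _ => ?_
  have hψ := P.param k
  have hT := ct_field_test hG P k ha hf
  have hn : ∀ x, 0 ≤ χ k x * (|a x| * gradN d M h f x) := fun x =>
    mul_nonneg (P.nonneg k x) (mul_nonneg (abs_nonneg _) (Real.sqrt_nonneg _))
  have hwc : ContinuousOn (fun u => χ k (ψ k u) * (|a (ψ k u)| * gradN d M h f (ψ k u))) (U k) :=
    (((P.smooth k).continuous.continuousOn.mul hgc).comp (if_continuousOn hψ)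
      (fun u hu => if_mem hψ hu))
  have h1 := Gmt.gmt_div_le_lintegral (if_open hψ) (ct_gmtInt hG hψ) (hA.chart hG hψ) hT hwc
    (fun u hu ξ => by
      have h2 := ct_field_adm hG (a := fun x => χ k x * a x) hf hψ hu ξ
      simp only [abs_mul, abs_of_nonneg (P.nonneg k _)] at h2
      rw [mul_assoc (χ k (ψ k u))] at h2
      exact h2)
  rw [← ct_lintegral_wper_chart' hG hψ hA.meas subset_rfl (if_open hψ).measurableSet
    (fun x => ENNReal.ofReal (χ k x * (|a x| * gradN d M h f x)))] at h1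
  have h3 : ENNReal.ofReal (∫ u in ctPre (ψ k) (U k) A,
      Gmt.gmtDiv (ctField h t (ψ k) (U k) (fun x => χ k x * a x) f) u) ≤
      ∫⁻ x, ENNReal.ofReal (χ k x * (|a x| * gradN d M h f x)) ∂(wper d M h t A) :=
    h1.trans (setLIntegral_le_lintegral _ _)
  rw [ct_integral_wdiv_pou hG P k ha hf hA.meas,
    integral_eq_lintegral_of_nonneg_ae (Eventually.of_forall hn) (hint k).aestronglyMeasurable]
  exact (ENNReal.ofReal_le_iff_le_toReal (hint k).lintegral_lt_top.ne).1 h3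

/-- a defining function read in a chart. -/
theorem ct_bvf_def_chart (hG : CtGeo d M h t) {A : Set V} {φ : V → ℝ} (hφ : CtDef d M h A φ)
    {ψ : E d → V} {U : Set (E d)} (hψ : IsParam M ψ U) :
    ContDiffOn ℝ ∞ (φ ∘ ψ) U ∧ (∀ y ∈ U, fderiv ℝ (φ ∘ ψ) y ≠ 0) ∧
      ((ctPre ψ U A ∩ U : Set (E d)) =ᵐ[volume] ({y | y ∈ U ∧ (φ ∘ ψ) y < 0} : Set (E d))) := by
  refine ⟨hφ.smooth ψ U hψ, fun y hy h0 => ?_, ?_⟩
  · have h1 := hφ.reg _ (if_mem hψ hy)
    rw [if_gradSq_eq hG.met hφ.smooth hψ hy] at h1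
    unfold gradSqC pdiff at h1
    simp [h0] at h1
  · rw [← measure_symmDiff_eq_zero_iff]
    refine measure_mono_null ?_ (ct_null_chart hG hψ hφ.eq)
    rintro y (⟨⟨⟨h1, h2⟩, -⟩, h3⟩ | ⟨⟨h1, h2⟩, h3⟩)
    · exact ⟨Or.inl ⟨h1, fun h4 => h3 ⟨h2, h4.2⟩⟩, h2⟩
    · exact ⟨Or.inr ⟨⟨if_mem hψ h1, h2⟩, fun h4 => h3 ⟨⟨h4, h1⟩, h1⟩⟩, h1⟩

/-- a smooth domain has locally finite perimeter. -/
theorem CtDef.lf (hG : CtGeo d M h t) {A : Set V} {φ : V → ℝ} (hA : MeasurableSet A) (hAM : A ⊆ M)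
    (hφ : CtDef d M h A φ) : CtLF d M h t A := by
  refine ctLF_of_chart hG hA hAM fun x hx => ?_
  obtain ⟨ψ, U, hψ, hxU⟩ := hG.mfd x hx
  obtain ⟨h1, h2, h3⟩ := ct_bvf_def_chart hG hφ hψ
  exact ⟨ψ, U, hψ, hxU, (Gmt.gmt_def_mu (if_open hψ) h1 h2 (ct_measurableSet_pre hψ hA) h3).1⟩

/-- Gauss-Green for a smooth domain `A = {φ < 0}`: the outer normal is `∇φ/|∇φ|`. -/
theorem ct_gg_def (hG : CtGeo d M h t) {A : Set V} {φ : V → ℝ} (hA : MeasurableSet A) (hAM : A ⊆ M)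
    (hφ : CtDef d M h A φ) {a f : V → ℝ} (ha : SmoothAlong d M a) (hf : SmoothAlong d M f)
    (hc : CtCS M a) :
    ∫ x in A, wdiv d M h t a f x ∂(wvol d M h t) =
      ∫ x, a x * gradIp d M h f φ x / gradN d M h φ x ∂(wper d M h t A) := by
  obtain ⟨κ, hκ, ψ, U, χ, P⟩ := ct_exists_pou hG.mfd
  obtain ⟨F, hFa, hFw⟩ := ct_wdiv_sum hG P ha hf hc
  have hLF := hφ.lf hG hA hAM
  have hgc : ContinuousOn (fun x => a x * gradIp d M h f φ x / gradN d M h φ x) M :=
    ((if_smoothAlong_continuousOn hG.mfd ha).mul (if_smoothAlong_continuousOn hG.mfd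
      (if_gradIp_smoothAlong hG.met hf hφ.smooth))).div (ct_bvd_gradN_continuousOn hG hφ.smooth)
      (fun x hx => (Real.sqrt_pos.2 (hφ.reg x hx)).ne')
  obtain ⟨hint, hsum⟩ := ct_integral_wper_sum hG P hLF hFa hgc
    (fun x _ h0 => by simp only [h0, zero_mul, zero_div])
  rw [ct_setIntegral_wdiv_sum hG P ha hf hFw A, hsum]
  refine Finset.sum_congr rfl fun k _ => ?_
  have hψ := P.param k
  have hT := ct_field_test hG P k ha hf
  obtain ⟨h1, h2, h3⟩ := ct_bvf_def_chart hG hφ hψ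
  rw [ct_integral_wdiv_pou hG P k ha hf hA, ct_bvf_integral_wper P hG k hA,
    Gmt.gmt_def_gg (if_open hψ) (ct_gmtInt hG hψ) h1 h2 (ct_measurableSet_pre hψ hA) h3 hT]
  refine setIntegral_congr_fun (if_open hψ).measurableSet fun u hu => ?_
  have hρ : 0 < ctRho h t (ψ k) u := ct_rho_pos hG hψ hu
  rw [ct_field_inner hG hf hφ.smooth hψ hu, ct_gmtDens hG hφ.smooth hψ hu, mul_assoc,
    mul_div_mul_left _ _ hρ.ne']
  ring

/-- the perimeter measure of a smooth domain lives on `{φ = 0}`. -/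
theorem ct_wper_def_level (hG : CtGeo d M h t) {A : Set V} {φ : V → ℝ} (hA : MeasurableSet A)
    (hφ : CtDef d M h A φ) : wper d M h t A {x | φ x ≠ 0} = 0 := by
  obtain ⟨ψ, U, hψ, hcov⟩ := if_exists_atlas hG.mfd
  have hsub : {x | φ x ≠ 0} ⊆ Mᶜ ∪ ⋃ k, ψ k '' (U k \ {y | (φ ∘ ψ k) y = 0}) := by
    intro x hx
    by_cases hxM : x ∈ M
    · right
      rw [hcov] at hxM
      obtain ⟨k, u, hu, rfl⟩ := mem_iUnion.1 hxM
      exact mem_iUnion.2 ⟨k, u, ⟨hu, hx⟩, rfl⟩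
    · exact Or.inl hxM
  refine measure_mono_null hsub (measure_union_null (ct_wper_compl_M hG hA)
    (measure_iUnion_null fun k => ?_))
  obtain ⟨h1, h2, h3⟩ := ct_bvf_def_chart hG hφ (hψ k)
  have ho : IsOpen (U k \ {y | (φ ∘ ψ k) y = 0}) := by
    have : U k \ {y | (φ ∘ ψ k) y = 0} = U k ∩ (φ ∘ ψ k) ⁻¹' {0}ᶜ := by
      ext y
      simp
    rw [this]
    exact h1.continuousOn.isOpen_inter_preimage (if_open (hψ k)) isOpen_compl_singleton
  rw [ct_wper_chart hG (hψ k) hA sdiff_subset ho.measurableSet]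
  exact Gmt.gmt_def_perM_null (if_open (hψ k)) (ct_gmtInt hG (hψ k)) h1 h2
    (ct_measurableSet_pre (hψ k) hA) h3

end Claimed.Agent.R315
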