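import Claimed.Agent.R315.Ct.BvB
import Claimed.Agent.R315.Pack003
import Claimed.Agent.Lib.Gmt.GgWeight

/-!
# Row 315, package Ct: file `BvP.lean` = TOOLS for the transfer chart -> manifold (used by `BvC` ... `BvF`).
Architect: helper75.   Package `L-Ct-BvP`.

Everything in V3-V7 is obtained from a chart lemma of `Lib/Gmt` by ONE device: an atlas `(ψ a, U a)` with a subordinate partition of unity `χ a` (`CtPou`)
whose members have COMPACT SUPPORT IN THE CHART (field `cpt`); weights are pulled back by `ctPull ψ U g = U.indicator (g ∘ ψ)`.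

PLAN
* `ct_exists_pou`.  CAUTION: `M` is not closed in `V`, and `M ∩ O` need not be closed in `O`; choose the cover carefully.  For `x ∈ M` take a parametrisation `(ψ, U)`, `ψ u = x`, `r > 0` with `closedBall u r ⊆ U`;
  `(ψ, ball u r)` is a parametrisation (`if_mono`), so `ψ '' ball u r = M ∩ O'`, `O'` open (`if_image`); take `ρ > 0` with `closedBall x ρ ⊆ O'` and put `O x = ball x ρ`.  Then `M ∩ O x ⊆ ψ '' closedBall u r`.
  Apply `if_exists_pou` to the family `O x` (`x : M`): `κ`, `k : κ → M`, `χ`.  `cpt`: `C = closedBall u r`.  `fin`: cover the compact set `K` by finitely many of the neighbourhoods `W` of the local finiteness statement.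
  `sum`: `∑ᶠ = 1` + finite support (`hasSum_of_...`: `finsum_eq_tsum`/`hasSum_sum_of_ne_finset_zero`; the support `{a | χ a x ≠ 0}` is finite by local finiteness at `x`).
* `CtPou.continuous_w`, `CtPou.smooth_w`: on the open set `U a` the function is `(χ a · g) ∘ ψ a` (continuous/smooth); its support is contained in the compact set `C ⊆ U a`, so it vanishes on the open set `Cᶜ`; `U a ∪ Cᶜ = univ`
  (`contDiff_iff_contDiffAt`, `ContDiffOn.contDiffAt`, `Filter.EventuallyEq`).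
* `CtPou.lintegral_eq_tsum`: `g x = ∑' a, ofReal (χ a x) * g x` on `M` (`ENNReal.tsum_mul_right`, `ENNReal.ofReal_tsum_of_nonneg`), a.e. because `μ Mᶜ = 0`; `lintegral_tsum`.
* `CtPou.lintegral_wper`, `CtPou.lintegral_wvol`: the integrand vanishes on `M \ ψ a '' U a`, and `μ Mᶜ = 0`: `∫⁻ = ∫⁻ in ψ a '' U a` (`setLIntegral_eq_of_..`/`lintegral_indicator`, `if_measurableSet_image`), then `ct_lintegral_wper_chart` (`ct_wvol_chart` + `if_lintegral_vol_image`).
* `ctConv_chart`: `K ⊆ U` compact; `ψ '' K` is compact in `M`; `volume (B) ≤ c⁻¹ ∫⁻_B ofReal √det = c⁻¹ vol (ψ '' B)` for `B ⊆ K`, `c = min_K √det > 0` (`if_vd_pos`, `if_vd_continuousOn`, `IsCompact.exists_isMinOn`); `ψ '' (symmDiff (pre A) (pre A') ∩ K) = symmDiff A A' ∩ ψ '' K`.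
* `ct_exists_compact_cover`: compactness of `K` and `if_image_mem_nhdsWithin` for the parametrisations `(ψ, ball u r)`.
* `ctConv_of_chart`: `ct_exists_compact_cover`, `vol (ψ '' B) = ∫⁻_B ofReal √det ≤ C volume B` on compact sets, finite sums of null sequences.
* `ct_measure_le_of_chart`: countable atlas `if_exists_atlas`, disjointify `B ∩ M = ⊔ B_k`, `B_k ⊆ ψ k '' U k` measurable (`disjointed`), `B_k = ψ k '' (U k ∩ ψ k ⁻¹' B_k)` (`if_image_inter_preimage`, `if_measurableSet_preimage`), `measure_iUnion`.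
* `ctA_apply`, `ct_gmtDens`: `if_bil_apply`; `pdiff f i u = fderiv ℝ f u (eb i) = gradient f u i`; `exp(-2t) det = ctRho²`; `Real.sqrt_mul_self`.
-/

set_option autoImplicit false
set_option linter.unusedSectionVars false
open scoped ContDiff ENNReal Topology
open MeasureTheory Claims.C0499 Set Filter

namespace Claimed.Agent.R315

variable {V : Type} [NormedAddCommGroup V] [NormedSpace ℝ V] [FiniteDimensional ℝ V]
  [MeasurableSpace V] [BorelSpace V]
variable {d : ℕ} {M : Set V} {h : Ten V} {t : V → ℝ}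

/-- an atlas with a subordinate partition of unity; the members have compact support in the charts. -/
structure CtPou {κ : Type} (d : ℕ) (M : Set V) (ψ : κ → E d → V) (U : κ → Set (E d))
    (χ : κ → V → ℝ) : Prop where
  param : ∀ a, IsParam M (ψ a) (U a)
  smooth : ∀ a, ContDiff ℝ ∞ (χ a)
  nonneg : ∀ a x, 0 ≤ χ a x
  cpt : ∀ a, ∃ C, IsCompact C ∧ C ⊆ U a ∧ ∀ x ∈ M, χ a x ≠ 0 → x ∈ ψ a '' C
  fin : ∀ K, IsCompact K → K ⊆ M → {a | ∃ x ∈ K, χ a x ≠ 0}.Finite
  sum : ∀ x ∈ M, HasSum (fun a => χ a x) 1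

/-- a function on `M` read in the parametrisation `(ψ, U)`, extended by `0`. -/
noncomputable def ctPull {d : ℕ} (ψ : E d → V) (U : Set (E d)) (g : V → ℝ) : E d → ℝ :=
  U.indicator (g ∘ ψ)

omit [MeasurableSpace V] [BorelSpace V] in
theorem ct_exists_pou (hM : IsMfd d M) :
    ∃ (κ : Type) (_ : Countable κ) (ψ : κ → E d → V) (U : κ → Set (E d)) (χ : κ → V → ℝ),
      CtPou d M ψ U χ := by
  classical
  -- local data
  have hloc : ∀ x : M, ∃ (ψ : E d → V) (U : Set (E d)) (u : E d) (r : ℝ) (O : Set V),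
      IsParam M ψ U ∧ Metric.closedBall u r ⊆ U ∧ IsOpen O ∧ ψ '' Metric.ball u r = M ∩ O ∧
        (x : V) ∈ O := by
    rintro ⟨x, hx⟩
    obtain ⟨ψ, U, hψ, u, hu, rfl⟩ := hM x hx
    obtain ⟨r, hr, hb⟩ := Metric.nhds_basis_closedBall.mem_iff.1 ((if_open hψ).mem_nhds hu)
    have hp : IsParam M ψ (Metric.ball u r) :=
      if_mono hψ Metric.isOpen_ball (Metric.ball_subset_closedBall.trans hb)
    obtain ⟨O, hO, he⟩ := if_image hp
    refine ⟨ψ, U, u, r, O, hψ, hb, hO, he, ?_⟩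
    have : ψ u ∈ M ∩ O := he ▸ mem_image_of_mem ψ (Metric.mem_ball_self hr)
    exact this.2
  choose ψ U u r O hψ hb hO he hxO using hloc
  obtain ⟨κ, hκ, k, χ, hsm, -, hsub, hnn, hlf, hone, -⟩ := if_exists_pou O hO
  have hMO : ∀ x ∈ M, x ∈ ⋃ i, O i := fun x hx => mem_iUnion.2 ⟨⟨x, hx⟩, hxO ⟨x, hx⟩⟩
  refine ⟨κ, hκ, fun a => ψ (k a), fun a => U (k a), χ, fun a => hψ (k a), hsm, hnn, fun a => ?_,
    fun K hK hKM => ?_, fun x hx => ?_⟩
  · refine ⟨Metric.closedBall (u (k a)) (r (k a)), isCompact_closedBall _ _, hb (k a),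
      fun x hx hne => ?_⟩
    have h1 : x ∈ M ∩ O (k a) := ⟨hx, hsub a (subset_tsupport _ hne)⟩
    rw [← he (k a)] at h1
    exact image_mono Metric.ball_subset_closedBall h1
  · choose! W hW hfin using hlf
    obtain ⟨T, hTK, hcov⟩ := hK.elim_nhds_subcover W fun x hx => hW x (hMO x (hKM hx))
    refine (T.finite_toSet.biUnion fun x hx => hfin x (hMO x (hKM (hTK x hx)))).subset ?_
    rintro a ⟨x, hx, hne⟩
    obtain ⟨y, hy, hxy⟩ := mem_iUnion₂.1 (hcov hx)
    exact mem_iUnion₂.2 ⟨y, hy, ⟨x, hne, hxy⟩⟩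
  · obtain ⟨W, hW, hfin⟩ := hlf x (hMO x hx)
    have hs : (Function.support fun a => χ a x).Finite := by
      refine hfin.subset fun a ha => ⟨x, ha, mem_of_mem_nhds hW⟩
    have h1 : HasSum (fun a => χ a x) (∑ a ∈ hs.toFinset, χ a x) :=
      hasSum_sum_of_ne_finset_zero fun a ha => by
        by_contra hne
        exact ha (hs.mem_toFinset.2 hne)
    rwa [← finsum_eq_sum_of_support_subset _ (by simp), hone x (hMO x hx)] at h1

section pou

variable {κ : Type} {ψ : κ → E d → V} {U : κ → Set (E d)} {χ : κ → V → ℝ}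

omit [FiniteDimensional ℝ V] [MeasurableSpace V] [BorelSpace V] in
/-- the support of a pulled back weight lies in the compact set of the field `cpt`. -/
theorem CtPou.bvp_support (P : CtPou d M ψ U χ) (a : κ) {C : Set (E d)} (hCU : C ⊆ U a)
    (hC : ∀ x ∈ M, χ a x ≠ 0 → x ∈ ψ a '' C) (g : V → ℝ) :
    Function.support (ctPull (ψ a) (U a) fun x => χ a x * g x) ⊆ C := by
  intro u hu
  have huU : u ∈ U a := by
    by_contra hn
    exact hu (indicator_of_notMem hn _)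
  have h1 : χ a (ψ a u) * g (ψ a u) ≠ 0 := by
    have := hu
    rwa [Function.mem_support, ctPull, indicator_of_mem huU] at this
  obtain ⟨c, hc, he⟩ := hC _ (if_mem (P.param a) huU) (left_ne_zero_of_mul h1)
  rwa [← if_injOn (P.param a) (hCU hc) huU he]

omit [FiniteDimensional ℝ V] [MeasurableSpace V] [BorelSpace V] in
theorem CtPou.bvp_eventually_zero (P : CtPou d M ψ U χ) (a : κ) {C : Set (E d)} (hCc : IsCompact C)
    (hCU : C ⊆ U a) (hC : ∀ x ∈ M, χ a x ≠ 0 → x ∈ ψ a '' C) (g : V → ℝ) {u : E d}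
    (hu : u ∉ U a) : (ctPull (ψ a) (U a) fun x => χ a x * g x) =ᶠ[𝓝 u] fun _ => 0 := by
  have hmem : Cᶜ ∈ 𝓝 u := hCc.isClosed.isOpen_compl.mem_nhds fun h => hu (hCU h)
  filter_upwards [hmem] with w hw
  by_contra hne
  exact hw (P.bvp_support a hCU hC g hne)

omit [FiniteDimensional ℝ V] [MeasurableSpace V] [BorelSpace V] in
theorem bvp_pull_eventuallyEq {ψ : E d → V} {U : Set (E d)} (hU : IsOpen U) (g : V → ℝ) {u : E d}
    (hu : u ∈ U) : ctPull ψ U g =ᶠ[𝓝 u] g ∘ ψ := by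
  filter_upwards [hU.mem_nhds hu] with w hw
  exact indicator_of_mem hw _

omit [MeasurableSpace V] [BorelSpace V] in
theorem CtPou.continuous_w (P : CtPou d M ψ U χ) (a : κ) {g : V → ℝ} (hg : ContinuousOn g M) :
    Continuous (ctPull (ψ a) (U a) fun x => χ a x * g x) ∧
      HasCompactSupport (ctPull (ψ a) (U a) fun x => χ a x * g x) ∧
      tsupport (ctPull (ψ a) (U a) fun x => χ a x * g x) ⊆ U a := by
  obtain ⟨C, hCc, hCU, hC⟩ := P.cpt a
  have hs := P.bvp_support a hCU hC g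
  refine ⟨?_, HasCompactSupport.of_support_subset_isCompact hCc hs,
    (closure_minimal hs hCc.isClosed).trans hCU⟩
  rw [continuous_iff_continuousAt]
  intro u
  by_cases hu : u ∈ U a
  · have hc : ContinuousOn ((fun x => χ a x * g x) ∘ ψ a) (U a) := by
      have h1 : ContinuousOn (fun x => χ a x * g x) M := (P.smooth a).continuous.continuousOn.mul hg
      exact h1.comp (if_continuousOn (P.param a)) fun w hw => if_mem (P.param a) hw
    exact ((hc.continuousAt ((if_open (P.param a)).mem_nhds hu))).congr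
      (bvp_pull_eventuallyEq (if_open (P.param a)) _ hu).symm
  · exact continuousAt_const.congr (P.bvp_eventually_zero a hCc hCU hC g hu).symm

omit [MeasurableSpace V] [BorelSpace V] in
theorem CtPou.smooth_w (P : CtPou d M ψ U χ) (a : κ) {g : V → ℝ} (hg : SmoothAlong d M g) :
    ContDiff ℝ ∞ (ctPull (ψ a) (U a) fun x => χ a x * g x) := by
  obtain ⟨C, hCc, hCU, hC⟩ := P.cpt a
  rw [contDiff_iff_contDiffAt]
  intro u
  by_cases hu : u ∈ U a
  · have hc : ContDiffOn ℝ ∞ ((fun x => χ a x * g x) ∘ ψ a) (U a) :=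
      ((P.smooth a).comp_contDiffOn (if_smooth (P.param a))).mul (hg _ _ (P.param a))
    exact (hc.contDiffAt ((if_open (P.param a)).mem_nhds hu)).congr_of_eventuallyEq
      (bvp_pull_eventuallyEq (if_open (P.param a)) _ hu)
  · exact contDiffAt_const.congr_of_eventuallyEq (P.bvp_eventually_zero a hCc hCU hC g hu)

omit [MeasurableSpace V] [BorelSpace V] in
/-- on a compact set the partition of unity is a finite sum. -/
theorem CtPou.exists_finset (P : CtPou d M ψ U χ) {K : Set V} (hK : IsCompact K) (hKM : K ⊆ M) :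
    ∃ F : Finset κ, (∀ a ∉ F, ∀ x ∈ K, χ a x = 0) ∧ ∀ x ∈ K, ∑ a ∈ F, χ a x = 1 := by
  have hf := P.fin K hK hKM
  have h0 : ∀ a ∉ hf.toFinset, ∀ x ∈ K, χ a x = 0 := by
    intro a ha x hx
    by_contra hne
    exact ha (hf.mem_toFinset.2 ⟨x, hx, hne⟩)
  refine ⟨hf.toFinset, h0, fun x hx => ?_⟩
  exact (hasSum_sum_of_ne_finset_zero fun a ha => h0 a ha x hx).unique (P.sum x (hKM hx))

theorem CtPou.lintegral_eq_tsum [Countable κ] (P : CtPou d M ψ U χ) {μ : Measure V}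
    (hμ : μ Mᶜ = 0) {g : V → ℝ≥0∞} (hg : Measurable g) :
    ∫⁻ x, g x ∂μ = ∑' a, ∫⁻ x, ENNReal.ofReal (χ a x) * g x ∂μ := by
  rw [← lintegral_tsum (f := fun a x => ENNReal.ofReal (χ a x) * g x) fun a =>
    ((ENNReal.measurable_ofReal.comp (P.smooth a).continuous.measurable).mul hg).aemeasurable]
  refine lintegral_congr_ae ?_
  have hae : ∀ᵐ x ∂μ, x ∈ M := by
    rw [ae_iff]
    exact hμ
  filter_upwards [hae] with x hx
  rw [ENNReal.tsum_mul_right, ← ENNReal.ofReal_tsum_of_nonneg (fun a => P.nonneg a x)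
    (P.sum x hx).summable, (P.sum x hx).tsum_eq, ENNReal.ofReal_one, one_mul]

omit [FiniteDimensional ℝ V] in
/-- the weight `χ a` vanishes a.e. off the chart image. -/
theorem CtPou.bvp_ae_zero (P : CtPou d M ψ U χ) (a : κ) {μ : Measure V} (hμ : μ Mᶜ = 0) :
    ∀ᵐ x ∂μ, x ∉ ψ a '' U a → χ a x = 0 := by
  obtain ⟨C, -, hCU, hC⟩ := P.cpt a
  have hae : ∀ᵐ x ∂μ, x ∈ M := by
    rw [ae_iff]
    exact hμ
  filter_upwards [hae] with x hx hn
  by_contra hne
  exact hn (image_mono hCU (hC x hx hne))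

omit [FiniteDimensional ℝ V] in
theorem CtPou.bvp_lintegral_image (P : CtPou d M ψ U χ) (a : κ) {μ : Measure V} (hμ : μ Mᶜ = 0)
    (g : V → ℝ≥0∞) :
    ∫⁻ x, ENNReal.ofReal (χ a x) * g x ∂μ = ∫⁻ x in ψ a '' U a, ENNReal.ofReal (χ a x) * g x ∂μ := by
  have hm : MeasurableSet (ψ a '' U a) :=
    if_measurableSet_image (P.param a) (if_open (P.param a)).measurableSet Subset.rfl
  rw [← lintegral_indicator hm]
  refine lintegral_congr_ae ?_
  filter_upwards [P.bvp_ae_zero a hμ] with x hx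
  by_cases hxm : x ∈ ψ a '' U a
  · rw [indicator_of_mem hxm]
  · rw [indicator_of_notMem hxm, hx hxm, ENNReal.ofReal_zero, zero_mul]

theorem CtPou.lintegral_wper (P : CtPou d M ψ U χ) (hG : CtGeo d M h t) (a : κ) {A : Set V}
    (hA : MeasurableSet A) {g : V → ℝ≥0∞} (hg : Measurable g) :
    ∫⁻ x, ENNReal.ofReal (χ a x) * g x ∂(wper d M h t A) =
      ∫⁻ u in U a, ENNReal.ofReal (χ a (ψ a u)) * g (ψ a u)
        ∂(Gmt.gmtPerM (ctA h t (ψ a)) (ctPre (ψ a) (U a) A)) := by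
  rw [P.bvp_lintegral_image a (ct_wper_compl_M hG hA) g,
    ct_lintegral_wper_chart' hG (P.param a) hA Subset.rfl (if_open (P.param a)).measurableSet]

theorem CtPou.lintegral_wvol (P : CtPou d M ψ U χ) (hG : CtGeo d M h t) (a : κ)
    (g : V → ℝ≥0∞) :
    ∫⁻ x, ENNReal.ofReal (χ a x) * g x ∂(wvol d M h t) =
      ∫⁻ u in U a, ENNReal.ofReal (χ a (ψ a u) * ctRho h t (ψ a) u) * g (ψ a u) := by
  rw [P.bvp_lintegral_image a (ct_wvol_compl hG) g,
    ct_lintegral_wvol_chart hG (P.param a) Subset.rfl (if_open (P.param a)).measurableSet]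
  refine setLIntegral_congr_fun (if_open (P.param a)).measurableSet fun u hu => ?_
  rw [← mul_assoc, mul_comm (χ a (ψ a u)), ENNReal.ofReal_mul (ct_rho_pos hG (P.param a) hu).le]

theorem CtPou.integral_wvol (P : CtPou d M ψ U χ) (hG : CtGeo d M h t) (a : κ) (g : V → ℝ) :
    ∫ x, χ a x * g x ∂(wvol d M h t) =
      ∫ u in U a, χ a (ψ a u) * g (ψ a u) * ctRho h t (ψ a) u := by
  rw [← setIntegral_eq_integral_of_ae_compl_eq_zero (s := ψ a '' U a),
    ct_integral_wvol_chart hG (P.param a) Subset.rfl (if_open (P.param a)).measurableSet]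
  filter_upwards [P.bvp_ae_zero a (ct_wvol_compl hG)] with x hx hn
  rw [hx hn, zero_mul]

end pou

/-! ### convergence of phases in charts -/

/-- on a compact subset of a chart the Lebesgue measure is controlled by the volume of the image. -/
theorem bvp_volume_le (hG : CtGeo d M h t) {ψ : E d → V} {U : Set (E d)} (hψ : IsParam M ψ U)
    {K : Set (E d)} (hK : IsCompact K) (hKU : K ⊆ U) :
    ∃ c : ℝ≥0∞, c ≠ ⊤ ∧ ∀ B ⊆ K, volume B ≤ c * vol d M h (ψ '' B) := by
  obtain ⟨c₀, hc₀, hle⟩ := hK.exists_forall_le' ((if_vd_continuousOn hG.ten hψ).mono hKU)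
    (a := 0) fun u hu => if_vd_pos hG.met hψ (hKU hu)
  have h0 : ENNReal.ofReal c₀ ≠ 0 := (ENNReal.ofReal_pos.2 hc₀).ne'
  refine ⟨(ENNReal.ofReal c₀)⁻¹, ENNReal.inv_ne_top.2 h0, fun B hB => ?_⟩
  rw [← ENNReal.mul_le_iff_le_inv h0 ENNReal.ofReal_ne_top]
  set T := toMeasurable (vol d M h) (ψ '' B) with hT
  have hTm : MeasurableSet T := measurableSet_toMeasurable _ _
  have hB'm : MeasurableSet (K ∩ ψ ⁻¹' T) :=
    if_measurableSet_inter_preimage hψ hKU hK.measurableSet hTm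
  have hBB' : B ⊆ K ∩ ψ ⁻¹' T := fun u hu =>
    ⟨hB hu, subset_toMeasurable _ _ (mem_image_of_mem ψ hu)⟩
  calc ENNReal.ofReal c₀ * volume B ≤ ENNReal.ofReal c₀ * volume (K ∩ ψ ⁻¹' T) := by gcongr
    _ = ∫⁻ _ in K ∩ ψ ⁻¹' T, ENNReal.ofReal c₀ := by rw [setLIntegral_const]
    _ ≤ ∫⁻ u in K ∩ ψ ⁻¹' T, ENNReal.ofReal (Real.sqrt (cm h ψ u).det) :=
        setLIntegral_mono' hB'm fun u hu => ENNReal.ofReal_le_ofReal (hle u hu.1)
    _ = vol d M h (ψ '' (K ∩ ψ ⁻¹' T)) :=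
        (if_vol_image hG.mfd h hψ (inter_subset_left.trans hKU) hB'm).symm
    _ ≤ vol d M h T := measure_mono (by rintro _ ⟨u, hu, rfl⟩; exact hu.2)
    _ = vol d M h (ψ '' B) := measure_toMeasurable _

/-- on a compact subset of a chart the volume of the image is controlled by the Lebesgue measure. -/
theorem bvp_vol_le (hG : CtGeo d M h t) {ψ : E d → V} {U : Set (E d)} (hψ : IsParam M ψ U)
    {K : Set (E d)} (hK : IsCompact K) (hKU : K ⊆ U) :
    ∃ c : ℝ≥0∞, c ≠ ⊤ ∧ ∀ B ⊆ K, vol d M h (ψ '' B) ≤ c * volume B := by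
  obtain ⟨C₀, hC₀⟩ := hK.bddAbove_image ((if_vd_continuousOn hG.ten hψ).mono hKU)
  refine ⟨ENNReal.ofReal C₀, ENNReal.ofReal_ne_top, fun B hB => ?_⟩
  have hB'm : MeasurableSet (toMeasurable volume B ∩ K) :=
    (measurableSet_toMeasurable _ _).inter hK.measurableSet
  have hBB' : B ⊆ toMeasurable volume B ∩ K := fun u hu => ⟨subset_toMeasurable _ _ hu, hB hu⟩
  calc vol d M h (ψ '' B) ≤ vol d M h (ψ '' (toMeasurable volume B ∩ K)) :=
        measure_mono (image_mono hBB')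
    _ = ∫⁻ u in toMeasurable volume B ∩ K, ENNReal.ofReal (Real.sqrt (cm h ψ u).det) :=
        if_vol_image hG.mfd h hψ (inter_subset_right.trans hKU) hB'm
    _ ≤ ∫⁻ _ in toMeasurable volume B ∩ K, ENNReal.ofReal C₀ :=
        setLIntegral_mono' hB'm fun u hu =>
          ENNReal.ofReal_le_ofReal (hC₀ (mem_image_of_mem _ hu.2))
    _ = ENNReal.ofReal C₀ * volume (toMeasurable volume B ∩ K) := by rw [setLIntegral_const]
    _ ≤ ENNReal.ofReal C₀ * volume (toMeasurable volume B) := by gcongr; exact inter_subset_left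
    _ = ENNReal.ofReal C₀ * volume B := by rw [measure_toMeasurable]

theorem ctConv_chart (hG : CtGeo d M h t) {A : ℕ → Set V} {A' : Set V}
    (hc : CtConv d M h A A') {ψ : E d → V} {U : Set (E d)} (hψ : IsParam M ψ U) :
    Gmt.GmtConv U (fun i => ctPre ψ U (A i)) (ctPre ψ U A') := by
  intro K hK hKU
  obtain ⟨c, hc0, hcB⟩ := bvp_volume_le hG hψ hK hKU
  have hKc : IsCompact (ψ '' K) := hK.image_of_continuousOn ((if_continuousOn hψ).mono hKU)
  have hKM : ψ '' K ⊆ M := (image_mono hKU).trans (if_image_subset hψ)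
  have h1 := hc (ψ '' K) hKc hKM
  have h2 : Tendsto (fun i => c * vol d M h (symmDiff (A i) A' ∩ ψ '' K)) atTop (𝓝 0) := by
    have := ENNReal.Tendsto.const_mul h1 (Or.inr hc0)
    simpa using this
  refine tendsto_of_tendsto_of_tendsto_of_le_of_le tendsto_const_nhds h2 (fun _ => zero_le) fun i => ?_
  refine (hcB _ inter_subset_right).trans ?_
  refine mul_le_mul_right (measure_mono ?_) c
  rintro _ ⟨u, ⟨hu, huK⟩, rfl⟩
  refine ⟨?_, mem_image_of_mem _ huK⟩
  rcases hu with ⟨h1, h2⟩ | ⟨h1, h2⟩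
  · exact Or.inl ⟨h1.1, fun h => h2 ⟨h, h1.2⟩⟩
  · exact Or.inr ⟨h1.1, fun h => h2 ⟨h, h1.2⟩⟩

omit [FiniteDimensional ℝ V] [MeasurableSpace V] [BorelSpace V] in
/-- compact cover by charts with an additional property. -/
theorem bvp_exists_compact_cover {K : Set V} (hK : IsCompact K)
    (Q : (E d → V) → Set (E d) → Prop)
    (hc : ∀ x ∈ K, ∃ (ψ : E d → V) (U : Set (E d)), IsParam M ψ U ∧ x ∈ ψ '' U ∧ Q ψ U) :
    ∃ (n : ℕ) (ψ : Fin n → E d → V) (U C : Fin n → Set (E d)), (∀ j, IsParam M (ψ j) (U j)) ∧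
      (∀ j, Q (ψ j) (U j)) ∧
      (∀ j, IsCompact (C j)) ∧ (∀ j, C j ⊆ U j) ∧ K ⊆ ⋃ j, ψ j '' C j := by
  classical
  have hKM : K ⊆ M := by
    intro x hx
    obtain ⟨ψ, U, hψ, hxU, -⟩ := hc x hx
    exact if_image_subset hψ hxU
  have hloc : ∀ x ∈ K, ∃ (ψ : E d → V) (U C : Set (E d)), IsParam M ψ U ∧ Q ψ U ∧ IsCompact C ∧
      C ⊆ U ∧ ψ '' C ∈ 𝓝[K] x := by
    intro x hx
    obtain ⟨ψ, U, hψ, ⟨u, hu, rfl⟩, hQ⟩ := hc x hx
    obtain ⟨r, hr, hb⟩ := Metric.nhds_basis_closedBall.mem_iff.1 ((if_open hψ).mem_nhds hu)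
    have hp : IsParam M ψ (Metric.ball u r) :=
      if_mono hψ Metric.isOpen_ball (Metric.ball_subset_closedBall.trans hb)
    refine ⟨ψ, U, Metric.closedBall u r, hψ, hQ, isCompact_closedBall _ _, hb, ?_⟩
    have h1 := if_image_mem_nhdsWithin hp (Metric.mem_ball_self hr)
    exact mem_of_superset (nhdsWithin_mono _ hKM h1) (image_mono Metric.ball_subset_closedBall)
  choose! ψ U C hψ hQ hCc hCU hnh using hloc
  obtain ⟨T, hTK, hcov⟩ := hK.elim_nhdsWithin_subcover (fun x => ψ x '' C x) hnh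
  refine ⟨T.card, fun j => ψ (T.equivFin.symm j), fun j => U (T.equivFin.symm j),
    fun j => C (T.equivFin.symm j), fun j => hψ _ (hTK _ (T.equivFin.symm j).2),
    fun j => hQ _ (hTK _ (T.equivFin.symm j).2), fun j => hCc _ (hTK _ (T.equivFin.symm j).2),
    fun j => hCU _ (hTK _ (T.equivFin.symm j).2), fun x hx => ?_⟩
  obtain ⟨y, hy, hxy⟩ := mem_iUnion₂.1 (hcov hx)
  refine mem_iUnion.2 ⟨T.equivFin ⟨y, hy⟩, ?_⟩
  simpa using hxy

omit [MeasurableSpace V] [BorelSpace V] in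
/-- a compact subset of `M` is covered by finitely many images of compact subsets of charts taken
from a given covering family of charts. -/
theorem ct_exists_compact_cover {K : Set V} (hK : IsCompact K)
    (hc : ∀ x ∈ K, ∃ (ψ : E d → V) (U : Set (E d)), IsParam M ψ U ∧ x ∈ ψ '' U) :
    ∃ (n : ℕ) (ψ : Fin n → E d → V) (U C : Fin n → Set (E d)), (∀ j, IsParam M (ψ j) (U j)) ∧
      (∀ j, IsCompact (C j)) ∧ (∀ j, C j ⊆ U j) ∧ K ⊆ ⋃ j, ψ j '' C j := by
  obtain ⟨n, ψ, U, C, h1, -, h2, h3, h4⟩ := bvp_exists_compact_cover hK (fun _ _ => True)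
    fun x hx => by
      obtain ⟨ψ, U, hψ, hxU⟩ := hc x hx
      exact ⟨ψ, U, hψ, hxU, trivial⟩
  exact ⟨n, ψ, U, C, h1, h2, h3, h4⟩

theorem ctConv_of_chart (hG : CtGeo d M h t) {A : ℕ → Set V} {A' : Set V}
    (hc : ∀ x ∈ M, ∃ (ψ : E d → V) (U : Set (E d)), IsParam M ψ U ∧ x ∈ ψ '' U ∧
      Gmt.GmtConv U (fun i => ctPre ψ U (A i)) (ctPre ψ U A')) : CtConv d M h A A' := by
  intro K hK hKM
  obtain ⟨n, ψ, U, C, hp, hQ, hCc, hCU, hcov⟩ := bvp_exists_compact_cover (M := M) hK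
    (fun ψ U => Gmt.GmtConv U (fun i => ctPre ψ U (A i)) (ctPre ψ U A')) fun x hx => hc x (hKM hx)
  choose c hc0 hcB using fun j => bvp_vol_le hG (hp j) (hCc j) (hCU j)
  have h2 : Tendsto (fun i => ∑ j, c j * volume
      (symmDiff (ctPre (ψ j) (U j) (A i)) (ctPre (ψ j) (U j) A') ∩ C j)) atTop (𝓝 0) := by
    have h3 : ∀ j ∈ (Finset.univ : Finset (Fin n)), Tendsto (fun i => c j * volume
        (symmDiff (ctPre (ψ j) (U j) (A i)) (ctPre (ψ j) (U j) A') ∩ C j)) atTop (𝓝 (c j * 0)) :=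
      fun j _ => ENNReal.Tendsto.const_mul (hQ j (C j) (hCc j) (hCU j)) (Or.inr (hc0 j))
    have := tendsto_finsetSum _ h3
    simpa using this
  refine tendsto_of_tendsto_of_tendsto_of_le_of_le tendsto_const_nhds h2 (fun _ => zero_le) fun i => ?_
  have hsub : symmDiff (A i) A' ∩ K ⊆ ⋃ j, ψ j ''
      (symmDiff (ctPre (ψ j) (U j) (A i)) (ctPre (ψ j) (U j) A') ∩ C j) := by
    rintro x ⟨hx, hxK⟩
    obtain ⟨j, u, hu, rfl⟩ := mem_iUnion.1 (hcov hxK)
    refine mem_iUnion.2 ⟨j, u, ⟨?_, hu⟩, rfl⟩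
    rcases hx with ⟨h1, h2⟩ | ⟨h1, h2⟩
    · exact Or.inl ⟨⟨h1, hCU j hu⟩, fun h => h2 h.1⟩
    · exact Or.inr ⟨⟨h1, hCU j hu⟩, fun h => h2 h.1⟩
  calc vol d M h (symmDiff (A i) A' ∩ K) ≤ vol d M h (⋃ j, ψ j ''
      (symmDiff (ctPre (ψ j) (U j) (A i)) (ctPre (ψ j) (U j) A') ∩ C j)) := measure_mono hsub
    _ ≤ ∑ j, vol d M h (ψ j ''
      (symmDiff (ctPre (ψ j) (U j) (A i)) (ctPre (ψ j) (U j) A') ∩ C j)) :=
        measure_iUnion_fintype_le _ _
    _ ≤ _ := Finset.sum_le_sum fun j _ => hcB j _ inter_subset_right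

/-- comparison of measures chart by chart. -/
theorem ct_measure_le_of_chart (hM : IsMfd d M) {μ ν : Measure V} (hμ : μ Mᶜ = 0)
    (hc : ∀ (ψ : E d → V) (U : Set (E d)), IsParam M ψ U → ∀ B ⊆ U, MeasurableSet B →
      μ (ψ '' B) ≤ ν (ψ '' B)) : μ ≤ ν := by
  obtain ⟨ψ, U, D, hp, hDm, hDC, hdisj, hD⟩ := if_exists_atlas_partition hM
  rw [Measure.le_iff]
  intro Y hY
  have e : ∀ k, ψ k '' (U k ∩ ψ k ⁻¹' (Y ∩ D k)) = Y ∩ D k := by
    intro k
    rw [image_inter_preimage]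
    exact inter_eq_right.2 (inter_subset_right.trans (hDC k))
  have hdis : Pairwise (Function.onFun Disjoint fun k => Y ∩ D k) :=
    fun i j hij => (hdisj hij).mono inter_subset_right inter_subset_right
  have h2 : Y ∩ M = ⋃ k, Y ∩ D k := by rw [← hD, inter_iUnion]
  calc μ Y = μ (Y ∩ M) := (measure_inter_conull hμ).symm
    _ = ∑' k, μ (Y ∩ D k) := by rw [h2, measure_iUnion hdis fun k => hY.inter (hDm k)]
    _ ≤ ∑' k, ν (Y ∩ D k) := by
        refine ENNReal.tsum_le_tsum fun k => ?_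
        have := hc (ψ k) (U k) (hp k) _ inter_subset_left
          (if_measurableSet_preimage (hp k) (hY.inter (hDm k)))
        rwa [e k] at this
    _ = ν (Y ∩ M) := by rw [h2, measure_iUnion hdis fun k => hY.inter (hDm k)]
    _ ≤ ν Y := measure_mono inter_subset_left

/-! ### the chart integrand -/

omit [FiniteDimensional ℝ V] [MeasurableSpace V] [BorelSpace V] in
theorem ctA_apply (h : Ten V) (t : V → ℝ) (ψ : E d → V) (u ξ η : E d)
    (hdet : 0 ≤ (cm h ψ u).det) :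
    ctA h t ψ u ξ η = ctRho h t ψ u ^ 2 * ∑ i, ∑ j, (cm h ψ u)⁻¹ i j * (ξ i * η j) := by
  have he : Real.exp (-(2 * t (ψ u))) = Real.exp (-t (ψ u)) ^ 2 := by
    rw [← Real.exp_nat_mul]
    congr 1
    push_cast
    ring
  unfold ctA
  rw [if_bil_smul]
  show (Real.exp (-(2 * t (ψ u))) * (cm h ψ u).det) * if_bil (cm h ψ u)⁻¹ ξ η = _
  rw [if_bil_apply, ctRho, mul_pow, Real.sq_sqrt hdet, he]

theorem bvp_gradient_apply (f : E d → ℝ) (u : E d) (i : Fin d) :
    gradient f u i = pdiff f i u := by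
  rw [← if_inner_eb, gradient, InnerProductSpace.toDual_symm_apply]
  rfl

omit [MeasurableSpace V] [BorelSpace V] in
/-- `√(A ∇f ∇f) = ω √(det G) |df|`. -/
theorem ct_gmtDens (hG : CtGeo d M h t) {f : V → ℝ} (hf : SmoothAlong d M f) {ψ : E d → V}
    {U : Set (E d)} (hψ : IsParam M ψ U) {u : E d} (hu : u ∈ U) :
    Gmt.gmtDens (ctA h t ψ) (f ∘ ψ) u = ctRho h t ψ u * gradN d M h f (ψ u) := by
  have hdet : 0 < (cm h ψ u).det := (if_metC hG.met hψ).det_pos hu
  have hρ : 0 ≤ ctRho h t ψ u := mul_nonneg (Real.exp_pos _).le (Real.sqrt_nonneg _)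
  unfold Gmt.gmtDens gradN
  rw [ctA_apply h t ψ u _ _ hdet.le, if_gradSq_eq hG.met hf hψ hu, Real.sqrt_mul (sq_nonneg _),
    Real.sqrt_sq hρ]
  congr 2
  unfold gradSqC
  refine Finset.sum_congr rfl fun i _ => Finset.sum_congr rfl fun j _ => ?_
  rw [bvp_gradient_apply, bvp_gradient_apply, mul_assoc]

omit [MeasurableSpace V] [BorelSpace V] in
theorem ct_gmtDens_ctPull (hG : CtGeo d M h t) {f : V → ℝ} (hf : SmoothAlong d M f) {ψ : E d → V}
    {U : Set (E d)} (hψ : IsParam M ψ U) {u : E d} (hu : u ∈ U) :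
    Gmt.gmtDens (ctA h t ψ) (ctPull ψ U f) u = ctRho h t ψ u * gradN d M h f (ψ u) := by
  rw [← ct_gmtDens hG hf hψ hu]
  unfold Gmt.gmtDens gradient
  rw [(bvp_pull_eventuallyEq (if_open hψ) f hu).fderiv_eq]

omit [MeasurableSpace V] [BorelSpace V] in
theorem ctRho_pos (hG : CtGeo d M h t) {ψ : E d → V} {U : Set (E d)} (hψ : IsParam M ψ U)
    {u : E d} (hu : u ∈ U) : 0 < ctRho h t ψ u := by
  exact mul_pos (Real.exp_pos _) (Real.sqrt_pos.2 ((if_metC hG.met hψ).det_pos hu))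

omit [MeasurableSpace V] [BorelSpace V] in
theorem ctPull_measurable {f : V → ℝ} (hf : ContinuousOn f M) {ψ : E d → V} {U : Set (E d)}
    (hψ : IsParam M ψ U) : Measurable (ctPull ψ U f) := by
  classical
  have h1 : ContinuousOn (f ∘ ψ) U := hf.comp (if_continuousOn hψ) fun w hw => if_mem hψ hw
  have h2 := h1.measurable_piecewise (g := fun _ => (0 : ℝ)) continuousOn_const
    (if_open hψ).measurableSet
  have h3 : ctPull ψ U f = U.piecewise (f ∘ ψ) fun _ => (0 : ℝ) := by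
    funext u
    by_cases hu : u ∈ U
    · simp [ctPull, hu]
    · simp [ctPull, hu]
  rw [h3]
  exact h2

omit [MeasurableSpace V] [BorelSpace V] in
theorem ctPull_contDiffOn {f : V → ℝ} (hf : SmoothAlong d M f) {ψ : E d → V} {U : Set (E d)}
    (hψ : IsParam M ψ U) : ContDiffOn ℝ ∞ (ctPull ψ U f) U :=
  (hf ψ U hψ).congr fun _ hu => indicator_of_mem hu _

end Claimed.Agent.R315
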