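import Claimed.Agent.R315.Ct.Prod
import Claimed.Agent.R315.Pk.Thr

/-!
# Row 315, package Ct, part 6: THE TRUE CUT OF A STAGE (P Lemmas B.1, B.4, Prop. B.5, Cor. B.7)

Export: `structure CutOK` and `theorem ct_cut : Inv → SepConf → ∃ p A, CutOK B F P j0 p A`
(first arrow of the chain `pk_step = rg_step ∘ sh_shield ∘ ct_cut`).

## Members
Besides the status spaces `E γ` the proof needs all "required products" (P Prop. B.5): for a status
`γ` and a set `J` of HIT entries of `γ` the **member** `(γ, J)` is the iterated cylinder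
`F.cyl J (E γ) = {z | F.dropS J z ∈ E γ}`, `F.dropS J z = z - ∑_{j ∈ J} t_j z • e_j`, with all data pulled
back by `F.dropS J`; dimension `n - hits γ + |J|`.  `(γ, ∅)` is `E γ`;
`(γ, insert i J)` is `ctCyl (t i) (e i)` of `(γ, J)` (`Ct/Prod.lean`), so all facts on members are
inductions on `J`.  Far out in the tails `J` of `E α` the status space `E α` IS (a translate of) the
member `(α.faceS J, J)`: window lemma `ct_window`.

## Proof of `ct_cut` (order of the choices)
1. `ct_cut_cal` (twice: `S = {μ = ⊤}`, `C = U⁺`; `S = {μ = ⊥}`, `C = U⁻`): a locally bounded `Λ : V → ℝ`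
   such that every point over the closure of a core has, in every member, a calibrated open piece
   inside the pole set with constant `β < Λ ∘ q`.
2. `ct_pressure` (P Lemma B.1): `p₀`, `c_* ≤ 1`; `± p₀ ≥ Λ ∘ q + 1` on the pole sets.
3. `ct_mem_barrier`: every minimiser on every member for `p₀ + c`, `|c| < c_*`, contains (excludes) a
   neighbourhood of the closure of the plus (minus) core.
4. `ct_mem_order`: minimisers for `c₁ < c₂` are ordered (components of the complement of the closed
   minus core lie over compact sets of `V` by `SepConf`; there the members have polynomial growth: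
   `ct_mem_exh`; then `ct_order`).
5. `ct_generic` on each of the finitely many members: all but countably many `c` give uniqueness.
6. `ct_exists` on each `E α`; `A = ⋃ α, A_α`.
7. `ct_cut_ends`: translated windows + `ct_closure` + uniqueness + `ct_mem_factor`.

PACKAGE L-Ct-CutA (C0 linear algebra, C1 members).  PLAN.  C0: `simp [Frame.dropS, map_sub, map_sum, F.t_e, F.t_e_ne, Finset.sum_insert]`-type computations
(`F.t j (∑ i ∈ J, c i • F.e i) = if j ∈ J then c j else 0`: prove this first).  C1: induction on `J` (`Finset.induction_on`): `J = ∅`: `Frame.dropS_empty`;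
`insert i J`: rewrite with `Frame.cyl_insert`, `Frame.dropS_insert` and apply `CtGeo.cyl` / `ct_cyl_smooth` with `τ = F.t i`, `e = F.e i`: `τ e = 1` is `F.t_e`; `τ x = 0` on
`F.cyl J (E γ)` by `t_dropS_of_not_mem` + `IsDiag.t_hit`; `CtNormal` is `IsPMetric.normal` at the hit entry `i`.  `(n - hits γ + J.card) + 1 = n - hits γ + (insert i J).card`.
-/

set_option autoImplicit false
open scoped ContDiff ENNReal Topology
open MeasureTheory Claims.C0499 Set Filter

namespace Claimed.Agent.R315


variable {V W : Type} [NormedAddCommGroup V] [NormedSpace ℝ V] [NormedAddCommGroup W]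
  [NormedSpace ℝ W] {ι I : Type}

/-! ### C0: linear algebra of iterated projections -/

/-! `Frame.dropS`, `Stat.faceS` and their basic lemmas: `Pk/Blend.lean`, `Pk/Thr.lean` (helper29). -/

/-- the cylinder over `X` in the directions `J`. -/
def Frame.cyl (F : Frame V W ι) (J : Finset ι) (X : Set W) : Set W := {z | F.dropS J z ∈ X}

/-- the vector with coordinates `s j`, `j ∈ J`. -/
noncomputable def Frame.vec (F : Frame V W ι) (J : Finset ι) (s : ι → ℝ) : W :=
  ∑ j ∈ J, s j • F.e j

/-- exhaustion function in the normal directions. -/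
noncomputable def Frame.rho [Fintype ι] (F : Frame V W ι) (z : W) : ℝ :=
  ∑ i, Real.sqrt (1 + F.t i z ^ 2)

theorem Frame.t_dropS_of_mem (F : Frame V W ι) {J : Finset ι} {j : ι} (hj : j ∈ J) (z : W) :
    F.t j (F.dropS J z) = 0 := F.t_dropS_mem hj z

theorem Frame.t_dropS_of_not_mem (F : Frame V W ι) {J : Finset ι} {i : ι} (hi : i ∉ J) (z : W) :
    F.t i (F.dropS J z) = F.t i z := F.t_dropS_notMem hi z

theorem Frame.dropS_insert_ctPr [DecidableEq ι] (F : Frame V W ι) {J : Finset ι} {i : ι}
    (hi : i ∉ J) (z : W) : F.dropS (insert i J) z = F.dropS J (ctPr (F.t i) (F.e i) z) :=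
  F.dropS_insert hi z

theorem Frame.cyl_insert [DecidableEq ι] (F : Frame V W ι) {J : Finset ι} {i : ι} (hi : i ∉ J)
    (X : Set W) : F.cyl (insert i J) X = ctCyl (F.t i) (F.e i) (F.cyl J X) := by
  ext z
  simp only [Frame.cyl, ctCyl, Set.mem_ofPred_eq, F.dropS_insert_ctPr hi]

/-- two vectors with the same coordinates are equal. -/
theorem Frame.eq_of_coords (F : Frame V W ι) {x y : W} (hq : F.q x = F.q y)
    (ht : ∀ i, F.t i x = F.t i y) : x = y := by
  have h := F.inj (x - y) (by rw [map_sub, hq, sub_self]) (fun i => by rw [map_sub, ht i, sub_self])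
  exact sub_eq_zero.mp h

theorem Frame.q_vec (F : Frame V W ι) (J : Finset ι) (s : ι → ℝ) : F.q (F.vec J s) = 0 := by
  simp [Frame.vec, F.q_e]

theorem Frame.t_vec_mem (F : Frame V W ι) {J : Finset ι} {i : ι} (hi : i ∈ J) (s : ι → ℝ) :
    F.t i (F.vec J s) = s i := by
  classical
  simp only [Frame.vec, map_sum, map_smul, smul_eq_mul]
  rw [Finset.sum_eq_single i]
  · simp [F.t_e]
  · intro j _ hj
    rw [F.t_e_ne i j (Ne.symm hj), mul_zero]
  · intro h; exact absurd hi h

theorem Frame.t_vec_notMem (F : Frame V W ι) {J : Finset ι} {i : ι} (hi : i ∉ J) (s : ι → ℝ) :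
    F.t i (F.vec J s) = 0 := by
  classical
  simp only [Frame.vec, map_sum, map_smul, smul_eq_mul]
  refine Finset.sum_eq_zero fun j hj => ?_
  have : i ≠ j := fun h => hi (h ▸ hj)
  rw [F.t_e_ne i j this, mul_zero]

theorem Frame.dropS_add_vec (F : Frame V W ι) (J : Finset ι) (s : ι → ℝ) (z : W) :
    F.dropS J (z + F.vec J s) = F.dropS J z := by
  refine F.eq_of_coords ?_ fun i => ?_
  · rw [F.q_dropS, F.q_dropS, map_add, F.q_vec, add_zero]
  · by_cases hi : i ∈ J
    · rw [F.t_dropS_mem hi, F.t_dropS_mem hi]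
    · rw [F.t_dropS_notMem hi, F.t_dropS_notMem hi, map_add, F.t_vec_notMem hi, add_zero]

theorem Frame.dropS_union [DecidableEq ι] (F : Frame V W ι) (J J' : Finset ι) (z : W) :
    F.dropS J (F.dropS J' z) = F.dropS (J ∪ J') z := by
  refine F.eq_of_coords ?_ fun i => ?_
  · rw [F.q_dropS, F.q_dropS, F.q_dropS]
  · by_cases hi : i ∈ J
    · rw [F.t_dropS_mem hi, F.t_dropS_mem (Finset.mem_union_left _ hi)]
    · by_cases hi' : i ∈ J'
      · rw [F.t_dropS_notMem hi, F.t_dropS_mem hi', F.t_dropS_mem (Finset.mem_union_right _ hi')]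
      · have hu : i ∉ J ∪ J' := fun h => (Finset.mem_union.mp h).elim hi hi'
        rw [F.t_dropS_notMem hi, F.t_dropS_notMem hi', F.t_dropS_notMem hu]

theorem Frame.dropS_add_vec_disj (F : Frame V W ι) {J J' : Finset ι} (h : Disjoint J J')
    (s : ι → ℝ) (z : W) : F.dropS J (z + F.vec J' s) = F.dropS J z + F.vec J' s := by
  refine F.eq_of_coords ?_ fun i => ?_
  · rw [F.q_dropS, map_add, map_add, F.q_dropS]
  · by_cases hi : i ∈ J
    · rw [F.t_dropS_mem hi, map_add, F.t_dropS_mem hi,
        F.t_vec_notMem (Finset.disjoint_left.mp h hi), add_zero]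
    · rw [F.t_dropS_notMem hi, map_add, map_add, F.t_dropS_notMem hi]

/-- `dropS J` fixes the vectors whose coordinates in `J` vanish. -/
theorem Frame.dropS_eq_self (F : Frame V W ι) {J : Finset ι} {z : W} (h : ∀ j ∈ J, F.t j z = 0) :
    F.dropS J z = z := by
  unfold Frame.dropS
  rw [Finset.sum_eq_zero fun j hj => by rw [h j hj, zero_smul], sub_zero]

/-- `z - vec J (t z) = dropS J z`. -/
theorem Frame.sub_vec_t (F : Frame V W ι) (J : Finset ι) (z : W) :
    z - F.vec J (fun j => F.t j z) = F.dropS J z := rfl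

/-! ### C1: members -/

/-- dimension of the member `(γ, J)`. -/
def mdim [Fintype ι] (n : ℕ) (γ : Stat ι) (J : Finset ι) : ℕ := n - hits γ + J.card

/-- a face in `|J|` non-hit entries has `|J|` more hits. -/
theorem ct_hits_faceS [Fintype ι] (α : Stat ι) (J : Finset ι) (hJ : ∀ j ∈ J, α j ≠ 0) :
    hits (α.faceS J) = hits α + J.card := by
  classical
  have h1 : ∀ i, (if α.faceS J i = 0 then 1 else 0 : ℕ) =
      (if α i = 0 then 1 else 0) + (if i ∈ J then 1 else 0) := by
    intro i
    by_cases hi : i ∈ J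
    · simp [Stat.faceS, hi, hJ i hi]
    · simp [Stat.faceS, hi]
  unfold hits
  rw [Finset.sum_congr rfl fun i _ => h1 i, Finset.sum_add_distrib]
  simp

/-- the member `(γ, J)`. -/
def PData.mE (P : PData W ι I) (F : Frame V W ι) (γ : Stat ι) (J : Finset ι) : Set W :=
  F.cyl J (P.E γ)

/-- its metric. -/
noncomputable def PData.mh (P : PData W ι I) (F : Frame V W ι) (J : Finset ι) : Ten W :=
  fun z => P.h (F.dropS J z)

/-- its drift. -/
noncomputable def PData.mdr (P : PData W ι I) (F : Frame V W ι) (J : Finset ι) : W → ℝ :=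
  fun z => P.dr (F.dropS J z)

/-! the member `(γ, insert i J)` is the cylinder over the member `(γ, J)`; `(γ, ∅)` is `E γ`. -/

theorem ct_mE_insert [DecidableEq ι] (P : PData W ι I) (F : Frame V W ι) (γ : Stat ι)
    {J : Finset ι} {i : ι} (hi : i ∉ J) :
    P.mE F γ (insert i J) = ctCyl (F.t i) (F.e i) (P.mE F γ J) := F.cyl_insert hi _

theorem ct_mh_insert [DecidableEq ι] (P : PData W ι I) (F : Frame V W ι) {J : Finset ι} {i : ι}
    (hi : i ∉ J) : P.mh F (insert i J) = fun z => P.mh F J (ctPr (F.t i) (F.e i) z) :=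
  funext fun z => by simp only [PData.mh, F.dropS_insert_ctPr hi]

theorem ct_mdr_insert [DecidableEq ι] (P : PData W ι I) (F : Frame V W ι) {J : Finset ι} {i : ι}
    (hi : i ∉ J) : P.mdr F (insert i J) = fun z => P.mdr F J (ctPr (F.t i) (F.e i) z) :=
  funext fun z => by simp only [PData.mdr, F.dropS_insert_ctPr hi]

theorem ct_mdim_insert [DecidableEq ι] [Fintype ι] (n : ℕ) (γ : Stat ι) {J : Finset ι} {i : ι}
    (hi : i ∉ J) : mdim n γ (insert i J) = mdim n γ J + 1 := by
  simp only [mdim, Finset.card_insert_of_notMem hi]; ring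

theorem ct_mE_empty (P : PData W ι I) (F : Frame V W ι) (γ : Stat ι) : P.mE F γ ∅ = P.E γ := by
  ext z; simp [PData.mE, Frame.cyl, F.dropS_empty]

theorem ct_mh_empty (P : PData W ι I) (F : Frame V W ι) : P.mh F ∅ = P.h :=
  funext fun z => by simp [PData.mh, F.dropS_empty]

theorem ct_mdr_empty (P : PData W ι I) (F : Frame V W ι) : P.mdr F ∅ = P.dr :=
  funext fun z => by simp [PData.mdr, F.dropS_empty]

theorem ct_mdim_empty [Fintype ι] (n : ℕ) (γ : Stat ι) : mdim n γ ∅ = n - hits γ := by
  simp [mdim]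

/-- the geometric part of the invariant. -/
structure PGeo [Fintype ι] (n : ℕ) (M : Set V) (F : Frame V W ι) (P : PData W ι I) : Prop where
  diag : IsDiag n M F P.E
  met : IsPMetric n F P.E P.h
  dr_sc : SC n F P.E P.dr

theorem Inv.pgeo [Fintype ι] {B : Base V} {F : Frame V W ι} {P : PData W ι B.J} {rem : Set B.J}
    {s c : ℝ} (H : Inv B F P rem s c) : PGeo B.n B.M F P :=
  ⟨H.diag, H.met, H.dr_sc⟩


variable [FiniteDimensional ℝ V] [FiniteDimensional ℝ W] [Fintype ι] {n : ℕ} {M : Set V}
  {F : Frame V W ι} {P : PData W ι I}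

omit [FiniteDimensional ℝ V] [FiniteDimensional ℝ W] in
/-- a hit coordinate outside `J` vanishes on the member `(γ, J)`. -/
theorem ct_mem_t_zero (hP : PGeo n M F P) (γ : Stat ι) {J : Finset ι} {i : ι} (hγi : γ i = 0)
    (hi : i ∉ J) : ∀ x ∈ P.mE F γ J, F.t i x = 0 := by
  intro x hx
  rw [← F.t_dropS_notMem hi x]
  exact hP.diag.t_hit γ _ hx i hγi

omit [FiniteDimensional ℝ V] [FiniteDimensional ℝ W] in
/-- the normalisation of the metric on the member `(γ, J)` at a hit entry. -/
theorem ct_mem_normal (hP : PGeo n M F P) (γ : Stat ι) (J : Finset ι) {i : ι} (hγi : γ i = 0) :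
    CtNormal (F.t i) (F.e i) (P.mE F γ J) (P.mh F J) :=
  fun x hx w => hP.met.normal γ (F.dropS J x) hx i hγi w

theorem ct_mem_geo (hP : PGeo n M F P) (γ : Stat ι) (J : Finset ι) (hJ : ∀ j ∈ J, γ j = 0) :
    CtGeo (mdim n γ J) (P.mE F γ J) (P.mh F J) (P.mdr F J) := by
  classical
  induction J using Finset.induction_on with
  | empty =>
    have h1 : P.mE F γ ∅ = P.E γ := by
      ext z; simp [PData.mE, Frame.cyl, F.dropS_empty]
    have h2 : P.mh F ∅ = P.h := funext fun z => by simp [PData.mh, F.dropS_empty]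
    have h3 : P.mdr F ∅ = P.dr := funext fun z => by simp [PData.mdr, F.dropS_empty]
    have h4 : mdim n γ ∅ = n - hits γ := by simp [mdim]
    rw [h1, h2, h3, h4]
    exact ⟨hP.diag.mfd γ, hP.met.met γ, hP.dr_sc.1 γ⟩
  | insert i J hi ih =>
    have ih' := ih fun j hj => hJ j (Finset.mem_insert_of_mem hj)
    have hγi : γ i = 0 := hJ i (Finset.mem_insert_self i J)
    have h1 : P.mE F γ (insert i J) = ctCyl (F.t i) (F.e i) (P.mE F γ J) := F.cyl_insert hi _
    have h2 : P.mh F (insert i J) = fun z => P.mh F J (ctPr (F.t i) (F.e i) z) :=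
      funext fun z => by simp only [PData.mh, F.dropS_insert_ctPr hi]
    have h3 : P.mdr F (insert i J) = fun z => P.mdr F J (ctPr (F.t i) (F.e i) z) :=
      funext fun z => by simp only [PData.mdr, F.dropS_insert_ctPr hi]
    have h4 : mdim n γ (insert i J) = mdim n γ J + 1 := by
      simp only [mdim, Finset.card_insert_of_notMem hi]; ring
    rw [h1, h2, h3, h4]
    exact ih'.cyl (F.t_e i) (ct_mem_t_zero hP γ hγi hi) (ct_mem_normal hP γ J hγi)

theorem ct_mem_closed (hP : PGeo n M F P) (γ : Stat ι) (J : Finset ι) :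
    IsClosed (P.mE F γ J) :=
  (hP.diag.closed γ).preimage (F.continuous_dropS J)

theorem ct_mem_smooth (hP : PGeo n M F P) (γ : Stat ι) (J : Finset ι) (hJ : ∀ j ∈ J, γ j = 0)
    {f : W → ℝ} (hf : SC n F P.E f) :
    SmoothAlong (mdim n γ J) (P.mE F γ J) (fun z => f (F.dropS J z)) := by
  classical
  induction J using Finset.induction_on with
  | empty =>
    have h1 : P.mE F γ ∅ = P.E γ := by
      ext z; simp [PData.mE, Frame.cyl, F.dropS_empty]
    have h2 : (fun z => f (F.dropS ∅ z)) = f := funext fun z => by rw [F.dropS_empty]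
    have h4 : mdim n γ ∅ = n - hits γ := by simp [mdim]
    rw [h1, h2, h4]
    exact hf.1 γ
  | insert i J hi ih =>
    have hJ' : ∀ j ∈ J, γ j = 0 := fun j hj => hJ j (Finset.mem_insert_of_mem hj)
    have hγi : γ i = 0 := hJ i (Finset.mem_insert_self i J)
    have h1 : P.mE F γ (insert i J) = ctCyl (F.t i) (F.e i) (P.mE F γ J) := F.cyl_insert hi _
    have h2 : (fun z => f (F.dropS (insert i J) z)) =
        fun z => (fun y => f (F.dropS J y)) (ctPr (F.t i) (F.e i) z) :=
      funext fun z => by simp only [F.dropS_insert_ctPr hi]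
    have h4 : mdim n γ (insert i J) = mdim n γ J + 1 := by
      simp only [mdim, Finset.card_insert_of_notMem hi]; ring
    rw [h1, h2, h4]
    exact ct_cyl_smooth (ct_mem_geo hP γ J hJ') (F.t_e i) (ct_mem_t_zero hP γ hγi hi) (ih hJ')

end Claimed.Agent.R315
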