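import Claimed.Agent.R315.Ct.CutW

/-!
# Row 315, package Ct: file `CutB.lean`, continuation of `CutA.lean` (general description: header of `Ct/CutA.lean`)

PACKAGE L-Ct-CutB (C3a: the normal coordinates have bounded gradient).  PLAN.  `IsDiag.tail_induction` over `K' = cthickening 1 K` with
`Pr z := ∀ α, z ∈ E α → gradSq .. (F.t i) z ≤ max C₀ 1`.  Base: on the compact truncation `gradSq (t i)` is continuous (`gs_sm_*`/`if_*_smoothAlong` give smoothness of `gradSq` of a
smooth function; `F.t i` is `ContDiff`, hence `SmoothAlong`), finitely many `α`.  Step at `z` with `R < |t j z|`: by `ct_tail_cyl` and `Compat` of `h`, near `z` the pair `(E α, h)` is the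
cylinder over `(E (α.face j), h)` (`if_gradSq_inter'`, `if_gradSq_congr`: locality, `If/Loc.lean`, `If/Germ.lean`); `ct_cyl_gradSq` with `f = t i, c = 0` if `i ≠ j` (`t i = t i ∘ drop j`), and with `f = 0, c = 1` if
`i = j` (value `1`).
-/

set_option autoImplicit false
open scoped ContDiff ENNReal Topology
open MeasureTheory Claims.C0499 Set Filter

namespace Claimed.Agent.R315

variable {V W : Type} [NormedAddCommGroup V] [NormedSpace ℝ V] [NormedAddCommGroup W]
  [NormedSpace ℝ W] {ι I : Type}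
variable [FiniteDimensional ℝ V] [FiniteDimensional ℝ W] [Fintype ι] {n : ℕ} {M : Set V}
  {F : Frame V W ι} {P : PData W ι I}

/-! ### C3: uniform geometry over compact subsets of `V` -/

/-- **tangent form**: over a compact subset of `V` the covectors `dt_i` are bounded on all status
spaces.  (Proof by `IsDiag.tail_induction` with the tangent vector calculus of `Pk/Tan.lean`:
`pk_tan_sq_le`, `pk_t_sq_le`, `DThr.tanAt_drop`, `IsPMetric.tail_form`; no dimension count.) -/
theorem ct_tan_t_bound (hP : PGeo n M F P) {K : Set V} (hK : IsCompact K) :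
    ∃ C : ℝ, 1 ≤ C ∧ ∀ α, ∀ z ∈ P.E α, F.q z ∈ K → ∀ i, ∀ w,
      TanAt (n - hits α) (P.E α) z w → (F.t i w) ^ 2 ≤ C * P.h z w w := by
  classical
  obtain ⟨T₁, hT₁s, hT₁0, hT₁⟩ := hP.diag.exists_thr
  obtain ⟨T₂, hT₂s, hT₂0, hT₂⟩ := hP.met.compat.exists_thr
  have hTc : Continuous fun x => T₁ x + T₂ x := hT₁s.continuous.add hT₂s.continuous
  have hT0 : ∀ x, 0 ≤ T₁ x + T₂ x := fun x => add_nonneg (hT₁0 x) (hT₂0 x)
  have hT : DThr F P.E fun x => T₁ x + T₂ x := hT₁.mono fun x => by linarith [hT₂0 x]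
  have hTh : Thr F P.E P.h fun x => T₁ x + T₂ x := hT₂.mono fun x => by linarith [hT₁0 x]
  obtain ⟨R0, hR0⟩ := (hK.image hTc).bddAbove
  obtain ⟨R, hRR0, -, -, hind⟩ := hP.diag.tail_induction hK R0
  -- bound on the truncations
  have hsm : ∀ (α : Stat ι) (i : ι), SmoothAlong (n - hits α) (P.E α) (fun y => F.t i y) :=
    fun α i => if_smoothAlong_of_contDiff (F.t i).contDiff
  have hb : ∀ x : Stat ι × ι, ∃ C : ℝ, ∀ z ∈ {z | z ∈ P.E x.1 ∧ F.q z ∈ K ∧ ∀ i, |F.t i z| ≤ R},
      gradSq (n - hits x.1) (P.E x.1) P.h (fun y => F.t x.2 y) z ≤ C := by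
    intro x
    have hc : ContinuousOn (gradSq (n - hits x.1) (P.E x.1) P.h (fun y => F.t x.2 y))
        {z | z ∈ P.E x.1 ∧ F.q z ∈ K ∧ ∀ i, |F.t i z| ≤ R} :=
      (if_smoothAlong_continuousOn (hP.diag.mfd x.1)
        (if_gradSq_smoothAlong (hP.met.met x.1) (hsm x.1 x.2))).mono fun z hz => hz.1
    obtain ⟨C, hC⟩ := (hP.diag.isCompact_trunc x.1 hK R).bddAbove_image hc
    exact ⟨C, fun z hz => hC ⟨z, hz, rfl⟩⟩
  choose b hb using hb
  obtain ⟨C₀, hC₀⟩ := Finite.exists_le b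
  have hfd : ∀ (i : ι) (z w : W), fderiv ℝ (fun y => F.t i y) z w = F.t i w := fun i z w => by
    rw [(F.t i).hasFDerivAt.fderiv]
  refine ⟨max C₀ 1, le_max_right _ _, fun α z hz hq => ?_⟩
  refine hind (fun z => ∀ α, z ∈ P.E α → ∀ i, ∀ w, TanAt (n - hits α) (P.E α) z w →
    (F.t i w) ^ 2 ≤ max C₀ 1 * P.h z w w) ?_ ?_ z (mem_tot.2 ⟨α, hz⟩) hq α hz
  · intro z _ hq hle α hz i w hw
    have h0 := hw.met_nonneg (hP.met.met α)
    have h1 := pk_tan_sq_le (hP.met.met α) (hsm α i) (F.t i).differentiableAt hw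
    rw [hfd] at h1
    have h2 : gradSq (n - hits α) (P.E α) P.h (fun y => F.t i y) z ≤ max C₀ 1 :=
      ((hb (α, i) z ⟨hz, hq, hle⟩).trans (hC₀ (α, i))).trans (le_max_left _ _)
    exact h1.trans (mul_le_mul_of_nonneg_right h2 h0)
  · intro z _ hq j hj _ hPr α hz i w hw
    have hj' : T₁ (F.q z) + T₂ (F.q z) < |F.t j z| :=
      lt_of_le_of_lt ((hR0 ⟨_, hq, rfl⟩).trans hRR0) hj
    have h0 := hw.met_nonneg (hP.met.met α)
    by_cases hij : i = j
    · subst hij
      have h1 := pk_t_sq_le hP.diag hP.met hT0 hT hTh hz hj' hw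
      calc (F.t i w) ^ 2 ≤ 1 * P.h z w w := by rw [one_mul]; exact h1
        _ ≤ max C₀ 1 * P.h z w w := mul_le_mul_of_nonneg_right (le_max_right _ _) h0
    · have hw' := hT.tanAt_drop hP.diag hT0 hTc hj' hw
      have h1 := hPr (α.face j) (hT.drop_mem hP.diag hT0 hz hj') i _ hw'
      rw [F.t_drop_ne hij] at h1
      have h2 := hP.met.tail_form hP.diag hT0 hT hTh hz hj' w w
      have h3 : P.h (F.drop j z) (F.drop j w) (F.drop j w) ≤ P.h z w w := by
        rw [h2]; nlinarith [sq_nonneg (F.t j w)]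
      exact h1.trans (mul_le_mul_of_nonneg_left h3 (le_trans zero_le_one (le_max_right _ _)))

/-- the normal coordinates have bounded gradient. -/
theorem ct_grad_t_bound (hP : PGeo n M F P) {K : Set V} (hK : IsCompact K) :
    ∃ C : ℝ, ∀ α, ∀ z ∈ P.E α, F.q z ∈ K → ∀ i,
      gradSq (n - hits α) (P.E α) P.h (fun y => F.t i y) z ≤ C := by
  obtain ⟨C, hC1, hC⟩ := ct_tan_t_bound hP hK
  refine ⟨C, fun α z hz hq i => ?_⟩
  refine pk_gradSq_le (hP.diag.mfd α) (hP.met.met α)
    (if_smoothAlong_of_contDiff (F.t i).contDiff) hz (F.t i).differentiableAt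
    (le_trans zero_le_one hC1) fun w hw => ?_
  rw [(F.t i).hasFDerivAt.fderiv]
  exact hC α z hz hq i w hw

end Claimed.Agent.R315
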