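import Claimed.Agent.R315.Ct.CutV

/-!
# Row 315, package Ct: file `CutC.lean`, continuation of `CutB.lean` (general description: header of `Ct/CutA.lean`)

PACKAGE L-Ct-CutC (C4: uniform calibrated pieces).  PLAN (by contradiction, with the escape lemma).
For `m : ℕ` let `b m` be the supremum over the finitely many members `(α, J₀)` and the points `z` of the member with `‖q z‖ ≤ m`, `dropS J₀ z ∈ closure (C ∩ E α)`, of
`β*(z) = inf {β | ∃ O open, z ∈ O ⊆ ball z r₀, CtCal .. (mE ∩ O) β, dropS J₀ '' (mE ∩ O) ⊆ S}` (`r₀ ‖q‖ ≤ 1`).  CLAIM `b m < ∞`.  Then `Λ x = b (⌈‖x‖⌉₊ + 2) + 1` (monotone in `m`).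
Proof of the claim: otherwise `z k` with `β*(z k) > k`.  `w k = dropS J₀ (z k) ∈ E α`; `ct_escape`: `J`, `y ∈ E γ`, `γ = α.faceS J`, `dropS J (w k) → y`; `y ∈ closure (C ∩ E γ)` (approximate `w k` by points of `C ∩ E α`,
`ct_window`-type iteration of `Compat C`).  `hCS` gives `N`.  On the member `(γ, J₀ ∪ J)` take a bounded open `O₁ ∋ y` with `dropS (J₀ ∪ J) '' O₁ ⊆ N` and apply `ct_cal_exists` to the manifold `mE ∩ O₁` (`CtGeo.inter`): `O' ∋ y`, `β`.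
Translate by `v k = vec J₀ (t (z k)) + vec J (t (w k))` (`CtCal.translate`); for large `k`, `(mE (γ, J₀ ∪ J) ∩ O₁) + v k = mE (α, J₀) ∩ (O₁ + v k)` with the same data (`ct_window`, `ct_window_compat` for `h`, `dr`, `S` on the compact `closure O₁`;
`Frame.dropS_union`, `dropS_add_vec_disj`), `CtCal.congr_data`, `CtCal.of_inter`; `z k - v k = dropS (J₀ ∪ J) (z k) → y`, so `z k ∈ O' + v k`: `β*(z k) ≤ β`.
NOTE (helper37): extra hypothesis `hdim` (nonempty status spaces have `hits ≤ n`), needed for `mdim n (α.faceS J) (J ∪ J₀) = mdim n α J₀`.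
-/

set_option autoImplicit false
open scoped ContDiff ENNReal Topology
open MeasureTheory Claims.C0499 Set Filter

namespace Claimed.Agent.R315

variable {V W : Type} [NormedAddCommGroup V] [NormedSpace ℝ V] [NormedAddCommGroup W]
  [NormedSpace ℝ W] {ι I : Type}
variable [FiniteDimensional ℝ V] [FiniteDimensional ℝ W] [Fintype ι] {n : ℕ} {M : Set V}
  {F : Frame V W ι} {P : PData W ι I}
variable [MeasurableSpace W] [BorelSpace W]

/-! ### C4: uniform calibrations -/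

omit [FiniteDimensional ℝ V] [NormedAddCommGroup V] [NormedSpace ℝ V] [Fintype ι]
  [FiniteDimensional ℝ W] [BorelSpace W] in
theorem CtCal.mono_const {d : ℕ} {X : Set W} {h : Ten W} {t : W → ℝ} {B : Set W} {β β' : ℝ}
    (hB : CtCal d X h t B β) (hβ : β ≤ β') : CtCal d X h t B β' := by
  obtain ⟨a, f, h1, h2, h3, h4, h5, h6⟩ := hB.cal
  exact ⟨hB.lf, hB.cpt, a, f, h1, h2, h3, h4, h5, fun x hx => (h6 x hx).trans hβ⟩

/-- a calibrated open piece around `z` in the member `(γ, J)`, inside the pole set, of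
`q`-diameter `< 1`, with constant `β`. -/
def CtPiece (n : ℕ) (F : Frame V W ι) (P : PData W ι I) (S : Set W) (γ : Stat ι) (J : Finset ι)
    (z : W) (β : ℝ) : Prop :=
  ∃ O : Set W, IsOpen O ∧ z ∈ O ∧ (∀ y ∈ O, ‖F.q y - F.q z‖ < 1) ∧
    CtCal (mdim n γ J) (P.mE F γ J) (P.mh F J) (P.mdr F J) (P.mE F γ J ∩ O) β ∧
    ∀ y ∈ P.mE F γ J ∩ O, F.dropS J y ∈ S

omit [FiniteDimensional ℝ V] [FiniteDimensional ℝ W] [BorelSpace W] in
theorem CtPiece.mono {S : Set W} {γ : Stat ι} {J : Finset ι} {z : W} {β β' : ℝ}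
    (h : CtPiece n F P S γ J z β) (hβ : β ≤ β') : CtPiece n F P S γ J z β' := by
  obtain ⟨O, h1, h2, h3, h4, h5⟩ := h
  exact ⟨O, h1, h2, h3, h4.mono_const hβ, h5⟩

omit [FiniteDimensional ℝ V] [FiniteDimensional ℝ W] [Fintype ι] [MeasurableSpace W]
  [BorelSpace W] in
/-- projection of a doubly translated point. -/
theorem Frame.dropS_add_vec_vec (F : Frame V W ι) {J₀ J : Finset ι} (h : Disjoint J₀ J)
    (a s : ι → ℝ) (x : W) :
    F.dropS J₀ (x + (F.vec J₀ a + F.vec J s)) = F.dropS J₀ x + F.vec J s := by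
  rw [add_comm (F.vec J₀ a), ← add_assoc, F.dropS_add_vec, F.dropS_add_vec_disj h]

omit [MeasurableSpace W] [BorelSpace W] in
/-- **window lemma for members.** -/
theorem ct_mem_window [DecidableEq ι] (hP : PGeo n M F P) {S : Set W} (hS : Compat F P.E (fun z => z ∈ S))
    (α : Stat ι) (J₀ J : Finset ι) (hJ₀ : ∀ j ∈ J₀, α j = 0) (hJ : ∀ j ∈ J, α j ≠ 0)
    (s : ℕ → ι → ℝ) (hs : ∀ j ∈ J, Tendsto (fun k => (α j : ℝ) * s k j) atTop atTop)
    {K : Set W} (hK : IsCompact K) :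
    ∀ᶠ k in atTop, ∀ (a : ι → ℝ), ∀ x ∈ K,
      (x + (F.vec J₀ a + F.vec J (s k)) ∈ P.mE F α J₀ ↔ x ∈ P.mE F (α.faceS J) (J ∪ J₀)) ∧
      (x + (F.vec J₀ a + F.vec J (s k)) ∈ P.mE F α J₀ →
        P.mh F J₀ (x + (F.vec J₀ a + F.vec J (s k))) = P.mh F (J ∪ J₀) x ∧
        P.mdr F J₀ (x + (F.vec J₀ a + F.vec J (s k))) = P.mdr F (J ∪ J₀) x ∧
        (F.dropS J₀ (x + (F.vec J₀ a + F.vec J (s k))) ∈ S ↔ F.dropS (J ∪ J₀) x ∈ S)) := by
  have hdisj : Disjoint J₀ J := Finset.disjoint_left.mpr fun j h0 h1 => hJ j h1 (hJ₀ j h0)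
  have hK' : IsCompact (F.dropS J₀ '' K) := hK.image (F.continuous_dropS J₀)
  filter_upwards [ct_window hP.diag α J hJ s hs hK',
    ct_window_compat hP.diag α J hJ s hs hK' hP.met.compat,
    ct_window_compat hP.diag α J hJ s hs hK' hP.dr_sc.2,
    ct_window_compat hP.diag α J hJ s hs hK' hS] with k h1 h2 h3 h4 a x hx
  have hx' : F.dropS J₀ x ∈ F.dropS J₀ '' K := ⟨x, hx, rfl⟩
  have e := F.dropS_add_vec_vec hdisj a (s k) x
  refine ⟨?_, fun hmem => ?_⟩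
  · show F.dropS J₀ _ ∈ P.E α ↔ F.dropS (J ∪ J₀) x ∈ P.E (α.faceS J)
    rw [e, h1 _ hx', F.dropS_union]
  · have hmem' : F.dropS J₀ x + F.vec J (s k) ∈ P.E α := by
      rw [← e]; exact hmem
    refine ⟨?_, ?_, ?_⟩
    · show P.h (F.dropS J₀ _) = P.h (F.dropS (J ∪ J₀) x)
      rw [e, h2 _ hx' hmem', F.dropS_union]
    · show P.dr (F.dropS J₀ _) = P.dr (F.dropS (J ∪ J₀) x)
      rw [e, h3 _ hx' hmem', F.dropS_union]
    · rw [e, ← F.dropS_union]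
      exact Iff.of_eq (h4 _ hx' hmem')

/-- **a calibrated piece of the limit member gives calibrated pieces far out in the tails.** -/
theorem ct_piece_limit (hP : PGeo n M F P) (hdim : ∀ α, (P.E α).Nonempty → hits α ≤ n)
    {S : Set W} (hS : Compat F P.E (fun z => z ∈ S)) (α : Stat ι) (J₀ J : Finset ι)
    (hJ₀ : ∀ j ∈ J₀, α j = 0) (hJ : ∀ j ∈ J, α j ≠ 0) (s : ℕ → ι → ℝ)
    (hs : ∀ j ∈ J, Tendsto (fun k => (α j : ℝ) * s k j) atTop atTop) {y : W}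
    (hy : y ∈ P.E (α.faceS J)) {N : Set W} (hN : N ∈ 𝓝 y) (hNS : N ∩ P.E (α.faceS J) ⊆ S) :
    ∃ (β : ℝ) (O' : Set W), IsOpen O' ∧ y ∈ O' ∧ ∀ᶠ k in atTop, ∀ (a : ι → ℝ) (z : W),
      z - (F.vec J₀ a + F.vec J (s k)) ∈ O' → CtPiece n F P S α J₀ z β := by
  classical
  have hdisj : Disjoint J₀ J := Finset.disjoint_left.mpr fun j h0 h1 => hJ j h1 (hJ₀ j h0)
  have hγ : ∀ j ∈ J ∪ J₀, α.faceS J j = 0 := by
    intro j hj
    by_cases hjJ : j ∈ J
    · simp [Stat.faceS, hjJ]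
    · have : j ∈ J₀ := (Finset.mem_union.mp hj).resolve_left hjJ
      simp [Stat.faceS, hjJ, hJ₀ j this]
  have hdy : F.dropS (J ∪ J₀) y = y :=
    F.dropS_eq_self fun j hj => hP.diag.t_hit _ y hy j (hγ j hj)
  have hyX : y ∈ P.mE F (α.faceS J) (J ∪ J₀) := by
    show F.dropS (J ∪ J₀) y ∈ P.E (α.faceS J)
    rw [hdy]; exact hy
  have hd : mdim n (α.faceS J) (J ∪ J₀) = mdim n α J₀ := by
    have h1 := hdim _ ⟨y, hy⟩
    have h2 := ct_hits_faceS α J hJ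
    have h3 : (J ∪ J₀).card = J.card + J₀.card := Finset.card_union_of_disjoint hdisj.symm
    unfold mdim
    omega
  -- the small open set
  have hO₁ : IsOpen (Metric.ball y 1 ∩ (F.dropS (J ∪ J₀) ⁻¹' interior N ∩
      F.q ⁻¹' Metric.ball (F.q y) (1 / 2))) :=
    Metric.isOpen_ball.inter ((isOpen_interior.preimage (F.continuous_dropS _)).inter
      (Metric.isOpen_ball.preimage F.q.continuous))
  have hyO₁ : y ∈ Metric.ball y 1 ∩ (F.dropS (J ∪ J₀) ⁻¹' interior N ∩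
      F.q ⁻¹' Metric.ball (F.q y) (1 / 2)) := by
    refine ⟨Metric.mem_ball_self one_pos, ?_, Metric.mem_ball_self (by norm_num)⟩
    show F.dropS (J ∪ J₀) y ∈ interior N
    rw [hdy]; exact mem_interior_iff_mem_nhds.mpr hN
  have hG' := ct_mem_geo hP (α.faceS J) (J ∪ J₀) hγ
  have hG₀ := ct_mem_geo hP α J₀ hJ₀
  obtain ⟨O', β, hO', hyO', hO'O₁, hcal⟩ := ct_cal_exists (hG'.inter hO₁) ⟨hyX, hyO₁⟩ hO₁ hyO₁
  refine ⟨β, O', hO', hyO', ?_⟩
  filter_upwards [ct_mem_window hP hS α J₀ J hJ₀ hJ s hs (isCompact_closedBall y 1)]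
    with k hk a z hz
  have hqv : F.q (F.vec J₀ a + F.vec J (s k)) = 0 := by
    rw [map_add, F.q_vec, F.q_vec, add_zero]
  have hcont : Continuous fun w : W => w - (F.vec J₀ a + F.vec J (s k)) :=
    continuous_id.sub continuous_const
  have hball : ∀ w, w - (F.vec J₀ a + F.vec J (s k)) ∈ Metric.ball y 1 ∩
      (F.dropS (J ∪ J₀) ⁻¹' interior N ∩ F.q ⁻¹' Metric.ball (F.q y) (1 / 2)) →
      w - (F.vec J₀ a + F.vec J (s k)) ∈ Metric.closedBall y 1 :=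
    fun w hw => Metric.ball_subset_closedBall hw.1
  have hset : ctTr (F.vec J₀ a + F.vec J (s k)) (P.mE F (α.faceS J) (J ∪ J₀) ∩
      (Metric.ball y 1 ∩ (F.dropS (J ∪ J₀) ⁻¹' interior N ∩
        F.q ⁻¹' Metric.ball (F.q y) (1 / 2)))) =
      P.mE F α J₀ ∩ ctTr (F.vec J₀ a + F.vec J (s k)) (Metric.ball y 1 ∩
        (F.dropS (J ∪ J₀) ⁻¹' interior N ∩ F.q ⁻¹' Metric.ball (F.q y) (1 / 2))) := by
    ext w
    constructor
    · rintro ⟨hw1, hw2⟩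
      refine ⟨?_, hw2⟩
      have := ((hk a _ (hball w hw2)).1).mpr hw1
      rwa [sub_add_cancel] at this
    · rintro ⟨hw1, hw2⟩
      refine ⟨((hk a _ (hball w hw2)).1).mp ?_, hw2⟩
      rwa [sub_add_cancel]
  have hB : ctTr (F.vec J₀ a + F.vec J (s k)) (P.mE F (α.faceS J) (J ∪ J₀) ∩
      (Metric.ball y 1 ∩ (F.dropS (J ∪ J₀) ⁻¹' interior N ∩
        F.q ⁻¹' Metric.ball (F.q y) (1 / 2))) ∩ O') =
      P.mE F α J₀ ∩ ctTr (F.vec J₀ a + F.vec J (s k)) O' := by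
    ext w
    constructor
    · rintro ⟨hw1, hw2⟩
      have h0 : w ∈ ctTr (F.vec J₀ a + F.vec J (s k)) (P.mE F (α.faceS J) (J ∪ J₀) ∩
        (Metric.ball y 1 ∩ (F.dropS (J ∪ J₀) ⁻¹' interior N ∩
          F.q ⁻¹' Metric.ball (F.q y) (1 / 2)))) := hw1
      rw [hset] at h0
      exact ⟨h0.1, hw2⟩
    · rintro ⟨hw1, hw2⟩
      have h0 : w ∈ ctTr (F.vec J₀ a + F.vec J (s k)) (P.mE F (α.faceS J) (J ∪ J₀) ∩
        (Metric.ball y 1 ∩ (F.dropS (J ∪ J₀) ⁻¹' interior N ∩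
          F.q ⁻¹' Metric.ball (F.q y) (1 / 2)))) := by
        rw [hset]; exact ⟨hw1, hO'O₁ hw2⟩
      exact ⟨h0, hw2⟩
  refine ⟨ctTr (F.vec J₀ a + F.vec J (s k)) O', hO'.preimage hcont, hz, ?_, ?_, ?_⟩
  · intro w hw
    have h1 : F.q (w - (F.vec J₀ a + F.vec J (s k))) ∈ Metric.ball (F.q y) (1 / 2) :=
      (hO'O₁ hw).2.2
    have h2 : F.q (z - (F.vec J₀ a + F.vec J (s k))) ∈ Metric.ball (F.q y) (1 / 2) :=
      (hO'O₁ hz).2.2
    rw [map_sub, hqv, sub_zero, mem_ball_iff_norm] at h1 h2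
    calc ‖F.q w - F.q z‖ = ‖(F.q w - F.q y) - (F.q z - F.q y)‖ := by congr 1; abel
      _ ≤ ‖F.q w - F.q y‖ + ‖F.q z - F.q y‖ := norm_sub_le _ _
      _ < 1 := by linarith
  · have h1 := hcal.translate (hG'.inter hO₁) (F.vec J₀ a + F.vec J (s k))
    rw [hset, hB, hd] at h1
    refine CtCal.of_inter hG₀ (hO₁.preimage hcont) (h1.congr_data (fun w hw => ?_) fun w hw => ?_)
    · have h2 := ((hk a _ (hball w hw.2)).2 (by rw [sub_add_cancel]; exact hw.1)).1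
      rw [sub_add_cancel] at h2
      exact h2.symm
    · have h2 := ((hk a _ (hball w hw.2)).2 (by rw [sub_add_cancel]; exact hw.1)).2.1
      rw [sub_add_cancel] at h2
      exact h2.symm
  · rintro w ⟨hw1, hw2⟩
    have hw3 := hO'O₁ hw2
    have h2 := ((hk a _ (hball w hw3)).2 (by rw [sub_add_cancel]; exact hw1)).2.2
    have h3 := ((hk a _ (hball w hw3)).1).mp (by rw [sub_add_cancel]; exact hw1)
    rw [sub_add_cancel] at h2
    exact h2.mpr (hNS ⟨interior_subset hw3.2.1, h3⟩)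

/-- uniform constant on one member, over a bounded subset of `V`. -/
theorem ct_piece_bound (hP : PGeo n M F P) (hdim : ∀ α, (P.E α).Nonempty → hits α ≤ n)
    {C S : Set W} (hC : Compat F P.E (fun z => z ∈ C)) (hS : Compat F P.E (fun z => z ∈ S))
    (hCS : ∀ α, ∀ z ∈ P.E α, z ∈ closure (C ∩ P.E α) → ∃ N ∈ 𝓝 z, N ∩ P.E α ⊆ S)
    (α : Stat ι) (J₀ : Finset ι) (hJ₀ : ∀ j ∈ J₀, α j = 0) (R : ℝ) :
    ∃ b : ℝ, ∀ z ∈ P.mE F α J₀, ‖F.q z‖ ≤ R → F.dropS J₀ z ∈ closure (C ∩ P.E α) →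
      CtPiece n F P S α J₀ z b := by
  classical
  by_contra hcon
  push Not at hcon
  choose z hzX hzR hzC hzn using fun k : ℕ => hcon k
  -- approximate the projections by points of the core
  have happ : ∀ k : ℕ, ∃ c ∈ C ∩ P.E α, dist (F.dropS J₀ (z k)) c < 1 / ((k : ℝ) + 1) :=
    fun k => Metric.mem_closure_iff.mp (hzC k) _ (by positivity)
  choose c hc hcd using happ
  have hcq : ∀ k, F.q (c k) ∈ Metric.closedBall (0 : V) (R + ‖F.q‖) := by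
    intro k
    rw [mem_closedBall_zero_iff]
    have h1 : ‖F.q (c k) - F.q (F.dropS J₀ (z k))‖ ≤ ‖F.q‖ * 1 := by
      rw [← map_sub]
      refine (F.q.le_opNorm _).trans ?_
      gcongr
      rw [← dist_eq_norm, dist_comm]
      refine (hcd k).le.trans ?_
      rw [div_le_one (by positivity)]
      have : (0 : ℝ) ≤ k := Nat.cast_nonneg k
      linarith
    have h2 : ‖F.q (F.dropS J₀ (z k))‖ ≤ R := by rw [F.q_dropS]; exact hzR k
    calc ‖F.q (c k)‖ = ‖(F.q (c k) - F.q (F.dropS J₀ (z k))) + F.q (F.dropS J₀ (z k))‖ := by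
          congr 1; abel
      _ ≤ ‖F.q (c k) - F.q (F.dropS J₀ (z k))‖ + ‖F.q (F.dropS J₀ (z k))‖ := norm_add_le _ _
      _ ≤ R + ‖F.q‖ := by linarith
  have hKc : IsCompact (Metric.closedBall (0 : V) (R + ‖F.q‖)) := isCompact_closedBall _ _
  obtain ⟨φ, J, y, hφ, hJ, hJt, hy, hlim⟩ :=
    ct_escape hP.diag α c (fun k => (hc k).2) hKc hcq
  -- the limit lies in the closure of the core of the face
  obtain ⟨T₁, hT₁s, hT₁0, hT₁⟩ := hP.diag.exists_thr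
  obtain ⟨T₂, hT₂s, hT₂0, hT₂⟩ := hC.exists_thr
  have hTs : Continuous fun x => T₁ x + T₂ x := hT₁s.continuous.add hT₂s.continuous
  obtain ⟨C', hC'⟩ := (hKc.image hTs).bddAbove
  have hev : ∀ᶠ k in atTop, ∀ j ∈ J, C' < (α j : ℝ) * F.t j (c (φ k)) :=
    (Filter.eventually_all_finset J).mpr fun j hj => (hJt j hj).eventually_gt_atTop _
  have hyc : y ∈ closure (C ∩ P.E (α.faceS J)) := by
    refine mem_closure_of_tendsto hlim ?_
    filter_upwards [hev] with k hk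
    have hlarge : ∀ j ∈ J, T₁ (F.q (c (φ k))) + T₂ (F.q (c (φ k))) < |F.t j (c (φ k))| := by
      intro j hj
      rw [← hP.diag.sign_mul (hc (φ k)).2 j]
      exact lt_of_le_of_lt (hC' ⟨_, hcq _, rfl⟩) (hk j hj)
    have hD' := hT₁.mono (T' := fun x => T₁ x + T₂ x) fun x => by linarith [hT₂0 x]
    have h00 : ∀ x, 0 ≤ T₁ x + T₂ x := fun x => add_nonneg (hT₁0 x) (hT₂0 x)
    refine ⟨?_, hD'.dropS_mem hP.diag h00 J (hc (φ k)).2 hlarge⟩
    have h1 := (hT₂.mono (T' := fun x => T₁ x + T₂ x) fun x => by linarith [hT₁0 x]).dropS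
      hP.diag h00 hD' J (mem_tot.2 ⟨α, (hc (φ k)).2⟩) hlarge
    exact h1.symm ▸ (hc (φ k)).1
  obtain ⟨N, hN, hNS⟩ := hCS _ y hy hyc
  obtain ⟨β, O', hO', hyO', hpiece⟩ := ct_piece_limit hP hdim hS α J₀ J hJ₀ hJ
    (fun k j => F.t j (c (φ k))) hJt hy hN hNS
  -- the translated points converge to `y`
  have hdiff : Tendsto (fun k => F.dropS J₀ (z k) - c k) atTop (𝓝 0) := by
    rw [tendsto_zero_iff_norm_tendsto_zero]
    refine squeeze_zero (fun _ => norm_nonneg _) (fun k => ?_)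
      tendsto_one_div_add_atTop_nhds_zero_nat
    rw [← dist_eq_norm]
    exact (hcd k).le
  have hconv : Tendsto (fun k => z (φ k) - (F.vec J₀ (fun j => F.t j (z (φ k))) +
      F.vec J (fun j => F.t j (c (φ k))))) atTop (𝓝 y) := by
    have h1 := (hdiff.comp hφ.tendsto_atTop).add hlim
    rw [zero_add] at h1
    refine h1.congr fun k => ?_
    simp only [Function.comp]
    rw [← F.sub_vec_t J₀ (z (φ k)), ← F.sub_vec_t J (c (φ k))]
    abel
  obtain ⟨k, hk1, hk2, hk3⟩ := ((hconv.eventually (hO'.mem_nhds hyO')).and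
    (hpiece.and (eventually_ge_atTop ⌈β⌉₊))).exists
  refine hzn (φ k) ((hk2 _ _ hk1).mono ?_)
  calc β ≤ (⌈β⌉₊ : ℝ) := Nat.le_ceil β
    _ ≤ (k : ℝ) := by exact_mod_cast hk3
    _ ≤ (φ k : ℝ) := by exact_mod_cast hφ.le_apply

/-- **uniform calibrated pieces.**  `C` = core, `S` = pole set. -/
theorem ct_cut_cal (hP : PGeo n M F P) (hdim : ∀ α, (P.E α).Nonempty → hits α ≤ n)
    {C S : Set W} (hC : Compat F P.E (fun z => z ∈ C))
    (hS : Compat F P.E (fun z => z ∈ S))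
    (hCS : ∀ α, ∀ z ∈ P.E α, z ∈ closure (C ∩ P.E α) → ∃ N ∈ 𝓝 z, N ∩ P.E α ⊆ S) :
    ∃ Λ : V → ℝ, (∀ K : Set V, IsCompact K → BddAbove (Λ '' K)) ∧
      ∀ (γ : Stat ι) (J : Finset ι), (∀ j ∈ J, γ j = 0) → ∀ z ∈ P.mE F γ J,
        F.dropS J z ∈ closure (C ∩ P.E γ) →
        ∃ (O : Set W) (β : ℝ), IsOpen O ∧ z ∈ O ∧
          CtCal (mdim n γ J) (P.mE F γ J) (P.mh F J) (P.mdr F J) (P.mE F γ J ∩ O) β ∧
          ∀ y ∈ P.mE F γ J ∩ O, F.dropS J y ∈ S ∧ β < Λ (F.q y) := by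
  classical
  -- one constant for all members
  have h1 : ∀ m : ℕ, ∃ b : ℝ, ∀ (γ : Stat ι) (J : Finset ι), (∀ j ∈ J, γ j = 0) →
      ∀ z ∈ P.mE F γ J, ‖F.q z‖ ≤ m → F.dropS J z ∈ closure (C ∩ P.E γ) →
      CtPiece n F P S γ J z b := by
    intro m
    have h2 : ∀ x : Stat ι × Finset ι, ∃ b : ℝ, (∀ j ∈ x.2, x.1 j = 0) →
        ∀ z ∈ P.mE F x.1 x.2, ‖F.q z‖ ≤ m → F.dropS x.2 z ∈ closure (C ∩ P.E x.1) →
        CtPiece n F P S x.1 x.2 z b := by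
      intro x
      by_cases hx : ∀ j ∈ x.2, x.1 j = 0
      · obtain ⟨b, hb⟩ := ct_piece_bound hP hdim hC hS hCS x.1 x.2 hx m
        exact ⟨b, fun _ => hb⟩
      · exact ⟨0, fun h => absurd h hx⟩
    choose b hb using h2
    obtain ⟨B, hB⟩ := Finite.exists_le b
    exact ⟨B, fun γ J hJ z hz hq hzc => (hb (γ, J) hJ z hz hq hzc).mono (hB (γ, J))⟩
  choose b hb using h1
  refine ⟨fun x => ∑ i ∈ Finset.range (⌈‖x‖⌉₊ + 2), |b i| + 1, fun K hK => ?_,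
    fun γ J hJ z hz hzc => ?_⟩
  · obtain ⟨R, hR⟩ := hK.isBounded.exists_norm_le
    refine ⟨∑ i ∈ Finset.range (⌈R⌉₊ + 2), |b i| + 1, ?_⟩
    rintro _ ⟨x, hx, rfl⟩
    have hsub : Finset.range (⌈‖x‖⌉₊ + 2) ⊆ Finset.range (⌈R⌉₊ + 2) :=
      Finset.range_subset_range.mpr (Nat.add_le_add_right (Nat.ceil_mono (hR x hx)) 2)
    have := Finset.sum_le_sum_of_subset_of_nonneg hsub (f := fun i => |b i|)
      (fun i _ _ => abs_nonneg _)
    simp only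
    linarith
  · obtain ⟨O, hO, hzO, hdiam, hcal, hS'⟩ := hb ⌈‖F.q z‖⌉₊ γ J hJ z hz (Nat.le_ceil _) hzc
    refine ⟨O, b ⌈‖F.q z‖⌉₊, hO, hzO, hcal, fun y hy => ⟨hS' y hy, ?_⟩⟩
    have h3 : ‖F.q z‖ ≤ ‖F.q y‖ + 1 := by
      have h4 := hdiam y hy.2
      have h5 : ‖F.q z‖ ≤ ‖F.q y‖ + ‖F.q y - F.q z‖ := by
        calc ‖F.q z‖ = ‖F.q y - (F.q y - F.q z)‖ := by congr 1; abel
          _ ≤ ‖F.q y‖ + ‖F.q y - F.q z‖ := norm_sub_le _ _
      linarith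
    have h6 : ⌈‖F.q z‖⌉₊ ≤ ⌈‖F.q y‖⌉₊ + 1 := by
      calc ⌈‖F.q z‖⌉₊ ≤ ⌈‖F.q y‖ + 1⌉₊ := Nat.ceil_mono h3
        _ = ⌈‖F.q y‖⌉₊ + 1 := Nat.ceil_add_one (norm_nonneg _)
    have h7 : |b ⌈‖F.q z‖⌉₊| ≤ ∑ i ∈ Finset.range (⌈‖F.q y‖⌉₊ + 2), |b i| :=
      Finset.single_le_sum (f := fun i => |b i|) (fun i _ => abs_nonneg _)
        (Finset.mem_range.mpr (by omega))
    linarith [le_abs_self (b ⌈‖F.q z‖⌉₊)]

end Claimed.Agent.R315
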