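import Claimed.Agent.R315.Ct.CutP

/-!
# Row 315, package Ct: file `CutD.lean`, continuation of `CutC.lean` (general description: header of `Ct/CutA.lean`)

PACKAGE L-Ct-CutD (C6: convergence at the ends).  PLAN.  `γ = α.faceS J`, `X = mE F γ J`, `v k = F.vec J (s k)`.  Exhaust `W` by `B m = ball 0 m`.  By `ct_window`, `ct_window_compat` (for `h`, `dr`, `p`) on `closedBall 0 m` there is `k₀ m` (strictly
increasing) such that for `k ≥ k₀ m` window and data agree on `closedBall 0 m`.  `O k = ball 0 m` for the largest `m` with `k₀ m ≤ k` (`∅` if none).  `exh`: clear.  `lam k`: `CtLAM.translate` (by `- v k`), `CtLAM.inter_open`, set equality, `CtLAM.congr_data`.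
`lam'`: `ct_exists` on `X` + `ct_mem_factor` + `CtLAM.congr`.  `conv`: `Filter.tendsto_of_subseq_tendsto` for each compact `K`: every subsequence has by `ct_closure` a further subsequence converging to a minimiser `A'` on `X`; `ct_mem_factor` identifies
`A' =ᵃᵉ F.cyl J (A ∩ E γ)`.
NOTE (helper37): `ct_cut_ends` has the extra hypothesis `hdim` (nonempty status spaces have `hits ≤ n`): without it `mdim n (α.faceS J) J = n - hits α` fails (truncated subtraction).
`O k = ctWinO ..` = union of the balls `ball 0 m` on whose closure window and data agree (`CtWinGood`).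
-/

set_option autoImplicit false
open scoped ContDiff ENNReal Topology
open MeasureTheory Claims.C0499 Set Filter

namespace Claimed.Agent.R315

variable {V W : Type} [NormedAddCommGroup V] [NormedSpace ℝ V] [NormedAddCommGroup W]
  [NormedSpace ℝ W] {ι I : Type}
variable [FiniteDimensional ℝ V] [FiniteDimensional ℝ W] [Fintype ι] {n : ℕ} {M : Set V}
  {F : Frame V W ι} {P : PData W ι I}
variable [MeasurableSpace W] [BorelSpace W]

/-! ### C6: the ends (P Corollary B.7) -/

/-- the phase `A ∩ E α` seen in the window translated by `F.vec J s`. -/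
def ctWin (F : Frame V W ι) (P : PData W ι I) (A : Set W) (α : Stat ι) (J : Finset ι)
    (s : ι → ℝ) : Set W := {z | z + F.vec J s ∈ A ∩ P.E α}

/-- **convergence at the ends**, sequential form: for translations which escape in the tails `J` of
`E α`, the translated phases are minimisers on exhausting open pieces of the member
`(α.faceS J, J)` and converge to the cylinder over the phase of the face.  All conclusions of
P Theorem B.6 on converging minimisers are then available (`CtSeq.bd_lim`, `bd_approx`, `sing_lim`,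
`reg_conv`, `ct_closure_per`). -/
def CutEnds (n : ℕ) (F : Frame V W ι) (P : PData W ι I) (p : W → ℝ) (A : Set W) : Prop :=
  ∀ (α : Stat ι) (J : Finset ι), (∀ j ∈ J, α j ≠ 0) → ∀ s : ℕ → ι → ℝ,
    (∀ j ∈ J, Tendsto (fun k => (α j : ℝ) * s k j) atTop atTop) →
    ∃ O : ℕ → Set W,
      (∀ k, P.mE F (α.faceS J) J ∩ O k = {z | z + F.vec J (s k) ∈ P.E α} ∩ O k) ∧
      CtSeq (mdim n (α.faceS J) J) (P.mE F (α.faceS J) J) (P.mh F J) (P.mdr F J)
        (fun z => p (F.dropS J z)) O (fun k => ctWin F P A α J (s k) ∩ O k)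
        (F.cyl J (A ∩ P.E (α.faceS J)))

omit [FiniteDimensional ℝ V] [NormedAddCommGroup V] [NormedSpace ℝ V] [FiniteDimensional ℝ W]
  [BorelSpace W] [Fintype ι] in
/-- the empty manifold. -/
theorem ctLAM_empty_mfd (d : ℕ) (h : Ten W) (t p : W → ℝ) : CtLAM d (∅ : Set W) h t p ∅ := by
  refine ⟨⟨MeasurableSet.empty, subset_rfl, fun K _ hK => ?_⟩, fun K B _ _ hB _ => ?_⟩
  · rw [Set.subset_empty_iff.mp hK]; simp
  · rw [Set.subset_empty_iff.mp hB.sub]

/-- window and data agree on `closedBall 0 m`. -/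
def CtWinGood (F : Frame V W ι) (P : PData W ι I) (p : W → ℝ) (α : Stat ι) (J : Finset ι)
    (v : W) (m : ℕ) : Prop :=
  ∀ z ∈ Metric.closedBall (0 : W) m, (z + v ∈ P.E α ↔ F.dropS J z ∈ P.E (α.faceS J)) ∧
    (z + v ∈ P.E α → P.h (z + v) = P.h (F.dropS J z) ∧ P.dr (z + v) = P.dr (F.dropS J z) ∧
      p (z + v) = p (F.dropS J z))

omit [MeasurableSpace W] [BorelSpace W] in
theorem ct_winGood_eventually (hP : PGeo n M F P) {p : W → ℝ} (hp : SC n F P.E p) (α : Stat ι)
    (J : Finset ι) (hJ : ∀ j ∈ J, α j ≠ 0) (s : ℕ → ι → ℝ)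
    (hs : ∀ j ∈ J, Tendsto (fun k => (α j : ℝ) * s k j) atTop atTop) (m : ℕ) :
    ∀ᶠ k in atTop, CtWinGood F P p α J (F.vec J (s k)) m := by
  have hK : IsCompact (Metric.closedBall (0 : W) m) := isCompact_closedBall 0 _
  filter_upwards [ct_window hP.diag α J hJ s hs hK,
    ct_window_compat hP.diag α J hJ s hs hK hP.met.compat,
    ct_window_compat hP.diag α J hJ s hs hK hP.dr_sc.2,
    ct_window_compat hP.diag α J hJ s hs hK hp.2] with k h1 h2 h3 h4 z hz
  exact ⟨h1 z hz, fun hzE => ⟨h2 z hz hzE, h3 z hz hzE, h4 z hz hzE⟩⟩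

/-- the exhausting open sets. -/
def ctWinO (F : Frame V W ι) (P : PData W ι I) (p : W → ℝ) (α : Stat ι) (J : Finset ι)
    (v : W) : Set W :=
  ⋃ (m : ℕ) (_ : CtWinGood F P p α J v m), Metric.ball (0 : W) m

omit [FiniteDimensional ℝ V] [FiniteDimensional ℝ W] [Fintype ι] [MeasurableSpace W]
  [BorelSpace W] in
theorem ct_winO_open (p : W → ℝ) (α : Stat ι) (J : Finset ι) (v : W) :
    IsOpen (ctWinO F P p α J v) :=
  isOpen_iUnion fun _ => isOpen_iUnion fun _ => Metric.isOpen_ball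

omit [FiniteDimensional ℝ V] [FiniteDimensional ℝ W] [Fintype ι] [MeasurableSpace W]
  [BorelSpace W] in
theorem ct_winO_spec {p : W → ℝ} {α : Stat ι} {J : Finset ι} {v z : W}
    (hz : z ∈ ctWinO F P p α J v) : (z + v ∈ P.E α ↔ F.dropS J z ∈ P.E (α.faceS J)) ∧
    (z + v ∈ P.E α → P.h (z + v) = P.h (F.dropS J z) ∧ P.dr (z + v) = P.dr (F.dropS J z) ∧
      p (z + v) = p (F.dropS J z)) := by
  obtain ⟨m, hm, hzm⟩ := Set.mem_iUnion₂.mp hz
  exact hm z (Metric.ball_subset_closedBall hzm)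

omit [FiniteDimensional ℝ V] in
/-- the translated phase is a minimiser in the window. -/
theorem ct_win_lam (hP : PGeo n M F P) (hdim : ∀ α, (P.E α).Nonempty → hits α ≤ n) {p : W → ℝ}
    {A : Set W} (α : Stat ι) (hA : CtLAM (n - hits α) (P.E α) P.h P.dr p (A ∩ P.E α))
    (J : Finset ι) (hJ : ∀ j ∈ J, α j ≠ 0) (s : ι → ℝ) :
    CtLAM (mdim n (α.faceS J) J) (P.mE F (α.faceS J) J ∩ ctWinO F P p α J (F.vec J s)) (P.mh F J)
      (P.mdr F J) (fun z => p (F.dropS J z))
      (ctWin F P A α J s ∩ ctWinO F P p α J (F.vec J s)) := by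
  have hset : P.mE F (α.faceS J) J ∩ ctWinO F P p α J (F.vec J s) =
      ctTr (-F.vec J s) (P.E α) ∩ ctWinO F P p α J (F.vec J s) := by
    ext z
    constructor
    · rintro ⟨hz, hzO⟩
      refine ⟨?_, hzO⟩
      show z - -F.vec J s ∈ P.E α
      rw [sub_neg_eq_add]
      exact (ct_winO_spec hzO).1.mpr hz
    · rintro ⟨hz, hzO⟩
      refine ⟨(ct_winO_spec hzO).1.mp ?_, hzO⟩
      have hz' : z - -F.vec J s ∈ P.E α := hz
      rwa [sub_neg_eq_add] at hz'
  have hwin : ctWin F P A α J s = ctTr (-F.vec J s) (A ∩ P.E α) := by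
    ext z
    simp only [ctWin, ctTr, Set.mem_ofPred_eq, sub_neg_eq_add]
  by_cases hne : (P.E (α.faceS J)).Nonempty
  · have hd : mdim n (α.faceS J) J = n - hits α := by
      have h1 := hdim _ hne
      have h2 := ct_hits_faceS α J hJ
      unfold mdim
      omega
    have hG : CtGeo (n - hits α) (P.E α) P.h P.dr :=
      ⟨hP.diag.mfd α, hP.met.met α, hP.dr_sc.1 α⟩
    have h1 := (hA.translate hG (-F.vec J s)).inter_open (hG.translate (-F.vec J s))
      (ct_winO_open (F := F) (P := P) p α J (F.vec J s))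
    rw [hd, hset, hwin]
    refine h1.congr_data (fun z hz => ?_) (fun z hz => ?_) (fun z hz => ?_)
    · have hz' : z - -F.vec J s ∈ P.E α := hz.1
      rw [sub_neg_eq_add] at hz' ⊢
      exact ((ct_winO_spec hz.2).2 hz').1
    · have hz' : z - -F.vec J s ∈ P.E α := hz.1
      rw [sub_neg_eq_add] at hz' ⊢
      exact ((ct_winO_spec hz.2).2 hz').2.1
    · have hz' : z - -F.vec J s ∈ P.E α := hz.1
      rw [sub_neg_eq_add] at hz' ⊢
      exact ((ct_winO_spec hz.2).2 hz').2.2
  · have hX : P.mE F (α.faceS J) J ∩ ctWinO F P p α J (F.vec J s) = ∅ := by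
      rw [Set.eq_empty_iff_forall_notMem]
      rintro z ⟨hz, -⟩
      exact hne ⟨_, hz⟩
    have hW : ctWin F P A α J s ∩ ctWinO F P p α J (F.vec J s) = ∅ := by
      rw [Set.eq_empty_iff_forall_notMem]
      rintro z ⟨hz, hzO⟩
      have : z ∈ P.mE F (α.faceS J) J ∩ ctWinO F P p α J (F.vec J s) := by
        rw [hset]
        rw [hwin] at hz
        exact ⟨hz.2, hzO⟩
      rw [hX] at this
      exact this
    rw [hX, hW]
    exact ctLAM_empty_mfd _ _ _ _

theorem ct_cut_ends (hP : PGeo n M F P) (hdim : ∀ α, (P.E α).Nonempty → hits α ≤ n) {p : W → ℝ}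
    (hp : SC n F P.E p) (hu : MemUniq n F P p)
    {A : Set W} (hA : ∀ α, CtLAM (n - hits α) (P.E α) P.h P.dr p (A ∩ P.E α)) :
    CutEnds n F P p A := by
  classical
  intro α J hJ s hs
  have hJγ : ∀ j ∈ J, α.faceS J j = 0 := fun j hj => by simp [Stat.faceS, hj]
  have hG := ct_mem_geo hP (α.faceS J) J hJγ
  have hXc := ct_mem_closed hP (α.faceS J) J
  have hps := ct_mem_smooth hP (α.faceS J) J hJγ hp
  have hopen : ∀ k, IsOpen (ctWinO F P p α J (F.vec J (s k))) := fun k => ct_winO_open p α J _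
  have hexh : ∀ K : Set W, IsCompact K → ∀ᶠ k in atTop, K ⊆ ctWinO F P p α J (F.vec J (s k)) := by
    intro K hK
    obtain ⟨C, hC⟩ := hK.isBounded.exists_norm_le
    obtain ⟨m, hm⟩ := exists_nat_gt C
    filter_upwards [ct_winGood_eventually hP hp α J hJ s hs m] with k hk z hz
    refine Set.mem_iUnion₂.mpr ⟨m, hk, ?_⟩
    rw [mem_ball_zero_iff]
    exact lt_of_le_of_lt (hC z hz) hm
  have hlam : ∀ k, CtLAM (mdim n (α.faceS J) J)
      (P.mE F (α.faceS J) J ∩ ctWinO F P p α J (F.vec J (s k))) (P.mh F J) (P.mdr F J)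
      (fun z => p (F.dropS J z))
      (ctWin F P A α J (s k) ∩ ctWinO F P p α J (F.vec J (s k))) :=
    fun k => ct_win_lam hP hdim α (hA α) J hJ (s k)
  -- the limit
  obtain ⟨A₀, hA₀⟩ := ct_exists hG hXc hps
  have hmeas : MeasurableSet (F.cyl J (A ∩ P.E (α.faceS J))) :=
    (F.continuous_dropS J).measurable (hA (α.faceS J)).lf.meas
  have hsub : F.cyl J (A ∩ P.E (α.faceS J)) ⊆ P.mE F (α.faceS J) J := fun z hz => hz.2
  have hlam' : CtLAM (mdim n (α.faceS J) J) (P.mE F (α.faceS J) J) (P.mh F J) (P.mdr F J)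
      (fun z => p (F.dropS J z)) (F.cyl J (A ∩ P.E (α.faceS J))) :=
    CtLAM.congr hG hA₀ hmeas hsub (ct_mem_factor hP hp hu _ J hJγ hA₀ (hA _))
  refine ⟨fun k => ctWinO F P p α J (F.vec J (s k)), fun k => ?_,
    ⟨hG, hXc, hps, hopen, fun K hK _ => hexh K hK, hlam, hlam', ?_⟩⟩
  · ext z
    constructor
    · rintro ⟨hz, hzO⟩
      exact ⟨(ct_winO_spec hzO).1.mpr hz, hzO⟩
    · rintro ⟨hz, hzO⟩
      exact ⟨(ct_winO_spec hzO).1.mp hz, hzO⟩
  · intro K hK hKX
    refine Filter.tendsto_of_subseq_tendsto fun ns hns => ?_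
    obtain ⟨φ, A', hφ, hA', hconv⟩ := ct_closure hG hXc hps
      (fun k => ctWinO F P p α J (F.vec J (s (ns k)))) (fun k => hopen _)
      (fun K' hK' _ => hns.eventually (hexh K' hK'))
      (fun k => ctWin F P A α J (s (ns k)) ∩ ctWinO F P p α J (F.vec J (s (ns k))))
      (fun k => hlam _)
    refine ⟨φ, ?_⟩
    have h0 : vol (mdim n (α.faceS J) J) (P.mE F (α.faceS J) J) (P.mh F J)
        (symmDiff A' (F.cyl J (A ∩ P.E (α.faceS J)))) = 0 := hu _ J hJγ _ _ hA' hlam'
    refine tendsto_of_tendsto_of_tendsto_of_le_of_le tendsto_const_nhds (hconv K hK hKX)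
      (fun _ => zero_le) (fun k => ?_)
    have hsubset : symmDiff (ctWin F P A α J (s (ns (φ k))) ∩
          ctWinO F P p α J (F.vec J (s (ns (φ k))))) (F.cyl J (A ∩ P.E (α.faceS J))) ∩ K ⊆
        (symmDiff (ctWin F P A α J (s (ns (φ k))) ∩
          ctWinO F P p α J (F.vec J (s (ns (φ k))))) A' ∩ K) ∪
        symmDiff A' (F.cyl J (A ∩ P.E (α.faceS J))) := by
      rintro z ⟨hz, hzK⟩
      rcases symmDiff_triangle _ A' _ hz with h | h
      · exact Or.inl ⟨h, hzK⟩
      · exact Or.inr h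
    calc _ ≤ _ := measure_mono hsubset
      _ ≤ _ + _ := measure_union_le _ _
      _ = _ := by rw [h0, add_zero]

end Claimed.Agent.R315
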