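import Claimed.Agent.R315.Pack003
import Claimed.Agent.Lib.Gmt.IF

/-!
# Row 315, package Ct (P Appendix B on Core manifolds): DEFINITIONS

Sub-captain: helper204.  Everything lives on a Core manifold `(M, h, t)`: `M ⊆ V` an embedded
`d`-manifold, `h` a metric, `t` the drift (weight `ω = e^{-t}`), `p` the pressure.

* `wvol d M h t` : weighted volume `e^{-t} dvol_h`;
* `ctA h t ψ`, `ctRho h t ψ`, `ctF h t p ψ` : the data of the chart problem of `Lib/Gmt`
  (dictionary of `Lib/Gmt/IF.lean`: `A = ω² det G · G⁻¹`, `f = p ω √(det G)`);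
* `wper d M h t A` : the weighted perimeter MEASURE of `A ⊆ M` (chartwise `Gmt.gmtPerM`);
* `CtLAM d M h t p A` : local absolute minimiser of `P_ω(A) - ∫_A p dμ` (P Definition B.2):
  competitors differ from `A` inside a compact subset `K` of `M`, the inequality is written on `K`;
* `ctBd`, `CtReg`, `ctWall`, `ctSing`, `ctIn`, `ctOut` : boundary, regular points, the wall
  `S_reg`, the singular set `Σ`, the two open phases;
* `CtConv` : `L¹_loc` convergence of phases;
* `wlap`, `wdiv`, `gradN`, `wmc` : drift Laplacian, weighted divergence of `a ∇f`, `|df|`, weighted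
  mean curvature of level sets: the whole package uses SCALAR functions only (no vector fields).

`Gmt.E m` and `R315.E m` are the same abbreviation of `EuclideanSpace ℝ (Fin m)`; do not `open`
the namespace `Gmt` here (ambiguous `E`, `eb`).
-/

set_option autoImplicit false
open scoped ContDiff ENNReal Topology
open MeasureTheory Claims.C0499

namespace Claimed.Agent.R315

variable {V : Type} [NormedAddCommGroup V] [NormedSpace ℝ V]

/-! ### chart data -/

/-- chart density of the weighted volume: `ω √(det G)`. -/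
noncomputable def ctRho {d : ℕ} (h : Ten V) (t : V → ℝ) (ψ : E d → V) (u : E d) : ℝ :=
  Real.exp (-t (ψ u)) * Real.sqrt (cm h ψ u).det

/-- chart integrand of the weighted perimeter: `ω² det G · G⁻¹` as a form on covectors. -/
noncomputable def ctA {d : ℕ} (h : Ten V) (t : V → ℝ) (ψ : E d → V) (u : E d) : Gmt.Bil d :=
  if_bil ((Real.exp (-(2 * t (ψ u))) * (cm h ψ u).det) • (cm h ψ u)⁻¹)

/-- chart density of the pressure: `p ω √(det G)`. -/
noncomputable def ctF {d : ℕ} (h : Ten V) (t p : V → ℝ) (ψ : E d → V) (u : E d) : ℝ :=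
  p (ψ u) * ctRho h t ψ u

/-- the phase `A` read in the parametrisation `(ψ, U)`. -/
def ctPre {d : ℕ} (ψ : E d → V) (U : Set (E d)) (A : Set V) : Set (E d) := ψ ⁻¹' A ∩ U

/-! ### standing hypotheses -/

/-- smooth data `(M, h, t)` (`M` need not be closed in `V`: open pieces `M ∩ O` are allowed). -/
structure CtGeo (d : ℕ) (M : Set V) (h : Ten V) (t : V → ℝ) : Prop where
  mfd : IsMfd d M
  met : IsMetricOn d M h
  drift : SmoothAlong d M t

/-! ### boundary, regular and singular points -/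

/-- measure theoretic boundary `S = spt |Dχ_A|`. -/
def ctBd (d : ℕ) (M A : Set V) : Set V :=
  {x | ∃ (ψ : E d → V) (U : Set (E d)) (u : E d), IsParam M ψ U ∧ u ∈ U ∧ ψ u = x ∧
    u ∈ Gmt.gmtBd (ctPre ψ U A)}

/-- `x` is a regular boundary point. -/
def CtReg (d : ℕ) (M A : Set V) (x : V) : Prop :=
  ∃ (ψ : E d → V) (U : Set (E d)) (u : E d), IsParam M ψ U ∧ u ∈ U ∧ ψ u = x ∧
    Gmt.GmtReg (ctPre ψ U A) u

/-- the wall `S_reg`. -/
def ctWall (d : ℕ) (M A : Set V) : Set V := {x | CtReg d M A x}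

/-- the singular set `Σ`. -/
def ctSing (d : ℕ) (M A : Set V) : Set V := {x | x ∈ ctBd d M A ∧ ¬ CtReg d M A x}

/-- the open plus phase: points of `M` near which `A` has full measure. -/
def ctIn (d : ℕ) (M A : Set V) : Set V :=
  {x | ∃ (ψ : E d → V) (U : Set (E d)) (u : E d), IsParam M ψ U ∧ u ∈ U ∧ ψ u = x ∧
    ∃ r > 0, volume (Metric.ball u r \ ctPre ψ U A) = 0}

/-- the open minus phase: points of `M` near which `A` is null. -/
def ctOut (d : ℕ) (M A : Set V) : Set V :=
  {x | ∃ (ψ : E d → V) (U : Set (E d)) (u : E d), IsParam M ψ U ∧ u ∈ U ∧ ψ u = x ∧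
    ∃ r > 0, volume (Metric.ball u r ∩ ctPre ψ U A) = 0}

/-! ### scalar calculus with the weight -/

/-- drift Laplacian `Δ_t f = Δ f - ⟨dt, df⟩ = ω⁻¹ div (ω ∇f)`. -/
noncomputable def wlap (d : ℕ) (M : Set V) (h : Ten V) (t f : V → ℝ) (x : V) : ℝ :=
  lap d M h f x - gradIp d M h t f x

/-- weighted divergence of the field `a ∇f`: `Div_ω (a ∇f) = a Δ_t f + ⟨da, df⟩`. -/
noncomputable def wdiv (d : ℕ) (M : Set V) (h : Ten V) (t a f : V → ℝ) (x : V) : ℝ :=
  a x * wlap d M h t f x + gradIp d M h a f x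

/-- `|df|_h`. -/
noncomputable def gradN (d : ℕ) (M : Set V) (h : Ten V) (f : V → ℝ) (x : V) : ℝ :=
  Real.sqrt (gradSq d M h f x)

/-- weighted mean curvature of the level sets of `φ`:
`H_t[φ] = Div_ω (∇φ/|∇φ|) = Δ_t φ/|∇φ| - ⟨dφ, d|∇φ|²⟩/(2|∇φ|³)`. -/
noncomputable def wmc (d : ℕ) (M : Set V) (h : Ten V) (t φ : V → ℝ) (x : V) : ℝ :=
  wlap d M h t φ x / gradN d M h φ x -
    gradIp d M h φ (gradSq d M h φ) x / (2 * gradN d M h φ x ^ 3)

/-- `a` vanishes on `M` outside a compact subset of `M`. -/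
def CtCS (M : Set V) (a : V → ℝ) : Prop :=
  ∃ K, IsCompact K ∧ K ⊆ M ∧ ∀ x ∈ M, x ∉ K → a x = 0

/-- `A₁` inside `{f < τ}`, `A₂` outside. -/
def ctGlue (f : V → ℝ) (τ : ℝ) (A₁ A₂ : Set V) : Set V :=
  (A₁ ∩ {x | f x < τ}) ∪ (A₂ \ {x | f x < τ})

/-! ### measures -/

variable [MeasurableSpace V] [BorelSpace V]

/-- weighted volume `e^{-t} dvol_h`. -/
noncomputable def wvol (d : ℕ) (M : Set V) (h : Ten V) (t : V → ℝ) : Measure V :=
  (vol d M h).withDensity (M.indicator fun x => ENNReal.ofReal (Real.exp (-t x)))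

/-- `μ` is the weighted perimeter measure of `A` in `(M, h, t)`. -/
def IsWPer (d : ℕ) (M : Set V) (h : Ten V) (t : V → ℝ) (A : Set V) (μ : Measure V) : Prop :=
  μ Mᶜ = 0 ∧
  ∀ (ψ : E d → V) (U : Set (E d)), IsParam M ψ U → ∀ B ⊆ U, MeasurableSet B →
    μ (ψ '' B) = Gmt.gmtPerM (ctA h t ψ) (ctPre ψ U A) B

open Classical in
/-- the weighted perimeter measure `ω H^{d-1}_h ⌞ ∂*A`. -/
noncomputable def wper (d : ℕ) (M : Set V) (h : Ten V) (t : V → ℝ) (A : Set V) : Measure V :=
  if H : ∃ μ : Measure V, IsWPer d M h t A μ then H.choose else 0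

/-- `A` is a phase of locally finite perimeter in `M`. -/
structure CtLF (d : ℕ) (M : Set V) (h : Ten V) (t : V → ℝ) (A : Set V) : Prop where
  meas : MeasurableSet A
  sub : A ⊆ M
  fin : ∀ K, IsCompact K → K ⊆ M → wper d M h t A K ≠ ⊤

/-- the energy of `A` on the compact set `K`: `P_ω(A; K) - ∫_{A ∩ K} p dμ`. -/
noncomputable def ctEn (d : ℕ) (M : Set V) (h : Ten V) (t p : V → ℝ) (A K : Set V) : ℝ :=
  (wper d M h t A K).toReal - ∫ x in A ∩ K, p x ∂(wvol d M h t)

/-- **local absolute minimiser** (P Definition B.2). -/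
structure CtLAM (d : ℕ) (M : Set V) (h : Ten V) (t p : V → ℝ) (A : Set V) : Prop where
  lf : CtLF d M h t A
  min : ∀ K B, IsCompact K → K ⊆ M → CtLF d M h t B → symmDiff A B ⊆ K →
    ctEn d M h t p A K ≤ ctEn d M h t p B K

/-- `L¹_loc(M)` convergence of phases. -/
def CtConv (d : ℕ) (M : Set V) (h : Ten V) (A : ℕ → Set V) (A' : Set V) : Prop :=
  ∀ K, IsCompact K → K ⊆ M →
    Filter.Tendsto (fun i => vol d M h (symmDiff (A i) A' ∩ K)) Filter.atTop (𝓝 0)

/-- `φ` is a (global) defining function of the phase `A` in `M`: smooth along `M`, without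
critical points, `A = {φ < 0}` a.e.  (Local version: use it on the open piece `M ∩ O`.) -/
structure CtDef (d : ℕ) (M : Set V) (h : Ten V) (A : Set V) (φ : V → ℝ) : Prop where
  smooth : SmoothAlong d M φ
  reg : ∀ x ∈ M, 0 < gradSq d M h φ x
  eq : vol d M h (symmDiff A {x | x ∈ M ∧ φ x < 0}) = 0

/-- `∫_{D ∩ {a < f < s}} |df| dμ` as a real number. -/
noncomputable def ctIface (d : ℕ) (M : Set V) (h : Ten V) (t f : V → ℝ) (D : Set V) (a s : ℝ) : ℝ :=
  (∫⁻ x in D ∩ {x | a < f x ∧ f x < s}, ENNReal.ofReal (gradN d M h f x) ∂(wvol d M h t)).toReal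

end Claimed.Agent.R315
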