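import Claimed.Agent.R315.Ct.CutD
import Claimed.Agent.R315.Pk.PressE

/-!
# Row 315, package Ct: file `CutE.lean`, continuation of `CutD.lean` (general description: header of `Ct/CutA.lean`)
-/

set_option autoImplicit false
open scoped ContDiff ENNReal Topology
open MeasureTheory Claims.C0499 Set Filter

namespace Claimed.Agent.R315

variable {V W : Type} [NormedAddCommGroup V] [NormedSpace ℝ V] [NormedAddCommGroup W]
  [NormedSpace ℝ W] {ι I : Type}

/-! ### C7: the pressure (P Lemma B.1) -/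

/-- **Realising the processed profile** (owner: helper29, package B1).
PLAN (P Lemma B.1).  `κ : V → (0,1]` smooth with `1/κ ≥ 3 + Λ` and with so small derivative that
`Mfun = 1/(κ ∘ q)` satisfies `2 |d Mfun| ≤ a Mfun²` along every `E α` (`q` is Lipschitz on `(E α, h)` with
constants locally uniform over `V`; `pk_tol`).  `z = max (-Mfun) (min μ Mfun)` is finite, `CC`, has slope
`≤ (a z² + Π)/2`.  Compatible smoothing (faces first) with value error
`≤ min (1/4) (10⁻³ √Π)` and gradient error so that `2|dp₀| ≤ a z² + 1.005 Π`; then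
`.65 (z+e)² - .63 z² ≥ -20.475 e²`, `.67 (y+c)² - .65 y² ≥ -21.775 c²`,
`c_* = min (1/2) (.01 √(pst j0))`. -/
theorem ct_pressure [FiniteDimensional ℝ V] [FiniteDimensional ℝ W] [Fintype ι] (B : Base V)
    (hB : B.Ok) (F : Frame V W ι) (P : PData W ι B.J) (rem : Set B.J) (s c : ℝ)
    (H : Inv B F P rem s c) (hs0 : 0 ≤ s) (hs1 : s ≤ 1) (j0 : B.J) (hj : j0 ∈ rem) (Λ : V → ℝ)
    (hΛ : ∀ K : Set V, IsCompact K → BddAbove (Λ '' K)) :
    ∃ (p₀ : W → ℝ) (cs : ℝ), 0 < cs ∧ cs ≤ 1 ∧ SC B.n F P.E p₀ ∧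
      (∀ c' : ℝ, |c'| < cs → ∀ α, ∀ z ∈ P.E α,
        2 * gradN (B.n - hits α) (P.E α) P.h p₀ z ≤ 0.67 * (p₀ z + c') ^ 2 + 1.02 * P.pot j0 z) ∧
      (∀ z ∈ tot P.E, P.mu j0 z = ⊤ → Λ (F.q z) + 1 ≤ p₀ z) ∧
      (∀ z ∈ tot P.E, P.mu j0 z = ⊥ → p₀ z ≤ -(Λ (F.q z) + 1)) :=
  ct_pressure_pf B hB F P rem s c H hs0 hs1 j0 hj Λ hΛ

end Claimed.Agent.R315
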