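import Claimed.Agent.R315.Ct.CutE

/-!
# Row 315, package Ct: file `CutF.lean`, continuation of `CutE.lean` (general description: header of `Ct/CutA.lean`)

PACKAGE L-Ct-CutF (C8: GLUE `ct_cut`).  PLAN = steps 1-7 in the header of `CutA.lean`.  `hP := H.pgeo`, `L := H.label j0 hj`.  `Sp = {μ = ⊤}`, `Sn = {μ = ⊥}` are `Compat` by `L.mu_cc.2`.  `ct_cut_cal` twice, `Λ = max Λ₁ Λ₂`; `ct_pressure`; `p_c = p₀ + c` is `SC`
(constants are compatible), `gradN (p₀ + c) = gradN p₀` (`gs_sq_add`/`gs_sq_const`).  Classes `𝒜 c = {A | |c| < cs ∧ MemLAM p_c γ J A}`; ordered by `ct_mem_order` + `ct_mem_barrier'`; `ct_generic` for each of the finitely many `(γ, J)`; the union of the exceptional sets is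
countable, `Ioo (-cs) cs` is not (`Cardinal.mk_Ioo_real` / `Set.Countable` + `not_countable`).  `A = ⋃ α, A_α`, `A ∩ E α = A_α` by `IsDiag.disj`.
-/

set_option autoImplicit false
open scoped ContDiff ENNReal Topology
open MeasureTheory Claims.C0499 Set Filter

namespace Claimed.Agent.R315

variable {V W : Type} [NormedAddCommGroup V] [NormedSpace ℝ V] [NormedAddCommGroup W]
  [NormedSpace ℝ W] {ι I : Type}

/-! ### C8: the export -/

/-- **the true cut of a stage**: pressure `p`, plus phase `A`. -/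
structure CutOK [Fintype ι] [MeasurableSpace W] [BorelSpace W] (B : Base V) (F : Frame V W ι)
    (P : PData W ι B.J) (j0 : B.J) (p : W → ℝ) (A : Set W) : Prop where
  p_sc : SC B.n F P.E p
  /-- P (B.1) -/
  p_grad : ∀ α, ∀ z ∈ P.E α,
    2 * gradN (B.n - hits α) (P.E α) P.h p z ≤ 0.67 * p z ^ 2 + 1.02 * P.pot j0 z
  sub : A ⊆ tot P.E
  /-- local absolute minimiser on every status space -/
  lam : ∀ α, CtLAM (B.n - hits α) (P.E α) P.h P.dr p (A ∩ P.E α)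
  /-- barriers (P Lemma B.4) -/
  up : ∀ α, closure (P.Up j0 ∩ P.E α) ⊆ ctIn (B.n - hits α) (P.E α) (A ∩ P.E α)
  un : ∀ α, closure (P.Un j0 ∩ P.E α) ⊆ ctOut (B.n - hits α) (P.E α) (A ∩ P.E α)
  /-- uniqueness on all required products (P Proposition B.5) -/
  uniq : MemUniq B.n F P p
  /-- P Corollary B.7 -/
  ends : CutEnds B.n F P p A

/-- adding a constant to a smooth compatible function. -/
theorem ct_cutF_sc_add [Fintype ι] {n : ℕ} {F : Frame V W ι} {E : Stat ι → Set W} {p : W → ℝ}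
    (hp : SC n F E p) (c : ℝ) : SC n F E (fun z => p z + c) := by
  refine ⟨fun α => gs_sm_add (hp.1 α) (gs_sm_const c), fun i K hK => ?_⟩
  obtain ⟨R, hR⟩ := hp.2 i K hK
  exact ⟨R, fun z hz hq ht => by simp only [hR z hz hq ht]⟩

/-- a constant does not change the gradient. -/
theorem ct_cutF_gradN_add [FiniteDimensional ℝ W] {d : ℕ} {M : Set W} {h : Ten W} {p : W → ℝ} (hM : IsMfd d M)
    (hh : IsMetricOn d M h) (hp : SmoothAlong d M p) (c : ℝ) {x : W} (hx : x ∈ M) :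
    gradN d M h (fun z => p z + c) x = gradN d M h p x := by
  unfold gradN
  rw [gs_sq_add hM hh hp (gs_sm_const c) hx, gs_ip_const_right hM hh c hp hx,
    gs_sq_const hM hh c hx]
  simp

/-- level sets of a compatible function are compatible. -/
theorem ct_cutF_compat_level {F : Frame V W ι} {E : Stat ι → Set W} {X : Type} {φ : W → X}
    (hφ : Compat F E φ) (a : X) : Compat F E (fun z => z ∈ {y : W | φ y = a}) := by
  intro i K hK
  obtain ⟨R, hR⟩ := hφ i K hK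
  exact ⟨R, fun z hz hq ht => by simp only [Set.mem_ofPred_eq, hR z hz hq ht]⟩

/-- **THE CUT.** -/
theorem ct_cut [FiniteDimensional ℝ V] [FiniteDimensional ℝ W] [Fintype ι] [MeasurableSpace W]
    [BorelSpace W] (B : Base V) (hB : B.Ok) (F : Frame V W ι) (P : PData W ι B.J) (rem : Set B.J)
    (s c : ℝ) (H : Inv B F P rem s c) (hs0 : 0 ≤ s) (hs1 : s ≤ 1)
    (hdim : ∀ α, (P.E α).Nonempty → hits α + 2 ≤ B.n) (j0 : B.J) (hj : j0 ∈ rem)
    (hsep : SepConf F P j0) : ∃ (p : W → ℝ) (A : Set W), CutOK B F P j0 p A := by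
  classical
  have hP : PGeo B.n B.M F P := H.pgeo
  have L : LabelOk B F P (pkA s) j0 := H.label j0 hj
  have hdim' : ∀ α, (P.E α).Nonempty → hits α ≤ B.n := fun α hα => by
    have := hdim α hα; omega
  -- step 1: uniform calibrations
  obtain ⟨Λ₁, hΛ₁b, hcal₁⟩ := ct_cut_cal hP hdim' (C := P.Up j0) (S := {y : W | P.mu j0 y = ⊤})
    L.up_compat (ct_cutF_compat_level L.mu_cc.2 ⊤) (fun α z hz hzc => by
      obtain ⟨N, hN, hNs⟩ := L.up_pole α z hz hzc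
      exact ⟨N, hN, fun y hy => hNs y hy⟩)
  obtain ⟨Λ₂, hΛ₂b, hcal₂⟩ := ct_cut_cal hP hdim' (C := P.Un j0) (S := {y : W | P.mu j0 y = ⊥})
    L.un_compat (ct_cutF_compat_level L.mu_cc.2 ⊥) (fun α z hz hzc => by
      obtain ⟨N, hN, hNs⟩ := L.un_pole α z hz hzc
      exact ⟨N, hN, fun y hy => hNs y hy⟩)
  have hΛ : ∀ K : Set V, IsCompact K → BddAbove ((fun x => max (Λ₁ x) (Λ₂ x)) '' K) := by
    intro K hK
    obtain ⟨b₁, hb₁⟩ := hΛ₁b K hK
    obtain ⟨b₂, hb₂⟩ := hΛ₂b K hK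
    refine ⟨max b₁ b₂, ?_⟩
    rintro _ ⟨x, hx, rfl⟩
    exact max_le_max (hb₁ ⟨x, hx, rfl⟩) (hb₂ ⟨x, hx, rfl⟩)
  -- step 2: the pressure
  obtain ⟨p₀, cs, hcs0, hcs1, hp₀, hgrad, hpos, hneg⟩ :=
    ct_pressure B hB F P rem s c H hs0 hs1 j0 hj (fun x => max (Λ₁ x) (Λ₂ x)) hΛ
  have hpc : ∀ c' : ℝ, SC B.n F P.E (fun z => p₀ z + c') := fun c' => ct_cutF_sc_add hp₀ c'
  -- step 3: barriers
  have hin : ∀ c' : ℝ, |c'| < cs → ∀ (γ : Stat ι) (J : Finset ι), (∀ j ∈ J, γ j = 0) →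
      ∀ A : Set W, MemLAM B.n F P (fun z => p₀ z + c') γ J A → ∀ z ∈ P.mE F γ J,
      F.dropS J z ∈ closure (P.Up j0 ∩ P.E γ) → z ∈ ctIn (mdim B.n γ J) (P.mE F γ J) A := by
    intro c' hc' γ J hJ A hA
    refine ct_mem_barrier hP (hpc c') γ J hJ (hcal₁ γ J hJ) (fun z hz hzS => ?_) hA
    have h0 := hpos z hz hzS
    have h1 : Λ₁ (F.q z) ≤ max (Λ₁ (F.q z)) (Λ₂ (F.q z)) := le_max_left _ _
    have h2 := abs_lt.mp hc'
    linarith [h2.1]
  have hout : ∀ c' : ℝ, |c'| < cs → ∀ (γ : Stat ι) (J : Finset ι), (∀ j ∈ J, γ j = 0) →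
      ∀ A : Set W, MemLAM B.n F P (fun z => p₀ z + c') γ J A → ∀ z ∈ P.mE F γ J,
      F.dropS J z ∈ closure (P.Un j0 ∩ P.E γ) → z ∈ ctOut (mdim B.n γ J) (P.mE F γ J) A := by
    intro c' hc' γ J hJ A hA
    refine ct_mem_barrier' hP (hpc c') γ J hJ (hcal₂ γ J hJ) (fun z hz hzS => ?_) hA
    have h0 := hneg z hz hzS
    have h1 : Λ₂ (F.q z) ≤ max (Λ₁ (F.q z)) (Λ₂ (F.q z)) := le_max_right _ _
    have h2 := abs_lt.mp hc'
    linarith [h2.2]
  -- steps 4, 5: ordering and generic uniqueness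
  have hexc : ∀ (γ : Stat ι) (J : Finset ι), (∀ j ∈ J, γ j = 0) →
      {c' : ℝ | ∃ A ∈ {A : Set W | |c'| < cs ∧ MemLAM B.n F P (fun z => p₀ z + c') γ J A},
        ∃ A' ∈ {A : Set W | |c'| < cs ∧ MemLAM B.n F P (fun z => p₀ z + c') γ J A},
        vol (mdim B.n γ J) (P.mE F γ J) (P.mh F J) (symmDiff A A') ≠ 0}.Countable := by
    intro γ J hJ
    refine ct_generic (ct_mem_geo hP γ J hJ)
      (fun c' => {A : Set W | |c'| < cs ∧ MemLAM B.n F P (fun z => p₀ z + c') γ J A})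
      (fun c' A hA => (CtLAM.lf hA.2).meas) ?_
    intro c₁ c₂ h12 A₁ hA₁ A₂ hA₂
    exact ct_mem_order hP hdim' hsep γ J hJ (hpc c₁) (hpc c₂) (sub_pos.mpr h12)
      (fun z _ => le_of_eq (by ring)) hA₁.2 hA₂.2 (hout c₁ hA₁.1 γ J hJ A₁ hA₁.2)
  have hT : (⋃ x : {x : Stat ι × Finset ι // ∀ j ∈ x.2, x.1 j = 0},
      {c' : ℝ | ∃ A ∈ {A : Set W | |c'| < cs ∧
          MemLAM B.n F P (fun z => p₀ z + c') x.1.1 x.1.2 A},
        ∃ A' ∈ {A : Set W | |c'| < cs ∧ MemLAM B.n F P (fun z => p₀ z + c') x.1.1 x.1.2 A},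
        vol (mdim B.n x.1.1 x.1.2) (P.mE F x.1.1 x.1.2) (P.mh F x.1.2)
          (symmDiff A A') ≠ 0}).Countable :=
    Set.countable_iUnion fun x => hexc x.1.1 x.1.2 x.2
  obtain ⟨c₀, hc₀T, hc₀I⟩ := (hT.dense_compl ℝ).exists_mem_open (isOpen_Ioo (a := -cs) (b := cs))
    ⟨0, by simp [hcs0]⟩
  have hc₀ : |c₀| < cs := abs_lt.mpr hc₀I
  have hp : SC B.n F P.E (fun z => p₀ z + c₀) := hpc c₀
  have hu : MemUniq B.n F P (fun z => p₀ z + c₀) := by
    intro γ J hJ A A' hA hA'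
    by_contra hne
    exact hc₀T (Set.mem_iUnion.mpr ⟨⟨(γ, J), hJ⟩, A, ⟨hc₀, hA⟩, A', ⟨hc₀, hA'⟩, hne⟩)
  -- step 6: existence
  have hex : ∀ α, ∃ A, CtLAM (B.n - hits α) (P.E α) P.h P.dr (fun z => p₀ z + c₀) A := fun α =>
    ct_exists ⟨hP.diag.mfd α, hP.met.met α, hP.dr_sc.1 α⟩ (hP.diag.closed α) (hp.1 α)
  choose Aα hAα using hex
  have hAE : ∀ α, (⋃ β, Aα β) ∩ P.E α = Aα α := by
    intro α
    ext z
    constructor
    · rintro ⟨hz, hzE⟩
      obtain ⟨β, hβ⟩ := Set.mem_iUnion.mp hz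
      by_cases hβα : β = α
      · subst hβα; exact hβ
      · exact absurd hzE (Set.disjoint_left.mp (hP.diag.disj β α hβα) ((hAα β).lf.sub hβ))
    · intro hz
      exact ⟨Set.mem_iUnion.mpr ⟨α, hz⟩, (hAα α).lf.sub hz⟩
  have hlam : ∀ α, CtLAM (B.n - hits α) (P.E α) P.h P.dr (fun z => p₀ z + c₀)
      ((⋃ β, Aα β) ∩ P.E α) := fun α => by rw [hAE α]; exact hAα α
  have hE0 : ∀ α, P.mE F α ∅ = P.E α := fun α => by
    ext z; simp [PData.mE, Frame.cyl, F.dropS_empty]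
  have hd0 : ∀ α : Stat ι, mdim B.n α ∅ = B.n - hits α := fun α => by simp [mdim]
  refine ⟨fun z => p₀ z + c₀, ⋃ β, Aα β, ⟨hp, ?_, ?_, hlam, ?_, ?_, hu, ?_⟩⟩
  · intro α z hz
    rw [ct_cutF_gradN_add (hP.diag.mfd α) (hP.met.met α) (hp₀.1 α) c₀ hz]
    exact hgrad c₀ hc₀ α z hz
  · intro z hz
    obtain ⟨β, hβ⟩ := Set.mem_iUnion.mp hz
    exact Set.mem_iUnion.mpr ⟨β, (hAα β).lf.sub hβ⟩
  · intro α z hz
    have hzE : z ∈ P.E α :=
      (hP.diag.closed α).closure_subset_iff.mpr Set.inter_subset_right hz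
    have h1 := hin c₀ hc₀ α ∅ (by simp) _ ((ct_mem_empty _ α _).mpr (hlam α)) z
      (by rw [hE0]; exact hzE) (by rw [F.dropS_empty]; exact hz)
    rw [hE0, hd0] at h1
    exact h1
  · intro α z hz
    have hzE : z ∈ P.E α :=
      (hP.diag.closed α).closure_subset_iff.mpr Set.inter_subset_right hz
    have h1 := hout c₀ hc₀ α ∅ (by simp) _ ((ct_mem_empty _ α _).mpr (hlam α)) z
      (by rw [hE0]; exact hzE) (by rw [F.dropS_empty]; exact hz)
    rw [hE0, hd0] at h1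
    exact h1
  · exact ct_cut_ends hP hdim' hp hu hlam

end Claimed.Agent.R315
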