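import Claimed.Agent.R315.Ct.CutC

/-!
# Row 315, package Ct: file `CutM.lean`, continuation of `CutC.lean`

PACKAGE L-Ct-CutM (C5a: barriers on members).  PLAN.  `hcal` at `z` gives `O, β`; `CtLAM.contains` (`LamC`) with `B = mE ∩ O`: for `x ∈ B`, `dropS J x ∈ S ∩ E γ`, so `β < Λ (q x) = Λ (q (dropS J x)) ≤ p (dropS J x)`; smoothness of
the pulled back pressure: `ct_mem_smooth`; geometry: `ct_mem_geo`.  Then `vol (B \ A) = 0` and `ct_in_of_null` (`RegB`).  Minus side: `CtLAM.avoids`, `ct_out_of_null`.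
-/

set_option autoImplicit false
open scoped ContDiff ENNReal Topology
open MeasureTheory Claims.C0499 Set Filter

namespace Claimed.Agent.R315

variable {V W : Type} [NormedAddCommGroup V] [NormedSpace ℝ V] [NormedAddCommGroup W]
  [NormedSpace ℝ W] {ι I : Type}
variable [FiniteDimensional ℝ V] [FiniteDimensional ℝ W] [Fintype ι] {n : ℕ} {M : Set V}
  {F : Frame V W ι} {P : PData W ι I}
variable [MeasurableSpace W] [BorelSpace W]

/-! ### C5: minimisers on members -/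

/-- `A` is a local absolute minimiser on the member `(γ, J)` for the pulled back pressure. -/
def MemLAM (n : ℕ) (F : Frame V W ι) (P : PData W ι I) (p : W → ℝ) (γ : Stat ι) (J : Finset ι)
    (A : Set W) : Prop :=
  CtLAM (mdim n γ J) (P.mE F γ J) (P.mh F J) (P.mdr F J) (fun z => p (F.dropS J z)) A

omit [FiniteDimensional ℝ V] [FiniteDimensional ℝ W] [BorelSpace W] in
theorem ct_mem_empty (p : W → ℝ) (γ : Stat ι) (A : Set W) :
    MemLAM n F P p γ ∅ A ↔ CtLAM (n - hits γ) (P.E γ) P.h P.dr p A := by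
  have h1 : F.dropS ∅ = id := funext fun z => F.dropS_empty z
  have h2 : P.mh F ∅ = P.h := funext fun z => by simp [PData.mh, h1]
  have h3 : P.mdr F ∅ = P.dr := funext fun z => by simp [PData.mdr, h1]
  simp [MemLAM, mdim, PData.mE, Frame.cyl, h1, h2, h3]

/-- minimisers are a.e. unique on all members. -/
def MemUniq (n : ℕ) (F : Frame V W ι) (P : PData W ι I) (p : W → ℝ) : Prop :=
  ∀ (γ : Stat ι) (J : Finset ι), (∀ j ∈ J, γ j = 0) → ∀ A A', MemLAM n F P p γ J A →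
    MemLAM n F P p γ J A' → vol (mdim n γ J) (P.mE F γ J) (P.mh F J) (symmDiff A A') = 0

/-- **barrier, plus side**: `C` = core, `S` = pole set, `Λ` from `ct_cut_cal`. -/
theorem ct_mem_barrier (hP : PGeo n M F P) {C S : Set W} {Λ : V → ℝ} {p : W → ℝ}
    (hp : SC n F P.E p) (γ : Stat ι) (J : Finset ι) (hJ : ∀ j ∈ J, γ j = 0)
    (hcal : ∀ z ∈ P.mE F γ J, F.dropS J z ∈ closure (C ∩ P.E γ) →
        ∃ (O : Set W) (β : ℝ), IsOpen O ∧ z ∈ O ∧
          CtCal (mdim n γ J) (P.mE F γ J) (P.mh F J) (P.mdr F J) (P.mE F γ J ∩ O) β ∧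
          ∀ y ∈ P.mE F γ J ∩ O, F.dropS J y ∈ S ∧ β < Λ (F.q y))
    (hpS : ∀ z ∈ tot P.E, z ∈ S → Λ (F.q z) ≤ p z) {A : Set W} (hA : MemLAM n F P p γ J A) :
    ∀ z ∈ P.mE F γ J, F.dropS J z ∈ closure (C ∩ P.E γ) →
      z ∈ ctIn (mdim n γ J) (P.mE F γ J) A := by
  intro z hz hzc
  obtain ⟨O, β, hO, hzO, hcal', hS⟩ := hcal z hz hzc
  have hG := ct_mem_geo hP γ J hJ
  have h0 : vol (mdim n γ J) (P.mE F γ J) (P.mh F J) ((P.mE F γ J ∩ O) \ A) = 0 :=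
    CtLAM.contains hG (ct_mem_smooth hP γ J hJ hp) hA hcal' (fun x hx => by
      obtain ⟨hxS, hβ⟩ := hS x hx
      have h1 : F.dropS J x ∈ tot P.E := Set.mem_iUnion.mpr ⟨γ, hx.1⟩
      have h2 := hpS _ h1 hxS
      rw [F.q_dropS] at h2
      exact lt_of_lt_of_le hβ h2)
  exact ct_in_of_null hG hO h0 ⟨hz, hzO⟩

/-- **barrier, minus side.** -/
theorem ct_mem_barrier' (hP : PGeo n M F P) {C S : Set W} {Λ : V → ℝ} {p : W → ℝ}
    (hp : SC n F P.E p) (γ : Stat ι) (J : Finset ι) (hJ : ∀ j ∈ J, γ j = 0)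
    (hcal : ∀ z ∈ P.mE F γ J, F.dropS J z ∈ closure (C ∩ P.E γ) →
        ∃ (O : Set W) (β : ℝ), IsOpen O ∧ z ∈ O ∧
          CtCal (mdim n γ J) (P.mE F γ J) (P.mh F J) (P.mdr F J) (P.mE F γ J ∩ O) β ∧
          ∀ y ∈ P.mE F γ J ∩ O, F.dropS J y ∈ S ∧ β < Λ (F.q y))
    (hpS : ∀ z ∈ tot P.E, z ∈ S → p z ≤ -Λ (F.q z)) {A : Set W} (hA : MemLAM n F P p γ J A) :
    ∀ z ∈ P.mE F γ J, F.dropS J z ∈ closure (C ∩ P.E γ) →
      z ∈ ctOut (mdim n γ J) (P.mE F γ J) A := by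
  intro z hz hzc
  obtain ⟨O, β, hO, hzO, hcal', hS⟩ := hcal z hz hzc
  have hG := ct_mem_geo hP γ J hJ
  have h0 : vol (mdim n γ J) (P.mE F γ J) (P.mh F J) ((P.mE F γ J ∩ O) ∩ A) = 0 :=
    CtLAM.avoids hG (ct_mem_smooth hP γ J hJ hp) hA hcal' (fun x hx => by
      obtain ⟨hxS, hβ⟩ := hS x hx
      have h1 : F.dropS J x ∈ tot P.E := Set.mem_iUnion.mpr ⟨γ, hx.1⟩
      have h2 := hpS _ h1 hxS
      rw [F.q_dropS] at h2
      exact lt_of_le_of_lt h2 (neg_lt_neg hβ))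
  exact ct_out_of_null hG hO h0 ⟨hz, hzO⟩

end Claimed.Agent.R315
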