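import Claimed.Agent.R315.Ct.CutM

/-!
# Row 315, package Ct: file `CutO.lean`, continuation of `CutM.lean`

PACKAGE L-Ct-CutO (C5b: ordering on members).  PLAN.  `X = mE F γ J`, `N = F.cyl J (closure (Un j0 ∩ E γ))` closed, `G = A₁ \ A₂ ⊆ X`.  (1) `vol (G ∩ ctOut A₁) = 0` (`ct_vol_out_inter`), `N ∩ X ⊆ ctOut A₁` (`hout`).
(2) for `x ∈ X \ N` let `C_x = connectedComponentIn (X ∩ Nᶜ) x`; `ct_component_open` gives an open `O_x` with `X ∩ O_x = C_x`.  `dropS J '' C_x ⊆ E γ` is preconnected and disjoint from `Un j0`: `hsep` gives a compact `K ⊆ V` over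
which `C_x` lies (`Frame.q_dropS`).  (3) `Z = C_x \ ctOut A₁` is closed in `W`: `ctOut A₁` is relatively open (`ct_out_open`), `X` closed; if `y ∈ closure C_x ∩ X`, `y ∉ ctOut A₁` then `y ∉ N`, `C_y` is a relatively open neighbourhood of `y`
which meets `C_x`, so `C_y = C_x`.  (4) `ct_mem_exh` gives `CtExh`; `ct_order` with `O = O_x`: `vol (G ∩ O_x) = 0`.  (5) Lindelöf (`TopologicalSpace.isOpen_iUnion_countable` / `Set.countable_cover..`): countably many `O_x` cover `X \ N`.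
-/

set_option autoImplicit false
open scoped ContDiff ENNReal Topology
open MeasureTheory Claims.C0499 Set Filter

namespace Claimed.Agent.R315

variable {V W : Type} [NormedAddCommGroup V] [NormedSpace ℝ V] [NormedAddCommGroup W]
  [NormedSpace ℝ W] {ι I : Type}
variable [FiniteDimensional ℝ V] [FiniteDimensional ℝ W] [Fintype ι] {n : ℕ} {M : Set V}
  {F : Frame V W ι} {P : PData W ι I}
variable [MeasurableSpace W] [BorelSpace W]

/-- **ordering on members** (P Proposition B.5, first part). -/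
theorem ct_mem_order (hP : PGeo n M F P) (hdim : ∀ α, (P.E α).Nonempty → hits α ≤ n) {j0 : I}
    (hsep : SepConf F P j0) (γ : Stat ι)
    (J : Finset ι) (hJ : ∀ j ∈ J, γ j = 0) {p₁ p₂ : W → ℝ} (hp₁ : SC n F P.E p₁)
    (hp₂ : SC n F P.E p₂) {δ : ℝ} (hδ : 0 < δ) (hpp : ∀ z ∈ tot P.E, p₁ z + δ ≤ p₂ z)
    {A₁ A₂ : Set W} (h₁ : MemLAM n F P p₁ γ J A₁) (h₂ : MemLAM n F P p₂ γ J A₂)
    (hout : ∀ z ∈ P.mE F γ J, F.dropS J z ∈ closure (P.Un j0 ∩ P.E γ) →
      z ∈ ctOut (mdim n γ J) (P.mE F γ J) A₁) :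
    vol (mdim n γ J) (P.mE F γ J) (P.mh F J) (A₁ \ A₂) = 0 := by
  classical
  have hG := ct_mem_geo hP γ J hJ
  have hXc : IsClosed (P.mE F γ J) := ct_mem_closed hP γ J
  have hNc : IsClosed (F.cyl J (closure (P.Un j0 ∩ P.E γ))) :=
    isClosed_closure.preimage (F.continuous_dropS J)
  have hNout : P.mE F γ J ∩ F.cyl J (closure (P.Un j0 ∩ P.E γ)) ⊆
      ctOut (mdim n γ J) (P.mE F γ J) A₁ := fun z hz => hout z hz.1 hz.2
  have hnull : vol (mdim n γ J) (P.mE F γ J) (P.mh F J)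
      (ctOut (mdim n γ J) (P.mE F γ J) A₁ ∩ A₁) = 0 := ct_vol_out_inter hG A₁
  obtain ⟨Oo, hOo, hOoeq⟩ := ct_out_open hG.mfd A₁
  have hcomp : ∀ x : {x // x ∈ P.mE F γ J ∩ (F.cyl J (closure (P.Un j0 ∩ P.E γ)))ᶜ},
      ∃ O' : Set W, IsOpen O' ∧ O' ⊆ (F.cyl J (closure (P.Un j0 ∩ P.E γ)))ᶜ ∧
        P.mE F γ J ∩ O' =
          connectedComponentIn (P.mE F γ J ∩ (F.cyl J (closure (P.Un j0 ∩ P.E γ)))ᶜ) x.1 :=
    fun x => ct_component_open hG.mfd hNc.isOpen_compl x.2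
  choose O hOopen hON hOeq using hcomp
  have hA₁X : A₁ ⊆ P.mE F γ J := (CtLAM.lf h₁).sub
  -- each piece is null
  have hpiece : ∀ x, vol (mdim n γ J) (P.mE F γ J) (P.mh F J) ((A₁ \ A₂) ∩ O x) = 0 := by
    intro x
    have hCsub : connectedComponentIn
        (P.mE F γ J ∩ (F.cyl J (closure (P.Un j0 ∩ P.E γ)))ᶜ) x.1 ⊆
        P.mE F γ J ∩ (F.cyl J (closure (P.Un j0 ∩ P.E γ)))ᶜ := connectedComponentIn_subset _ _
    obtain ⟨K, hK, hKq⟩ := hsep γ (F.dropS J '' connectedComponentIn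
        (P.mE F γ J ∩ (F.cyl J (closure (P.Un j0 ∩ P.E γ)))ᶜ) x.1)
      (by rintro _ ⟨y, hy, rfl⟩; exact (hCsub hy).1)
      (isPreconnected_connectedComponentIn.image _ (F.continuous_dropS J).continuousOn)
      (Or.inl (by
        rw [Set.disjoint_left]
        rintro _ ⟨y, hy, rfl⟩ hyU
        exact (hCsub hy).2 (subset_closure ⟨hyU, (hCsub hy).1⟩)))
    have hZclosed : IsClosed (connectedComponentIn
        (P.mE F γ J ∩ (F.cyl J (closure (P.Un j0 ∩ P.E γ)))ᶜ) x.1 \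
        ctOut (mdim n γ J) (P.mE F γ J) A₁) := by
      rw [← closure_subset_iff_isClosed]
      intro y hy
      have hyX : y ∈ P.mE F γ J :=
        hXc.closure_subset_iff.mpr (fun z hz => (hCsub hz.1).1) hy
      have hyOo : y ∈ Ooᶜ := by
        refine hOo.isClosed_compl.closure_subset_iff.mpr (fun z hz hzO => hz.2 ?_) hy
        rw [← hOoeq]
        exact ⟨(hCsub hz.1).1, hzO⟩
      have hyout : y ∉ ctOut (mdim n γ J) (P.mE F γ J) A₁ := fun h => hyOo (by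
        rw [← hOoeq] at h; exact h.2)
      have hyN : y ∉ F.cyl J (closure (P.Un j0 ∩ P.E γ)) := fun h => hyout (hNout ⟨hyX, h⟩)
      have hyO : y ∈ O ⟨y, hyX, hyN⟩ := by
        have h0 : y ∈ P.mE F γ J ∩ O ⟨y, hyX, hyN⟩ := by
          rw [hOeq]; exact mem_connectedComponentIn ⟨hyX, hyN⟩
        exact h0.2
      obtain ⟨w, hwO, hwZ⟩ := mem_closure_iff.mp hy _ (hOopen _) hyO
      have hwCy : w ∈ connectedComponentIn
          (P.mE F γ J ∩ (F.cyl J (closure (P.Un j0 ∩ P.E γ)))ᶜ) y := by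
        have h0 := hOeq ⟨y, hyX, hyN⟩
        rw [← h0]; exact ⟨(hCsub hwZ.1).1, hwO⟩
      refine ⟨?_, hyout⟩
      rw [connectedComponentIn_eq hwZ.1, ← connectedComponentIn_eq hwCy]
      exact mem_connectedComponentIn ⟨hyX, hyN⟩
    obtain ⟨L, hL⟩ := ct_mem_exh hP hdim γ J hJ hK hZclosed (fun z hz => (hCsub hz.1).1)
      (fun z hz => by
        have := hKq _ ⟨z, hz.1, rfl⟩
        rwa [F.q_dropS] at this)
    refine ct_order hG (ct_mem_smooth hP γ J hJ hp₁) (ct_mem_smooth hP γ J hJ hp₂) h₁ h₂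
      (hOopen x) (fun z hz => ?_) hL ?_ hδ (fun z hz => ?_)
    · have h0 : z ∈ P.mE F γ J ∩ O x := by rw [hOeq]; exact hz.1
      exact h0.2
    · refine measure_mono_null (fun z hz => ?_) hnull
      have hzA : z ∈ A₁ := hz.1.1.1
      have hzC : z ∈ connectedComponentIn
          (P.mE F γ J ∩ (F.cyl J (closure (P.Un j0 ∩ P.E γ)))ᶜ) x.1 := by
        rw [← hOeq]; exact ⟨hA₁X hzA, hz.1.2⟩
      refine ⟨?_, hzA⟩
      by_contra hcon
      exact hz.2 ⟨hzC, hcon⟩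
    · exact hpp _ (Set.mem_iUnion.mpr ⟨γ, (hCsub hz.1).1⟩)
  -- Lindelöf
  obtain ⟨T, hT, hTeq⟩ := TopologicalSpace.isOpen_iUnion_countable O hOopen
  have hcover : A₁ \ A₂ ⊆ (ctOut (mdim n γ J) (P.mE F γ J) A₁ ∩ A₁) ∪
      ⋃ x ∈ T, (A₁ \ A₂) ∩ O x := by
    intro z hz
    by_cases hzN : z ∈ F.cyl J (closure (P.Un j0 ∩ P.E γ))
    · exact Or.inl ⟨hNout ⟨hA₁X hz.1, hzN⟩, hz.1⟩
    · right
      have hzO : z ∈ ⋃ x, O x := by
        refine Set.mem_iUnion.mpr ⟨⟨z, hA₁X hz.1, hzN⟩, ?_⟩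
        have h0 : z ∈ P.mE F γ J ∩ O ⟨z, hA₁X hz.1, hzN⟩ := by
          rw [hOeq]; exact mem_connectedComponentIn ⟨hA₁X hz.1, hzN⟩
        exact h0.2
      rw [← hTeq] at hzO
      obtain ⟨x, hxT, hzx⟩ := Set.mem_iUnion₂.mp hzO
      exact Set.mem_iUnion₂.mpr ⟨x, hxT, hz, hzx⟩
  refine measure_mono_null hcover (measure_union_null hnull ?_)
  exact (measure_biUnion_null_iff hT).mpr fun x _ => hpiece x

end Claimed.Agent.R315
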