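import Claimed.Agent.R315.Ct.CutO

/-!
# Row 315, package Ct: file `CutP.lean`, continuation of `CutO.lean`

PACKAGE L-Ct-CutP (C5c: factorisation on members).  PLAN.  Induction on `J`, generalising `A'`.  `J = ∅`: `hu γ ∅` + `ct_mem_empty`, `F.cyl ∅ Aγ = Aγ`.  `insert i J`: the member `(γ, insert i J)` is `ctCyl (t i) (e i)` of the member
`(γ, J)` (`Frame.cyl_insert`, `Frame.dropS_insert`); `ct_exists` (closed member: `ct_mem_closed`) gives a minimiser `F'` on `(γ, J)`; `ct_cyl_unique` (uniqueness on both from `hu`) gives `A' =ᵃᵉ ctCyl F'`; induction hypothesis `F' =ᵃᵉ F.cyl J Aγ`; `ct_cyl_null`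
applied to the symmetric difference; `ctCyl (F.cyl J Aγ) = F.cyl (insert i J) Aγ`.
-/

set_option autoImplicit false
open scoped ContDiff ENNReal Topology
open MeasureTheory Claims.C0499 Set Filter

namespace Claimed.Agent.R315

variable {V W : Type} [NormedAddCommGroup V] [NormedSpace ℝ V] [NormedAddCommGroup W]
  [NormedSpace ℝ W] {ι I : Type}
variable [FiniteDimensional ℝ V] [FiniteDimensional ℝ W] [Fintype ι] {n : ℕ} {M : Set V}
  {F : Frame V W ι} {P : PData W ι I}
variable [MeasurableSpace W] [BorelSpace W]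

omit [FiniteDimensional ℝ V] [FiniteDimensional ℝ W] [BorelSpace W] in
/-- minimisers on the member `(γ, insert i J)` = minimisers on the cylinder over `(γ, J)`. -/
theorem ct_memLAM_insert [DecidableEq ι] (p : W → ℝ) (γ : Stat ι) {J : Finset ι} {i : ι}
    (hi : i ∉ J) (A : Set W) :
    MemLAM n F P p γ (insert i J) A ↔
      CtLAM (mdim n γ J + 1) (ctCyl (F.t i) (F.e i) (P.mE F γ J))
        (fun z => P.mh F J (ctPr (F.t i) (F.e i) z)) (fun z => P.mdr F J (ctPr (F.t i) (F.e i) z))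
        (fun z => (fun y => p (F.dropS J y)) (ctPr (F.t i) (F.e i) z)) A := by
  have h5 : (fun z => p (F.dropS (insert i J) z)) =
      fun z => (fun y => p (F.dropS J y)) (ctPr (F.t i) (F.e i) z) :=
    funext fun z => by simp only [F.dropS_insert_ctPr hi]
  unfold MemLAM
  rw [ct_mE_insert P F γ hi, ct_mh_insert P F hi, ct_mdr_insert P F hi, ct_mdim_insert n γ hi, h5]

/-- **factorisation on members** (P Proposition B.5, last part). -/
theorem ct_mem_factor (hP : PGeo n M F P) {p : W → ℝ} (hp : SC n F P.E p)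
    (hu : MemUniq n F P p) (γ : Stat ι) (J : Finset ι) (hJ : ∀ j ∈ J, γ j = 0) {A' Aγ : Set W}
    (hA' : MemLAM n F P p γ J A') (hAγ : CtLAM (n - hits γ) (P.E γ) P.h P.dr p Aγ) :
    vol (mdim n γ J) (P.mE F γ J) (P.mh F J) (symmDiff A' (F.cyl J Aγ)) = 0 := by
  classical
  induction J using Finset.induction_on generalizing A' with
  | empty =>
    have h1 : F.cyl ∅ Aγ = Aγ := by
      ext z; simp [Frame.cyl, F.dropS_empty]
    rw [h1]
    exact hu γ ∅ hJ A' Aγ hA' ((ct_mem_empty p γ Aγ).mpr hAγ)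
  | insert i J hi ih =>
    have hJ' : ∀ j ∈ J, γ j = 0 := fun j hj => hJ j (Finset.mem_insert_of_mem hj)
    have hγi : γ i = 0 := hJ i (Finset.mem_insert_self i J)
    have hG := ct_mem_geo hP γ J hJ'
    have hps := ct_mem_smooth hP γ J hJ' hp
    obtain ⟨F', hF'⟩ := ct_exists hG (ct_mem_closed hP γ J) hps
    have hvol : vol (mdim n γ (insert i J)) (P.mE F γ (insert i J)) (P.mh F (insert i J)) =
        vol (mdim n γ J + 1) (ctCyl (F.t i) (F.e i) (P.mE F γ J))
          (fun z => P.mh F J (ctPr (F.t i) (F.e i) z)) := by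
      rw [ct_mE_insert P F γ hi, ct_mh_insert P F hi, ct_mdim_insert n γ hi]
    have h1 := ct_cyl_unique hG hps (F.t_e i) (ct_mem_t_zero hP γ hγi hi)
      (ct_mem_normal hP γ J hγi)
      (fun A₁ A₂ hA₁ hA₂ => by
        rw [← hvol]
        exact hu γ (insert i J) hJ A₁ A₂ ((ct_memLAM_insert p γ hi A₁).mpr hA₁)
          ((ct_memLAM_insert p γ hi A₂).mpr hA₂))
      (fun F₁ F₂ hF₁ hF₂ => hu γ J hJ' F₁ F₂ hF₁ hF₂)
      ((ct_memLAM_insert p γ hi A').mp hA') hF'
    have h2 := ct_cyl_null hG (F.t_e i) (ct_mem_t_zero hP γ hγi hi) (ct_mem_normal hP γ J hγi)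
      (ih hJ' hF')
    have h3 : ctCyl (F.t i) (F.e i) (symmDiff F' (F.cyl J Aγ)) =
        symmDiff (ctCyl (F.t i) (F.e i) F') (F.cyl (insert i J) Aγ) := by
      rw [F.cyl_insert hi]; rfl
    rw [h3] at h2
    rw [hvol]
    refine measure_mono_null (symmDiff_triangle A' (ctCyl (F.t i) (F.e i) F') _) ?_
    exact measure_union_null h1 h2

end Claimed.Agent.R315
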