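import Claimed.Agent.R315.Ct.CutB

/-!
# Row 315, package Ct: file `CutV.lean`, continuation of `CutB.lean`

PACKAGE L-Ct-CutV (C3b: volume of boxes, exhaustion).  PLAN.
* `ct_box_vol`: induction on the number of non-hit entries of `α` (strong induction; finitely many statuses).  `R` = threshold of `ct_tail_cyl` and of `Compat h`, `Compat dr` over `K`.  If
  `|m i| ≤ R + 2` for all `i`, the box lies in the compact truncation `{|t i| ≤ R + 3}` (`IsDiag.isCompact_trunc`, `ct_wvol_compact`).  Otherwise pick `i` with `|m i| > R + 2`; the part of the box in `E α` lies in the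
  open product region `O`; `ct_wvol_inter`, `ct_wvol_congr_data`, `ct_cyl_wvol`: its volume is `≤ 2 ·` (volume of the box of `E (α.face i)` with `m i := 0`).
* `ct_mem_box_vol`: induction on `J` with `ct_cyl_wvol` (factor `2` per direction).
* `ct_mem_grad_rho`: `gradN (f + g) ≤ gradN f + gradN g`, `gradSq (φ ∘ f) = φ'(f)² gradSq f` (`Gs/Calc.lean`: `gs_sq_add`, `gs_sq_comp`, `gs_ip_cs`), `|s / √(1+s²)| ≤ 1`; `gradSq` of `t i` on a member: induction on `J` with
  `ct_cyl_gradSq` (`= 1` for `i ∈ J`, `= gradSq_γ (t i) ∘ dropS J` otherwise) and `ct_grad_t_bound`.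
* `ct_mem_exh`: `sub`; `smooth`: `F.rho` is `ContDiff`; `cpt`: closed subset of `Frame.isCompact_box` (`√(1+s²) ≥ |s|`); `grad`; `growth`: `{ρ < R}` is covered by the `(2⌈R⌉+3)^{|ι|}` boxes with integer centres
  `|m i| ≤ R + 1`; a polynomial is `≤ C_ε e^{εR}`.
NOTE (helper37): `ct_box_vol`, `ct_mem_box_vol`, `ct_mem_exh` have the extra hypothesis `hdim` (nonempty status spaces have `hits ≤ n`).  `ct_mem_grad_rho` is proved with the
tangent vector calculus of `Pk/Tan.lean` (`ct_mem_tan`, `ct_mem_metric_form`, `ct_mem_tan_t_bound`), not with `ct_cyl_gradSq`.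
-/

set_option autoImplicit false
open scoped ContDiff ENNReal Topology
open MeasureTheory Claims.C0499 Set Filter

namespace Claimed.Agent.R315

variable {V W : Type} [NormedAddCommGroup V] [NormedSpace ℝ V] [NormedAddCommGroup W]
  [NormedSpace ℝ W] {ι I : Type}
variable [FiniteDimensional ℝ V] [FiniteDimensional ℝ W] [Fintype ι] {n : ℕ} {M : Set V}
  {F : Frame V W ι} {P : PData W ι I}
variable [MeasurableSpace W] [BorelSpace W]

/-! ### boxes -/

/-- the unit box with centre `m` over `K`. -/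
def ctBox (F : Frame V W ι) (K : Set V) (m : ι → ℝ) : Set W :=
  {z | F.q z ∈ K ∧ ∀ i, |F.t i z - m i| ≤ 1}

omit [FiniteDimensional ℝ V] [FiniteDimensional ℝ W] [Fintype ι] [MeasurableSpace W]
  [BorelSpace W] in
theorem ctBox_closed {K : Set V} (hK : IsClosed K) (m : ι → ℝ) : IsClosed (ctBox F K m) := by
  have e : ctBox F K m = F.q ⁻¹' K ∩ ⋂ i, {z | |F.t i z - m i| ≤ 1} := by
    ext z; simp [ctBox]
  rw [e]
  exact (hK.preimage F.q.continuous).inter (isClosed_iInter fun i =>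
    isClosed_le ((F.t i).continuous.sub continuous_const).abs continuous_const)

omit [FiniteDimensional ℝ V] [FiniteDimensional ℝ W] [Fintype ι] [MeasurableSpace W]
  [BorelSpace W] in
/-- the projection of a box. -/
theorem ctBox_drop [DecidableEq ι] {K : Set V} {m : ι → ℝ} (i : ι) {z : W}
    (hz : z ∈ ctBox F K m) :
    ctPr (F.t i) (F.e i) z ∈ ctBox F K (Function.update m i 0) ∧ |F.t i z - m i| ≤ 1 := by
  refine ⟨⟨?_, fun l => ?_⟩, hz.2 i⟩
  · show F.q (F.drop i z) ∈ K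
    rw [F.q_drop]; exact hz.1
  · show |F.t l (F.drop i z) - _| ≤ 1
    by_cases hl : l = i
    · subst hl
      rw [F.t_drop_self, Function.update_self]; simp
    · rw [F.t_drop_ne hl, Function.update_of_ne hl]; exact hz.2 l

omit [FiniteDimensional ℝ V] [NormedAddCommGroup V] [NormedSpace ℝ V] [Fintype ι] in
/-- weighted volume of a slab of a cylinder. -/
theorem ct_cyl_slab_le {d : ℕ} {X : Set W} {h : Ten W} {t : W → ℝ} {τ : W →L[ℝ] ℝ} {e : W}
    (hG : CtGeo d X h t) (hτ : τ e = 1) (hM : ∀ x ∈ X, τ x = 0) (hn : CtNormal τ e X h)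
    {B B₀ : Set W} (hB : MeasurableSet B) (c : ℝ)
    (hBB : ∀ z ∈ B, ctPr τ e z ∈ B₀ ∧ |τ z - c| ≤ 1) :
    wvol (d + 1) (ctCyl τ e X) (fun z => h (ctPr τ e z)) (fun z => t (ctPr τ e z)) B ≤
      2 * wvol d X h t B₀ := by
  rw [ct_cyl_wvol hG hτ hM hn]
  have hf : Measurable (fun y : W × ℝ => y.1 + y.2 • e) :=
    measurable_fst.add (measurable_snd.smul_const e)
  rw [Measure.map_apply hf hB]
  have hsub : (fun y : W × ℝ => y.1 + y.2 • e) ⁻¹' B ⊆
      (B₀ ×ˢ Set.Icc (c - 1) (c + 1)) ∪ (Xᶜ ×ˢ Set.univ) := by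
    rintro ⟨y, s⟩ hys
    by_cases hy : y ∈ X
    · left
      obtain ⟨h1, h2⟩ := hBB _ hys
      have e1 : ctPr τ e (y + s • e) = y := by simp [ctPr, hM y hy, hτ]
      have e2 : τ (y + s • e) = s := by simp [hM y hy, hτ]
      simp only at h1 h2
      rw [e1] at h1
      rw [e2, abs_le] at h2
      exact ⟨h1, by constructor <;> linarith [h2.1, h2.2]⟩
    · right; exact ⟨hy, trivial⟩
  calc ((wvol d X h t).prod volume) ((fun y : W × ℝ => y.1 + y.2 • e) ⁻¹' B)
      ≤ ((wvol d X h t).prod volume)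
          ((B₀ ×ˢ Set.Icc (c - 1) (c + 1)) ∪ (Xᶜ ×ˢ Set.univ)) := measure_mono hsub
    _ ≤ ((wvol d X h t).prod volume) (B₀ ×ˢ Set.Icc (c - 1) (c + 1)) +
          ((wvol d X h t).prod volume) (Xᶜ ×ˢ Set.univ) := measure_union_le _ _
    _ ≤ wvol d X h t B₀ * volume (Set.Icc (c - 1) (c + 1)) +
          wvol d X h t Xᶜ * volume (Set.univ : Set ℝ) :=
        add_le_add (Measure.prod_prod_le _ _) (Measure.prod_prod_le _ _)
    _ = 2 * wvol d X h t B₀ := by
        rw [ct_wvol_compl hG, zero_mul, add_zero, Real.volume_Icc, mul_comm]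
        congr 1
        have : c + 1 - (c - 1) = 2 := by ring
        rw [this]; simp

omit [FiniteDimensional ℝ V] [NormedAddCommGroup V] [NormedSpace ℝ V] [FiniteDimensional ℝ W]
  [NormedAddCommGroup W] [NormedSpace ℝ W] [MeasurableSpace W] [BorelSpace W] in
theorem ct_hits_face (α : Stat ι) {i : ι} (hi : α i ≠ 0) : hits (α.face i) = hits α + 1 := by
  classical
  have h1 := ct_hits_faceS α {i} (by simpa using hi)
  have h2 : α.faceS {i} = α.face i := by
    have := Stat.faceS_insert α i ∅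
    rw [Stat.faceS_empty] at this
    rw [this]; rfl
  rw [h2] at h1
  simpa using h1

omit [FiniteDimensional ℝ V] [NormedAddCommGroup V] [NormedSpace ℝ V] [FiniteDimensional ℝ W]
  [NormedAddCommGroup W] [NormedSpace ℝ W] [MeasurableSpace W] [BorelSpace W] in
theorem ct_hits_le_card (α : Stat ι) : hits α ≤ Fintype.card ι := by
  unfold hits
  calc ∑ i, (if α i = 0 then 1 else 0) ≤ ∑ _i : ι, 1 :=
        Finset.sum_le_sum fun i _ => by split_ifs <;> simp
    _ = Fintype.card ι := by simp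

omit [FiniteDimensional ℝ V] in
/-- **one step**: a box far out in the `i`-th tail. -/
theorem ct_box_step (hP : PGeo n M F P) (hdim : ∀ α, (P.E α).Nonempty → hits α ≤ n) {K : Set V}
    (hK : IsCompact K) {R : ℝ} (hR0 : 0 ≤ R)
    (hR₁ : ∀ (i : ι) (α : Stat ι), α i ≠ 0 → ∀ z : W, F.q z ∈ Metric.cthickening 1 K →
      R < (α i : ℝ) * F.t i z → (z ∈ P.E α ↔ F.drop i z ∈ P.E (α.face i)))
    (hR₂ : ∀ i, ∀ z ∈ tot P.E, F.q z ∈ Metric.cthickening 1 K → R < |F.t i z| →
      P.h (F.drop i z) = P.h z)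
    (hR₃ : ∀ i, ∀ z ∈ tot P.E, F.q z ∈ Metric.cthickening 1 K → R < |F.t i z| →
      P.dr (F.drop i z) = P.dr z)
    (α : Stat ι) (i : ι) (m : ι → ℝ) (hi : R + 2 < |m i|) [DecidableEq ι] :
    wvol (n - hits α) (P.E α) P.h P.dr (ctBox F K m) ≤
      2 * wvol (n - hits (α.face i)) (P.E (α.face i)) P.h P.dr
        (ctBox F K (Function.update m i 0)) := by
  have hGα : CtGeo (n - hits α) (P.E α) P.h P.dr :=
    ⟨hP.diag.mfd α, hP.met.met α, hP.dr_sc.1 α⟩
  have hBm : MeasurableSet (ctBox F K m) := (ctBox_closed hK.isClosed m).measurableSet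
  by_cases hne : (ctBox F K m ∩ P.E α).Nonempty
  · obtain ⟨z₀, hz₀B, hz₀E⟩ := hne
    have hlarge : ∀ z ∈ ctBox F K m, R + 1 < |F.t i z| := by
      intro z hz
      have h1 := hz.2 i
      have h2 := abs_sub_abs_le_abs_sub (m i) (F.t i z)
      rw [abs_sub_comm] at h2
      linarith
    have hαi : α i ≠ 0 := hP.diag.ne_zero_of_t_ne hz₀E (by
      intro h0
      have := hlarge z₀ hz₀B
      rw [h0, abs_zero] at this
      linarith)
    have hfi : (α.face i) i = 0 := by simp [Stat.face]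
    have hO : IsOpen {y : W | F.q y ∈ Metric.thickening 1 K ∧ R < (α i : ℝ) * F.t i y} :=
      (Metric.isOpen_thickening.preimage F.q.continuous).inter
        (isOpen_lt continuous_const (continuous_const.mul (F.t i).continuous))
    have hset : P.E α ∩ {y : W | F.q y ∈ Metric.thickening 1 K ∧ R < (α i : ℝ) * F.t i y} =
        ctCyl (F.t i) (F.e i) (P.E (α.face i)) ∩
          {y : W | F.q y ∈ Metric.thickening 1 K ∧ R < (α i : ℝ) * F.t i y} := by
      ext y
      constructor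
      · rintro ⟨hyE, hyO⟩
        exact ⟨(hR₁ i α hαi y (Metric.thickening_subset_cthickening 1 K hyO.1) hyO.2).1 hyE, hyO⟩
      · rintro ⟨hyE, hyO⟩
        exact ⟨(hR₁ i α hαi y (Metric.thickening_subset_cthickening 1 K hyO.1) hyO.2).2 hyE, hyO⟩
    have hBO : ∀ z ∈ ctBox F K m, z ∈ P.E α →
        z ∈ {y : W | F.q y ∈ Metric.thickening 1 K ∧ R < (α i : ℝ) * F.t i y} := by
      intro z hz hzE
      refine ⟨Metric.self_subset_thickening one_pos K hz.1, ?_⟩
      rw [hP.diag.sign_mul hzE i]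
      linarith [hlarge z hz]
    have hfne : (P.E (α.face i)).Nonempty := by
      have : z₀ ∈ ctCyl (F.t i) (F.e i) (P.E (α.face i)) ∩
          {y : W | F.q y ∈ Metric.thickening 1 K ∧ R < (α i : ℝ) * F.t i y} := by
        rw [← hset]; exact ⟨hz₀E, hBO z₀ hz₀B hz₀E⟩
      exact ⟨_, this.1⟩
    have hd : n - hits α = (n - hits (α.face i)) + 1 := by
      have h1 := hdim _ hfne
      have h2 := ct_hits_face α hαi
      omega
    have hGf : CtGeo (n - hits (α.face i)) (P.E (α.face i)) P.h P.dr :=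
      ⟨hP.diag.mfd _, hP.met.met _, hP.dr_sc.1 _⟩
    have hτ0 : ∀ x ∈ P.E (α.face i), F.t i x = 0 := fun x hx => hP.diag.t_hit _ x hx i hfi
    have hnorm : CtNormal (F.t i) (F.e i) (P.E (α.face i)) P.h :=
      fun x hx w => hP.met.normal _ x hx i hfi w
    have hGc := hGf.cyl (F.t_e i) hτ0 hnorm
    have hsub : ctBox F K m ⊆ (ctBox F K m ∩
        {y : W | F.q y ∈ Metric.thickening 1 K ∧ R < (α i : ℝ) * F.t i y}) ∪ (P.E α)ᶜ := by
      intro z hz
      by_cases hzE : z ∈ P.E α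
      · exact Or.inl ⟨hz, hBO z hz hzE⟩
      · exact Or.inr hzE
    have h1 : wvol (n - hits α) (P.E α) P.h P.dr (ctBox F K m) ≤
        wvol (n - hits α) (P.E α) P.h P.dr (ctBox F K m ∩
          {y : W | F.q y ∈ Metric.thickening 1 K ∧ R < (α i : ℝ) * F.t i y}) := by
      calc _ ≤ _ := measure_mono hsub
        _ ≤ _ + _ := measure_union_le _ _
        _ = _ := by rw [ct_wvol_compl hGα, add_zero]
    have h2 : wvol (n - hits α) (P.E α) P.h P.dr (ctBox F K m ∩
          {y : W | F.q y ∈ Metric.thickening 1 K ∧ R < (α i : ℝ) * F.t i y}) =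
        (wvol ((n - hits (α.face i)) + 1) (ctCyl (F.t i) (F.e i) (P.E (α.face i)))
          (fun z => P.h (ctPr (F.t i) (F.e i) z)) (fun z => P.dr (ctPr (F.t i) (F.e i) z))).restrict
          {y : W | F.q y ∈ Metric.thickening 1 K ∧ R < (α i : ℝ) * F.t i y} (ctBox F K m) := by
      rw [← Measure.restrict_apply hBm, ← ct_wvol_inter hGα hO, ← ct_wvol_inter hGc hO, hset, hd]
      congr 1
      refine ct_wvol_congr_data (fun x hx => ?_) (fun x hx => ?_)
      · rw [← hset] at hx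
        have hq := Metric.thickening_subset_cthickening 1 K hx.2.1
        have ht : R < |F.t i x| := by rw [← hP.diag.sign_mul hx.1 i]; exact hx.2.2
        exact (hR₂ i x (mem_tot.2 ⟨α, hx.1⟩) hq ht).symm
      · rw [← hset] at hx
        have hq := Metric.thickening_subset_cthickening 1 K hx.2.1
        have ht : R < |F.t i x| := by rw [← hP.diag.sign_mul hx.1 i]; exact hx.2.2
        exact (hR₃ i x (mem_tot.2 ⟨α, hx.1⟩) hq ht).symm
    calc _ ≤ _ := h1
      _ = _ := h2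
      _ ≤ _ := Measure.restrict_apply_le _ _
      _ ≤ _ := ct_cyl_slab_le hGf (F.t_e i) hτ0 hnorm hBm (m i) fun z hz => ctBox_drop i hz
  · have h0 : wvol (n - hits α) (P.E α) P.h P.dr (ctBox F K m) = 0 := by
      refine measure_mono_null (fun z hz hzE => hne ⟨z, hz, hzE⟩) (ct_wvol_compl hGα)
    rw [h0]; exact zero_le

/-- unit boxes have bounded weighted volume. -/
theorem ct_box_vol (hP : PGeo n M F P) (hdim : ∀ α, (P.E α).Nonempty → hits α ≤ n) {K : Set V}
    (hK : IsCompact K) :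
    ∃ C : ℝ, ∀ (α : Stat ι) (m : ι → ℝ),
      wvol (n - hits α) (P.E α) P.h P.dr {z | F.q z ∈ K ∧ ∀ i, |F.t i z - m i| ≤ 1} ≤
        ENNReal.ofReal C := by
  classical
  have hK' : IsCompact (Metric.cthickening 1 K) := hK.cthickening
  obtain ⟨R₁, hR₁⟩ := hP.diag.exists_tail hK'
  obtain ⟨R₂, hR₂⟩ := hP.met.compat.exists_threshold hK'
  obtain ⟨R₃, hR₃⟩ := hP.dr_sc.2.exists_threshold hK'
  obtain ⟨R, hRR₁, hRR₂, hRR₃, hR0⟩ : ∃ R : ℝ, R₁ ≤ R ∧ R₂ ≤ R ∧ R₃ ≤ R ∧ 0 ≤ R :=
    ⟨max (max R₁ R₂) (max R₃ 0), (le_max_left _ _).trans (le_max_left _ _),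
      (le_max_right _ _).trans (le_max_left _ _), (le_max_left _ _).trans (le_max_right _ _),
      (le_max_right _ _).trans (le_max_right _ _)⟩
  have hGα : ∀ α, CtGeo (n - hits α) (P.E α) P.h P.dr := fun α =>
    ⟨hP.diag.mfd α, hP.met.met α, hP.dr_sc.1 α⟩
  -- the truncations
  have htr : ∀ α, ∃ C : ℝ, 0 ≤ C ∧ wvol (n - hits α) (P.E α) P.h P.dr
      {z | z ∈ P.E α ∧ F.q z ∈ K ∧ ∀ i, |F.t i z| ≤ R + 3} ≤ ENNReal.ofReal C := by
    intro α
    have h1 := ct_wvol_compact (hGα α) (hP.diag.isCompact_trunc α hK (R + 3)) fun z hz => hz.1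
    exact ⟨_, ENNReal.toReal_nonneg, by rw [ENNReal.ofReal_toReal h1]⟩
  choose b hb0 hb using htr
  obtain ⟨C₀, hC₀⟩ := Finite.exists_le b
  have hC₀0 : 0 ≤ C₀ := (hb0 fun _ => 0).trans (hC₀ _)
  have hA : ∀ (α : Stat ι) (m : ι → ℝ), (∀ i, |m i| ≤ R + 2) →
      wvol (n - hits α) (P.E α) P.h P.dr (ctBox F K m) ≤ ENNReal.ofReal C₀ := by
    intro α m hm
    have hsub : ctBox F K m ⊆
        {z | z ∈ P.E α ∧ F.q z ∈ K ∧ ∀ i, |F.t i z| ≤ R + 3} ∪ (P.E α)ᶜ := by
      intro z hz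
      by_cases hzE : z ∈ P.E α
      · left
        refine ⟨hzE, hz.1, fun i => ?_⟩
        have h1 := hz.2 i
        have h2 := hm i
        calc |F.t i z| = |(F.t i z - m i) + m i| := by rw [sub_add_cancel]
          _ ≤ |F.t i z - m i| + |m i| := abs_add_le _ _
          _ ≤ R + 3 := by linarith
      · right; exact hzE
    calc _ ≤ _ := measure_mono hsub
      _ ≤ _ + _ := measure_union_le _ _
      _ = _ := by rw [ct_wvol_compl (hGα α), add_zero]
      _ ≤ ENNReal.ofReal (b α) := hb α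
      _ ≤ ENNReal.ofReal C₀ := ENNReal.ofReal_le_ofReal (hC₀ α)
  have hB : ∀ (α : Stat ι) (m : ι → ℝ) (i : ι), R + 2 < |m i| →
      wvol (n - hits α) (P.E α) P.h P.dr (ctBox F K m) ≤
        2 * wvol (n - hits (α.face i)) (P.E (α.face i)) P.h P.dr
          (ctBox F K (Function.update m i 0)) := fun α m i hi =>
    ct_box_step hP hdim hK hR0
      (fun i α hα z hq hlt => hR₁ i α hα z hq (lt_of_le_of_lt hRR₁ hlt))
      (fun i z hz hq hlt => hR₂ i z hz hq (lt_of_le_of_lt hRR₂ hlt))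
      (fun i z hz hq hlt => hR₃ i z hz hq (lt_of_le_of_lt hRR₃ hlt)) α i m hi
  have hZ : ∀ (α : Stat ι) (m : ι → ℝ) (i : ι), R + 2 < |m i| → α i = 0 →
      wvol (n - hits α) (P.E α) P.h P.dr (ctBox F K m) = 0 := by
    intro α m i hi hαi
    have hsub : ctBox F K m ⊆ (P.E α)ᶜ := by
      intro z hz hzE
      have h1 := hz.2 i
      rw [hP.diag.t_hit α z hzE i hαi, zero_sub, abs_neg] at h1
      linarith
    exact measure_mono_null hsub (ct_wvol_compl (hGα α))
  have key : ∀ k : ℕ, ∀ α : Stat ι, Fintype.card ι ≤ hits α + k → ∀ m : ι → ℝ,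
      wvol (n - hits α) (P.E α) P.h P.dr (ctBox F K m) ≤ ENNReal.ofReal (2 ^ k * C₀) := by
    intro k
    induction k with
    | zero =>
      intro α hα m
      by_cases hm : ∀ i, |m i| ≤ R + 2
      · simpa using hA α m hm
      · push Not at hm
        obtain ⟨i, hi⟩ := hm
        by_cases hαi : α i = 0
        · rw [hZ α m i hi hαi]; exact zero_le
        · have h1 := ct_hits_face α hαi
          have h2 := ct_hits_le_card (α.face i)
          omega
    | succ k ih =>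
      intro α hα m
      by_cases hm : ∀ i, |m i| ≤ R + 2
      · refine (hA α m hm).trans (ENNReal.ofReal_le_ofReal ?_)
        have : (1 : ℝ) ≤ 2 ^ (k + 1) := one_le_pow₀ (by norm_num)
        nlinarith
      · push Not at hm
        obtain ⟨i, hi⟩ := hm
        by_cases hαi : α i = 0
        · rw [hZ α m i hi hαi]; exact zero_le
        · have h1 := ct_hits_face α hαi
          refine (hB α m i hi).trans ?_
          have h2 := ih (α.face i) (by omega) (Function.update m i 0)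
          calc 2 * wvol (n - hits (α.face i)) (P.E (α.face i)) P.h P.dr
                (ctBox F K (Function.update m i 0)) ≤ 2 * ENNReal.ofReal (2 ^ k * C₀) := by gcongr
            _ = ENNReal.ofReal (2 ^ (k + 1) * C₀) := by
                rw [pow_succ, mul_comm (2 ^ k : ℝ) 2, mul_assoc,
                  ENNReal.ofReal_mul (by norm_num : (0 : ℝ) ≤ 2)]
                simp
  exact ⟨2 ^ Fintype.card ι * C₀, fun α m => key _ α (by omega) m⟩

/-- the same on members. -/
theorem ct_mem_box_vol (hP : PGeo n M F P) (hdim : ∀ α, (P.E α).Nonempty → hits α ≤ n)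
    {K : Set V} (hK : IsCompact K) :
    ∃ C : ℝ, ∀ (γ : Stat ι) (J : Finset ι), (∀ j ∈ J, γ j = 0) → ∀ m : ι → ℝ,
      wvol (mdim n γ J) (P.mE F γ J) (P.mh F J) (P.mdr F J)
        {z | F.q z ∈ K ∧ ∀ i, |F.t i z - m i| ≤ 1} ≤ ENNReal.ofReal C := by
  classical
  obtain ⟨C, hC⟩ := ct_box_vol hP hdim hK
  have hC0 : 0 ≤ max C 0 := le_max_right _ _
  have key : ∀ (γ : Stat ι) (J : Finset ι), (∀ j ∈ J, γ j = 0) → ∀ m : ι → ℝ,
      wvol (mdim n γ J) (P.mE F γ J) (P.mh F J) (P.mdr F J) (ctBox F K m) ≤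
        ENNReal.ofReal (2 ^ J.card * max C 0) := by
    intro γ J
    induction J using Finset.induction_on with
    | empty =>
      intro _ m
      rw [ct_mE_empty, ct_mh_empty, ct_mdr_empty, ct_mdim_empty]
      refine (hC γ m).trans (ENNReal.ofReal_le_ofReal ?_)
      simp
    | insert i J hi ih =>
      intro hJ m
      have hJ' : ∀ j ∈ J, γ j = 0 := fun j hj => hJ j (Finset.mem_insert_of_mem hj)
      have hγi : γ i = 0 := hJ i (Finset.mem_insert_self i J)
      rw [ct_mE_insert P F γ hi, ct_mh_insert P F hi, ct_mdr_insert P F hi, ct_mdim_insert n γ hi]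
      refine (ct_cyl_slab_le (ct_mem_geo hP γ J hJ') (F.t_e i) (ct_mem_t_zero hP γ hγi hi)
        (ct_mem_normal hP γ J hγi) (ctBox_closed hK.isClosed m).measurableSet (m i)
        fun z hz => ctBox_drop i hz).trans ?_
      calc 2 * wvol (mdim n γ J) (P.mE F γ J) (P.mh F J) (P.mdr F J)
            (ctBox F K (Function.update m i 0)) ≤ 2 * ENNReal.ofReal (2 ^ J.card * max C 0) := by
            gcongr; exact ih hJ' _
        _ = ENNReal.ofReal (2 ^ (insert i J).card * max C 0) := by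
            rw [Finset.card_insert_of_notMem hi, pow_succ, mul_comm (2 ^ J.card : ℝ) 2, mul_assoc,
              ENNReal.ofReal_mul (by norm_num : (0 : ℝ) ≤ 2)]
            simp
  refine ⟨2 ^ Fintype.card ι * max C 0, fun γ J hJ m => (key γ J hJ m).trans
    (ENNReal.ofReal_le_ofReal ?_)⟩
  gcongr
  · norm_num
  · exact Finset.card_le_univ J

/-! ### tangent vectors of members -/

omit [FiniteDimensional ℝ V] [FiniteDimensional ℝ W] [MeasurableSpace W] [BorelSpace W] in
/-- the metric of a member, on ALL vectors of `W`. -/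
theorem ct_mem_metric_form (hP : PGeo n M F P) (γ : Stat ι) (J : Finset ι)
    (hJ : ∀ j ∈ J, γ j = 0) {x : W} (hx : x ∈ P.E γ) :
    ∀ w : W, P.h x w w = P.h x (F.dropS J w) (F.dropS J w) + ∑ j ∈ J, (F.t j w) ^ 2 := by
  classical
  induction J using Finset.induction_on with
  | empty => intro w; simp [F.dropS_empty]
  | insert i J hi ih =>
    intro w
    have hJ' : ∀ j ∈ J, γ j = 0 := fun j hj => hJ j (Finset.mem_insert_of_mem hj)
    have hn := hP.met.normal γ x hx i (hJ i (Finset.mem_insert_self i J))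
    have h1 : P.h x w w = P.h x (F.drop i w) (F.drop i w) + (F.t i w) ^ 2 := by
      conv_lhs => rw [F.self_eq_drop_add i w]
      simp only [map_add, map_smul, add_apply, smul_apply,
        smul_eq_mul, (hn _).1, (hn _).2, F.t_drop_self, F.t_e]
      ring
    have h2 : ∑ j ∈ J, (F.t j (F.drop i w)) ^ 2 = ∑ j ∈ J, (F.t j w) ^ 2 :=
      Finset.sum_congr rfl fun j hj => by
        have hji : j ≠ i := fun h => hi (h ▸ hj)
        rw [F.t_drop_ne hji]
    rw [h1, ih hJ' (F.drop i w), F.dropS_insert hi, Finset.sum_insert hi, h2]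
    ring

omit [FiniteDimensional ℝ V] [MeasurableSpace W] [BorelSpace W] in
/-- tangent vectors of a member project to tangent vectors of the status space. -/
theorem ct_mem_tan (hP : PGeo n M F P) (γ : Stat ι) (J : Finset ι) {z w : W}
    (hw : TanAt (mdim n γ J) (P.mE F γ J) z w) :
    TanAt (n - hits γ) (P.E γ) (F.dropS J z) (F.dropS J w) := by
  obtain ⟨ψ, U, u, a, hp, hu, rfl, rfl⟩ := hw
  let L : W →L[ℝ] W := ContinuousLinearMap.id ℝ W - ∑ j ∈ J, (F.t j).smulRight (F.e j)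
  have hL : ∀ x, L x = F.dropS J x := fun x => by
    simp [L, Frame.dropS]
  have hψ := if_differentiableAt hp hu
  have hΦ : DifferentiableAt ℝ (fun b => L (ψ b)) u := L.differentiableAt.comp u hψ
  have hmem : ∀ᶠ b in 𝓝 u, L (ψ b) ∈ P.E γ := by
    filter_upwards [(if_open hp).mem_nhds hu] with b hbU
    rw [hL]
    exact if_mem hp hbU
  have := tanAt_of_map (hP.diag.mfd γ) hΦ hmem a
  have e : fderiv ℝ (fun b => L (ψ b)) u a = L (fderiv ℝ ψ u a) := by
    have h2 : fderiv ℝ (fun b => L (ψ b)) u = L.comp (fderiv ℝ ψ u) :=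
      (L.hasFDerivAt.comp u hψ.hasFDerivAt).fderiv
    rw [h2]; rfl
  rw [e, hL, hL] at this
  exact this

omit [MeasurableSpace W] [BorelSpace W] in
/-- the covectors `dt_i` are bounded on all members, over compact subsets of `V`. -/
theorem ct_mem_tan_t_bound (hP : PGeo n M F P) {K : Set V} (hK : IsCompact K) :
    ∃ C : ℝ, 1 ≤ C ∧ ∀ (γ : Stat ι) (J : Finset ι), (∀ j ∈ J, γ j = 0) → ∀ z ∈ P.mE F γ J,
      F.q z ∈ K → ∀ i, ∀ w, TanAt (mdim n γ J) (P.mE F γ J) z w →
      (F.t i w) ^ 2 ≤ C * P.mh F J z w w := by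
  obtain ⟨C, hC1, hC⟩ := ct_tan_t_bound hP hK
  refine ⟨C, hC1, fun γ J hJ z hz hq i w hw => ?_⟩
  have hw₀ := ct_mem_tan hP γ J hw
  have hform := ct_mem_metric_form hP γ J hJ hz w
  have h0 := hw₀.met_nonneg (hP.met.met γ)
  have hsum : 0 ≤ ∑ j ∈ J, (F.t j w) ^ 2 := Finset.sum_nonneg fun j _ => sq_nonneg _
  show _ ≤ C * P.h (F.dropS J z) w w
  by_cases hi : i ∈ J
  · have h1 : (F.t i w) ^ 2 ≤ ∑ j ∈ J, (F.t j w) ^ 2 :=
      Finset.single_le_sum (f := fun j => (F.t j w) ^ 2) (fun j _ => sq_nonneg _) hi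
    rw [hform]; nlinarith
  · have h1 := hC γ _ hz (by rw [F.q_dropS]; exact hq) i _ hw₀
    rw [F.t_dropS_notMem hi] at h1
    rw [hform]; nlinarith

/-! ### the exhaustion function -/

theorem ct_rho_term_hasDerivAt (s : ℝ) :
    HasDerivAt (fun s : ℝ => Real.sqrt (1 + s ^ 2)) (s / Real.sqrt (1 + s ^ 2)) s := by
  have h1 : HasDerivAt (fun s : ℝ => 1 + s ^ 2) (2 * s) s := by
    simpa using ((hasDerivAt_id s).pow 2).const_add 1
  have h2 := h1.sqrt (by positivity)
  convert h2 using 1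
  have : Real.sqrt (1 + s ^ 2) ≠ 0 := (Real.sqrt_pos.mpr (by positivity)).ne'
  field_simp

theorem ct_rho_term_le (s : ℝ) : |s / Real.sqrt (1 + s ^ 2)| ≤ 1 := by
  have hpos : 0 < Real.sqrt (1 + s ^ 2) := Real.sqrt_pos.mpr (by positivity)
  rw [abs_div, abs_of_pos hpos, div_le_one hpos]
  exact Real.abs_le_sqrt (by linarith)

omit [FiniteDimensional ℝ V] [FiniteDimensional ℝ W] [MeasurableSpace W] [BorelSpace W] in
theorem Frame.rho_hasFDerivAt (F : Frame V W ι) (z : W) :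
    HasFDerivAt F.rho (∑ i, (F.t i z / Real.sqrt (1 + F.t i z ^ 2)) • F.t i) z := by
  unfold Frame.rho
  refine HasFDerivAt.fun_sum fun i _ => ?_
  exact (ct_rho_term_hasDerivAt (F.t i z)).comp_hasFDerivAt z (F.t i).hasFDerivAt

omit [FiniteDimensional ℝ V] [FiniteDimensional ℝ W] [MeasurableSpace W] [BorelSpace W] in
theorem Frame.rho_contDiff (F : Frame V W ι) : ContDiff ℝ ∞ F.rho := by
  unfold Frame.rho
  refine ContDiff.sum fun i _ => ?_
  exact (contDiff_const.add ((F.t i).contDiff.pow 2)).sqrt fun z => by positivity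

omit [FiniteDimensional ℝ V] [FiniteDimensional ℝ W] [MeasurableSpace W] [BorelSpace W] in
theorem Frame.abs_t_le_rho (F : Frame V W ι) (z : W) (i : ι) : |F.t i z| ≤ F.rho z := by
  have h1 : |F.t i z| ≤ Real.sqrt (1 + F.t i z ^ 2) := Real.abs_le_sqrt (by linarith)
  have h2 : Real.sqrt (1 + F.t i z ^ 2) ≤ F.rho z :=
    Finset.single_le_sum (f := fun i => Real.sqrt (1 + F.t i z ^ 2))
      (fun j _ => Real.sqrt_nonneg _) (Finset.mem_univ i)
  exact h1.trans h2

omit [MeasurableSpace W] [BorelSpace W] in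
theorem ct_mem_grad_rho (hP : PGeo n M F P) {K : Set V} (hK : IsCompact K) :
    ∃ L : ℝ, ∀ (γ : Stat ι) (J : Finset ι), (∀ j ∈ J, γ j = 0) → ∀ z ∈ P.mE F γ J, F.q z ∈ K →
      gradN (mdim n γ J) (P.mE F γ J) (P.mh F J) F.rho z ≤ L := by
  obtain ⟨C, hC1, hC⟩ := ct_mem_tan_t_bound hP hK
  have hC0 : 0 ≤ C := le_trans zero_le_one hC1
  refine ⟨Real.sqrt ((Fintype.card ι : ℝ) ^ 2 * C), fun γ J hJ z hz hq => ?_⟩
  unfold gradN
  refine Real.sqrt_le_sqrt ?_
  have hG := ct_mem_geo hP γ J hJ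
  refine pk_gradSq_le hG.mfd hG.met (if_smoothAlong_of_contDiff F.rho_contDiff) hz
    (F.rho_hasFDerivAt z).differentiableAt (by positivity) fun w hw => ?_
  rw [(F.rho_hasFDerivAt z).fderiv]
  have h0 : 0 ≤ P.mh F J z w w := hw.met_nonneg hG.met
  have hs2 : Real.sqrt (C * P.mh F J z w w) ^ 2 = C * P.mh F J z w w :=
    Real.sq_sqrt (mul_nonneg hC0 h0)
  have hterm : ∀ i, |(F.t i z / Real.sqrt (1 + F.t i z ^ 2)) * F.t i w| ≤
      Real.sqrt (C * P.mh F J z w w) := by
    intro i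
    rw [abs_mul]
    have h2 : |F.t i w| ≤ Real.sqrt (C * P.mh F J z w w) :=
      Real.abs_le_sqrt (hC γ J hJ z hz hq i w hw)
    calc _ ≤ 1 * Real.sqrt (C * P.mh F J z w w) :=
          mul_le_mul (ct_rho_term_le _) h2 (abs_nonneg _) zero_le_one
      _ = _ := one_mul _
  have hsum : |(∑ i, (F.t i z / Real.sqrt (1 + F.t i z ^ 2)) • F.t i) w| ≤
      Fintype.card ι * Real.sqrt (C * P.mh F J z w w) := by
    have e : (∑ i, (F.t i z / Real.sqrt (1 + F.t i z ^ 2)) • F.t i) w =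
        ∑ i, (F.t i z / Real.sqrt (1 + F.t i z ^ 2)) * F.t i w := by
      simp
    rw [e]
    refine (Finset.abs_sum_le_sum_abs _ _).trans ?_
    refine (Finset.sum_le_sum fun i _ => hterm i).trans ?_
    rw [Finset.sum_const, Finset.card_univ, nsmul_eq_mul]
  calc ((∑ i, (F.t i z / Real.sqrt (1 + F.t i z ^ 2)) • F.t i) w) ^ 2
      = |(∑ i, (F.t i z / Real.sqrt (1 + F.t i z ^ 2)) • F.t i) w| ^ 2 := (sq_abs _).symm
    _ ≤ (Fintype.card ι * Real.sqrt (C * P.mh F J z w w)) ^ 2 :=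
        pow_le_pow_left₀ (abs_nonneg _) hsum 2
    _ = (Fintype.card ι : ℝ) ^ 2 * C * P.mh F J z w w := by rw [mul_pow, hs2]; ring

/-- a polynomial is dominated by every exponential. -/
theorem ct_poly_le_exp (N : ℕ) {ε : ℝ} (hε : 0 < ε) :
    ∃ C : ℝ, 0 ≤ C ∧ ∀ R : ℝ, 0 ≤ R → (2 * R + 5) ^ N ≤ C * Real.exp (ε * R) := by
  refine ⟨(2 / ε) ^ N * (N.factorial * Real.exp (5 * ε / 2)), by positivity, fun R hR => ?_⟩
  have h1 := Real.pow_div_factorial_le_exp ((ε / 2) * (2 * R + 5)) (by positivity) N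
  rw [div_le_iff₀ (by positivity)] at h1
  have h2 : Real.exp ((ε / 2) * (2 * R + 5)) = Real.exp (5 * ε / 2) * Real.exp (ε * R) := by
    rw [← Real.exp_add]; congr 1; ring
  have h3 : (2 * R + 5) ^ N = (2 / ε) ^ N * ((ε / 2) * (2 * R + 5)) ^ N := by
    rw [← mul_pow]; congr 1; field_simp
  rw [h3]
  calc (2 / ε) ^ N * ((ε / 2) * (2 * R + 5)) ^ N
      ≤ (2 / ε) ^ N * (Real.exp ((ε / 2) * (2 * R + 5)) * N.factorial) := by gcongr
    _ = (2 / ε) ^ N * (N.factorial * Real.exp (5 * ε / 2)) * Real.exp (ε * R) := by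
        rw [h2]; ring

/-- **closed subsets of a member over a compact subset of `V` have an exhaustion with polynomial
growth.** -/
theorem ct_mem_exh (hP : PGeo n M F P) (hdim : ∀ α, (P.E α).Nonempty → hits α ≤ n) (γ : Stat ι)
    (J : Finset ι) (hJ : ∀ j ∈ J, γ j = 0)
    {K : Set V} (hK : IsCompact K) {Z : Set W} (hZ : IsClosed Z) (hZM : Z ⊆ P.mE F γ J)
    (hZK : ∀ z ∈ Z, F.q z ∈ K) :
    ∃ L : ℝ, CtExh (mdim n γ J) (P.mE F γ J) (P.mh F J) (P.mdr F J) Z F.rho L := by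
  classical
  obtain ⟨L, hL⟩ := ct_mem_grad_rho hP hK
  obtain ⟨C₁, hC₁⟩ := ct_mem_box_vol hP hdim hK
  refine ⟨L, ⟨hZM, if_smoothAlong_of_contDiff F.rho_contDiff, fun R => ?_,
    fun x hx => hL γ J hJ x (hZM hx) (hZK x hx), fun ε hε => ?_⟩⟩
  · refine (F.isCompact_box hK R).of_isClosed_subset
      (hZ.inter (isClosed_le F.rho_contDiff.continuous continuous_const)) ?_
    rintro z ⟨hz, hzR⟩
    exact ⟨hZK z hz, fun i => (F.abs_t_le_rho z i).trans hzR⟩
  · obtain ⟨Cε, hCε0, hCε⟩ := ct_poly_le_exp (Fintype.card ι) hε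
    refine ⟨max C₁ 0 * Cε, fun R hR => ?_⟩
    -- cover by integer boxes
    have hcov : Z ∩ {x | F.rho x < R} ⊆
        ⋃ m ∈ Fintype.piFinset (fun _ : ι => Finset.Icc (-((⌈R⌉₊ : ℤ) + 1)) ((⌈R⌉₊ : ℤ) + 1)),
          ctBox F K (fun i => ((m i : ℤ) : ℝ)) := by
      rintro z ⟨hz, hzR⟩
      have hzR' : F.rho z < R := hzR
      refine Set.mem_iUnion₂.mpr ⟨fun i => round (F.t i z), ?_, hZK z hz, fun i => ?_⟩
      · rw [Fintype.mem_piFinset]
        intro i
        have h1 : |F.t i z| < (⌈R⌉₊ : ℝ) :=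
          lt_of_lt_of_le (lt_of_le_of_lt (F.abs_t_le_rho z i) hzR') (Nat.le_ceil R)
        have h2 := abs_sub_round (F.t i z)
        rw [abs_lt] at h1
        rw [abs_le] at h2
        rw [Finset.mem_Icc]
        constructor
        · have : (-((⌈R⌉₊ : ℤ) + 1) : ℝ) ≤ (round (F.t i z) : ℝ) := by
            push_cast; linarith [h1.1, h2.2]
          exact_mod_cast this
        · have : (round (F.t i z) : ℝ) ≤ (((⌈R⌉₊ : ℤ) + 1 : ℤ) : ℝ) := by
            push_cast; linarith [h1.2, h2.1]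
          exact_mod_cast this
      · exact (abs_sub_round (F.t i z)).trans (by norm_num)
    have hcard : ((Fintype.piFinset
        (fun _ : ι => Finset.Icc (-((⌈R⌉₊ : ℤ) + 1)) ((⌈R⌉₊ : ℤ) + 1))).card : ℝ) ≤
        (2 * R + 5) ^ Fintype.card ι := by
      rw [Fintype.card_piFinset, Finset.prod_const, Finset.card_univ, Int.card_Icc]
      push_cast
      gcongr
      have h1 : (⌈R⌉₊ : ℝ) < R + 1 := Nat.ceil_lt_add_one hR
      have h2 : (((⌈R⌉₊ : ℤ) + 1 + 1 - -((⌈R⌉₊ : ℤ) + 1)).toNat : ℝ) = 2 * (⌈R⌉₊ : ℝ) + 3 := by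
        have h3 : ((⌈R⌉₊ : ℤ) + 1 + 1 - -((⌈R⌉₊ : ℤ) + 1)).toNat = 2 * ⌈R⌉₊ + 3 := by omega
        rw [h3]; push_cast; ring
      rw [h2]; linarith
    calc wvol (mdim n γ J) (P.mE F γ J) (P.mh F J) (P.mdr F J) (Z ∩ {x | F.rho x < R})
        ≤ _ := measure_mono hcov
      _ ≤ ∑ m ∈ Fintype.piFinset
            (fun _ : ι => Finset.Icc (-((⌈R⌉₊ : ℤ) + 1)) ((⌈R⌉₊ : ℤ) + 1)),
            wvol (mdim n γ J) (P.mE F γ J) (P.mh F J) (P.mdr F J)
              (ctBox F K (fun i => ((m i : ℤ) : ℝ))) := measure_biUnion_finset_le _ _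
      _ ≤ (Fintype.piFinset
            (fun _ : ι => Finset.Icc (-((⌈R⌉₊ : ℤ) + 1)) ((⌈R⌉₊ : ℤ) + 1))).card •
            ENNReal.ofReal (max C₁ 0) :=
          Finset.sum_le_card_nsmul _ _ _ fun m _ =>
            (hC₁ γ J hJ _).trans (ENNReal.ofReal_le_ofReal (le_max_left _ _))
      _ = ENNReal.ofReal ((Fintype.piFinset
            (fun _ : ι => Finset.Icc (-((⌈R⌉₊ : ℤ) + 1)) ((⌈R⌉₊ : ℤ) + 1))).card * max C₁ 0) := by
          rw [nsmul_eq_mul, ENNReal.ofReal_mul (Nat.cast_nonneg _), ENNReal.ofReal_natCast]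
      _ ≤ ENNReal.ofReal (max C₁ 0 * Cε * Real.exp (ε * R)) := by
          refine ENNReal.ofReal_le_ofReal ?_
          have h0 : 0 ≤ max C₁ 0 := le_max_right _ _
          calc _ ≤ (2 * R + 5) ^ Fintype.card ι * max C₁ 0 := by gcongr
            _ ≤ (Cε * Real.exp (ε * R)) * max C₁ 0 := by gcongr; exact hCε R hR
            _ = _ := by ring

end Claimed.Agent.R315
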