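import Claimed.Agent.R315.Ct.CutA

/-!
# Row 315, package Ct: file `CutW.lean`, continuation of `CutA.lean`

PACKAGE L-Ct-CutW (C2: windows, escape, local product structure).  Pure point-set topology + `Pk/Geom.lean` (`IsDiag.exists_tail`, `Compat.exists_threshold`,
`IsDiag.sign_mul`, `Frame.isCompact_box`).  PLAN.
* `ct_window`: `K' = F.q '' K` compact, `R` from `exists_tail`; `|F.t j z| ≤ C` on `K`.  For `k` large `(α j) * (t j z + s k j) > R` for all `j ∈ J`, `z ∈ K`.  Induction on `J`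
  (generalise over `α`): `z' ∈ E α ↔ F.drop j z' ∈ E (α.face j)`, `(α.face j) i = α i` for `i ≠ j`, `F.drop j` does not change `q`, `t i` (`i ≠ j`);
  `F.dropS J (z + F.vec J s) = F.dropS J z`.   * `ct_window_compat`: the same induction with `Compat.exists_threshold` (all intermediate points lie in `tot E`).
* `ct_escape`: induction on the finite set of indices: for each `i` either `|t i (z k)|` is bounded along a subsequence or tends to `∞` (`tendsto_atTop` or a bounded
  subsequence); `(α i) * t i = |t i|` on `E α`; then `(q, t i)_{i ∉ J}` stay in a compact box, `F.dropS J (z k)` stays in `Frame.isCompact_box`, extract a convergent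
  subsequence; `F.dropS J (z k) ∈ E (α.faceS J)` eventually (as in `ct_window`), `IsDiag.closed`.
* `ct_tail_cyl`: `K' = cthickening 1 K`, `R ≥ 0` from `exists_tail` for `K'`, `O = {y | infDist (F.q y) K < 1 ∧ R < (α i) * F.t i y}`; `F.drop i = ctPr (F.t i) (F.e i)`.
-/

set_option autoImplicit false
open scoped ContDiff ENNReal Topology
open MeasureTheory Claims.C0499 Set Filter

namespace Claimed.Agent.R315

variable {V W : Type} [NormedAddCommGroup V] [NormedSpace ℝ V] [NormedAddCommGroup W]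
  [NormedSpace ℝ W] {ι I : Type}
variable [FiniteDimensional ℝ V] [FiniteDimensional ℝ W] [Fintype ι] {n : ℕ} {M : Set V}
  {F : Frame V W ι} {P : PData W ι I}

/-! ### C2: windows and escape (P Lemma A: `packet:escape`) -/

omit [NormedAddCommGroup V] [NormedSpace ℝ V] [NormedAddCommGroup W] [NormedSpace ℝ W]
  [FiniteDimensional ℝ V] [FiniteDimensional ℝ W] [Fintype ι] in
theorem ct_abs_sign_le (a : SignType) : |(a : ℝ)| ≤ 1 := by
  cases a <;> simp

omit [NormedAddCommGroup V] [NormedSpace ℝ V] [NormedAddCommGroup W] [NormedSpace ℝ W]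
  [FiniteDimensional ℝ V] [FiniteDimensional ℝ W] [Fintype ι] in
theorem ct_sign_mul_ge (a : SignType) (x : ℝ) : -|x| ≤ (a : ℝ) * x := by
  have h1 : |(a : ℝ) * x| ≤ |x| := by
    rw [abs_mul]
    calc |(a : ℝ)| * |x| ≤ 1 * |x| := by gcongr; exact ct_abs_sign_le a
      _ = |x| := one_mul _
  linarith [neg_abs_le ((a : ℝ) * x)]

omit [FiniteDimensional ℝ V] [FiniteDimensional ℝ W] [Fintype ι] in
/-- iterated tails: both directions. -/
theorem DThr.dropS_mem_iff {E : Stat ι → Set W} {T : V → ℝ} (hT : DThr F E T) (S : Finset ι) :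
    ∀ {α : Stat ι} {z : W}, (∀ i ∈ S, α i ≠ 0) → (∀ i ∈ S, T (F.q z) < (α i : ℝ) * F.t i z) →
      (z ∈ E α ↔ F.dropS S z ∈ E (α.faceS S)) := by
  classical
  induction S using Finset.induction_on with
  | empty =>
    intro α z _ _
    rw [F.dropS_empty, Stat.faceS_empty]
  | insert i S hi ih =>
    intro α z hα hS
    rw [F.dropS_insert hi, ← Stat.faceS_insert,
      hT i α (hα i (Finset.mem_insert_self i S)) z (hS i (Finset.mem_insert_self i S))]
    have hface : ∀ j ∈ S, (α.face i) j = α j := by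
      intro j hj
      have hji : j ≠ i := fun h => hi (h ▸ hj)
      simp [Stat.face, Function.update_of_ne hji]
    refine ih (fun j hj => ?_) fun j hj => ?_
    · rw [hface j hj]; exact hα j (Finset.mem_insert_of_mem hj)
    · have hji : j ≠ i := fun h => hi (h ▸ hj)
      rw [hface j hj, F.q_drop, F.t_drop_ne hji]
      exact hS j (Finset.mem_insert_of_mem hj)

omit [FiniteDimensional ℝ V] [FiniteDimensional ℝ W] [Fintype ι] in
/-- in translated windows all the coordinates `j ∈ J` are eventually beyond any threshold. -/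
theorem ct_window_large (α : Stat ι) (J : Finset ι) (s : ℕ → ι → ℝ)
    (hs : ∀ j ∈ J, Tendsto (fun k => (α j : ℝ) * s k j) atTop atTop) {K : Set W}
    (hK : IsCompact K) (R : ℝ) :
    ∀ᶠ k in atTop, ∀ z ∈ K, ∀ j ∈ J, R < (α j : ℝ) * F.t j (z + F.vec J (s k)) := by
  obtain ⟨C, hC⟩ := hK.isBounded.exists_norm_le
  have h1 : ∀ᶠ k in atTop, ∀ j ∈ J, R + ‖F.t j‖ * C < (α j : ℝ) * s k j :=
    (Filter.eventually_all_finset J).mpr fun j hj => (hs j hj).eventually_gt_atTop _
  filter_upwards [h1] with k hk z hz j hj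
  rw [map_add, F.t_vec_mem hj, mul_add]
  have h2 : |F.t j z| ≤ ‖F.t j‖ * C := by
    calc |F.t j z| = ‖F.t j z‖ := (Real.norm_eq_abs _).symm
      _ ≤ ‖F.t j‖ * ‖z‖ := (F.t j).le_opNorm z
      _ ≤ ‖F.t j‖ * C := by gcongr; exact hC z hz
  linarith [hk j hj, ct_sign_mul_ge (α j) (F.t j z)]

/-- **window lemma**: far out in the tails `J`, `E α` is a translate of the member
`(α.faceS J, J)`. -/
theorem ct_window {E : Stat ι → Set W} (hD : IsDiag n M F E) (α : Stat ι) (J : Finset ι)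
    (hJ : ∀ j ∈ J, α j ≠ 0) (s : ℕ → ι → ℝ)
    (hs : ∀ j ∈ J, Tendsto (fun k => (α j : ℝ) * s k j) atTop atTop) {K : Set W}
    (hK : IsCompact K) :
    ∀ᶠ k in atTop, ∀ z ∈ K, (z + F.vec J (s k) ∈ E α ↔ F.dropS J z ∈ E (α.faceS J)) := by
  obtain ⟨T, hTs, _, hT⟩ := hD.exists_thr
  obtain ⟨C, hC⟩ := ((hK.image F.q.continuous).image hTs.continuous).bddAbove
  filter_upwards [ct_window_large (F := F) α J s hs hK C] with k hk z hz
  rw [hT.dropS_mem_iff J hJ (fun j hj => ?_), F.dropS_add_vec]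
  refine lt_of_le_of_lt (hC ⟨F.q z, ⟨z, hz, rfl⟩, ?_⟩) (hk z hz j hj)
  rw [map_add, F.q_vec, add_zero]

/-- compatible data in the windows. -/
theorem ct_window_compat {E : Stat ι → Set W} (hD : IsDiag n M F E) (α : Stat ι) (J : Finset ι)
    (hJ : ∀ j ∈ J, α j ≠ 0) (s : ℕ → ι → ℝ)
    (hs : ∀ j ∈ J, Tendsto (fun k => (α j : ℝ) * s k j) atTop atTop) {K : Set W}
    (hK : IsCompact K) {X : Type} {φ : W → X} (hφ : Compat F E φ) :
    ∀ᶠ k in atTop, ∀ z ∈ K, z + F.vec J (s k) ∈ E α →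
      φ (z + F.vec J (s k)) = φ (F.dropS J z) := by
  obtain ⟨T₁, hT₁s, hT₁0, hT₁⟩ := hD.exists_thr
  obtain ⟨T₂, hT₂s, hT₂0, hT₂⟩ := hφ.exists_thr
  have hTs : Continuous fun x => T₁ x + T₂ x := hT₁s.continuous.add hT₂s.continuous
  obtain ⟨C, hC⟩ := ((hK.image F.q.continuous).image hTs).bddAbove
  filter_upwards [ct_window_large (F := F) α J s hs hK C] with k hk z hz hzE
  have h1 := (hT₂.mono (T' := fun x => T₁ x + T₂ x) fun x => by linarith [hT₁0 x]).dropS hD
    (fun x => add_nonneg (hT₁0 x) (hT₂0 x))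
    (hT₁.mono (T' := fun x => T₁ x + T₂ x) fun x => by linarith [hT₂0 x]) J
    (mem_tot.2 ⟨α, hzE⟩) (fun j hj => ?_)
  · rw [← h1, F.dropS_add_vec]
  · rw [← hD.sign_mul hzE j]
    refine lt_of_le_of_lt (hC ⟨F.q z, ⟨z, hz, rfl⟩, ?_⟩) (hk z hz j hj)
    simp only [map_add, F.q_vec, add_zero]

omit [NormedAddCommGroup V] [NormedSpace ℝ V] [NormedAddCommGroup W] [NormedSpace ℝ W]
  [FiniteDimensional ℝ V] [FiniteDimensional ℝ W] [Fintype ι] in
/-- finitely many real sequences: along a subsequence each of them is bounded or tends to `∞`. -/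
theorem ct_escape_aux (a : ι → ℕ → ℝ) (S : Finset ι) :
    ∃ (φ : ℕ → ℕ) (J : Finset ι) (C : ℝ), StrictMono φ ∧ J ⊆ S ∧
      (∀ j ∈ J, Tendsto (fun k => a j (φ k)) atTop atTop) ∧
      ∀ j ∈ S, j ∉ J → ∀ k, a j (φ k) ≤ C := by
  classical
  induction S using Finset.induction_on with
  | empty => exact ⟨id, ∅, 0, strictMono_id, subset_rfl, by simp, by simp⟩
  | insert i S hi ih =>
    obtain ⟨φ, J, C, hφ, hJS, hJ, hC⟩ := ih
    have hiJ : i ∉ J := fun h => hi (hJS h)
    by_cases hT : Tendsto (fun k => a i (φ k)) atTop atTop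
    · refine ⟨φ, insert i J, C, hφ, Finset.insert_subset_insert i hJS, ?_, ?_⟩
      · intro j hj
        rcases Finset.mem_insert.mp hj with rfl | hj
        · exact hT
        · exact hJ j hj
      · intro j hj hjJ k
        rcases Finset.mem_insert.mp hj with rfl | hj'
        · exact absurd (Finset.mem_insert_self _ _) hjJ
        · exact hC j hj' (fun h => hjJ (Finset.mem_insert_of_mem h)) k
    · rw [Filter.tendsto_atTop] at hT
      push Not at hT
      obtain ⟨b, hb⟩ := hT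
      obtain ⟨ψ, hψ, hψb⟩ := Filter.extraction_of_frequently_atTop hb
      refine ⟨φ ∘ ψ, J, max C b, hφ.comp hψ, hJS.trans (Finset.subset_insert i S), ?_, ?_⟩
      · intro j hj
        exact (hJ j hj).comp hψ.tendsto_atTop
      · intro j hj hjJ k
        rcases Finset.mem_insert.mp hj with rfl | hj'
        · exact le_trans (le_of_lt (hψb k)) (le_max_right _ _)
        · exact le_trans (hC j hj' hjJ (ψ k)) (le_max_left _ _)

/-- **escape lemma**: a sequence of `E α` over a compact subset of `V` has a subsequence which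
escapes exactly in a set `J` of tails and converges after projection to the face. -/
theorem ct_escape {E : Stat ι → Set W} (hD : IsDiag n M F E) (α : Stat ι) (z : ℕ → W)
    (hz : ∀ k, z k ∈ E α) {K : Set V} (hK : IsCompact K) (hq : ∀ k, F.q (z k) ∈ K) :
    ∃ (φ : ℕ → ℕ) (J : Finset ι) (y : W), StrictMono φ ∧ (∀ j ∈ J, α j ≠ 0) ∧
      (∀ j ∈ J, Tendsto (fun k => (α j : ℝ) * F.t j (z (φ k))) atTop atTop) ∧
      y ∈ E (α.faceS J) ∧ Tendsto (fun k => F.dropS J (z (φ k))) atTop (𝓝 y) := by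
  classical
  obtain ⟨φ, J, C, hφ, -, hJ, hC⟩ := ct_escape_aux (fun i k => |F.t i (z k)|) Finset.univ
  -- the projected sequence stays in a compact box
  have hbox : ∀ k, F.dropS J (z (φ k)) ∈ {w | F.q w ∈ K ∧ ∀ i, |F.t i w| ≤ max C 0} := by
    intro k
    refine ⟨by rw [F.q_dropS]; exact hq _, fun i => ?_⟩
    by_cases hi : i ∈ J
    · rw [F.t_dropS_mem hi, abs_zero]; exact le_max_right _ _
    · rw [F.t_dropS_notMem hi]
      exact le_trans (hC i (Finset.mem_univ i) hi k) (le_max_left _ _)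
  obtain ⟨y, -, ψ, hψ, hy⟩ := (F.isCompact_box hK (max C 0)).tendsto_subseq hbox
  have hJ' : ∀ j ∈ J, Tendsto (fun k => |F.t j (z (φ (ψ k)))|) atTop atTop := fun j hj =>
    (hJ j hj).comp hψ.tendsto_atTop
  obtain ⟨T, hTs, hT0, hT⟩ := hD.exists_thr
  obtain ⟨C', hC'⟩ := (hK.image hTs.continuous).bddAbove
  have hev : ∀ᶠ k in atTop, ∀ j ∈ J, C' < |F.t j (z (φ (ψ k)))| :=
    (Filter.eventually_all_finset J).mpr fun j hj => (hJ' j hj).eventually_gt_atTop _
  refine ⟨φ ∘ ψ, J, y, hφ.comp hψ, ?_, ?_, ?_, hy⟩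
  · intro j hj
    obtain ⟨k, hk⟩ := ((hJ' j hj).eventually_gt_atTop 0).exists
    exact hD.ne_zero_of_t_ne (hz _) (abs_pos.mp hk)
  · intro j hj
    refine (hJ' j hj).congr fun k => ?_
    exact (hD.sign_mul (hz _) j).symm
  · refine (hD.closed _).mem_of_tendsto hy ?_
    filter_upwards [hev] with k hk
    exact hT.dropS_mem hD hT0 J (hz _) fun j hj =>
      lt_of_le_of_lt (hC' ⟨_, hq _, rfl⟩) (hk j hj)

/-- local product structure of the tails, thresholds locally uniform over `V`. -/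
theorem ct_tail_cyl {E : Stat ι → Set W} (hD : IsDiag n M F E) {K : Set V} (hK : IsCompact K) :
    ∃ R : ℝ, ∀ (α : Stat ι) (i : ι), ∀ z ∈ E α, F.q z ∈ K → R < |F.t i z| →
      ∃ O : Set W, IsOpen O ∧ z ∈ O ∧ (∀ y ∈ O, ∀ s : ℝ, 0 ≤ s → y + (s * (α i : ℝ)) • F.e i ∈ O) ∧
        E α ∩ O = ctCyl (F.t i) (F.e i) (E (α.face i)) ∩ O := by
  obtain ⟨R, hR⟩ := hD.exists_tail (hK.cthickening (r := 1))
  refine ⟨max R 0, fun α i z hz hq hlt => ?_⟩
  have hne : F.t i z ≠ 0 := by
    intro h0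
    rw [h0, abs_zero] at hlt
    exact absurd hlt (not_lt.mpr (le_max_right _ _))
  have hα : α i ≠ 0 := hD.ne_zero_of_t_ne hz hne
  refine ⟨{y | F.q y ∈ Metric.thickening 1 K ∧ max R 0 < (α i : ℝ) * F.t i y}, ?_, ?_, ?_, ?_⟩
  · exact (Metric.isOpen_thickening.preimage F.q.continuous).inter
      (isOpen_lt continuous_const (continuous_const.mul (F.t i).continuous))
  · exact ⟨Metric.self_subset_thickening one_pos K hq, by rw [hD.sign_mul hz i]; exact hlt⟩
  · rintro y ⟨hy1, hy2⟩ s hs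
    refine ⟨by simpa [F.q_e] using hy1, ?_⟩
    have h1 : (α i : ℝ) * F.t i (y + (s * (α i : ℝ)) • F.e i) =
        (α i : ℝ) * F.t i y + s * (α i : ℝ) ^ 2 := by
      simp only [map_add, map_smul, F.t_e, smul_eq_mul]; ring
    rw [h1]
    have : 0 ≤ s * (α i : ℝ) ^ 2 := by positivity
    linarith
  · ext y
    constructor
    · rintro ⟨hyE, hyO⟩
      exact ⟨(hR i α hα y (Metric.thickening_subset_cthickening 1 K hyO.1)
        (lt_of_le_of_lt (le_max_left _ _) hyO.2)).1 hyE, hyO⟩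
    · rintro ⟨hyE, hyO⟩
      exact ⟨(hR i α hα y (Metric.thickening_subset_cthickening 1 K hyO.1)
        (lt_of_le_of_lt (le_max_left _ _) hyO.2)).2 hyE, hyO⟩

end Claimed.Agent.R315
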