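import Claimed.Agent.R315.Ct.BvA
import Claimed.Agent.R315.Gs.Calc

/-!
# Row 315, package Ct: file `FieldA.lean` = the chart field `ρ a G⁻¹ ∇f`   (helper39)

Chart computations shared by `Ct/BvF.lean` (F1-F3) and `Ct/RegH.lean`.
`ctRaw h t ψ a f u = ρ(u) a(ψ u) G⁻¹(u) ∇(f ∘ ψ)(u)` (no indicator).
-/

set_option autoImplicit false
open scoped ContDiff ENNReal Topology RealInnerProductSpace
open MeasureTheory Claims.C0499 Set Filter

namespace Claimed.Agent.R315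

variable {V : Type} [NormedAddCommGroup V] [NormedSpace ℝ V] [FiniteDimensional ℝ V]
variable {d : ℕ} {M : Set V} {h : Ten V} {t p : V → ℝ}

theorem ct_el_grad (g : E d → ℝ) (u : E d) (i : Fin d) : gradient g u i = pdiff g i u := by
  have h1 : ⟪gradient g u, eb i⟫ = fderiv ℝ g u (eb i) := by
    unfold gradient
    rw [InnerProductSpace.toDual_symm_apply]
  have h2 : ⟪gradient g u, eb i⟫ = gradient g u i := by
    rw [EuclideanSpace.inner_single_right]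
    simp
  rw [← h2, h1]
  rfl

theorem ct_el_sharp (B : Matrix (Fin d) (Fin d) ℝ) (ξ : E d) (i : Fin d) :
    Gmt.gmtSharp (if_bil B) ξ i = ∑ k, ξ k * B k i := by
  have h1 : ⟪Gmt.gmtSharp (if_bil B) ξ, eb i⟫ = if_bil B ξ (eb i) := by
    unfold Gmt.gmtSharp
    rw [InnerProductSpace.toDual_symm_apply]
  have h2 : ⟪Gmt.gmtSharp (if_bil B) ξ, eb i⟫ = Gmt.gmtSharp (if_bil B) ξ i := by
    rw [EuclideanSpace.inner_single_right]
    simp
  rw [← h2, h1, if_bil_eb_right]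
  exact Finset.sum_congr rfl fun k _ => mul_comm _ _

omit [FiniteDimensional ℝ V] in
theorem ctfa_rho_sq (hG : CtGeo d M h t) {ψ : E d → V} {U : Set (E d)} (hψ : IsParam M ψ U)
    {u : E d} (hu : u ∈ U) :
    Real.exp (-(2 * t (ψ u))) * (cm h ψ u).det = ctRho h t ψ u ^ 2 := by
  unfold ctRho
  rw [mul_pow, Real.sq_sqrt (rm_det_pos (gs_met hG.met hψ) hu).le, ← Real.exp_nat_mul]
  congr 2
  push_cast
  ring

omit [FiniteDimensional ℝ V] in
theorem ctfa_rho_pos (hG : CtGeo d M h t) {ψ : E d → V} {U : Set (E d)} (hψ : IsParam M ψ U)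
    {u : E d} (hu : u ∈ U) : 0 < ctRho h t ψ u :=
  mul_pos (Real.exp_pos _) (Real.sqrt_pos.2 (rm_det_pos (gs_met hG.met hψ) hu))

theorem ct_el_norm (hG : CtGeo d M h t) {f : V → ℝ} (hf : SmoothAlong d M f) {ψ : E d → V}
    {U : Set (E d)} (hψ : IsParam M ψ U) {u : E d} (hu : u ∈ U) :
    ctA h t ψ u (gradient (f ∘ ψ) u) (gradient (f ∘ ψ) u) =
      ctRho h t ψ u ^ 2 * gradSq d M h f (ψ u) := by
  rw [if_gradSq_eq hG.met hf hψ hu]
  unfold ctA gradSqC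
  rw [if_bil_apply, ctfa_rho_sq hG hψ hu, Finset.mul_sum]
  refine Finset.sum_congr rfl fun i _ => ?_
  rw [Finset.mul_sum]
  refine Finset.sum_congr rfl fun j _ => ?_
  rw [ct_el_grad, ct_el_grad, Matrix.smul_apply, smul_eq_mul]
  ring

/-- divergence through the components. -/
theorem ctfa_div_eq {T : E d → E d} {u : E d} (hT : DifferentiableAt ℝ T u) :
    Gmt.gmtDiv T u = ∑ i, pdiff (fun w => T w i) i u := by
  unfold Gmt.gmtDiv pdiff
  refine Finset.sum_congr rfl fun i _ => ?_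
  have h1 := ((if_pr i).hasFDerivAt.comp u hT.hasFDerivAt).fderiv
  have h2 : (fun w => T w i) = (if_pr i) ∘ T := rfl
  rw [h2, h1]
  rfl

theorem ctfa_div_congr {T T' : E d → E d} {u : E d} (hT : T =ᶠ[𝓝 u] T') :
    Gmt.gmtDiv T u = Gmt.gmtDiv T' u := by
  unfold Gmt.gmtDiv
  rw [hT.fderiv_eq]

/-- the chart field `ρ a G⁻¹ ∇f` without indicator. -/
noncomputable def ctRaw {d : ℕ} (h : Ten V) (t : V → ℝ) (ψ : E d → V) (a f : V → ℝ) (u : E d) :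
    E d :=
  (ctRho h t ψ u * a (ψ u)) •
    WithLp.toLp 2 ((cm h ψ u)⁻¹.mulVec fun j => pdiff (f ∘ ψ) j u)

omit [FiniteDimensional ℝ V] in
theorem ctRaw_apply (h : Ten V) (t : V → ℝ) (ψ : E d → V) (a f : V → ℝ) (u : E d) (i : Fin d) :
    ctRaw h t ψ a f u i = a (ψ u) * (Real.exp (-t (ψ u)) * Real.sqrt (cm h ψ u).det *
      ∑ j, (cm h ψ u)⁻¹ i j * pdiff (f ∘ ψ) j u) := by
  unfold ctRaw ctRho
  simp only [PiLp.smul_apply, smul_eq_mul, Matrix.mulVec, dotProduct]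
  ring

omit [FiniteDimensional ℝ V] in
/-- the components `e^{-t} √det G ∑_j G^{ij} ∂_j f` are smooth. -/
theorem ctfa_Y_smooth (hG : CtGeo d M h t) {f : V → ℝ} (hf : SmoothAlong d M f) {ψ : E d → V}
    {U : Set (E d)} (hψ : IsParam M ψ U) (i : Fin d) :
    ContDiffOn ℝ ∞ (fun w => Real.exp (-(t ∘ ψ) w) * Real.sqrt (cm h ψ w).det *
      ∑ j, (cm h ψ w)⁻¹ i j * pdiff (f ∘ ψ) j w) U := by
  have hm := gs_met hG.met hψ
  exact ((hG.drift ψ U hψ).neg.exp.mul (rm_sqrtdet_smooth hm)).mul (ContDiffOn.sum fun j _ =>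
    (rm_inv_smooth hm i j).mul (rm_pdiff_smooth hm.opn (hf ψ U hψ) j))

omit [FiniteDimensional ℝ V] in
theorem ctRaw_smooth (hG : CtGeo d M h t) {a f : V → ℝ} (ha : SmoothAlong d M a)
    (hf : SmoothAlong d M f) {ψ : E d → V} {U : Set (E d)} (hψ : IsParam M ψ U) :
    ContDiffOn ℝ ∞ (ctRaw h t ψ a f) U := by
  rw [contDiffOn_euclidean]
  intro i
  simp only [ctRaw_apply]
  exact (ha ψ U hψ).mul (ctfa_Y_smooth hG hf hψ i)

/-- (F1) for the raw field. -/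
theorem ctRaw_div (hG : CtGeo d M h t) {a f : V → ℝ} (ha : SmoothAlong d M a)
    (hf : SmoothAlong d M f) {ψ : E d → V} {U : Set (E d)} (hψ : IsParam M ψ U) {u : E d}
    (hu : u ∈ U) :
    Gmt.gmtDiv (ctRaw h t ψ a f) u = wdiv d M h t a f (ψ u) * ctRho h t ψ u := by
  have hm := gs_met hG.met hψ
  have hd : DifferentiableAt ℝ (ctRaw h t ψ a f) u :=
    ((ctRaw_smooth hG ha hf hψ).contDiffAt (hm.opn.mem_nhds hu)).differentiableAt (by simp)
  rw [ctfa_div_eq hd]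
  simp only [ctRaw_apply]
  have hρ := ctfa_rho_pos hG hψ hu
  have h1 := rm_dlap_div hm hu (hG.drift ψ U hψ) (hf ψ U hψ)
  have st : ∀ i, pdiff (fun w => a (ψ w) * (Real.exp (-t (ψ w)) * Real.sqrt (cm h ψ w).det *
      ∑ j, (cm h ψ w)⁻¹ i j * pdiff (f ∘ ψ) j w)) i u =
      pdiff (a ∘ ψ) i u * (Real.exp (-t (ψ u)) * Real.sqrt (cm h ψ u).det *
        ∑ j, (cm h ψ u)⁻¹ i j * pdiff (f ∘ ψ) j u) +
      a (ψ u) * pdiff (fun w => Real.exp (-(t ∘ ψ) w) * Real.sqrt (cm h ψ w).det *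
        ∑ j, (cm h ψ w)⁻¹ i j * pdiff (f ∘ ψ) j w) i u := fun i =>
    rm_pdiff_mul (f := a ∘ ψ) (rm_da hm.opn (ha ψ U hψ) hu)
      (rm_da hm.opn (ctfa_Y_smooth hG hf hψ i) hu)
  simp only [st, Finset.sum_add_distrib, ← Finset.mul_sum]
  have h2 : ∑ i, pdiff (fun w => Real.exp (-(t ∘ ψ) w) * Real.sqrt (cm h ψ w).det *
        ∑ j, (cm h ψ w)⁻¹ i j * pdiff (f ∘ ψ) j w) i u =
      ctRho h t ψ u * rm_dlapC (cm h ψ) (t ∘ ψ) (f ∘ ψ) u := by
    rw [h1, ← mul_assoc]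
    have e : ctRho h t ψ u * (Real.exp (-(t ∘ ψ) u) * Real.sqrt (cm h ψ u).det)⁻¹ = 1 :=
      mul_inv_cancel₀ hρ.ne'
    rw [e, one_mul]
  rw [h2]
  unfold wdiv
  rw [gs_wlap_eq hG.met hG.drift hf hψ hu, if_gradIp_eq hG.met ha hf hψ hu]
  have h3 : ∑ i, pdiff (a ∘ ψ) i u * (Real.exp (-t (ψ u)) * Real.sqrt (cm h ψ u).det *
        ∑ j, (cm h ψ u)⁻¹ i j * pdiff (f ∘ ψ) j u) =
      ctRho h t ψ u * gradIpC (cm h ψ) (a ∘ ψ) (f ∘ ψ) u := by
    unfold gradIpC ctRho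
    rw [Finset.mul_sum]
    refine Finset.sum_congr rfl fun i _ => ?_
    simp only [Finset.mul_sum]
    refine Finset.sum_congr rfl fun j _ => ?_
    ring
  rw [h3]
  show _ = (a (ψ u) * rm_dlapC (cm h ψ) (t ∘ ψ) (f ∘ ψ) u + _) * _
  ring

omit [FiniteDimensional ℝ V] in
/-- pairing of the raw field with a covector. -/
theorem ctRaw_pair (h : Ten V) (t : V → ℝ) (ψ : E d → V) (a f : V → ℝ) (u ξ : E d) :
    ⟪ctRaw h t ψ a f u, ξ⟫ =
      ctRho h t ψ u * a (ψ u) * if_bil (cm h ψ u)⁻¹ ξ (gradient (f ∘ ψ) u) := by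
  rw [PiLp.inner_apply, if_bil_apply, Finset.mul_sum]
  refine Finset.sum_congr rfl fun i _ => ?_
  rw [ctRaw_apply]
  unfold ctRho
  simp only [ct_el_grad, Finset.mul_sum, RCLike.inner_apply, conj_trivial]
  refine Finset.sum_congr rfl fun j _ => ?_
  ring

/-- (F2) for the raw field. -/
theorem ctRaw_inner (hG : CtGeo d M h t) {a f k : V → ℝ} (hf : SmoothAlong d M f)
    (hk : SmoothAlong d M k) {ψ : E d → V} {U : Set (E d)} (hψ : IsParam M ψ U) {u : E d}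
    (hu : u ∈ U) :
    ⟪ctRaw h t ψ a f u, gradient (k ∘ ψ) u⟫ =
      ctRho h t ψ u * a (ψ u) * gradIp d M h f k (ψ u) := by
  have hm := gs_met hG.met hψ
  rw [ctRaw_pair, if_gradIp_eq hG.met hf hk hψ hu, rm_ip_comm hm hu, if_bil_apply]
  unfold gradIpC
  congr 1
  refine Finset.sum_congr rfl fun i _ => Finset.sum_congr rfl fun j _ => ?_
  rw [ct_el_grad, ct_el_grad]
  ring

omit [FiniteDimensional ℝ V] in
theorem ctfa_A_apply (hG : CtGeo d M h t) {ψ : E d → V} {U : Set (E d)} (hψ : IsParam M ψ U)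
    {u : E d} (hu : u ∈ U) (ξ η : E d) :
    ctA h t ψ u ξ η = ctRho h t ψ u ^ 2 * if_bil (cm h ψ u)⁻¹ ξ η := by
  unfold ctA
  rw [ctfa_rho_sq hG hψ hu, if_bil_apply, if_bil_apply, Finset.mul_sum]
  refine Finset.sum_congr rfl fun i _ => ?_
  rw [Finset.mul_sum]
  refine Finset.sum_congr rfl fun j _ => ?_
  rw [Matrix.smul_apply, smul_eq_mul]
  ring

/-- (F3) for the raw field. -/
theorem ctRaw_adm (hG : CtGeo d M h t) {a f : V → ℝ} (hf : SmoothAlong d M f) {ψ : E d → V}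
    {U : Set (E d)} (hψ : IsParam M ψ U) {u : E d} (hu : u ∈ U) (ξ : E d) :
    ⟪ctRaw h t ψ a f u, ξ⟫ ≤
      |a (ψ u)| * gradN d M h f (ψ u) * Real.sqrt (ctA h t ψ u ξ ξ) := by
  have hm := gs_met hG.met hψ
  have hρ := ctfa_rho_pos hG hψ hu
  have hps := (rm_inv_pos hm hu).posSemidef
  have hn := ct_el_norm hG hf hψ hu
  rw [ctfa_A_apply hG hψ hu] at hn
  have hn' : if_bil (cm h ψ u)⁻¹ (gradient (f ∘ ψ) u) (gradient (f ∘ ψ) u) =
      gradSq d M h f (ψ u) := mul_left_cancel₀ (pow_ne_zero 2 hρ.ne') hn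
  have hcs := if_bil_cs hps ξ (gradient (f ∘ ψ) u)
  rw [hn'] at hcs
  have h0 := if_bil_nonneg hps ξ
  rw [ctRaw_pair, ctfa_A_apply hG hψ hu, Real.sqrt_mul (sq_nonneg _), Real.sqrt_sq hρ.le]
  unfold gradN
  have h1 : |if_bil (cm h ψ u)⁻¹ ξ (gradient (f ∘ ψ) u)| ≤
      Real.sqrt (if_bil (cm h ψ u)⁻¹ ξ ξ) * Real.sqrt (gradSq d M h f (ψ u)) := by
    rw [← Real.sqrt_mul h0]
    exact Real.abs_le_sqrt hcs
  calc ctRho h t ψ u * a (ψ u) * if_bil (cm h ψ u)⁻¹ ξ (gradient (f ∘ ψ) u)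
      ≤ |ctRho h t ψ u * a (ψ u) * if_bil (cm h ψ u)⁻¹ ξ (gradient (f ∘ ψ) u)| := le_abs_self _
    _ = ctRho h t ψ u * |a (ψ u)| * |if_bil (cm h ψ u)⁻¹ ξ (gradient (f ∘ ψ) u)| := by
        rw [abs_mul, abs_mul, abs_of_pos hρ]
    _ ≤ ctRho h t ψ u * |a (ψ u)| * (Real.sqrt (if_bil (cm h ψ u)⁻¹ ξ ξ) *
          Real.sqrt (gradSq d M h f (ψ u))) :=
        mul_le_mul_of_nonneg_left h1 (mul_nonneg hρ.le (abs_nonneg _))
    _ = _ := by ring

omit [FiniteDimensional ℝ V] in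
/-- the field of `Gmt.gmt_reg_el` is the raw field. -/
theorem ctRaw_sharp (hG : CtGeo d M h t) (a f : V → ℝ) {ψ : E d → V} {U : Set (E d)}
    (hψ : IsParam M ψ U) {u : E d} (hu : u ∈ U) :
    ((ctRho h t ψ u)⁻¹ * a (ψ u)) • Gmt.gmtSharp (ctA h t ψ u) (gradient (f ∘ ψ) u) =
      ctRaw h t ψ a f u := by
  have hm := gs_met hG.met hψ
  have hρ := ctfa_rho_pos hG hψ hu
  ext i
  rw [ctRaw_apply, PiLp.smul_apply, smul_eq_mul]
  unfold ctA
  rw [ct_el_sharp, ctfa_rho_sq hG hψ hu]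
  show _ = a (ψ u) * (ctRho h t ψ u * _)
  simp only [Finset.mul_sum]
  refine Finset.sum_congr rfl fun j _ => ?_
  rw [ct_el_grad, Matrix.smul_apply, smul_eq_mul, rm_inv_symm hm hu j i]
  field_simp

end Claimed.Agent.R315
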