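import Claimed.Agent.R315.Ct.Bv

/-!
# Row 315, package Ct/LamA: TOOLS for local absolute minimisers   (architect: helper184)

PROVED (helper184); black boxes used: `ct_wvol_le_vol` (`Ct/BvE`), `Gmt.gmtPerM_congr_int`.

Everything here is elementary (topology of `M`, bookkeeping of measures); the only inputs are `Ct/Bv.lean` (V0, V1) and `If/*`.

PLAN OF PROOFS
* `ct_exists_cpt_nhd`: for `x ∈ K` take a parametrisation `(ψ, U)`, `ψ u = x`, `closedBall u r ⊆ U`; `ψ '' ball u r = M ∩ O_x` (`if_image_open`), `C_x = ψ '' closedBall u r` is compact, `⊆ M`.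
  Finite subcover of `K` by the `O_x` (`IsCompact.elim_finite_subcover`); `O = ⋃ O_x`, `K₀ = ⋃ C_x`.
* `ct_exists_cutoff`: `O, K₁` from `ct_exists_cpt_nhd`; `δ` with `cthickening δ K ⊆ O` (`IsCompact.exists_cthickening_subset_open`);
  `if_exists_pou_closed` for the closed set `cthickening δ K` and the one-element cover `{O}` gives `χ`, `0 ≤ χ ≤ 1`, `χ = 1` on `cthickening δ K`, `tsupport χ ⊆ O`.
  `f = 1 - χ`, `O₁ = thickening δ K`, `K₀ = K₁` (`f x < 1 ⇒ χ x ≠ 0 ⇒ x ∈ O`).
* `ct_wper_ae_congr`: `ct_wper_congr` with `O = univ`, `Measure.restrict_univ`.   `CtLF.congr`: from it.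
* `ctLF_of_eq_off`: for compact `K'`: `wper A K' ≤ wper A (K' \ K) + wper A K`; `(wper A).restrict Kᶜ = (wper A₁).restrict Kᶜ` by `ct_wper_congr` (`symmDiff A A₁ ∩ Kᶜ = ∅`).
* `ct_integrableOn`: `p` is bounded on `K` (`IsCompact.exists_bound_of_continuousOn`), `ct_wvol_compact`, `ct_aestronglyMeasurable`, `IntegrableOn.of_bound`.
* `ct_conv_wvol`: on `K`: `e^{-t} ≤ C` (continuity of `t` on `M`: `if_smoothAlong_continuousOn`), so `wvol B ≤ C vol B` for `B ⊆ K` measurable (`withDensity_apply`, `setLIntegral_mono`; `symmDiff` of measurable sets); squeeze.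
* `ct_conv_integral'`: `|∫_{A i ∩ D} p - ∫_{A' ∩ D} p| ≤ C wvol (symmDiff (A i) A' ∩ K)` (write both as `∫_D indicator`, cf. `Gmt.gmt_integral_symmDiff_le` in `Lib/Gmt/FrE.lean`: same proof), `ct_conv_wvol`.
* `ct_exists_good_level`: `MonotoneOn.intervalIntegrable_deriv`, `MonotoneOn.intervalIntegral_deriv_mem_uIcc` (Mathlib): `∫_a^b I' ≤ I b - I a`.  If `I' τ > c := (I b - I a)/(b - a)` for a.e. `τ ∈ (a,b)` with `P τ`, i.e. for a.e. `τ`,
  then `∫_a^b I' > c (b - a)` (`intervalIntegral.integral_lt_integral_of_...`/ `integral_pos_iff_support_of_nonneg_ae` for `I' - c`): contradiction.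
* `ct_wper_congr_data`: `cm h ψ u` only involves `h (ψ u)`, so `ctA h t ψ = ctA h' t' ψ` on `U`; `Gmt.gmtPer_congr_int` (`Lib/Gmt/LamBase.lean`) + `Gmt.gmtPerM_open` + outer regularity ⇒ the measures `gmtPerM` agree on subsets of `U`; so `IsWPer` has the same solutions: unfold `wper`
  (`propext`: the two predicates `IsWPer d M h t A`, `IsWPer d M h' t' A` are equal as functions).
-/

set_option autoImplicit false
set_option linter.unusedVariables false
set_option linter.deprecated false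
set_option linter.unusedSectionVars false
open scoped ContDiff ENNReal Topology
open MeasureTheory Claims.C0499 Set Filter

namespace Claimed.Agent.R315

variable {V : Type} [NormedAddCommGroup V] [NormedSpace ℝ V] [FiniteDimensional ℝ V]
  [MeasurableSpace V] [BorelSpace V]
variable {d : ℕ} {M : Set V} {h : Ten V} {t p : V → ℝ}

omit [MeasurableSpace V] [BorelSpace V] in
/-- compact neighbourhoods in `M`. -/
theorem ct_exists_cpt_nhd (hM : IsMfd d M) {K : Set V} (hK : IsCompact K) (hKM : K ⊆ M) :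
    ∃ O K₀ : Set V, IsOpen O ∧ K ⊆ O ∧ IsCompact K₀ ∧ K₀ ⊆ M ∧ M ∩ O ⊆ K₀ := by
  refine hK.induction_on (p := fun S => ∃ O K₀ : Set V, IsOpen O ∧ S ⊆ O ∧ IsCompact K₀ ∧
    K₀ ⊆ M ∧ M ∩ O ⊆ K₀) ?_ ?_ ?_ ?_
  · exact ⟨∅, ∅, isOpen_empty, Subset.rfl, isCompact_empty, empty_subset _, by simp⟩
  · rintro S T hST ⟨O, K₀, h1, h2, h3, h4, h5⟩
    exact ⟨O, K₀, h1, hST.trans h2, h3, h4, h5⟩
  · rintro S T ⟨O, K₀, h1, h2, h3, h4, h5⟩ ⟨O', K₀', h1', h2', h3', h4', h5'⟩
    refine ⟨O ∪ O', K₀ ∪ K₀', h1.union h1', union_subset_union h2 h2', h3.union h3',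
      union_subset h4 h4', ?_⟩
    rintro x ⟨hx, hx' | hx'⟩
    · exact Or.inl (h5 ⟨hx, hx'⟩)
    · exact Or.inr (h5' ⟨hx, hx'⟩)
  · intro x hx
    obtain ⟨ψ, U, hψ, u, hu, rfl⟩ := hM x (hKM hx)
    obtain ⟨r, hr, hrU⟩ := Metric.nhds_basis_closedBall.mem_iff.1 ((if_open hψ).mem_nhds hu)
    obtain ⟨O, hO, hOe⟩ := if_image_open hψ Metric.isOpen_ball
      (Metric.ball_subset_closedBall.trans hrU)
    have hxO : ψ u ∈ O := by
      have : ψ u ∈ M ∩ O := hOe ▸ mem_image_of_mem ψ (Metric.mem_ball_self hr)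
      exact this.2
    refine ⟨O, mem_nhdsWithin_of_mem_nhds (hO.mem_nhds hxO), O, ψ '' Metric.closedBall u r, hO,
      Subset.rfl, (isCompact_closedBall u r).image_of_continuousOn ((if_continuousOn hψ).mono hrU),
      ?_, ?_⟩
    · rintro _ ⟨w, hw, rfl⟩
      exact if_mem hψ (hrU hw)
    · rw [← hOe]
      exact image_mono Metric.ball_subset_closedBall

omit [MeasurableSpace V] [BorelSpace V] in
/-- **the slicing function of a compact set**: `f = 0` near `K`, `0 ≤ f ≤ 1`, `M ∩ {f < 1}` is relatively compact in `M`. -/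
theorem ct_exists_cutoff (hM : IsMfd d M) {K : Set V} (hK : IsCompact K) (hKM : K ⊆ M) :
    ∃ (f : V → ℝ) (K₀ O₁ : Set V), ContDiff ℝ ∞ f ∧ (∀ x, 0 ≤ f x ∧ f x ≤ 1) ∧ IsOpen O₁ ∧ K ⊆ O₁ ∧
      (∀ x ∈ O₁, f x = 0) ∧ IsCompact K₀ ∧ K₀ ⊆ M ∧ ∀ x ∈ M, f x < 1 → x ∈ K₀ := by
  obtain ⟨O, K₁, hO, hKO, hK₁, hK₁M, hMO⟩ := ct_exists_cpt_nhd hM hK hKM
  obtain ⟨δ, hδ, hδO⟩ := hK.exists_cthickening_subset_open hO hKO
  obtain ⟨χ, hχs, hχ0, hχsupp, -, hχ1, hχle⟩ := if_exists_pou_closed
    (Metric.isClosed_cthickening (δ := δ) (E := K)) (fun _ : Unit => O) (fun _ => hO)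
    (hδO.trans (subset_iUnion (fun _ : Unit => O) ()))
  simp only [finsum_unique] at hχ1 hχle
  refine ⟨fun x => 1 - χ default x, K₁, Metric.thickening δ K, contDiff_const.sub (hχs _),
    fun x => ⟨sub_nonneg.2 (hχle x), by linarith [hχ0 default x]⟩, Metric.isOpen_thickening,
    Metric.self_subset_thickening hδ K, fun x hx => ?_, hK₁, hK₁M, fun x hx hx' => ?_⟩
  · show 1 - χ default x = 0
    rw [hχ1 x (Metric.thickening_subset_cthickening δ K hx), sub_self]
  · have hne : χ default x ≠ 0 := by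
      intro h0
      have : (1 : ℝ) - χ default x < 1 := hx'
      rw [h0] at this
      norm_num at this
    exact hMO ⟨hx, hχsupp default (subset_tsupport _ hne)⟩

theorem ct_wper_ae_congr (hG : CtGeo d M h t) {A B : Set V} (hA : MeasurableSet A)
    (hB : MeasurableSet B) (hAB : vol d M h (symmDiff A B) = 0) :
    wper d M h t A = wper d M h t B := by
  have := ct_wper_congr hG hA hB isOpen_univ (by rwa [inter_univ])
  rwa [Measure.restrict_univ, Measure.restrict_univ] at this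

theorem CtLF.congr (hG : CtGeo d M h t) {A B : Set V} (hA : CtLF d M h t A)
    (hB : MeasurableSet B) (hBM : B ⊆ M) (hAB : vol d M h (symmDiff A B) = 0) :
    CtLF d M h t B :=
  ⟨hB, hBM, fun K hK hKM => by
    rw [← ct_wper_ae_congr hG hA.meas hB hAB]
    exact hA.fin K hK hKM⟩

/-- a set which agrees with a set of locally finite perimeter off a closed set `K` of finite perimeter mass. -/
theorem ctLF_of_eq_off (hG : CtGeo d M h t) {A A₁ K : Set V} (hA : MeasurableSet A) (hAM : A ⊆ M)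
    (h₁ : CtLF d M h t A₁) (hK : IsClosed K) (he : A \ K = A₁ \ K)
    (hfin : wper d M h t A K ≠ ⊤) : CtLF d M h t A := by
  refine ⟨hA, hAM, fun K' hK' hK'M => ?_⟩
  have hemp : symmDiff A A₁ ∩ Kᶜ = ∅ := by
    ext x
    simp only [mem_inter_iff, mem_compl_iff, mem_empty_iff_false, iff_false, not_and, not_not]
    rintro (⟨a, b⟩ | ⟨a, b⟩)
    · by_contra hx
      have : x ∈ A₁ \ K := he ▸ (⟨a, hx⟩ : x ∈ A \ K)
      exact b this.1
    · by_contra hx
      have : x ∈ A \ K := he.symm ▸ (⟨a, hx⟩ : x ∈ A₁ \ K)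
      exact b this.1
  have hr := ct_wper_congr hG hA h₁.meas hK.isOpen_compl (by rw [hemp]; simp)
  have h2 : wper d M h t A (K' ∩ Kᶜ) ≤ wper d M h t A₁ K' := by
    rw [← Measure.restrict_apply' hK.isOpen_compl.measurableSet, hr]
    exact Measure.restrict_apply_le _ _
  have hsub : K' ⊆ K ∪ (K' ∩ Kᶜ) := by
    intro x hx
    by_cases hxK : x ∈ K
    · exact Or.inl hxK
    · exact Or.inr ⟨hx, hxK⟩
  refine ne_top_of_le_ne_top (ENNReal.add_ne_top.2 ⟨hfin, h₁.fin K' hK' hK'M⟩) ?_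
  calc wper d M h t A K' ≤ wper d M h t A (K ∪ (K' ∩ Kᶜ)) := measure_mono hsub
    _ ≤ wper d M h t A K + wper d M h t A (K' ∩ Kᶜ) := measure_union_le _ _
    _ ≤ wper d M h t A K + wper d M h t A₁ K' := by gcongr

theorem ct_integrableOn (hG : CtGeo d M h t) (hp : ContinuousOn p M) {K : Set V}
    (hK : IsCompact K) (hKM : K ⊆ M) : IntegrableOn p K (wvol d M h t) := by
  obtain ⟨C, hC⟩ := hK.exists_bound_of_continuousOn (hp.mono hKM)
  exact IntegrableOn.of_bound (ct_wvol_compact hG hK hKM).lt_top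
    (ct_aestronglyMeasurable hG hp).restrict C
    ((ae_restrict_iff' hK.measurableSet).2 (Eventually.of_forall hC))

theorem ct_conv_wvol (hG : CtGeo d M h t) {A : ℕ → Set V} {A' : Set V}
    (hA : ∀ i, MeasurableSet (A i)) (hA' : MeasurableSet A') (hc : CtConv d M h A A') {K : Set V}
    (hK : IsCompact K) (hKM : K ⊆ M) :
    Tendsto (fun i => wvol d M h t (symmDiff (A i) A' ∩ K)) atTop (𝓝 0) := by
  obtain ⟨c, hc0, hcb⟩ := ct_wvol_le_vol (t := t) hG hK hKM
  have h1 : Tendsto (fun i => c * vol d M h (symmDiff (A i) A' ∩ K)) atTop (𝓝 0) := by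
    have := ENNReal.Tendsto.const_mul (a := c) (hc K hK hKM) (Or.inr hc0)
    rwa [mul_zero] at this
  exact tendsto_of_tendsto_of_tendsto_of_le_of_le tendsto_const_nhds h1 (fun _ => zero_le)
    fun i => hcb _ inter_subset_right

omit [NormedAddCommGroup V] [NormedSpace ℝ V] [FiniteDimensional ℝ V] [BorelSpace V] in
/-- difference of the integrals over two sets. -/
theorem ct_integral_symmDiff_le {μ : Measure V} {p : V → ℝ} {A B D K : Set V} {C : ℝ}
    (hA : MeasurableSet A) (hB : MeasurableSet B) (hD : MeasurableSet D) (hDK : D ⊆ K)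
    (hpi : IntegrableOn p K μ) (hfin : μ K ≠ ⊤) (hpb : ∀ x ∈ K, |p x| ≤ C) :
    |(∫ x in A ∩ D, p x ∂μ) - ∫ x in B ∩ D, p x ∂μ| ≤ 2 * (C * (μ (symmDiff A B ∩ K)).toReal) := by
  have key : ∀ A B : Set V, MeasurableSet A → MeasurableSet B →
      ∫ x in A ∩ D, p x ∂μ = (∫ x in A ∩ B ∩ D, p x ∂μ) + ∫ x in (A \ B) ∩ D, p x ∂μ := by
    intro A B hA hB
    have e : A ∩ D = (A ∩ B ∩ D) ∪ ((A \ B) ∩ D) := by
      ext x
      simp only [mem_inter_iff, mem_union, mem_diff]
      tauto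
    have hdisj : Disjoint (A ∩ B ∩ D) ((A \ B) ∩ D) := by
      rw [Set.disjoint_left]
      rintro x ⟨⟨-, b⟩, -⟩ ⟨⟨-, b'⟩, -⟩
      exact b' b
    conv_lhs => rw [e]
    exact setIntegral_union hdisj ((hA.diff hB).inter hD)
      (hpi.mono_set (inter_subset_right.trans hDK)) (hpi.mono_set (inter_subset_right.trans hDK))
  have bd : ∀ S : Set V, S ⊆ symmDiff A B ∩ K →
      |∫ x in S, p x ∂μ| ≤ C * (μ (symmDiff A B ∩ K)).toReal := by
    intro S hS
    have hfin' : μ (symmDiff A B ∩ K) ≠ ⊤ :=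
      ne_top_of_le_ne_top hfin (measure_mono inter_subset_right)
    have h1 : μ S < ⊤ := lt_of_le_of_lt (measure_mono hS) hfin'.lt_top
    have h2 := norm_setIntegral_le_of_norm_le_const (μ := μ) (f := p) (C := C) h1
      (fun x hx => by rw [Real.norm_eq_abs]; exact hpb x (hS hx).2)
    rw [Real.norm_eq_abs] at h2
    rcases S.eq_empty_or_nonempty with rfl | ⟨x, hx⟩
    · have hC0 : 0 ≤ C * (μ (symmDiff A B ∩ K)).toReal := by
        rcases (symmDiff A B ∩ K).eq_empty_or_nonempty with h0 | ⟨y, hy⟩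
        · rw [h0]; simp
        · exact mul_nonneg ((abs_nonneg _).trans (hpb y hy.2)) ENNReal.toReal_nonneg
      simpa using hC0
    · have hC0 : 0 ≤ C := (abs_nonneg _).trans (hpb x (hS hx).2)
      exact h2.trans (mul_le_mul_of_nonneg_left (ENNReal.toReal_mono hfin' (measure_mono hS)) hC0)
  rw [key A B hA hB, key B A hB hA, inter_comm B A]
  have b1 := bd ((A \ B) ∩ D) fun x hx => ⟨Or.inl hx.1, hDK hx.2⟩
  have b2 := bd ((B \ A) ∩ D) fun x hx => ⟨Or.inr hx.1, hDK hx.2⟩
  rw [abs_le] at b1 b2 ⊢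
  constructor <;> linarith [b1.1, b1.2, b2.1, b2.2]

/-- convergence of the volume terms, bounded measurable pressure, measurable windows. -/
theorem ct_conv_integral' (hG : CtGeo d M h t) {A : ℕ → Set V} {A' : Set V}
    (hA : ∀ i, MeasurableSet (A i)) (hA' : MeasurableSet A') (hc : CtConv d M h A A')
    (hpm : AEStronglyMeasurable p (wvol d M h t)) {K D : Set V} {C : ℝ} (hK : IsCompact K)
    (hKM : K ⊆ M) (hpb : ∀ x ∈ K, |p x| ≤ C) (hD : MeasurableSet D) (hDK : D ⊆ K) :
    Tendsto (fun i => ∫ x in A i ∩ D, p x ∂(wvol d M h t)) atTop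
      (𝓝 (∫ x in A' ∩ D, p x ∂(wvol d M h t))) := by
  have hfin := ct_wvol_compact hG hK hKM
  have hpi : IntegrableOn p K (wvol d M h t) :=
    IntegrableOn.of_bound hfin.lt_top hpm.restrict C
      ((ae_restrict_iff' hK.measurableSet).2 (Eventually.of_forall hpb))
  have hw := ct_conv_wvol (t := t) hG hA hA' hc hK hKM
  have hw' : Tendsto (fun i => 2 * (C * (wvol d M h t (symmDiff (A i) A' ∩ K)).toReal)) atTop
      (𝓝 0) := by
    have := (((ENNReal.tendsto_toReal ENNReal.zero_ne_top).comp hw).const_mul C).const_mul 2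
    simpa using this
  rw [tendsto_iff_dist_tendsto_zero]
  refine squeeze_zero (fun _ => dist_nonneg) (fun i => ?_) hw'
  rw [Real.dist_eq]
  exact ct_integral_symmDiff_le (hA i) hA' hD hDK hpi hfin hpb

/-- real analysis: a monotone function has a good level with small derivative. -/
theorem ct_exists_good_level {I : ℝ → ℝ} {a b : ℝ} (hab : a < b) (hm : MonotoneOn I (Icc a b))
    {P : ℝ → Prop} (hP : ∀ᵐ τ : ℝ, τ ∈ Ioo a b → P τ) :
    ∃ τ ∈ Ioo a b, P τ ∧ deriv I τ ≤ (I b - I a) / (b - a) := by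
  by_contra hcon
  push Not at hcon
  set c := (I b - I a) / (b - a) with hc
  have hm' : MonotoneOn I (uIcc a b) := by rwa [uIcc_of_le hab.le]
  have hint := hm'.intervalIntegrable_deriv
  have hle := hm'.intervalIntegral_deriv_mem_uIcc
  have hIab : I a ≤ I b := hm (left_mem_Icc.2 hab.le) (right_mem_Icc.2 hab.le) hab.le
  rw [uIcc_of_le (sub_nonneg.2 hIab)] at hle
  have hae : ∀ᵐ τ : ℝ, τ ∈ Ioo a b → c < deriv I τ := by
    filter_upwards [hP] with τ h1 hτ
    exact hcon τ hτ (h1 hτ)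
  have hae' : ∀ᵐ τ ∂(volume.restrict (Ioc a b)), c < deriv I τ := by
    rw [← restrict_Ioo_eq_restrict_Ioc, ae_restrict_iff' measurableSet_Ioo]
    exact hae
  have hlt : (∫ _ in a..b, c) < ∫ x in a..b, deriv I x := by
    refine intervalIntegral.integral_lt_integral_of_ae_le_of_measure_setOf_lt_ne_zero hab.le
      intervalIntegrable_const hint (hae'.mono fun x hx => hx.le) ?_
    intro h0
    have h1 : volume.restrict (Ioc a b) {x | ¬ c < deriv I x} = 0 := ae_iff.1 hae'
    have h2 : volume.restrict (Ioc a b) univ ≤ 0 :=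
      calc volume.restrict (Ioc a b) univ
          ≤ volume.restrict (Ioc a b) ({x | c < deriv I x} ∪ {x | ¬ c < deriv I x}) :=
            measure_mono fun x _ => em (c < deriv I x)
        _ ≤ volume.restrict (Ioc a b) {x | c < deriv I x} +
            volume.restrict (Ioc a b) {x | ¬ c < deriv I x} := measure_union_le _ _
        _ = 0 := by rw [h0, h1, add_zero]
    rw [Measure.restrict_apply_univ, Real.volume_Ioc, nonpos_iff_eq_zero,
      ENNReal.ofReal_eq_zero] at h2
    linarith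
  rw [intervalIntegral.integral_const, smul_eq_mul, hc, mul_div_cancel₀ _ (sub_pos.2 hab).ne'] at hlt
  exact absurd hle.2 (not_le.2 hlt)

/-- only the values of the data along `M` matter. -/
theorem ct_wper_congr_data {h' : Ten V} {t' : V → ℝ} (hh : ∀ x ∈ M, h x = h' x)
    (ht : ∀ x ∈ M, t x = t' x) (A : Set V) : wper d M h t A = wper d M h' t' A := by
  have e : IsWPer d M h t A = IsWPer d M h' t' A := by
    funext μ
    unfold IsWPer
    refine propext (and_congr Iff.rfl ?_)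
    refine forall_congr' fun ψ => forall_congr' fun U => forall_congr' fun hψ =>
      forall_congr' fun B => forall_congr' fun hB => forall_congr' fun hBm => ?_
    rw [Gmt.gmtPerM_congr_int (A := ctA h t ψ) (B := ctA h' t' ψ) _ (if_open hψ)
      (fun u hu ξ => by
        unfold ctA
        rw [if_cm_congr (hh _ (if_mem hψ hu)), ht _ (if_mem hψ hu)]) hB]
  classical
  have key : ∀ P Q : Measure V → Prop, P = Q →
      (if H : ∃ μ, P μ then H.choose else 0) = if H : ∃ μ, Q μ then H.choose else 0 := by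
    rintro P _ rfl
    rfl
  exact key _ _ e

end Claimed.Agent.R315
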