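import Claimed.Agent.R315.Ct.LamA

/-!
# Row 315, package Ct/LamB: elementary properties of local absolute minimisers   (architect: helper184)

PROVED (helper184).

`ctEn d M h t p A D = (wper A D).toReal - ∫_{A ∩ D} p dμ` makes sense for every set `D`.

PLAN OF PROOFS
* `ct_en_mono'`.  Put `R = D \ K` (measurable).  (1) `wper A R = wper B R`: `ct_wper_congr` with the open set `Kᶜ` (`symmDiff A B ∩ Kᶜ = ∅`), `Measure.restrict_apply`.
  (2) `wper A D = wper A K + wper A R`, all terms finite: `wper A D = wper A (D ∩ M) ≤ wper A K'` (`ct_wper_compl_M`, `CtLF.fin`); `ENNReal.toReal_add`.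
  (3) `A ∩ D = (A ∩ K) ∪ (A ∩ R)` disjoint, `A ∩ R = B ∩ R`; `setIntegral_union`, integrability on `A ∩ D ⊆ K'` by `ct_integrableOn`.
* `ct_en_mono`: `D = K'`.
* `CtLAM.congr_p`: `A ∩ K ⊆ M` is measurable: `setIntegral_congr_fun`.
* `CtLAM.congr`: `CtLF.congr`.  For a competitor `C` of `B` (`symmDiff B C ⊆ K`) put `C' = (C ∩ K) ∪ (A \ K)`: `symmDiff A C' ⊆ K`, `symmDiff C C' ⊆ symmDiff A B` is null; `ctEn` does not change under null modifications
  (`ct_wper_ae_congr`, `ct_wvol_eq_zero_iff`, `setIntegral_congr_set`).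
* `CtLAM.diff`: `ct_wper_diff`, `CtLF.diff`; `∫_{(M \ A) ∩ K} (-p) = ∫_{A ∩ K} p - ∫_K p` (`K ⊆ M`, `ct_integrableOn`, `setIntegral_union`); a competitor `B` of `M \ A` gives the competitor `M \ B` of `A`, `M \ (M \ B) = B`.
* `ctLAM_inter_of`.  `CtLF.inter_open`.  Let `K ⊆ M ∩ O` compact, `B ∈ CtLF (M ∩ O)`, `symmDiff (A ∩ O) B ⊆ K`.  Put `B' = B ∪ (A \ O)`.  Then `B' ∩ O = B`, `B' \ K = A \ K`, `symmDiff A B' ⊆ K`;
  `wper_M B' K = (wper_M B').restrict O K = wper_{M ∩ O} (B' ∩ O) K = wper_{M ∩ O} B K < ⊤` (`ct_wper_inter`), so `B' ∈ CtLF M` by `ctLF_of_eq_off`.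
  Energies: for `C ⊆ M` measurable and `K ⊆ O`: `ctEn (M ∩ O) (C ∩ O) K = ctEn M C K` (`ct_wper_inter`, `ct_wvol_inter`, `Measure.restrict_restrict`, `(C ∩ O) ∩ K = C ∩ K`).
* `CtLAM.inter_open`: `ctLAM_inter_of` with `hA.min`.
-/

set_option autoImplicit false
set_option linter.unusedVariables false
set_option linter.deprecated false
set_option linter.unusedSectionVars false
open scoped ContDiff ENNReal Topology
open MeasureTheory Claims.C0499 Set Filter

namespace Claimed.Agent.R315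

variable {V : Type} [NormedAddCommGroup V] [NormedSpace ℝ V] [FiniteDimensional ℝ V]
  [MeasurableSpace V] [BorelSpace V]
variable {d : ℕ} {M : Set V} {h : Ten V} {t p : V → ℝ}

/-- the perimeter of a window is carried by its trace on `M`. -/
theorem ct_wper_sublevel (hG : CtGeo d M h t) {C K₀ L : Set V} (hC : MeasurableSet C)
    (hL : ∀ x ∈ M, x ∈ L → x ∈ K₀) : wper d M h t C L = wper d M h t C (K₀ ∩ L) := by
  refine le_antisymm ?_ (measure_mono inter_subset_right)
  have hsub : L ⊆ (K₀ ∩ L) ∪ Mᶜ := by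
    intro x hx
    by_cases hxM : x ∈ M
    · exact Or.inl ⟨hL x hxM hx, hx⟩
    · exact Or.inr hxM
  calc wper d M h t C L ≤ wper d M h t C ((K₀ ∩ L) ∪ Mᶜ) := measure_mono hsub
    _ ≤ wper d M h t C (K₀ ∩ L) + wper d M h t C Mᶜ := measure_union_le _ _
    _ = wper d M h t C (K₀ ∩ L) := by rw [ct_wper_compl_M hG hC, add_zero]

/-- perimeter in an open piece, on windows whose trace on `M` lies in the piece. -/
theorem ct_wper_inter_apply (hG : CtGeo d M h t) {O C L : Set V} (hO : IsOpen O)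
    (hC : MeasurableSet C) (hLO : M ∩ L ⊆ O) :
    wper d (M ∩ O) h t (C ∩ O) L = wper d M h t C L := by
  rw [ct_wper_inter hG hC hO, Measure.restrict_apply' hO.measurableSet]
  refine le_antisymm (measure_mono inter_subset_left) ?_
  have hsub : L ⊆ (L ∩ O) ∪ Mᶜ := by
    intro x hx
    by_cases hxM : x ∈ M
    · exact Or.inl ⟨hx, hLO ⟨hxM, hx⟩⟩
    · exact Or.inr hxM
  calc wper d M h t C L ≤ wper d M h t C ((L ∩ O) ∪ Mᶜ) := measure_mono hsub
    _ ≤ wper d M h t C (L ∩ O) + wper d M h t C Mᶜ := measure_union_le _ _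
    _ = wper d M h t C (L ∩ O) := by rw [ct_wper_compl_M hG hC, add_zero]

/-- energy in an open piece, on windows whose trace on `M` lies in the piece. -/
theorem ct_en_inter (hG : CtGeo d M h t) {O C L : Set V} (hO : IsOpen O)
    (hC : MeasurableSet C) (hCM : C ⊆ M) (hL : MeasurableSet L) (hLO : M ∩ L ⊆ O) :
    ctEn d (M ∩ O) h t p (C ∩ O) L = ctEn d M h t p C L := by
  unfold ctEn
  rw [ct_wper_inter_apply hG hO hC hLO, ct_wvol_inter hG hO,
    Measure.restrict_restrict ((hC.inter hO.measurableSet).inter hL)]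
  have e : C ∩ O ∩ L ∩ O = C ∩ L := by
    ext x
    constructor
    · rintro ⟨⟨⟨a, -⟩, b⟩, -⟩
      exact ⟨a, b⟩
    · rintro ⟨a, b⟩
      have := hLO ⟨hCM a, b⟩
      exact ⟨⟨⟨a, this⟩, b⟩, this⟩
  rw [e]

/-- splitting of the energy: `K ⊆ D`. -/
theorem ct_en_split (hG : CtGeo d M h t) (hp : ContinuousOn p M) {A K D K' : Set V}
    (hA : CtLF d M h t A) (hK : IsCompact K) (hD : MeasurableSet D)
    (hKD : K ⊆ D) (hK' : IsCompact K') (hK'M : K' ⊆ M) (hDK' : M ∩ D ⊆ K') :
    ctEn d M h t p A D = ctEn d M h t p A K + ((wper d M h t A (D \ K)).toReal -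
      ∫ x in A ∩ (D \ K), p x ∂(wvol d M h t)) := by
  have hfinD : wper d M h t A D ≠ ⊤ := by
    rw [ct_wper_sublevel hG hA.meas (K₀ := K') fun x hx hx' => hDK' ⟨hx, hx'⟩]
    exact ne_top_of_le_ne_top (hA.fin K' hK' hK'M) (measure_mono inter_subset_left)
  have h1 : wper d M h t A D = wper d M h t A K + wper d M h t A (D \ K) := by
    rw [← measure_inter_add_diff D hK.measurableSet, inter_eq_right.2 hKD]
  have hpi : IntegrableOn p K' (wvol d M h t) := ct_integrableOn hG hp hK' hK'M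
  have hsub : ∀ S ⊆ D, A ∩ S ⊆ K' := fun S hS x hx => hDK' ⟨hA.sub hx.1, hS hx.2⟩
  have e : A ∩ D = (A ∩ K) ∪ (A ∩ (D \ K)) := by
    rw [← inter_union_distrib_left, union_diff_cancel hKD]
  have hdisj : Disjoint (A ∩ K) (A ∩ (D \ K)) := by
    rw [Set.disjoint_left]
    rintro x ⟨-, b⟩ ⟨-, -, b'⟩
    exact b' b
  have h2 : ∫ x in A ∩ D, p x ∂(wvol d M h t) = (∫ x in A ∩ K, p x ∂(wvol d M h t)) +
      ∫ x in A ∩ (D \ K), p x ∂(wvol d M h t) := by
    rw [e, setIntegral_union hdisj (hA.meas.inter (hD.diff hK.measurableSet))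
      (hpi.mono_set (hsub K hKD)) (hpi.mono_set (hsub _ diff_subset))]
  unfold ctEn
  rw [h2, h1, ENNReal.toReal_add (ne_top_of_le_ne_top hfinD (measure_mono hKD))
    (ne_top_of_le_ne_top hfinD (measure_mono diff_subset))]
  ring

/-- the difference of the energies does not depend on the window. -/
theorem ct_en_mono' (hG : CtGeo d M h t) (hp : ContinuousOn p M) {A B K D K' : Set V}
    (hA : CtLF d M h t A) (hB : CtLF d M h t B) (hK : IsCompact K) (hD : MeasurableSet D)
    (hKD : K ⊆ D) (hK' : IsCompact K') (hK'M : K' ⊆ M) (hDK' : M ∩ D ⊆ K')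
    (hAB : symmDiff A B ⊆ K) :
    ctEn d M h t p A D - ctEn d M h t p B D = ctEn d M h t p A K - ctEn d M h t p B K := by
  rw [ct_en_split hG hp hA hK hD hKD hK' hK'M hDK', ct_en_split hG hp hB hK hD hKD hK' hK'M hDK']
  have hemp : symmDiff A B ∩ Kᶜ = ∅ := by
    ext x
    simp only [mem_inter_iff, mem_compl_iff, mem_empty_iff_false, iff_false, not_and, not_not]
    exact fun hx => hAB hx
  have hr := ct_wper_congr hG hA.meas hB.meas hK.isClosed.isOpen_compl (by rw [hemp]; simp)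
  have h1 : wper d M h t A (D \ K) = wper d M h t B (D \ K) := by
    have := congrArg (fun μ : Measure V => μ D) hr
    simp only [Measure.restrict_apply' hK.isClosed.isOpen_compl.measurableSet] at this
    exact this
  have h2 : A ∩ (D \ K) = B ∩ (D \ K) := by
    ext x
    constructor
    · rintro ⟨a, b⟩
      refine ⟨?_, b⟩
      by_contra hb
      exact b.2 (hAB (Or.inl ⟨a, hb⟩))
    · rintro ⟨a, b⟩
      refine ⟨?_, b⟩
      by_contra hb
      exact b.2 (hAB (Or.inr ⟨a, hb⟩))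
  rw [h1, h2]
  ring

/-- the inequality on a larger compact set. -/
theorem ct_en_mono (hG : CtGeo d M h t) (hp : SmoothAlong d M p) {A B K K' : Set V}
    (hA : CtLF d M h t A) (hB : CtLF d M h t B) (hK : IsCompact K) (hK' : IsCompact K')
    (hKK' : K ⊆ K') (hK'M : K' ⊆ M) (hAB : symmDiff A B ⊆ K) :
    ctEn d M h t p A K' - ctEn d M h t p B K' = ctEn d M h t p A K - ctEn d M h t p B K :=
  ct_en_mono' hG (if_smoothAlong_continuousOn hG.mfd hp) hA hB hK hK'.measurableSet hKK' hK' hK'M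
    inter_subset_right hAB

/-- only the values of the pressure on `M` matter. -/
theorem CtLAM.congr_p {p' : V → ℝ} {A : Set V} (hA : CtLAM d M h t p A)
    (hpp : ∀ x ∈ M, p x = p' x) : CtLAM d M h t p' A := by
  have key : ∀ (C K : Set V), CtLF d M h t C → IsCompact K →
      ctEn d M h t p' C K = ctEn d M h t p C K := by
    intro C K hC hK
    unfold ctEn
    rw [setIntegral_congr_fun (hC.meas.inter hK.measurableSet) fun x hx => hpp x (hC.sub hx.1)]
  refine ⟨hA.lf, fun K B hK hKM hB hAB => ?_⟩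
  rw [key A K hA.lf hK, key B K hB hK]
  exact hA.min K B hK hKM hB hAB

/-- the energy does not see null modifications. -/
theorem ct_en_ae_congr (hG : CtGeo d M h t) {A B : Set V} (hA : MeasurableSet A)
    (hB : MeasurableSet B) (hAB : vol d M h (symmDiff A B) = 0) (K : Set V) :
    ctEn d M h t p A K = ctEn d M h t p B K := by
  unfold ctEn
  rw [ct_wper_ae_congr hG hA hB hAB]
  have h1 : A =ᵐ[wvol d M h t] B :=
    measure_symmDiff_eq_zero_iff.1 ((ct_wvol_eq_zero_iff hG _).2 hAB)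
  rw [setIntegral_congr_set (h1.inter (ae_eq_refl K))]

theorem CtLAM.congr (hG : CtGeo d M h t) {A B : Set V} (hA : CtLAM d M h t p A)
    (hB : MeasurableSet B) (hBM : B ⊆ M) (hAB : vol d M h (symmDiff A B) = 0) :
    CtLAM d M h t p B := by
  refine ⟨hA.lf.congr hG hB hBM hAB, fun K C hK hKM hC hBC => ?_⟩
  have hC'm : MeasurableSet ((C ∩ K) ∪ (A \ K)) :=
    (hC.meas.inter hK.measurableSet).union (hA.lf.meas.diff hK.measurableSet)
  have hC'M : (C ∩ K) ∪ (A \ K) ⊆ M := by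
    rintro x (hx | hx)
    · exact hC.sub hx.1
    · exact hA.lf.sub hx.1
  have hnull : vol d M h (symmDiff C ((C ∩ K) ∪ (A \ K))) = 0 := by
    refine measure_mono_null ?_ hAB
    intro x hx
    by_cases hxK : x ∈ K
    · exfalso
      rcases hx with ⟨a, b⟩ | ⟨a | a, b⟩
      · exact b (Or.inl ⟨a, hxK⟩)
      · exact b a.1
      · exact a.2 hxK
    · have hiff : x ∈ B ↔ x ∈ C := by
        constructor
        · intro hb
          by_contra hc
          exact hxK (hBC (Or.inl ⟨hb, hc⟩))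
        · intro hc
          by_contra hb
          exact hxK (hBC (Or.inr ⟨hc, hb⟩))
      rcases hx with ⟨a, b⟩ | ⟨a | a, b⟩
      · exact Or.inr ⟨hiff.2 a, fun ha => b (Or.inr ⟨ha, hxK⟩)⟩
      · exact absurd a.2 hxK
      · exact Or.inl ⟨a.1, fun hb => b (hiff.1 hb)⟩
  have hsd : symmDiff A ((C ∩ K) ∪ (A \ K)) ⊆ K := by
    intro x hx
    by_contra hxK
    rcases hx with ⟨a, b⟩ | ⟨a | a, b⟩
    · exact b (Or.inr ⟨a, hxK⟩)
    · exact hxK a.2
    · exact b a.1
  have := hA.min K _ hK hKM (hC.congr hG hC'm hC'M hnull) hsd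
  rwa [ct_en_ae_congr hG hA.lf.meas hB hAB, ← ct_en_ae_congr hG hC.meas hC'm hnull] at this

/-- energy of the complement. -/
theorem ct_en_diff (hG : CtGeo d M h t) (hp : ContinuousOn p M) {X K : Set V}
    (hX : MeasurableSet X) (hK : IsCompact K) (hKM : K ⊆ M) :
    ctEn d M h t (fun x => -p x) (M \ X) K =
      ctEn d M h t p X K + ∫ x in K, p x ∂(wvol d M h t) := by
  have hpi := ct_integrableOn hG hp hK hKM
  have e : K = (X ∩ K) ∪ ((M \ X) ∩ K) := by
    ext x
    constructor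
    · intro hx
      by_cases hxX : x ∈ X
      · exact Or.inl ⟨hxX, hx⟩
      · exact Or.inr ⟨⟨hKM hx, hxX⟩, hx⟩
    · rintro (hx | hx)
      · exact hx.2
      · exact hx.2
  have hdisj : Disjoint (X ∩ K) ((M \ X) ∩ K) := by
    rw [Set.disjoint_left]
    rintro x ⟨a, -⟩ ⟨⟨-, b⟩, -⟩
    exact b a
  have h1 : ∫ x in K, p x ∂(wvol d M h t) = (∫ x in X ∩ K, p x ∂(wvol d M h t)) +
      ∫ x in (M \ X) ∩ K, p x ∂(wvol d M h t) := by
    conv_lhs => rw [e]
    exact setIntegral_union hdisj (((ct_measurableSet hG.mfd).diff hX).inter hK.measurableSet)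
      (hpi.mono_set inter_subset_right) (hpi.mono_set inter_subset_right)
  unfold ctEn
  rw [ct_wper_diff hG hX, integral_neg, h1]
  ring

/-- the complement minimises with the opposite pressure. -/
theorem CtLAM.diff (hG : CtGeo d M h t) (hp : SmoothAlong d M p) {A : Set V}
    (hA : CtLAM d M h t p A) : CtLAM d M h t (fun x => -p x) (M \ A) := by
  have hpc := if_smoothAlong_continuousOn hG.mfd hp
  refine ⟨hA.lf.diff hG, fun K B hK hKM hB hAB => ?_⟩
  have hsd : symmDiff A (M \ B) ⊆ K := by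
    rintro x (⟨a, b⟩ | ⟨a, b⟩)
    · have hxB : x ∈ B := by
        by_contra hb
        exact b ⟨hA.lf.sub a, hb⟩
      exact hAB (Or.inr ⟨hxB, fun hx => hx.2 a⟩)
    · exact hAB (Or.inl ⟨⟨a.1, b⟩, a.2⟩)
  have h1 := hA.min K (M \ B) hK hKM (hB.diff hG) hsd
  have h2 := ct_en_diff hG hpc hA.lf.meas hK hKM
  have h3 := ct_en_diff hG hpc ((ct_measurableSet hG.mfd).diff hB.meas) hK hKM
  rw [diff_diff_cancel_left hB.sub] at h3
  rw [h2, h3]
  linarith

/-- minimality in an open piece only needs competitors of `M` which differ inside the piece. -/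
theorem ctLAM_inter_of (hG : CtGeo d M h t) {A O : Set V} (hA : CtLF d M h t A) (hO : IsOpen O)
    (hmin : ∀ K B, IsCompact K → K ⊆ M ∩ O → CtLF d M h t B → symmDiff A B ⊆ K →
      ctEn d M h t p A K ≤ ctEn d M h t p B K) : CtLAM d (M ∩ O) h t p (A ∩ O) := by
  refine ⟨hA.inter_open hG hO, fun K B hK hKM hB hAB => ?_⟩
  have hKO : M ∩ K ⊆ O := fun x hx => (hKM hx.2).2
  have hB'm : MeasurableSet (B ∪ (A \ O)) := hB.meas.union (hA.meas.diff hO.measurableSet)
  have hB'M : B ∪ (A \ O) ⊆ M := by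
    rintro x (hx | hx)
    · exact (hB.sub hx).1
    · exact hA.sub hx.1
  have hB'O : (B ∪ (A \ O)) ∩ O = B := by
    ext x
    constructor
    · rintro ⟨hx | hx, hxO⟩
      · exact hx
      · exact absurd hxO hx.2
    · intro hx
      exact ⟨Or.inl hx, (hB.sub hx).2⟩
  have hoff : (B ∪ (A \ O)) \ K = A \ K := by
    ext x
    constructor
    · rintro ⟨hx | hx, hxK⟩
      · refine ⟨?_, hxK⟩
        by_contra ha
        exact hxK (hAB (Or.inr ⟨hx, fun hx' => ha hx'.1⟩))
      · exact ⟨hx.1, hxK⟩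
    · rintro ⟨hx, hxK⟩
      refine ⟨?_, hxK⟩
      by_cases hxO : x ∈ O
      · left
        by_contra hb
        exact hxK (hAB (Or.inl ⟨⟨hx, hxO⟩, hb⟩))
      · exact Or.inr ⟨hx, hxO⟩
  have hfin : wper d M h t (B ∪ (A \ O)) K ≠ ⊤ := by
    rw [← ct_wper_inter_apply hG hO hB'm hKO, hB'O]
    exact hB.fin K hK hKM
  have hB'lf : CtLF d M h t (B ∪ (A \ O)) := ctLF_of_eq_off hG hB'm hB'M hA hK.isClosed hoff hfin
  have hsd : symmDiff A (B ∪ (A \ O)) ⊆ K := by
    intro x hx
    by_contra hxK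
    rcases hx with ⟨a, b⟩ | ⟨a, b⟩
    · have : x ∈ (B ∪ (A \ O)) \ K := hoff.symm ▸ (⟨a, hxK⟩ : x ∈ A \ K)
      exact b this.1
    · have : x ∈ A \ K := hoff ▸ (⟨a, hxK⟩ : x ∈ (B ∪ (A \ O)) \ K)
      exact b this.1
  have h1 := hmin K _ hK hKM hB'lf hsd
  rw [← ct_en_inter hG hO hA.meas hA.sub hK.measurableSet hKO,
    ← ct_en_inter hG hO hB'm hB'M hK.measurableSet hKO, hB'O] at h1
  exact h1

theorem CtLAM.inter_open (hG : CtGeo d M h t) {A O : Set V} (hA : CtLAM d M h t p A)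
    (hO : IsOpen O) : CtLAM d (M ∩ O) h t p (A ∩ O) :=
  ctLAM_inter_of hG hA.lf hO fun K B hK hKM hB hAB =>
    hA.min K B hK (hKM.trans inter_subset_left) hB hAB

end Claimed.Agent.R315
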