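import Claimed.Agent.R315.Ct.LamB

/-!
# Row 315, package Ct/LamC: minimisers in charts, sequences in charts   (architect: helper184)

PROVED (helper184); black boxes: `ctConv_chart` (`Ct/BvP`), `Gmt.gmtPerM_open`, `Gmt.gmtPer_ne_top_iff`.

PLAN OF PROOFS
Notation: `S = ctPre ψ U A`, `Ā = ctA h t ψ`, `f̄ = ctF h t p ψ`.
* `ct_pre_image`: `ψ '' (ctPre ψ U A ∩ B) = A ∩ ψ '' B` for `B ⊆ U` (`if_injOn`).
* `ct_en_chart`: for `K ⊆ U` compact and `C ⊆ M` measurable: `ctEn d M h t p C (ψ '' K) = (gmtPerM Ā (ctPre ψ U C) K).toReal - ∫_{ctPre ψ U C ∩ K} f̄`: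
  `ct_wper_spec` (the defining property `IsWPer`), `ct_integral_wvol_chart` with `B = ctPre ψ U C ∩ K`, `ct_pre_image`, `ct_measurableSet_pre`.
* `CtLAM.chart`.  `meas`: `ct_measurableSet_pre`.  `fin`: `Gmt.gmtPer_ne_top_iff` + `CtLF.chart`.
  `min`: let `W ⋐ U`, `S'` measurable, `symmDiff S S' ⊆ K ⊆ W`, `K` compact, `gmtPer Ā S' W ≠ ⊤`.  Competitor `B = (A \ ψ '' K) ∪ ψ '' (S' ∩ K)`: measurable (`if_measurableSet_image`), `⊆ M`,
  `symmDiff A B ⊆ ψ '' K`, `ctPre ψ U B ∩ W = S' ∩ W` [off `K`: `S = S'`].  `B ∈ CtLF`: `ctLF_of_eq_off` with the compact set `ψ '' K`: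
  `wper B (ψ '' K) = gmtPerM Ā (ctPre ψ U B) K ≤ gmtPerM Ā (ctPre ψ U B) W = gmtPer Ā (ctPre ψ U B) W = gmtPer Ā S' W` (`Gmt.gmtPerM_open`, `Gmt.gmtPer_congr`).
  `hA.min (ψ '' K) B` and `ct_en_chart` give the inequality with `K` in place of `W`.  From `K` to `W`: `gmtPerM Ā S (W \ K) = gmtPerM Ā S' (W \ K) < ⊤` (`Gmt.gmtPerM_restrict_congr` on the open set `W \ K`),
  `S ∩ (W \ K) = S' ∩ (W \ K)`, `f̄` is integrable on `W` (continuous on the compact set `closure W ⊆ U`).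
* `ct_dataConv`: constant data on the exhausting windows `U ∩ ψ ⁻¹' O k`: `data`: `ct_gmtData` restricted (`ContDiffOn.mono`, `Gmt.GmtInt.mono`; open by `if_restrict`/`ContinuousOn.isOpen_inter_preimage`); `exh`: `ψ '' K` is a compact subset of `M`;
  `convA`, `convf`: constant sequences (`tendstoUniformlyOn_const`-like: `dist = 0`).
* `ct_conv_chart`: for `K ⊆ U` compact: `volume (symmDiff S_k S' ∩ K) ≤ C vol (symmDiff (A k) A' ∩ ψ '' K)`, `C = sup_K (√det G)⁻¹` (`if_lintegral_vol_image`/`IsVol`, `if_vd_pos`, `if_vd_continuousOn`).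
* `ct_lam_chart_seq`: `CtLAM.chart` on the manifold `M ∩ O k` (`CtGeo.inter`, `if_smoothAlong_inter`) with the parametrisation `if_param_restrict`;  `ctPre ψ (U ∩ ψ ⁻¹' O k) (A k) = ctPre ψ U (A k)` because `A k ⊆ M ∩ O k`.
-/

set_option autoImplicit false
set_option linter.unusedVariables false
set_option linter.deprecated false
set_option linter.unusedSectionVars false
open scoped ContDiff ENNReal Topology
open MeasureTheory Claims.C0499 Set Filter

namespace Claimed.Agent.R315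

variable {V : Type} [NormedAddCommGroup V] [NormedSpace ℝ V] [FiniteDimensional ℝ V]
  [MeasurableSpace V] [BorelSpace V]
variable {d : ℕ} {M : Set V} {h : Ten V} {t p : V → ℝ}

omit [FiniteDimensional ℝ V] [MeasurableSpace V] [BorelSpace V] in
theorem ct_pre_image {ψ : E d → V} {U : Set (E d)} (hψ : IsParam M ψ U) (A : Set V)
    {B : Set (E d)} (hB : B ⊆ U) : ψ '' (ctPre ψ U A ∩ B) = A ∩ ψ '' B := by
  ext x
  constructor
  · rintro ⟨u, ⟨⟨hA, -⟩, hu⟩, rfl⟩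
    exact ⟨hA, u, hu, rfl⟩
  · rintro ⟨hxA, u, hu, rfl⟩
    exact ⟨u, ⟨⟨hxA, hB hu⟩, hu⟩, rfl⟩

/-- the energy on a compact subset of a chart. -/
theorem ct_en_chart (hG : CtGeo d M h t) {ψ : E d → V} {U : Set (E d)} (hψ : IsParam M ψ U)
    {C : Set V} (hC : MeasurableSet C) {K : Set (E d)} (hK : IsCompact K) (hKU : K ⊆ U) :
    ctEn d M h t p C (ψ '' K) = (Gmt.gmtPerM (ctA h t ψ) (ctPre ψ U C) K).toReal -
      ∫ u in ctPre ψ U C ∩ K, ctF h t p ψ u := by
  unfold ctEn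
  rw [ct_wper_chart hG hψ hC hKU hK.measurableSet, ← ct_pre_image hψ C hKU,
    ct_integral_wvol_chart hG hψ (inter_subset_right.trans hKU)
      ((ct_measurableSet_pre hψ hC).inter hK.measurableSet)]
  rfl

/-- from a compact set to an open window, in a chart. -/
theorem ct_chart_split {A : E d → Gmt.Bil d} {f : E d → ℝ} {S W K : Set (E d)}
    (hS : MeasurableSet S) (hW : IsOpen W) (hK : IsCompact K) (hKW : K ⊆ W)
    (hfin : Gmt.gmtPer A S W ≠ ⊤) (hf : IntegrableOn f W) :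
    (Gmt.gmtPer A S W).toReal - ∫ x in S ∩ W, f x =
      ((Gmt.gmtPerM A S K).toReal - ∫ x in S ∩ K, f x) +
      ((Gmt.gmtPerM A S (W \ K)).toReal - ∫ x in S ∩ (W \ K), f x) := by
  rw [← Gmt.gmtPerM_open A S hW] at hfin ⊢
  have h1 : Gmt.gmtPerM A S W = Gmt.gmtPerM A S K + Gmt.gmtPerM A S (W \ K) := by
    rw [← measure_inter_add_diff W hK.measurableSet, inter_eq_right.2 hKW]
  have e : S ∩ W = (S ∩ K) ∪ (S ∩ (W \ K)) := by
    rw [← inter_union_distrib_left, union_diff_cancel hKW]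
  have hdisj : Disjoint (S ∩ K) (S ∩ (W \ K)) := by
    rw [Set.disjoint_left]
    rintro x ⟨-, b⟩ ⟨-, -, b'⟩
    exact b' b
  have h2 : ∫ x in S ∩ W, f x = (∫ x in S ∩ K, f x) + ∫ x in S ∩ (W \ K), f x := by
    rw [e, setIntegral_union hdisj (hS.inter (hW.measurableSet.diff hK.measurableSet))
      (hf.mono_set (inter_subset_right.trans hKW))
      (hf.mono_set (inter_subset_right.trans diff_subset))]
  rw [h2, h1, ENNReal.toReal_add (ne_top_of_le_ne_top hfin (measure_mono hKW))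
    (ne_top_of_le_ne_top hfin (measure_mono diff_subset))]
  ring

/-- a minimiser read in a chart is a minimiser of the chart problem. -/
theorem CtLAM.chart (hG : CtGeo d M h t) (hp : SmoothAlong d M p) {A : Set V}
    (hA : CtLAM d M h t p A) {ψ : E d → V} {U : Set (E d)} (hψ : IsParam M ψ U) :
    Gmt.GmtLAM (ctA h t ψ) (ctF h t p ψ) U (ctPre ψ U A) := by
  have hSm := ct_measurableSet_pre hψ hA.lf.meas
  have hfinS : ∀ W, Gmt.GmtCC W U → Gmt.gmtPer (ctA h t ψ) (ctPre ψ U A) W ≠ ⊤ := fun W hW =>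
    (Gmt.gmtPer_ne_top_iff (if_open hψ) (ct_gmtInt hG hψ) hW _).2 ((hA.lf.chart hG hψ).2 W hW)
  refine ⟨hSm, hfinS, ?_⟩
  rintro W S' hW hS' ⟨K, hK, hKW, hSS'⟩ hfin
  obtain ⟨hWo, hWc, hWU⟩ := hW
  have hKU : K ⊆ U := hKW.trans (subset_closure.trans hWU)
  have hinj := if_injOn hψ
  have hKc : IsCompact (ψ '' K) := hK.image_of_continuousOn ((if_continuousOn hψ).mono hKU)
  have hKM : ψ '' K ⊆ M := (image_mono hKU).trans (if_image_subset hψ)
  have hBm : MeasurableSet ((A \ ψ '' K) ∪ ψ '' (S' ∩ K)) :=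
    (hA.lf.meas.diff hKc.measurableSet).union
      (if_measurableSet_image hψ (hS'.inter hK.measurableSet) (inter_subset_right.trans hKU))
  have hBM : (A \ ψ '' K) ∪ ψ '' (S' ∩ K) ⊆ M := by
    rintro x (hx | ⟨u, hu, rfl⟩)
    · exact hA.lf.sub hx.1
    · exact if_mem hψ (hKU hu.2)
  have hpre : ctPre ψ U ((A \ ψ '' K) ∪ ψ '' (S' ∩ K)) = S' := by
    ext u
    constructor
    · rintro ⟨hu | ⟨w, hw, hwu⟩, huU⟩
      · have huK : u ∉ K := fun hk => hu.2 (mem_image_of_mem ψ hk)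
        by_contra hS
        exact huK (hSS' (Or.inl ⟨⟨hu.1, huU⟩, hS⟩))
      · have : w = u := hinj (hKU hw.2) huU hwu
        exact this ▸ hw.1
    · intro hu
      by_cases huK : u ∈ K
      · exact ⟨Or.inr ⟨u, ⟨hu, huK⟩, rfl⟩, hKU huK⟩
      · have huS : u ∈ ctPre ψ U A := by
          by_contra hS
          exact huK (hSS' (Or.inr ⟨hu, hS⟩))
        refine ⟨Or.inl ⟨huS.1, ?_⟩, huS.2⟩
        rintro ⟨w, hw, hwu⟩
        exact huK (hinj (hKU hw) huS.2 hwu ▸ hw)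
  have hoff : ((A \ ψ '' K) ∪ ψ '' (S' ∩ K)) \ ψ '' K = A \ ψ '' K := by
    ext x
    constructor
    · rintro ⟨hx | hx, hxK⟩
      · exact hx
      · exact absurd (image_mono inter_subset_right hx) hxK
    · intro hx
      exact ⟨Or.inl hx, hx.2⟩
  have hfinB : wper d M h t ((A \ ψ '' K) ∪ ψ '' (S' ∩ K)) (ψ '' K) ≠ ⊤ := by
    rw [ct_wper_chart hG hψ hBm hKU hK.measurableSet, hpre]
    refine ne_top_of_le_ne_top hfin ?_
    rw [← Gmt.gmtPerM_open _ _ hWo]
    exact measure_mono hKW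
  have hBlf := ctLF_of_eq_off hG hBm hBM hA.lf hKc.isClosed hoff hfinB
  have hsd : symmDiff A ((A \ ψ '' K) ∪ ψ '' (S' ∩ K)) ⊆ ψ '' K := by
    intro x hx
    by_contra hxK
    rcases hx with ⟨a, b⟩ | ⟨a, b⟩
    · exact b (Or.inl ⟨a, hxK⟩)
    · have : x ∈ A \ ψ '' K := hoff ▸ (⟨a, hxK⟩ : x ∈ _ \ ψ '' K)
      exact b this.1
  have hmin := hA.min _ _ hKc hKM hBlf hsd
  rw [ct_en_chart hG hψ hA.lf.meas hK hKU, ct_en_chart hG hψ hBm hK hKU, hpre] at hmin
  have hfi : IntegrableOn (ctF h t p ψ) W :=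
    (((ct_gmtData hG hp hψ).f.continuousOn.mono hWU).integrableOn_compact hWc).mono_set
      subset_closure
  rw [ct_chart_split hSm hWo hK hKW (hfinS W ⟨hWo, hWc, hWU⟩) hfi,
    ct_chart_split hS' hWo hK hKW hfin hfi]
  have hset : ctPre ψ U A ∩ (W \ K) = S' ∩ (W \ K) := by
    ext u
    constructor
    · rintro ⟨a, b⟩
      refine ⟨?_, b⟩
      by_contra hb
      exact b.2 (hSS' (Or.inl ⟨a, hb⟩))
    · rintro ⟨a, b⟩
      refine ⟨?_, b⟩
      by_contra hb
      exact b.2 (hSS' (Or.inr ⟨a, hb⟩))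
  have hper : Gmt.gmtPerM (ctA h t ψ) (ctPre ψ U A) (W \ K) =
      Gmt.gmtPerM (ctA h t ψ) S' (W \ K) :=
    Gmt.gmtPerM_congr_set _ (hWo.sdiff hK.isClosed) hSm hS' (by rw [hset]; exact ae_eq_refl _) Subset.rfl
  rw [hper, hset]
  linarith

/-- constant chart data on exhausting windows. -/
theorem ct_dataConv (hG : CtGeo d M h t) (hp : SmoothAlong d M p) {O : ℕ → Set V}
    (hO : ∀ k, IsOpen (O k)) (hexh : ∀ K, IsCompact K → K ⊆ M → ∀ᶠ k in atTop, K ⊆ O k)
    {ψ : E d → V} {U : Set (E d)} (hψ : IsParam M ψ U) :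
    Gmt.GmtDataConv (fun k => U ∩ ψ ⁻¹' O k) (fun _ => ctA h t ψ) (fun _ => ctF h t p ψ) U
      (ctA h t ψ) (ctF h t p ψ) := by
  refine ⟨fun k => ct_gmtData hG hp (if_param_of_inter (hO k) (if_param_restrict (hO k) hψ)),
    ct_gmtData hG hp hψ, fun K hK hKU => ?_, ?_, ?_⟩
  · filter_upwards [hexh (ψ '' K) (hK.image_of_continuousOn ((if_continuousOn hψ).mono hKU))
      ((image_mono hKU).trans (if_image_subset hψ))] with k hk
    exact fun u hu => ⟨hKU hu, hk (mem_image_of_mem ψ hu)⟩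
  · exact fun K _ _ k u hu => Eventually.of_forall fun _ _ _ => refl_mem_uniformity hu
  · exact fun K _ _ k u hu => Eventually.of_forall fun _ _ _ => refl_mem_uniformity hu

/-- `L¹_loc` convergence in charts. -/
theorem ct_conv_chart (hG : CtGeo d M h t) {A : ℕ → Set V} {A' : Set V}
    (hA : ∀ k, MeasurableSet (A k)) (hA' : MeasurableSet A') (hc : CtConv d M h A A')
    {ψ : E d → V} {U : Set (E d)} (hψ : IsParam M ψ U) :
    Gmt.GmtConv U (fun k => ctPre ψ U (A k)) (ctPre ψ U A') :=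
  ctConv_chart hG hc hψ

/-- minimisers on open pieces, read in a chart of `M`. -/
theorem ct_lam_chart_seq (hG : CtGeo d M h t) (hp : SmoothAlong d M p) {O A : Set V}
    (hO : IsOpen O) (hA : CtLAM d (M ∩ O) h t p A) {ψ : E d → V} {U : Set (E d)}
    (hψ : IsParam M ψ U) :
    Gmt.GmtLAM (ctA h t ψ) (ctF h t p ψ) (U ∩ ψ ⁻¹' O) (ctPre ψ U A) := by
  have h1 := CtLAM.chart (hG.inter hO) (if_smoothAlong_inter hp hO) hA (if_param_restrict hO hψ)
  have e : ctPre ψ (U ∩ ψ ⁻¹' O) A = ctPre ψ U A := by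
    ext u
    constructor
    · rintro ⟨a, b, -⟩
      exact ⟨a, b⟩
    · rintro ⟨a, b⟩
      exact ⟨a, b, (hA.lf.sub a).2⟩
  rwa [e] at h1

end Claimed.Agent.R315
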