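import Claimed.Agent.R315.Ct.LamC

/-!
# Row 315, package Ct/LamD: comparison by gluing along a level; local perimeter bound   (architect: helper184)

PROVED (helper184) from the black boxes of `Ct/Bv*`, `Ct/LamA`.  NOTE: `ct_lam_bound` now gives a COMPACT set `K₁ ⊆ M` (the pieces `O ⊇ K₁` are controlled), not an open set of `V`.

THE BASIC COMPARISON `ct_min_glue`: a minimiser `A` is compared with "`B` inside `{f < τ}`, `A` outside"; `f` is a slicing function (`ct_exists_cutoff`).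

PLAN OF PROOFS
* `ct_glue_symmDiff`: set algebra (`ctGlue f τ B A = (B ∩ {f < τ}) ∪ (A \ {f < τ})`).
* `ct_min_glue`.  `G = ctGlue f τ B A`; `symmDiff A G ⊆ M ∩ {f < τ} ⊆ K₀`; `hA.min K₀ G`.  Split `K₀` into `K₀ ∩ {f < τ}`, `K₀ ∩ {f = τ}`, `K₀ ∩ {τ < f}` (measurable: `f` is continuous):
  `wper G (K₀ ∩ {f < τ}) = wper B (K₀ ∩ {f < τ})` (`ct_glue_lt`), `wper G (K₀ ∩ {τ < f}) = wper A (K₀ ∩ {τ < f})` (`ct_glue_gt`), `wper G (K₀ ∩ {f = τ}) ≤ ε`, `0 ≤ wper A (K₀ ∩ {f = τ})`;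
  all terms are finite (`CtLF.fin`).  `wper C {f < τ} = wper C (K₀ ∩ {f < τ})` for `C = A, B` (`ct_wper_compl_M`, `M ∩ {f < τ} ⊆ K₀`).
  Integrals: `G ∩ K₀ = (B ∩ {f < τ}) ∪ (A ∩ K₀ ∩ {τ ≤ f})`, `A ∩ K₀ = (A ∩ {f < τ}) ∪ (A ∩ K₀ ∩ {τ ≤ f})` (disjoint; `ct_integrableOn`, `setIntegral_union`).
* `ct_iface_le`: `ctIface = (∫⁻_{D ∩ slab} ofReal |df| dμ).toReal ≤ (C μ(D ∩ K₀))` (`setLIntegral_mono`, `lintegral_const`, `ct_wvol_compact`).
* `ct_lam_bound`.  `f, K₀, O₁` from `ct_exists_cutoff`; `O₀ = thickening 1 K₀`; `C₁ = sup_{K₀} |df|` (`gradN` is continuous on `M`: `if_gradSq_smoothAlong`, `if_smoothAlong_continuousOn`), `C₂ = sup_{K₀} |p|`, `v = (wvol K₀).toReal`;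
  `C = ofReal (3 C₁ v + C₂ v)`.  Let `O ⊇ O₀`, `A` a minimiser on `M' = M ∩ O` (`CtGeo.inter`).  On `M'`: `ct_glue_level` with `A₁ = ∅` (`ctLF_empty`), `A₂ = A`, `(a, b) = (1/3, 2/3)`, compact set `K₀ ⊆ M'`;
  `ct_iface_mono` + `ct_exists_good_level`: a level `τ` with `CtLF (ctGlue f τ ∅ A)`, interface `≤ I'(τ) ≤ 3 I(2/3) ≤ 3 C₁ v` (`ct_iface_le`; `I(1/3) = 0`; on `M'` the quantities `gradN`, `wvol` agree with those of `M` at points of `O`/on subsets of `O`: `if_gradSq_inter'`, `ct_wvol_inter`).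
  `ct_min_glue` with `B = ∅`: `ctEn A {f < τ} ≤ 0 + 3 C₁ v`, i.e. `wper_{M'} A {f < τ} ≤ 3 C₁ v + ∫_{A ∩ {f<τ}} p ≤ 3 C₁ v + C₂ v`.  `K ⊆ {f = 0} ⊆ {f < τ}`.  `wper_M A K = wper_{M'} A K` (`ct_wper_inter`, `A ∩ O = A`, `K ⊆ O`).
* `ct_lf_of_conv`: for `K` compact take `O, K₀` from `ct_exists_cpt_nhd`; `ct_lam_bound` for `K₀`: eventually `wper_M (A k) K₀ ≤ C`; `ct_wper_lsc` on `O`:
  `wper A' K ≤ wper A' O ≤ liminf wper (A k) O = liminf wper (A k) (M ∩ O) ≤ C` (`ct_wper_compl_M`; `liminf_le_of_frequently_le'`/`Filter.liminf_le_of_le`).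
-/

set_option autoImplicit false
set_option linter.unusedVariables false
set_option linter.deprecated false
open scoped ContDiff ENNReal Topology
open MeasureTheory Claims.C0499 Set Filter

namespace Claimed.Agent.R315

variable {V : Type} [NormedAddCommGroup V] [NormedSpace ℝ V] [FiniteDimensional ℝ V]
  [MeasurableSpace V] [BorelSpace V]
variable {d : ℕ} {M : Set V} {h : Ten V} {t p : V → ℝ}

omit [NormedAddCommGroup V] [NormedSpace ℝ V] [FiniteDimensional ℝ V] [MeasurableSpace V] [BorelSpace V] in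
theorem ct_glue_symmDiff (f : V → ℝ) (τ : ℝ) (A B : Set V) :
    symmDiff A (ctGlue f τ B A) ⊆ symmDiff A B ∩ {x | f x < τ} := by
  intro x hx
  simp only [ctGlue, Set.mem_symmDiff, mem_union, mem_inter_iff, mem_diff, mem_setOf_eq] at hx ⊢
  tauto

omit [NormedAddCommGroup V] [NormedSpace ℝ V] [FiniteDimensional ℝ V] [BorelSpace V] in
/-- a set is split by a level of a measurable function. -/
theorem ct_meas_split3 (μ : Measure V) {f : V → ℝ} (hf : Measurable f) (τ : ℝ) (K : Set V) :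
    μ K = μ (K ∩ {x | f x < τ}) + μ (K ∩ {x | f x = τ}) + μ (K ∩ {x | τ < f x}) := by
  have hL : MeasurableSet {x | f x < τ} := measurableSet_lt hf measurable_const
  have hZ : MeasurableSet {x | f x = τ} := measurableSet_eq_fun hf measurable_const
  rw [← measure_inter_add_diff K hL, ← measure_inter_add_diff (K \ {x | f x < τ}) hZ, add_assoc]
  have e1 : (K \ {x | f x < τ}) ∩ {x | f x = τ} = K ∩ {x | f x = τ} := by
    ext x
    simp only [mem_inter_iff, mem_diff, mem_setOf_eq, not_lt]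
    constructor
    · rintro ⟨⟨a, -⟩, b⟩
      exact ⟨a, b⟩
    · rintro ⟨a, b⟩
      exact ⟨⟨a, b.ge⟩, b⟩
  have e2 : (K \ {x | f x < τ}) \ {x | f x = τ} = K ∩ {x | τ < f x} := by
    ext x
    simp only [mem_inter_iff, mem_diff, mem_setOf_eq, not_lt]
    constructor
    · rintro ⟨⟨a, b⟩, c⟩
      exact ⟨a, lt_of_le_of_ne b (Ne.symm c)⟩
    · rintro ⟨a, b⟩
      exact ⟨⟨a, b.le⟩, b.ne'⟩
  rw [e1, e2]

/-- **one comparison**: a minimiser against `B` inside `{f < τ}`. -/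
theorem ct_min_glue (hG : CtGeo d M h t) (hp : SmoothAlong d M p) {A B K₀ : Set V} {f : V → ℝ}
    {τ ε : ℝ} (hA : CtLAM d M h t p A) (hB : CtLF d M h t B) (hf : ContDiff ℝ ∞ f)
    (hK₀ : IsCompact K₀) (hK₀M : K₀ ⊆ M) (hfK : ∀ x ∈ M, f x ≤ τ → x ∈ K₀)
    (hlf : CtLF d M h t (ctGlue f τ B A)) (hε0 : 0 ≤ ε)
    (hε : wper d M h t (ctGlue f τ B A) {x | f x = τ} ≤ ENNReal.ofReal ε) :
    ctEn d M h t p A {x | f x < τ} ≤ ctEn d M h t p B {x | f x < τ} + ε := by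
  have hfm : Measurable f := hf.continuous.measurable
  have hfs : SmoothAlong d M f := if_smoothAlong_of_contDiff hf
  have hL : MeasurableSet {x | f x < τ} := measurableSet_lt hfm measurable_const
  have hLK : ∀ x ∈ M, x ∈ {x | f x < τ} → x ∈ K₀ := fun x hx hx' => hfK x hx (le_of_lt hx')
  have hsd : symmDiff A (ctGlue f τ B A) ⊆ K₀ := by
    intro x hx
    obtain ⟨h1, h2⟩ := ct_glue_symmDiff f τ A B hx
    have hxM : x ∈ M := by
      rcases h1 with h1 | h1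
      · exact hA.lf.sub h1.1
      · exact hB.sub h1.1
    exact hLK x hxM h2
  have hmin := hA.min K₀ _ hK₀ hK₀M hlf hsd
  -- perimeters
  have sA := ct_meas_split3 (wper d M h t A) hfm τ K₀
  have sG := ct_meas_split3 (wper d M h t (ctGlue f τ B A)) hfm τ K₀
  rw [ct_glue_lt hG hfs hB hA.lf, ct_glue_gt hG hfs hB hA.lf] at sG
  have fA := hA.lf.fin K₀ hK₀ hK₀M
  have fB := hB.fin K₀ hK₀ hK₀M
  have fG := hlf.fin K₀ hK₀ hK₀M
  have fin : ∀ (C S : Set V), wper d M h t C K₀ ≠ ⊤ → wper d M h t C (K₀ ∩ S) ≠ ⊤ :=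
    fun C S hC => ne_top_of_le_ne_top hC (measure_mono inter_subset_left)
  have sA' : (wper d M h t A K₀).toReal = (wper d M h t A (K₀ ∩ {x | f x < τ})).toReal +
      (wper d M h t A (K₀ ∩ {x | f x = τ})).toReal +
      (wper d M h t A (K₀ ∩ {x | τ < f x})).toReal := by
    rw [sA, ENNReal.toReal_add (ENNReal.add_ne_top.2 ⟨fin _ _ fA, fin _ _ fA⟩) (fin _ _ fA),
      ENNReal.toReal_add (fin _ _ fA) (fin _ _ fA)]
  have sG' : (wper d M h t (ctGlue f τ B A) K₀).toReal =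
      (wper d M h t B (K₀ ∩ {x | f x < τ})).toReal +
      (wper d M h t (ctGlue f τ B A) (K₀ ∩ {x | f x = τ})).toReal +
      (wper d M h t A (K₀ ∩ {x | τ < f x})).toReal := by
    rw [sG, ENNReal.toReal_add (ENNReal.add_ne_top.2 ⟨fin _ _ fB, fin _ _ fG⟩) (fin _ _ fA),
      ENNReal.toReal_add (fin _ _ fB) (fin _ _ fG)]
  have hz : (wper d M h t (ctGlue f τ B A) (K₀ ∩ {x | f x = τ})).toReal ≤ ε := by
    have := (measure_mono (μ := wper d M h t (ctGlue f τ B A))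
      (inter_subset_right : K₀ ∩ {x | f x = τ} ⊆ _)).trans hε
    exact ENNReal.toReal_le_of_le_ofReal hε0 this
  -- integrals
  have hpi : IntegrableOn p K₀ (wvol d M h t) :=
    ct_integrableOn hG (if_smoothAlong_continuousOn hG.mfd hp) hK₀ hK₀M
  have eA : A ∩ K₀ = (A ∩ {x | f x < τ}) ∪ ((A \ {x | f x < τ}) ∩ K₀) := by
    ext x
    simp only [mem_inter_iff, mem_union, mem_diff, mem_setOf_eq]
    constructor
    · rintro ⟨a, b⟩
      by_cases c : f x < τ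
      · exact Or.inl ⟨a, c⟩
      · exact Or.inr ⟨⟨a, c⟩, b⟩
    · rintro (⟨a, c⟩ | ⟨⟨a, -⟩, b⟩)
      · exact ⟨a, hLK x (hA.lf.sub a) c⟩
      · exact ⟨a, b⟩
  have eG : ctGlue f τ B A ∩ K₀ = (B ∩ {x | f x < τ}) ∪ ((A \ {x | f x < τ}) ∩ K₀) := by
    ext x
    simp only [ctGlue, mem_inter_iff, mem_union, mem_diff, mem_setOf_eq]
    constructor
    · rintro ⟨⟨a, c⟩ | ⟨a, c⟩, b⟩
      · exact Or.inl ⟨a, c⟩
      · exact Or.inr ⟨⟨a, c⟩, b⟩
    · rintro (⟨a, c⟩ | ⟨⟨a, c⟩, b⟩)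
      · exact ⟨Or.inl ⟨a, c⟩, hLK x (hB.sub a) c⟩
      · exact ⟨Or.inr ⟨a, c⟩, b⟩
  have hmR : MeasurableSet ((A \ {x | f x < τ}) ∩ K₀) :=
    (hA.lf.meas.diff hL).inter hK₀.measurableSet
  have hdisj : ∀ C : Set V, Disjoint (C ∩ {x | f x < τ}) ((A \ {x | f x < τ}) ∩ K₀) := by
    intro C
    rw [Set.disjoint_left]
    rintro x ⟨-, c⟩ ⟨⟨-, c'⟩, -⟩
    exact c' c
  have hiC : ∀ C : Set V, C ⊆ M → IntegrableOn p (C ∩ {x | f x < τ}) (wvol d M h t) :=
    fun C hC => hpi.mono_set fun x hx => hLK x (hC hx.1) hx.2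
  have hiR : IntegrableOn p ((A \ {x | f x < τ}) ∩ K₀) (wvol d M h t) :=
    hpi.mono_set inter_subset_right
  have iA : ∫ x in A ∩ K₀, p x ∂(wvol d M h t) = (∫ x in A ∩ {x | f x < τ}, p x ∂(wvol d M h t)) +
      ∫ x in (A \ {x | f x < τ}) ∩ K₀, p x ∂(wvol d M h t) := by
    rw [eA, setIntegral_union (hdisj A) hmR (hiC A hA.lf.sub) hiR]
  have iG : ∫ x in ctGlue f τ B A ∩ K₀, p x ∂(wvol d M h t) =
      (∫ x in B ∩ {x | f x < τ}, p x ∂(wvol d M h t)) +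
      ∫ x in (A \ {x | f x < τ}) ∩ K₀, p x ∂(wvol d M h t) := by
    rw [eG, setIntegral_union (hdisj B) hmR (hiC B hB.sub) hiR]
  unfold ctEn at hmin ⊢
  rw [ct_wper_sublevel hG hA.lf.meas hLK, ct_wper_sublevel hG hB.meas hLK]
  rw [sA', sG', iA, iG] at hmin
  have h0 : 0 ≤ (wper d M h t A (K₀ ∩ {x | f x = τ})).toReal := ENNReal.toReal_nonneg
  linarith

theorem ct_iface_le (hG : CtGeo d M h t) {f : V → ℝ} (hf : SmoothAlong d M f) {D K₀ : Set V}
    {a s C : ℝ} (hK₀ : IsCompact K₀) (hK₀M : K₀ ⊆ M) (hD : MeasurableSet D)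
    (hDK : D ∩ {x | a < f x ∧ f x < s} ⊆ K₀) (hC : ∀ x ∈ K₀, gradN d M h f x ≤ C) :
    ctIface d M h t f D a s ≤ C * (wvol d M h t (D ∩ K₀)).toReal := by
  have hfin : wvol d M h t (D ∩ K₀) ≠ ⊤ :=
    ne_top_of_le_ne_top (ct_wvol_compact hG hK₀ hK₀M) (measure_mono inter_subset_right)
  have h1 : ∫⁻ x in D ∩ {x | a < f x ∧ f x < s}, ENNReal.ofReal (gradN d M h f x) ∂(wvol d M h t) ≤
      ENNReal.ofReal C * wvol d M h t (D ∩ K₀) := by
    calc ∫⁻ x in D ∩ {x | a < f x ∧ f x < s}, ENNReal.ofReal (gradN d M h f x) ∂(wvol d M h t)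
        ≤ ∫⁻ _ in D ∩ {x | a < f x ∧ f x < s}, ENNReal.ofReal C ∂(wvol d M h t) :=
          setLIntegral_mono measurable_const fun x hx => ENNReal.ofReal_le_ofReal (hC x (hDK hx))
      _ = ENNReal.ofReal C * wvol d M h t (D ∩ {x | a < f x ∧ f x < s}) := setLIntegral_const _ _
      _ ≤ ENNReal.ofReal C * wvol d M h t (D ∩ K₀) :=
          mul_le_mul' le_rfl (measure_mono fun x hx => ⟨hx.1, hDK hx⟩)
  have h2 : ctIface d M h t f D a s ≤ (ENNReal.ofReal C * wvol d M h t (D ∩ K₀)).toReal :=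
    ENNReal.toReal_mono (ENNReal.mul_ne_top ENNReal.ofReal_ne_top hfin) h1
  rw [ENNReal.toReal_mul] at h2
  rcases K₀.eq_empty_or_nonempty with rfl | ⟨x, hx⟩
  · simpa using h2
  · have hC0 : 0 ≤ C := (Real.sqrt_nonneg _).trans (hC x hx)
    rwa [ENNReal.toReal_ofReal hC0] at h2


/-- the perimeter bound on one manifold, explicit constants. -/
theorem ct_lam_bound_core (hG : CtGeo d M h t) (hp : SmoothAlong d M p) {A K₀ : Set V}
    {f : V → ℝ} (hA : CtLAM d M h t p A) (hf : ContDiff ℝ ∞ f) (hK₀ : IsCompact K₀)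
    (hK₀M : K₀ ⊆ M) (hfK : ∀ x ∈ M, f x < 1 → x ∈ K₀) {C₁ C₂ : ℝ}
    (hC₁ : ∀ x ∈ K₀, gradN d M h f x ≤ C₁) (hC₂ : ∀ x ∈ K₀, |p x| ≤ C₂) (hC₁0 : 0 ≤ C₁)
    (hC₂0 : 0 ≤ C₂) :
    wper d M h t A {x | f x ≤ 1 / 3} ≤ ENNReal.ofReal
      (3 * (C₁ * (wvol d M h t K₀).toReal) + C₂ * (wvol d M h t K₀).toReal) := by
  have hfs : SmoothAlong d M f := if_smoothAlong_of_contDiff hf
  have hE := ctLF_empty hG
  have hvfin := ct_wvol_compact hG hK₀ hK₀M
  set v := (wvol d M h t K₀).toReal with hv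
  have hv0 : 0 ≤ v := ENNReal.toReal_nonneg
  have hD : symmDiff ∅ A ∩ {x | (1 / 3 : ℝ) < f x ∧ f x < 2 / 3} ⊆ K₀ := by
    rintro x ⟨hx, -, hx2⟩
    have hxA : x ∈ A := by
      rcases hx with hx | hx
      · exact absurd hx.1 (notMem_empty x)
      · exact hx.1
    exact hfK x (hA.lf.sub hxA) (by linarith)
  have hgl := ct_glue_level hG hfs hE hA.lf hK₀ hK₀M hD
  have hmono := ct_iface_mono hG hfs hK₀ hK₀M hD
  have hab : (1 / 3 : ℝ) < 2 / 3 := by norm_num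
  obtain ⟨τ, hτ, ⟨hlf, hlev⟩, hder⟩ := ct_exists_good_level hab
    (hmono.mono fun x hx => hx.2) hgl
  have hDm : MeasurableSet (symmDiff ∅ A) := MeasurableSet.empty.symmDiff hA.lf.meas
  have hIb : ctIface d M h t f (symmDiff ∅ A) (1 / 3) (2 / 3) ≤ C₁ * v := by
    refine (ct_iface_le hG hfs hK₀ hK₀M hDm hD hC₁).trans ?_
    exact mul_le_mul_of_nonneg_left
      (ENNReal.toReal_mono hvfin (measure_mono inter_subset_right)) hC₁0
  have hIa : 0 ≤ ctIface d M h t f (symmDiff ∅ A) (1 / 3) (1 / 3) := ENNReal.toReal_nonneg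
  have hder' : deriv (ctIface d M h t f (symmDiff ∅ A) (1 / 3)) τ ≤ 3 * (C₁ * v) := by
    refine hder.trans ?_
    rw [div_le_iff₀ (by norm_num)]
    linarith
  have hε0 : 0 ≤ 3 * (C₁ * v) := by positivity
  have hcmp := ct_min_glue hG hp hA hE hf hK₀ hK₀M
    (fun x hx hx' => hfK x hx (by linarith [hτ.2])) hlf hε0
    (hlev.trans (ENNReal.ofReal_le_ofReal hder'))
  have hLK : ∀ x ∈ M, x ∈ {x | f x < τ} → x ∈ K₀ :=
    fun x hx hx' => hfK x hx (by have : f x < τ := hx'; linarith [hτ.2])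
  have hfinL : wper d M h t A {x | f x < τ} ≠ ⊤ := by
    rw [ct_wper_sublevel hG hA.lf.meas hLK]
    exact ne_top_of_le_ne_top (hA.lf.fin K₀ hK₀ hK₀M) (measure_mono inter_subset_left)
  have hsubK : A ∩ {x | f x < τ} ⊆ K₀ := fun x hx => hLK x (hA.lf.sub hx.1) hx.2
  have hint : |∫ x in A ∩ {x | f x < τ}, p x ∂(wvol d M h t)| ≤ C₂ * v := by
    have h1 : wvol d M h t (A ∩ {x | f x < τ}) < ⊤ :=
      lt_of_le_of_lt (measure_mono hsubK) hvfin.lt_top
    have h2 := norm_setIntegral_le_of_norm_le_const (μ := wvol d M h t) (f := p) (C := C₂) h1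
      (fun x hx => by rw [Real.norm_eq_abs]; exact hC₂ x (hsubK hx))
    rw [Real.norm_eq_abs] at h2
    refine h2.trans (mul_le_mul_of_nonneg_left ?_ hC₂0)
    exact ENNReal.toReal_mono hvfin (measure_mono hsubK)
  have hE0 : ctEn d M h t p ∅ {x | f x < τ} = 0 := by
    unfold ctEn
    rw [ct_wper_empty hG]
    simp
  rw [hE0] at hcmp
  unfold ctEn at hcmp
  have hfin2 : (wper d M h t A {x | f x < τ}).toReal ≤ 3 * (C₁ * v) + C₂ * v := by
    have := (abs_le.1 hint).2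
    linarith
  calc wper d M h t A {x | f x ≤ 1 / 3} ≤ wper d M h t A {x | f x < τ} :=
        measure_mono fun x hx => lt_of_le_of_lt hx hτ.1
    _ ≤ ENNReal.ofReal (3 * (C₁ * v) + C₂ * v) := (ENNReal.le_ofReal_iff_toReal_le hfinL
        (by positivity)).2 hfin2

omit [MeasurableSpace V] [BorelSpace V] in
theorem ct_gradN_continuousOn (hG : CtGeo d M h t) {f : V → ℝ} (hf : SmoothAlong d M f) :
    ContinuousOn (gradN d M h f) M :=
  Real.continuous_sqrt.comp_continuousOn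
    (if_smoothAlong_continuousOn hG.mfd (if_gradSq_smoothAlong hG.met hf))

/-- local perimeter bound for minimisers on open pieces, uniform in the piece. -/
theorem ct_lam_bound (hG : CtGeo d M h t) (hp : SmoothAlong d M p) {K : Set V} (hK : IsCompact K)
    (hKM : K ⊆ M) : ∃ (K₁ : Set V) (C : ℝ≥0∞), IsCompact K₁ ∧ K₁ ⊆ M ∧ K ⊆ K₁ ∧ C ≠ ⊤ ∧
      ∀ (O A : Set V), IsOpen O → K₁ ⊆ O → CtLAM d (M ∩ O) h t p A → wper d M h t A K ≤ C := by
  obtain ⟨f, K₀, O₁, hf, hf01, hO₁, hKO₁, hf0, hK₀, hK₀M, hfK⟩ := ct_exists_cutoff hG.mfd hK hKM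
  have hfs : SmoothAlong d M f := if_smoothAlong_of_contDiff hf
  obtain ⟨C₁, hC₁⟩ := hK₀.exists_bound_of_continuousOn ((ct_gradN_continuousOn hG hfs).mono hK₀M)
  obtain ⟨C₂, hC₂⟩ := hK₀.exists_bound_of_continuousOn
    ((if_smoothAlong_continuousOn hG.mfd hp).mono hK₀M)
  have hKK₀ : K ⊆ K₀ := fun x hx => hfK x (hKM hx) (by rw [hf0 x (hKO₁ hx)]; norm_num)
  refine ⟨K₀, ENNReal.ofReal (3 * (max C₁ 0 * (wvol d M h t K₀).toReal) +
    max C₂ 0 * (wvol d M h t K₀).toReal), hK₀, hK₀M, hKK₀, ENNReal.ofReal_ne_top, ?_⟩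
  intro O A hO hK₀O hA
  have hG' := hG.inter hO
  have hAO : A ∩ O = A := inter_eq_left.2 fun x hx => (hA.lf.sub hx).2
  have hw : wvol d (M ∩ O) h t K₀ = wvol d M h t K₀ := by
    rw [ct_wvol_inter hG hO, Measure.restrict_apply hK₀.measurableSet, inter_eq_left.2 hK₀O]
  have hcore := ct_lam_bound_core hG' (if_smoothAlong_inter hp hO) hA hf hK₀
    (subset_inter hK₀M hK₀O) (fun x hx hx' => hfK x hx.1 hx') (C₁ := max C₁ 0) (C₂ := max C₂ 0)
    (fun x hx => by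
      unfold gradN
      rw [if_gradSq_inter' h f hO (hK₀O hx)]
      exact ((le_abs_self _).trans (hC₁ x hx)).trans (le_max_left _ _))
    (fun x hx => (hC₂ x hx).trans (le_max_left _ _)) (le_max_right _ _) (le_max_right _ _)
  rw [hw] at hcore
  refine le_trans ?_ hcore
  have e1 : wper d (M ∩ O) h t A = (wper d M h t A).restrict O := by
    rw [← ct_wper_inter hG hA.lf.meas hO, hAO]
  rw [e1, Measure.restrict_apply' hO.measurableSet]
  refine measure_mono fun x hx => ⟨?_, hK₀O (hKK₀ hx)⟩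
  show f x ≤ 1 / 3
  rw [hf0 x (hKO₁ hx)]
  norm_num

/-- limits of minimisers have locally finite perimeter. -/
theorem ct_lf_of_conv (hG : CtGeo d M h t) (hp : SmoothAlong d M p)
    (O : ℕ → Set V) (hO : ∀ k, IsOpen (O k))
    (hexh : ∀ K, IsCompact K → K ⊆ M → ∀ᶠ k in atTop, K ⊆ O k)
    (A : ℕ → Set V) (hA : ∀ k, CtLAM d (M ∩ O k) h t p (A k)) {A' : Set V}
    (hA' : MeasurableSet A') (hA'M : A' ⊆ M) (hc : CtConv d M h A A') : CtLF d M h t A' := by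
  refine ⟨hA', hA'M, fun K hK hKM => ?_⟩
  obtain ⟨W, K₀, hW, hKW, hK₀, hK₀M, hMW⟩ := ct_exists_cpt_nhd hG.mfd hK hKM
  obtain ⟨K₁, C, hK₁, hK₁M, -, hC, hb⟩ := ct_lam_bound hG hp hK₀ hK₀M
  have hev : ∀ᶠ k in atTop, wper d M h t (A k) W ≤ C := by
    filter_upwards [hexh K₁ hK₁ hK₁M] with k hk
    rw [ct_wper_sublevel hG (hA k).lf.meas (K₀ := K₀) fun x hx hx' => hMW ⟨hx, hx'⟩]
    exact (measure_mono inter_subset_left).trans (hb (O k) (A k) (hO k) hk (hA k))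
  have h1 : wper d M h t A' K ≤ C :=
    calc wper d M h t A' K ≤ wper d M h t A' W := measure_mono hKW
      _ ≤ liminf (fun k => wper d M h t (A k) W) atTop :=
          ct_wper_lsc hG (fun k => (hA k).lf.meas) hA' hc hW
      _ ≤ C := liminf_le_of_frequently_le' hev.frequently
  exact ne_top_of_le_ne_top hC h1

end Claimed.Agent.R315
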