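import Claimed.Agent.R315.Ct.LamD

/-!
# Row 315, package Ct/LamE: CLOSURE of minimisers (P Lemma B.3)   (architect: helper184)

PROVED (helper184) from the black boxes of `Ct/Bv*`, `Ct/LamA-D` and `Gmt.gmt_lam_per_conv`.  (`ct_closure_per` uses the partition of unity `CtPou` of `Ct/BvP`.)

PLAN OF PROOFS
* `ct_closure_step` (the heart).  Data: `B ∈ CtLF M`, `symmDiff A' B ⊆ K`.  `f, K₀, O₁` from `ct_exists_cutoff` for `K`; `(a, b) = (1/3, 2/3)`.  Discard the `k` with `K₀ ⊄ O k` (`hexh`; pass to `k ↦ k + N`).  On `M_k = M ∩ O k`: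
  `B_k = B ∩ O k ∈ CtLF M_k` (`CtLF.inter_open`), `ct_glue_level` with `A₁ = B_k`, `A₂ = A k`, compact set `K₀` [the slab `M ∩ {a < f < b}` lies in `K₀`]: for a.e. `τ ∈ (a,b)`:
  `CtLF M_k (ctGlue f τ B_k (A k))` and interface `≤ I_k'(τ)`, `I_k = ctIface d M_k h t f (symmDiff B_k (A k)) a`.
  In the slab `B = A'` (`K ⊆ {f = 0}`), so `I_k(b) ≤ C₁ wvol (symmDiff (A k) A' ∩ K₀) → 0` (`ct_iface_le`, `ct_conv_wvol`; `I_k(a) = 0`, `ct_iface_mono`).
  `ct_deriv_tendsto_zero`: a subsequence `φ` with `I_{φ k}'(τ) → 0` for a.e. `τ`.  Choose ONE `τ ∈ (a,b)` which is good for all `k` (`ae_all_iff`) [a set of full measure in `(a,b)` is nonempty].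
  `ct_min_glue` on `M_k`: `ctEn_{M_k} (A k) {f<τ} ≤ ctEn_{M_k} B_k {f<τ} + I_k'(τ)`; on subsets of `O k` the energies of `M_k` and `M` agree (as in `ctLAM_inter_of`; `M ∩ {f<τ} ⊆ K₀ ⊆ O k`).
  Limit `k → ∞` along `φ`: `wper A' {f<τ} ≤ liminf wper (A k) {f<τ}` (`ct_wper_lsc`, `{f<τ}` is OPEN in `V`), `∫_{A k ∩ {f<τ}} p → ∫_{A' ∩ {f<τ}} p` (`ct_conv_integral'` with `D = K₀ ∩ {f<τ}`; the measure lives on `M`).
  Result: `ctEn A' {f<τ} ≤ ctEn B {f<τ}`; conclude by `ct_en_mono'` (`D = {f<τ}`, `K' = K₀`).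
  [to pass from `ℝ≥0∞`-liminf to reals: all `wper (A k) {f<τ} ≤ C` by the inequality itself.]
* `ct_closure_of_conv`: `ct_lf_of_conv` + `ct_closure_step`.
* `ct_closure`: `ct_lam_bound` + `ct_compact` (`wper_M (A k) K ≤ C` eventually) give `φ`, `A'`; `ct_closure_of_conv` for `O ∘ φ`, `A ∘ φ` (`hφ.tendsto_atTop.eventually`).
* `ct_closure_per` CHARTWISE (no gluing).  `K_g = M ∩ tsupport g` is compact (`M` closed).  Cover `K_g` by finitely many chart images `ψ_j '' U_j = M ∩ O_j`; `if_exists_pou_closed` for `K_g`, `{O_j}`: `g = ∑_j χ_j g` on `M`.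
  For one `j`: `∫ χ_j g d(wper C) = ∫ (χ_j g) ∘ ψ_j d(gmtPerM Ā_j (ctPre ψ_j U_j C))` for all measurable `C` (`ct_lintegral_wper_chart` for positive and negative parts, or `IsWPer` + `MeasurableEmbedding`; the integrand vanishes off `ψ_j '' U_j` on `M`);
  the function `(χ_j g) ∘ ψ_j` extended by `0` off `U_j` is continuous with compact support in `U_j` [support `⊆ ψ_j⁻¹ (K_g ∩ tsupport χ_j)`, compact by `if_contInv`].
  `Gmt.gmt_lam_per_conv` with `ct_dataConv`, `ct_lam_chart_seq`, `ct_conv_chart`.  Sum over `j`.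
-/

set_option autoImplicit false
set_option linter.unusedVariables false
set_option linter.deprecated false
set_option linter.unusedSectionVars false
open scoped ContDiff ENNReal Topology
open MeasureTheory Claims.C0499 Set Filter

namespace Claimed.Agent.R315

variable {V : Type} [NormedAddCommGroup V] [NormedSpace ℝ V] [FiniteDimensional ℝ V]
  [MeasurableSpace V] [BorelSpace V]
variable {d : ℕ} {M : Set V} {h : Ten V} {t p : V → ℝ}

omit [FiniteDimensional ℝ V] in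
theorem CtConv.subseq {A : ℕ → Set V} {A' : Set V} (hc : CtConv d M h A A') {φ : ℕ → ℕ}
    (hφ : Tendsto φ atTop atTop) : CtConv d M h (fun k => A (φ k)) A' :=
  fun K hK hKM => (hc K hK hKM).comp hφ

/-- one comparison on an open piece, written on `M`. -/
theorem ct_closure_cmp (hG : CtGeo d M h t) (hp : SmoothAlong d M p) {O A B K₀ : Set V}
    {f : V → ℝ} {τ ε : ℝ} (hO : IsOpen O) (hA : CtLAM d (M ∩ O) h t p A) (hB : CtLF d M h t B)
    (hf : ContDiff ℝ ∞ f) (hK₀ : IsCompact K₀) (hK₀M : K₀ ⊆ M) (hK₀O : K₀ ⊆ O)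
    (hfK : ∀ x ∈ M, f x ≤ τ → x ∈ K₀)
    (hlf : CtLF d (M ∩ O) h t (ctGlue f τ (B ∩ O) A)) (hε0 : 0 ≤ ε)
    (hε : wper d (M ∩ O) h t (ctGlue f τ (B ∩ O) A) {x | f x = τ} ≤ ENNReal.ofReal ε) :
    ctEn d M h t p A {x | f x < τ} ≤ ctEn d M h t p B {x | f x < τ} + ε := by
  have hL : MeasurableSet {x | f x < τ} := measurableSet_lt hf.continuous.measurable measurable_const
  have hLO : M ∩ {x | f x < τ} ⊆ O := fun x hx => hK₀O (hfK x hx.1 (le_of_lt hx.2))
  have hAO : A ∩ O = A := inter_eq_left.2 fun x hx => (hA.lf.sub hx).2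
  have h1 := ct_min_glue (hG.inter hO) (if_smoothAlong_inter hp hO) hA (hB.inter_open hG hO) hf hK₀
    (subset_inter hK₀M hK₀O) (fun x hx hx' => hfK x hx.1 hx') hlf hε0 hε
  rw [ct_en_inter hG hO hB.meas hB.sub hL hLO] at h1
  have h2 := ct_en_inter (p := p) hG hO hA.lf.meas (hA.lf.sub.trans inter_subset_left) hL hLO
  rw [hAO] at h2
  rwa [h2] at h1

/-- passage to the limit in the comparison. -/
theorem ct_closure_lim (hG : CtGeo d M h t) (hp : SmoothAlong d M p) {A : ℕ → Set V}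
    {A' K₀ L : Set V} (hA : ∀ k, MeasurableSet (A k)) (hAM : ∀ k, A k ⊆ M)
    (hA' : MeasurableSet A') (hA'M : A' ⊆ M)
    (hc : CtConv d M h A A') (hK₀ : IsCompact K₀) (hK₀M : K₀ ⊆ M) (hL : IsOpen L)
    (hLK : M ∩ L ⊆ K₀) (hfin : ∀ k, wper d M h t (A k) L ≠ ⊤) {e : ℝ} {ε : ℕ → ℝ}
    (hε : Tendsto ε atTop (𝓝 0)) (hcmp : ∀ k, ctEn d M h t p (A k) L ≤ e + ε k) :
    ctEn d M h t p A' L ≤ e := by
  have hpc := if_smoothAlong_continuousOn hG.mfd hp
  obtain ⟨C₂, hC₂⟩ := hK₀.exists_bound_of_continuousOn (hpc.mono hK₀M)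
  have hset : ∀ C : Set V, C ⊆ M → C ∩ L = C ∩ (K₀ ∩ L) := by
    intro C hC
    ext x
    constructor
    · rintro ⟨a, b⟩
      exact ⟨a, hLK ⟨hC a, b⟩, b⟩
    · rintro ⟨a, -, b⟩
      exact ⟨a, b⟩
  have hint : Tendsto (fun k => ∫ x in A k ∩ L, p x ∂(wvol d M h t)) atTop
      (𝓝 (∫ x in A' ∩ L, p x ∂(wvol d M h t))) := by
    have := ct_conv_integral' hG hA hA' hc (ct_aestronglyMeasurable hG hpc) hK₀ hK₀M
      (fun x hx => hC₂ x hx) (hK₀.measurableSet.inter hL.measurableSet) inter_subset_left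
    rw [hset A' hA'M]
    simpa only [hset _ (hAM _)] using this
  set i' := ∫ x in A' ∩ L, p x ∂(wvol d M h t) with hi'
  have hr : Tendsto (fun k => e + ε k + ∫ x in A k ∩ L, p x ∂(wvol d M h t)) atTop
      (𝓝 (e + 0 + i')) := (tendsto_const_nhds.add hε).add hint
  have hle : ∀ k, (wper d M h t (A k) L).toReal ≤
      e + ε k + ∫ x in A k ∩ L, p x ∂(wvol d M h t) := by
    intro k
    have := hcmp k
    unfold ctEn at this
    linarith
  have hr0 : 0 ≤ e + 0 + i' :=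
    ge_of_tendsto' hr fun k => ENNReal.toReal_nonneg.trans (hle k)
  have hle' : ∀ k, wper d M h t (A k) L ≤
      ENNReal.ofReal (e + ε k + ∫ x in A k ∩ L, p x ∂(wvol d M h t)) := by
    intro k
    rw [← ENNReal.ofReal_toReal (hfin k)]
    exact ENNReal.ofReal_le_ofReal (hle k)
  have hlim : wper d M h t A' L ≤ ENNReal.ofReal (e + 0 + i') :=
    calc wper d M h t A' L ≤ liminf (fun k => wper d M h t (A k) L) atTop :=
          ct_wper_lsc hG hA hA' hc hL
      _ ≤ liminf (fun k => ENNReal.ofReal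
            (e + ε k + ∫ x in A k ∩ L, p x ∂(wvol d M h t))) atTop :=
          liminf_le_liminf (Eventually.of_forall hle')
      _ = ENNReal.ofReal (e + 0 + i') :=
          ((ENNReal.continuous_ofReal.tendsto _).comp hr).liminf_eq
  have := ENNReal.toReal_le_of_le_ofReal hr0 hlim
  unfold ctEn
  linarith

/-- the interface integrals tend to `0`. -/
theorem ct_closure_iface (hG : CtGeo d M h t)
    (O : ℕ → Set V) (hO : ∀ k, IsOpen (O k))
    (A : ℕ → Set V) (hA : ∀ k, MeasurableSet (A k)) (hAM : ∀ k, A k ⊆ M) {A' : Set V}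
    (hA' : MeasurableSet A') (hc : CtConv d M h A A') {K B K₀ : Set V} {f : V → ℝ}
    (hB : MeasurableSet B) (hBM : B ⊆ M) (hAB : symmDiff A' B ⊆ K)
    (hf : ContDiff ℝ ∞ f) (hf0 : ∀ x ∈ K, f x = 0) (hK₀ : IsCompact K₀) (hK₀M : K₀ ⊆ M)
    (hfK : ∀ x ∈ M, f x < 1 → x ∈ K₀) (hK₀O : ∀ k, K₀ ⊆ O k) :
    Tendsto (fun k => ctIface d (M ∩ O k) h t f (symmDiff (B ∩ O k) (A k)) (1 / 3) (2 / 3)) atTop
      (𝓝 0) := by
  have hfs : SmoothAlong d M f := if_smoothAlong_of_contDiff hf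
  obtain ⟨C₁, hC₁⟩ := hK₀.exists_bound_of_continuousOn ((ct_gradN_continuousOn hG hfs).mono hK₀M)
  have hw := ct_conv_wvol (t := t) hG hA hA' hc hK₀ hK₀M
  have hw' : Tendsto (fun k => max C₁ 0 * (wvol d M h t (symmDiff (A k) A' ∩ K₀)).toReal) atTop
      (𝓝 0) := by
    have := ((ENNReal.tendsto_toReal ENNReal.zero_ne_top).comp hw).const_mul (max C₁ 0)
    simpa using this
  refine squeeze_zero (fun k => ENNReal.toReal_nonneg) (fun k => ?_) hw'
  have hH : MeasurableSet {x | (1 / 3 : ℝ) < f x} :=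
    measurableSet_lt measurable_const hf.continuous.measurable
  have hDm : MeasurableSet (symmDiff (B ∩ O k) (A k) ∩ {x | (1 / 3 : ℝ) < f x}) :=
    ((hB.inter (hO k).measurableSet).symmDiff (hA k)).inter hH
  have e1 : ctIface d (M ∩ O k) h t f (symmDiff (B ∩ O k) (A k)) (1 / 3) (2 / 3) =
      ctIface d (M ∩ O k) h t f (symmDiff (B ∩ O k) (A k) ∩ {x | (1 / 3 : ℝ) < f x})
        (1 / 3) (2 / 3) := by
    unfold ctIface
    congr 3
    ext x
    constructor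
    · rintro ⟨a, b, c⟩
      exact ⟨⟨a, b⟩, b, c⟩
    · rintro ⟨⟨a, -⟩, b, c⟩
      exact ⟨a, b, c⟩
  have hDK : symmDiff (B ∩ O k) (A k) ∩ {x | (1 / 3 : ℝ) < f x} ∩
      {x | (1 / 3 : ℝ) < f x ∧ f x < 2 / 3} ⊆ K₀ := by
    rintro x ⟨⟨hx, -⟩, -, hx2⟩
    have hxM : x ∈ M := by
      rcases hx with hx | hx
      · exact hBM hx.1.1
      · exact hAM k hx.1
    exact hfK x hxM (by linarith)
  rw [e1]
  refine (ct_iface_le (hG.inter (hO k)) (if_smoothAlong_inter hfs (hO k)) hK₀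
    (subset_inter hK₀M (hK₀O k)) hDm hDK (C := max C₁ 0) (fun x hx => ?_)).trans ?_
  · unfold gradN
    rw [if_gradSq_inter' h f (hO k) (hK₀O k hx)]
    exact ((le_abs_self _).trans (hC₁ x hx)).trans (le_max_left _ _)
  · refine mul_le_mul_of_nonneg_left ?_ (le_max_right _ _)
    have hfin : wvol d M h t (symmDiff (A k) A' ∩ K₀) ≠ ⊤ :=
      ne_top_of_le_ne_top (ct_wvol_compact hG hK₀ hK₀M) (measure_mono inter_subset_right)
    refine ENNReal.toReal_mono hfin ?_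
    rw [ct_wvol_inter hG (hO k)]
    refine (Measure.restrict_apply_le _ _).trans (measure_mono ?_)
    rintro x ⟨⟨hx, hx3⟩, hxK⟩
    refine ⟨?_, hxK⟩
    have hxnK : x ∉ K := fun hxK' => by
      have h3 : (1 / 3 : ℝ) < f x := hx3
      rw [hf0 x hxK'] at h3
      norm_num at h3
    have hiff : x ∈ A' ↔ x ∈ B := by
      constructor
      · intro ha
        by_contra hb
        exact hxnK (hAB (Or.inl ⟨ha, hb⟩))
      · intro hb
        by_contra ha
        exact hxnK (hAB (Or.inr ⟨hb, ha⟩))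
    rcases hx with ⟨⟨hb, -⟩, ha⟩ | ⟨ha, hb⟩
    · exact Or.inr ⟨hiff.2 hb, ha⟩
    · exact Or.inl ⟨ha, fun ha' => hb ⟨hiff.1 ha', hK₀O k hxK⟩⟩

/-- the closure step with a given slicing function, all pieces contain `K₀`. -/
theorem ct_closure_step_aux (hG : CtGeo d M h t) (hp : SmoothAlong d M p)
    (O : ℕ → Set V) (hO : ∀ k, IsOpen (O k))
    (A : ℕ → Set V) (hA : ∀ k, CtLAM d (M ∩ O k) h t p (A k)) {A' : Set V}
    (hA' : CtLF d M h t A') (hc : CtConv d M h A A') {K B K₀ : Set V} {f : V → ℝ}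
    (hK : IsCompact K) (hKM : K ⊆ M) (hB : CtLF d M h t B) (hAB : symmDiff A' B ⊆ K)
    (hf : ContDiff ℝ ∞ f) (hf0 : ∀ x ∈ K, f x = 0) (hK₀ : IsCompact K₀) (hK₀M : K₀ ⊆ M)
    (hfK : ∀ x ∈ M, f x < 1 → x ∈ K₀) (hK₀O : ∀ k, K₀ ⊆ O k) :
    ctEn d M h t p A' K ≤ ctEn d M h t p B K := by
  have hfs : SmoothAlong d M f := if_smoothAlong_of_contDiff hf
  have hAm : ∀ k, MeasurableSet (A k) := fun k => (hA k).lf.meas
  have hAM : ∀ k, A k ⊆ M := fun k => (hA k).lf.sub.trans inter_subset_left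
  have hab : (1 / 3 : ℝ) < 2 / 3 := by norm_num
  have hD : ∀ k, symmDiff (B ∩ O k) (A k) ∩ {x | (1 / 3 : ℝ) < f x ∧ f x < 2 / 3} ⊆ K₀ := by
    rintro k x ⟨hx, -, hx2⟩
    have hxM : x ∈ M := by
      rcases hx with hx | hx
      · exact hB.sub hx.1.1
      · exact hAM k hx.1
    exact hfK x hxM (by linarith)
  have hK₀Mk : ∀ k, K₀ ⊆ M ∩ O k := fun k => subset_inter hK₀M (hK₀O k)
  have hgl := fun k => ct_glue_level (hG.inter (hO k)) (if_smoothAlong_inter hfs (hO k))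
    (hB.inter_open hG (hO k)) (hA k).lf hK₀ (hK₀Mk k) (hD k)
  have hmono := fun k => ct_iface_mono (hG.inter (hO k)) (if_smoothAlong_inter hfs (hO k))
    hK₀ (hK₀Mk k) (hD k)
  have hI := ct_closure_iface hG O hO A hAm hAM hA'.meas hc hB.meas hB.sub hAB hf hf0 hK₀ hK₀M hfK
    hK₀O
  have hlim : Tendsto (fun k =>
      ctIface d (M ∩ O k) h t f (symmDiff (B ∩ O k) (A k)) (1 / 3) (2 / 3) -
      ctIface d (M ∩ O k) h t f (symmDiff (B ∩ O k) (A k)) (1 / 3) (1 / 3)) atTop (𝓝 0) := by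
    refine squeeze_zero (fun k => ?_) (fun k => ?_) hI
    · exact sub_nonneg.2 (hmono k (by show (1 / 3 : ℝ) ≤ 2 / 3; norm_num)
        (by show (2 / 3 : ℝ) ≤ 2 / 3; norm_num) hab.le)
    · have : 0 ≤ ctIface d (M ∩ O k) h t f (symmDiff (B ∩ O k) (A k)) (1 / 3) (1 / 3) :=
        ENNReal.toReal_nonneg
      linarith
  obtain ⟨φ, hφ, hder⟩ := ct_deriv_tendsto_zero hab
    (fun k => (hmono k).mono fun x hx => hx.2) hlim
  have hall : ∀ᵐ τ : ℝ, τ ∈ Ioo (1 / 3 : ℝ) (2 / 3) →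
      (∀ k, CtLF d (M ∩ O k) h t (ctGlue f τ (B ∩ O k) (A k)) ∧
        wper d (M ∩ O k) h t (ctGlue f τ (B ∩ O k) (A k)) {x | f x = τ} ≤ ENNReal.ofReal
          (deriv (ctIface d (M ∩ O k) h t f (symmDiff (B ∩ O k) (A k)) (1 / 3)) τ)) ∧
      Tendsto (fun k => deriv (ctIface d (M ∩ O (φ k)) h t f
        (symmDiff (B ∩ O (φ k)) (A (φ k))) (1 / 3)) τ) atTop (𝓝 0) := by
    filter_upwards [ae_all_iff.2 hgl, hder] with τ h1 h2 hτ
    exact ⟨fun k => h1 k hτ, h2 hτ⟩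
  obtain ⟨τ, hτ, ⟨hgood, htend⟩, -⟩ := ct_exists_good_level (I := fun _ => (0 : ℝ)) hab
    monotoneOn_const hall
  have hfKτ : ∀ x ∈ M, f x ≤ τ → x ∈ K₀ := fun x hx hx' => hfK x hx (by linarith [hτ.2])
  have hLK : M ∩ {x | f x < τ} ⊆ K₀ := fun x hx => hfKτ x hx.1 (le_of_lt hx.2)
  have hLo : IsOpen {x | f x < τ} := isOpen_lt hf.continuous continuous_const
  have hcmp : ∀ k, ctEn d M h t p (A (φ k)) {x | f x < τ} ≤ ctEn d M h t p B {x | f x < τ} +
      max (deriv (ctIface d (M ∩ O (φ k)) h t f (symmDiff (B ∩ O (φ k)) (A (φ k))) (1 / 3)) τ) 0 :=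
    fun k => ct_closure_cmp hG hp (hO (φ k)) (hA (φ k)) hB hf hK₀ hK₀M (hK₀O (φ k)) hfKτ
      (hgood (φ k)).1 (le_max_right _ _)
      ((hgood (φ k)).2.trans (ENNReal.ofReal_le_ofReal (le_max_left _ _)))
  have hε : Tendsto (fun k => max (deriv (ctIface d (M ∩ O (φ k)) h t f
      (symmDiff (B ∩ O (φ k)) (A (φ k))) (1 / 3)) τ) 0) atTop (𝓝 0) := by
    have := htend.max (tendsto_const_nhds (x := (0 : ℝ)))
    simpa using this
  have hfin : ∀ k, wper d M h t (A (φ k)) {x | f x < τ} ≠ ⊤ := by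
    intro k
    have hAO : A (φ k) ∩ O (φ k) = A (φ k) := inter_eq_left.2 fun x hx => ((hA (φ k)).lf.sub hx).2
    have e1 := ct_wper_inter_apply hG (hO (φ k)) (hAm (φ k)) (L := K₀)
      (inter_subset_right.trans (hK₀O (φ k)))
    rw [hAO] at e1
    rw [ct_wper_sublevel hG (hAm (φ k)) (K₀ := K₀) fun x hx hx' => hLK ⟨hx, hx'⟩]
    refine ne_top_of_le_ne_top ?_ (measure_mono inter_subset_left)
    rw [← e1]
    exact (hA (φ k)).lf.fin K₀ hK₀ (hK₀Mk (φ k))
  have hfinal := ct_closure_lim hG hp (fun k => hAm (φ k)) (fun k => hAM (φ k)) hA'.meas hA'.sub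
    (hc.subseq hφ.tendsto_atTop) hK₀ hK₀M hLo hLK hfin hε hcmp
  have hKL : K ⊆ {x | f x < τ} := fun x hx => by
    show f x < τ
    rw [hf0 x hx]
    linarith [hτ.1]
  have := ct_en_mono' hG (if_smoothAlong_continuousOn hG.mfd hp) hA' hB hK hLo.measurableSet hKL
    hK₀ hK₀M hLK hAB
  linarith

/-- the limit beats every competitor. -/
theorem ct_closure_step (hG : CtGeo d M h t) (hp : SmoothAlong d M p)
    (O : ℕ → Set V) (hO : ∀ k, IsOpen (O k))
    (hexh : ∀ K, IsCompact K → K ⊆ M → ∀ᶠ k in atTop, K ⊆ O k)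
    (A : ℕ → Set V) (hA : ∀ k, CtLAM d (M ∩ O k) h t p (A k)) {A' : Set V}
    (hA' : CtLF d M h t A') (hc : CtConv d M h A A') {K B : Set V} (hK : IsCompact K)
    (hKM : K ⊆ M) (hB : CtLF d M h t B) (hAB : symmDiff A' B ⊆ K) :
    ctEn d M h t p A' K ≤ ctEn d M h t p B K := by
  obtain ⟨f, K₀, O₁, hf, hf01, hO₁, hKO₁, hf0, hK₀, hK₀M, hfK⟩ := ct_exists_cutoff hG.mfd hK hKM
  obtain ⟨N, hN⟩ := eventually_atTop.1 (hexh K₀ hK₀ hK₀M)
  exact ct_closure_step_aux hG hp (fun k => O (k + N)) (fun k => hO _) (fun k => A (k + N))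
    (fun k => hA _) hA' (hc.subseq (tendsto_add_atTop_nat N)) hK hKM hB hAB hf
    (fun x hx => hf0 x (hKO₁ hx)) hK₀ hK₀M hfK fun k => hN _ (Nat.le_add_left N k)

/-- limits of minimisers are minimisers. -/
theorem ct_closure_of_conv (hG : CtGeo d M h t) (hM : IsClosed M) (hp : SmoothAlong d M p)
    (O : ℕ → Set V) (hO : ∀ k, IsOpen (O k)) 
    (hexh : ∀ K, IsCompact K → K ⊆ M → ∀ᶠ k in atTop, K ⊆ O k)
    (A : ℕ → Set V) (hA : ∀ k, CtLAM d (M ∩ O k) h t p (A k)) {A' : Set V}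
    (hA' : MeasurableSet A') (hA'M : A' ⊆ M) (hc : CtConv d M h A A') : CtLAM d M h t p A' :=
  ⟨ct_lf_of_conv hG hp O hO hexh A hA hA' hA'M hc, fun _ _ hK hKM hB hAB =>
    ct_closure_step hG hp O hO hexh A hA (ct_lf_of_conv hG hp O hO hexh A hA hA' hA'M hc) hc hK hKM
      hB hAB⟩

section pou

variable {κ : Type} {ψ : κ → E d → V} {U : κ → Set (E d)} {χ : κ → V → ℝ}

/-- one member of the partition of unity, real integrals against the perimeter measure. -/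
theorem CtPou.integral_wper (P : CtPou d M ψ U χ) (hG : CtGeo d M h t) (a : κ) {C : Set V}
    (hC : MeasurableSet C) (g : V → ℝ) :
    ∫ x, χ a x * g x ∂(wper d M h t C) =
      ∫ u, ctPull (ψ a) (U a) (fun x => χ a x * g x) u
        ∂(Gmt.gmtPerM (ctA h t (ψ a)) (ctPre (ψ a) (U a) C)) := by
  have hU : MeasurableSet (U a) := (if_open (P.param a)).measurableSet
  have h0 : ∀ᵐ x ∂(wper d M h t C), x ∉ ψ a '' U a → χ a x * g x = 0 := by
    have hM : ∀ᵐ x ∂(wper d M h t C), x ∈ M := by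
      rw [ae_iff]
      exact ct_wper_compl_M hG hC
    filter_upwards [hM] with x hx hx'
    obtain ⟨C', -, hC'U, hC'⟩ := P.cpt a
    by_contra hne
    have hχ : χ a x ≠ 0 := fun h0 => hne (by rw [h0, zero_mul])
    exact hx' (image_mono hC'U (hC' x hx hχ))
  rw [← setIntegral_eq_integral_of_ae_compl_eq_zero h0,
    ct_integral_wper_chart hG (P.param a) hC Subset.rfl hU]
  unfold ctPull
  rw [integral_indicator hU]
  rfl

/-- a compactly supported continuous function is integrable against a measure on `M` which is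
finite on `M ∩ tsupport g`. -/
theorem ct_integrable_of_cpt {μ : Measure V} (hμ : μ Mᶜ = 0) {g : V → ℝ} (hg : Continuous g)
    (hgc : HasCompactSupport g) (hfin : μ (M ∩ tsupport g) ≠ ⊤) : Integrable g μ := by
  have hfin' : μ (tsupport g) < ⊤ := by
    have hsub : tsupport g ⊆ (M ∩ tsupport g) ∪ Mᶜ := by
      intro x hx
      by_cases hxM : x ∈ M
      · exact Or.inl ⟨hxM, hx⟩
      · exact Or.inr hxM
    calc μ (tsupport g) ≤ μ ((M ∩ tsupport g) ∪ Mᶜ) := measure_mono hsub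
      _ ≤ μ (M ∩ tsupport g) + μ Mᶜ := measure_union_le _ _
      _ = μ (M ∩ tsupport g) := by rw [hμ, add_zero]
      _ < ⊤ := hfin.lt_top
  obtain ⟨C, hC⟩ := hgc.exists_bound_of_continuous hg
  rw [← integrableOn_iff_integrable_of_support_subset (subset_tsupport g)]
  exact IntegrableOn.of_bound hfin' hg.aestronglyMeasurable C (Eventually.of_forall hC)

/-- decomposition of an integral by a partition of unity. -/
theorem CtPou.integral_eq_sum (P : CtPou d M ψ U χ) {μ : Measure V} (hμ : μ Mᶜ = 0) {g : V → ℝ}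
    (hg : Continuous g) (hgc : HasCompactSupport g) (hfin : μ (M ∩ tsupport g) ≠ ⊤)
    {F : Finset κ} (hF : ∀ x ∈ M ∩ tsupport g, ∑ a ∈ F, χ a x = 1) :
    ∫ x, g x ∂μ = ∑ a ∈ F, ∫ x, χ a x * g x ∂μ := by
  have hint : ∀ a ∈ F, Integrable (fun x => χ a x * g x) μ := by
    intro a _
    have hc : Continuous fun x => χ a x * g x := (P.smooth a).continuous.mul hg
    have hcs : HasCompactSupport fun x => χ a x * g x := hgc.mul_left
    refine ct_integrable_of_cpt hμ hc hcs (ne_top_of_le_ne_top hfin (measure_mono ?_))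
    refine inter_subset_inter_right _ (closure_mono ?_)
    intro x hx
    exact fun h0 => hx (by show χ a x * g x = 0; rw [h0, mul_zero])
  rw [← integral_finset_sum F hint]
  refine integral_congr_ae ?_
  have hM : ∀ᵐ x ∂μ, x ∈ M := by
    rw [ae_iff]
    exact hμ
  filter_upwards [hM] with x hx
  rw [← Finset.sum_mul]
  by_cases hxg : x ∈ tsupport g
  · rw [hF x ⟨hx, hxg⟩, one_mul]
  · rw [image_eq_zero_of_notMem_tsupport hxg, mul_zero]

end pou

/-- **closure** (P Lemma B.3). -/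
theorem ct_closure (hG : CtGeo d M h t) (hM : IsClosed M) (hp : SmoothAlong d M p)
    (O : ℕ → Set V) (hO : ∀ k, IsOpen (O k)) 
    (hexh : ∀ K, IsCompact K → K ⊆ M → ∀ᶠ k in atTop, K ⊆ O k)
    (A : ℕ → Set V) (hA : ∀ k, CtLAM d (M ∩ O k) h t p (A k)) :
    ∃ (φ : ℕ → ℕ) (A' : Set V), StrictMono φ ∧ CtLAM d M h t p A' ∧
      CtConv d M h (fun k => A (φ k)) A' := by
  have hb : ∀ K, IsCompact K → K ⊆ M →
      ∃ C : ℝ≥0∞, C ≠ ⊤ ∧ ∀ᶠ i in atTop, wper d M h t (A i) K ≤ C := by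
    intro K hK hKM
    obtain ⟨K₁, C, hK₁, hK₁M, -, hC, hb⟩ := ct_lam_bound hG hp hK hKM
    exact ⟨C, hC, (hexh K₁ hK₁ hK₁M).mono fun k hk => hb (O k) (A k) (hO k) hk (hA k)⟩
  obtain ⟨φ, A', hφ, hA', hc⟩ := ct_compact hG A (fun i => (hA i).lf.meas)
    (fun i => (hA i).lf.sub.trans inter_subset_left) hb
  exact ⟨φ, A', hφ, ct_closure_of_conv hG hM hp (fun k => O (φ k)) (fun k => hO _)
    (fun K hK hKM => hφ.tendsto_atTop.eventually (hexh K hK hKM)) (fun k => A (φ k))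
    (fun k => hA _) hA'.meas hA'.sub hc, hc⟩

/-- no loss of perimeter. -/
theorem ct_closure_per (hG : CtGeo d M h t) (hM : IsClosed M) (hp : SmoothAlong d M p)
    (O : ℕ → Set V) (hO : ∀ k, IsOpen (O k)) 
    (hexh : ∀ K, IsCompact K → K ⊆ M → ∀ᶠ k in atTop, K ⊆ O k)
    (A : ℕ → Set V) (hA : ∀ k, CtLAM d (M ∩ O k) h t p (A k)) {A' : Set V}
    (hA' : MeasurableSet A') (hA'M : A' ⊆ M) (hc : CtConv d M h A A') {g : V → ℝ}
    (hg : Continuous g) (hgc : HasCompactSupport g) :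
    Tendsto (fun k => ∫ x, g x ∂(wper d M h t (A k))) atTop (𝓝 (∫ x, g x ∂(wper d M h t A'))) := by
  obtain ⟨κ, _, ψ, U, χ, P⟩ := ct_exists_pou hG.mfd
  have hKg : IsCompact (M ∩ tsupport g) := hgc.isCompact.inter_left hM
  obtain ⟨F, -, hF⟩ := P.exists_finset hKg inter_subset_left
  have hAm : ∀ k, MeasurableSet (A k) := fun k => (hA k).lf.meas
  have hlf' := ct_lf_of_conv hG hp O hO hexh A hA hA' hA'M hc
  have e' : ∫ x, g x ∂(wper d M h t A') = ∑ a ∈ F, ∫ u, ctPull (ψ a) (U a) (fun x => χ a x * g x) u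
      ∂(Gmt.gmtPerM (ctA h t (ψ a)) (ctPre (ψ a) (U a) A')) := by
    rw [P.integral_eq_sum (ct_wper_compl_M hG hA') hg hgc (hlf'.fin _ hKg inter_subset_left) hF]
    exact Finset.sum_congr rfl fun a _ => P.integral_wper hG a hA' g
  have ek : ∀ᶠ k in atTop, ∑ a ∈ F, ∫ u, ctPull (ψ a) (U a) (fun x => χ a x * g x) u
      ∂(Gmt.gmtPerM (ctA h t (ψ a)) (ctPre (ψ a) (U a) (A k))) = ∫ x, g x ∂(wper d M h t (A k)) := by
    filter_upwards [hexh _ hKg inter_subset_left] with k hk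
    have hAO : A k ∩ O k = A k := inter_eq_left.2 fun x hx => ((hA k).lf.sub hx).2
    have e1 := ct_wper_inter_apply hG (hO k) (hAm k) (L := M ∩ tsupport g)
      (inter_subset_right.trans hk)
    rw [hAO] at e1
    have hfin : wper d M h t (A k) (M ∩ tsupport g) ≠ ⊤ := by
      rw [← e1]
      exact (hA k).lf.fin _ hKg (subset_inter inter_subset_left hk)
    rw [P.integral_eq_sum (ct_wper_compl_M hG (hAm k)) hg hgc hfin hF]
    exact Finset.sum_congr rfl fun a _ => (P.integral_wper hG a (hAm k) g).symm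
  rw [e']
  refine Tendsto.congr' ek (tendsto_finset_sum F fun a _ => ?_)
  obtain ⟨w1, w2, w3⟩ := P.continuous_w a hg.continuousOn
  exact Gmt.gmt_lam_per_conv (ct_dataConv hG hp hO hexh (P.param a))
    (fun k => ctPre (ψ a) (U a) (A k)) (fun k => ct_lam_chart_seq hG hp (hO k) (hA k) (P.param a))
    (ctPre (ψ a) (U a) A') (ct_measurableSet_pre (P.param a) hA')
    (ct_conv_chart hG hAm hA' hc (P.param a)) _ w1 w2 w3

end Claimed.Agent.R315
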