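import Claimed.Agent.R315.Ct.LamE

/-!
# Row 315, package Ct/LamF: EXISTENCE of minimisers (P Lemma B.3; T C2)   (architect: helper184)

PROVED (helper184); black boxes: `ct_compact`, `ct_wper_lsc`, `ct_exists_compact_exhaustion` (`Ct/Bv*`).

PLAN OF PROOFS
* `ct_tot_lower`: `ctTot B ≥ -(Cp · wvol Kp)`: `|∫_B p| = |∫_{B ∩ Kp} p| ≤ Cp wvol Kp` (`p = 0` off `Kp`; `norm_setIntegral_le_of_norm_le_const`, `ct_wvol_compact`).
* `ct_exists_min` (direct method).  Class `𝒞 = {B ∈ CtLF | Kpos ⊆ B, Disjoint B Kneg}`, `E₀ ∈ 𝒞`, `ctTot E₀ < ⊤`.  `m = inf_𝒞 ctTot ∈ ℝ` (`ct_tot_lower`).  To avoid `EReal`: work with the subclass `𝒞' = {B ∈ 𝒞 | wper B univ ≠ ⊤}` and the REAL function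
  `J B = (wper B univ).toReal - ∫_B p`; `ctTot B = J B` on `𝒞'`, `ctTot B = ⊤` on `𝒞 \ 𝒞'`.  Minimising sequence `B_k ∈ 𝒞'`, `J B_k ≤ m + 1/(k+1)` (`exists_lt_of_csInf_lt`), so `wper B_k univ ≤ m + 1 + Cp wvol Kp`.
  `ct_compact`: `φ`, `A₀ ∈ CtLF`, `B_{φ k} → A₀`.  `A = (A₀ ∪ Kpos) \ Kneg`: `symmDiff A A₀ ⊆ (Kpos \ A₀) ∪ (A₀ ∩ Kneg)` is `vol`-null:
  for `K ⊆ M` compact `vol ((Kpos \ A₀) ∩ K) ≤ vol (symmDiff B_k A₀ ∩ K) → 0`, the same for `A₀ ∩ Kneg`; `M` is a countable union of compact sets (`if_exists_atlas`, closed balls with rational data; or `ct_exists_cpt_nhd` + Lindelöf), and `vol Mᶜ = 0` (`ct_vol_spec`).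
  `CtLF.congr`, `ct_wper_ae_congr`.  `wper A univ ≤ liminf wper B_{φ k} univ` (`ct_wper_lsc`, `O = univ`); `∫_{B_k} p = ∫_{B_k ∩ Kp} p → ∫_{A₀ ∩ Kp} p` (`ct_conv_integral'`, `D = K = Kp`).  So `J A ≤ m`.
* `ct_lam_of_min`: `ctLAM_inter_of` reduces to: `K ⊆ M ∩ O` compact, `B ∈ CtLF M`, `symmDiff A B ⊆ K` ⇒ `ctEn p' A K ≤ ctEn p' B K`.  `B` satisfies the constraints (`B \ K = A \ K`, `K ⊆ O` is disjoint from `Kpos`, `Kneg`).
  `wper B univ = wper B K + wper B Kᶜ = wper B K + wper A Kᶜ < ⊤` (`ct_wper_congr` on `Kᶜ`).  `hmin B` in real form; subtract `wper A Kᶜ` and `∫_{A \ K} p = ∫_{B \ K} p` (`hpi`, `A, B ⊆ M`); `p = p'` on `K` (`setIntegral_congr_fun`).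
* `ct_exists`: `O k = ball 0 k`; `p_k = (M ∩ closedBall 0 k).indicator p`: measurable (`ContinuousOn.measurable_piecewise`/`Measurable.indicator` of a function which is continuous on the closed set `M ∩ closedBall 0 k`), bounded, zero off the compact set `M ∩ closedBall 0 k`.
  `ct_exists_min` with `Kpos = Kneg = E₀ = ∅` (`ctLF_empty`, `ct_wper_empty`) gives `A_k`; `ct_lam_of_min` with `O = ball 0 k`, `p' = p`: `A_k ∩ ball 0 k` is a minimiser on `M ∩ ball 0 k`.  `ct_closure` (`hexh`: compact sets are bounded).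
-/

set_option autoImplicit false
set_option linter.unusedVariables false
set_option linter.deprecated false
set_option linter.unusedSectionVars false
open scoped ContDiff ENNReal Topology
open MeasureTheory Claims.C0499 Set Filter

namespace Claimed.Agent.R315

variable {V : Type} [NormedAddCommGroup V] [NormedSpace ℝ V] [FiniteDimensional ℝ V]
  [MeasurableSpace V] [BorelSpace V]
variable {d : ℕ} {M : Set V} {h : Ten V} {t p : V → ℝ}

/-- total energy. -/
noncomputable def ctTot (d : ℕ) (M : Set V) (h : Ten V) (t p : V → ℝ) (A : Set V) : EReal :=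
  ((wper d M h t A univ : ℝ≥0∞) : EReal) - ((∫ x in A, p x ∂(wvol d M h t) : ℝ) : EReal)

theorem ct_tot_lower (hG : CtGeo d M h t) {p : V → ℝ} {Kp : Set V}
    (hKp : IsCompact Kp) (hKpM : Kp ⊆ M) (hp0 : ∀ x, x ∉ Kp → p x = 0) {Cp : ℝ}
    (hpb : ∀ x, |p x| ≤ Cp) (B : Set V) :
    |∫ x in B, p x ∂(wvol d M h t)| ≤ Cp * (wvol d M h t Kp).toReal := by
  have hfin := ct_wvol_compact hG hKp hKpM
  have hC0 : 0 ≤ Cp := (abs_nonneg _).trans (hpb 0)
  rw [← setIntegral_eq_integral_of_forall_compl_eq_zero (s := Kp) hp0]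
  have h1 : (wvol d M h t).restrict B Kp < ⊤ :=
    lt_of_le_of_lt (Measure.restrict_apply_le _ _) hfin.lt_top
  have h2 := norm_setIntegral_le_of_norm_le_const (μ := (wvol d M h t).restrict B) (f := p)
    (C := Cp) h1 (fun x _ => by rw [Real.norm_eq_abs]; exact hpb x)
  rw [Real.norm_eq_abs] at h2
  exact h2.trans (mul_le_mul_of_nonneg_left
    (ENNReal.toReal_mono hfin (Measure.restrict_apply_le _ _)) hC0)

/-- the total energy in real form. -/
noncomputable def ctJ (d : ℕ) (M : Set V) (h : Ten V) (t p : V → ℝ) (A : Set V) : ℝ :=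
  (wper d M h t A univ).toReal - ∫ x in A, p x ∂(wvol d M h t)

theorem ct_tot_eq_J {A : Set V} (hfin : wper d M h t A univ ≠ ⊤) :
    ctTot d M h t p A = ((ctJ d M h t p A : ℝ) : EReal) := by
  unfold ctTot ctJ
  rw [EReal.coe_sub, EReal.coe_ennreal_toReal hfin]

theorem ct_tot_eq_top {A : Set V} (hfin : wper d M h t A univ = ⊤) :
    ctTot d M h t p A = ⊤ := by
  unfold ctTot
  rw [hfin, EReal.coe_ennreal_top, EReal.top_sub_coe]

/-- a set which is contained in all the symmetric differences is null. -/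
theorem ct_null_of_conv (hG : CtGeo d M h t) {B : ℕ → Set V} {A₀ N : Set V}
    (hc : CtConv d M h B A₀) (hN : ∀ k, N ⊆ symmDiff (B k) A₀) : vol d M h N = 0 := by
  obtain ⟨K, hK, hKM, hMK⟩ := ct_exists_compact_exhaustion hG.mfd
  have h1 : ∀ n, vol d M h (N ∩ K n) = 0 := by
    intro n
    have := ge_of_tendsto' (hc (K n) (hK n) (hKM n))
      fun k => measure_mono (μ := vol d M h) (inter_subset_inter_left (K n) (hN k))
    exact le_antisymm this zero_le
  have hsub : N ⊆ (⋃ n, N ∩ K n) ∪ Mᶜ := by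
    intro x hx
    by_cases hxM : x ∈ M
    · rw [hMK] at hxM
      obtain ⟨n, hn⟩ := mem_iUnion.1 hxM
      exact Or.inl (mem_iUnion.2 ⟨n, hx, hn⟩)
    · exact Or.inr hxM
  exact measure_mono_null hsub
    (measure_union_null (measure_iUnion_null h1) (if_vol_compl hG.mfd h))

/-- lower semicontinuity of the total energy along a minimising sequence. -/
theorem ct_J_lsc (hG : CtGeo d M h t) {p : V → ℝ} (hpm : Measurable p) {Kp : Set V}
    (hKp : IsCompact Kp) (hKpM : Kp ⊆ M) (hp0 : ∀ x, x ∉ Kp → p x = 0) {Cp : ℝ}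
    (hpb : ∀ x, |p x| ≤ Cp) {B : ℕ → Set V} {A₀ : Set V} (hB : ∀ k, MeasurableSet (B k))
    (hA₀ : MeasurableSet A₀) (hc : CtConv d M h B A₀) (hfin : ∀ k, wper d M h t (B k) univ ≠ ⊤)
    {m : ℝ} {ε : ℕ → ℝ} (hε : Tendsto ε atTop (𝓝 0)) (hJ : ∀ k, ctJ d M h t p (B k) ≤ m + ε k) :
    wper d M h t A₀ univ ≠ ⊤ ∧ ctJ d M h t p A₀ ≤ m := by
  have hset : ∀ C : Set V, MeasurableSet C →
      ∫ x in C, p x ∂(wvol d M h t) = ∫ x in C ∩ Kp, p x ∂(wvol d M h t) := fun C hC =>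
    setIntegral_eq_of_subset_of_forall_diff_eq_zero hC inter_subset_left
      fun x hx => hp0 x fun hxK => hx.2 ⟨hx.1, hxK⟩
  have hint : Tendsto (fun k => ∫ x in B k, p x ∂(wvol d M h t)) atTop
      (𝓝 (∫ x in A₀, p x ∂(wvol d M h t))) := by
    have := ct_conv_integral' hG hB hA₀ hc hpm.aestronglyMeasurable hKp hKpM
      (fun x _ => hpb x) hKp.measurableSet Subset.rfl
    rw [hset A₀ hA₀]
    simpa only [hset _ (hB _)] using this
  set i' := ∫ x in A₀, p x ∂(wvol d M h t) with hi'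
  have hr : Tendsto (fun k => m + ε k + ∫ x in B k, p x ∂(wvol d M h t)) atTop
      (𝓝 (m + 0 + i')) := (tendsto_const_nhds.add hε).add hint
  have hle : ∀ k, (wper d M h t (B k) univ).toReal ≤
      m + ε k + ∫ x in B k, p x ∂(wvol d M h t) := by
    intro k
    have := hJ k
    unfold ctJ at this
    linarith
  have hr0 : 0 ≤ m + 0 + i' :=
    ge_of_tendsto' hr fun k => ENNReal.toReal_nonneg.trans (hle k)
  have hle' : ∀ k, wper d M h t (B k) univ ≤
      ENNReal.ofReal (m + ε k + ∫ x in B k, p x ∂(wvol d M h t)) := by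
    intro k
    rw [← ENNReal.ofReal_toReal (hfin k)]
    exact ENNReal.ofReal_le_ofReal (hle k)
  have hlim : wper d M h t A₀ univ ≤ ENNReal.ofReal (m + 0 + i') :=
    calc wper d M h t A₀ univ ≤ liminf (fun k => wper d M h t (B k) univ) atTop :=
          ct_wper_lsc hG hB hA₀ hc isOpen_univ
      _ ≤ liminf (fun k => ENNReal.ofReal
            (m + ε k + ∫ x in B k, p x ∂(wvol d M h t))) atTop :=
          liminf_le_liminf (Eventually.of_forall hle')
      _ = ENNReal.ofReal (m + 0 + i') :=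
          ((ENNReal.continuous_ofReal.tendsto _).comp hr).liminf_eq
  refine ⟨ne_top_of_le_ne_top ENNReal.ofReal_ne_top hlim, ?_⟩
  have := ENNReal.toReal_le_of_le_ofReal hr0 hlim
  unfold ctJ
  linarith

/-- **constrained minimisers of the total energy** (direct method; P Lemma B.3 first step, T C2).
`p` is bounded, measurable, with compact support in `M`. -/
theorem ct_exists_min (hG : CtGeo d M h t) {p : V → ℝ} (hpm : Measurable p) {Kp : Set V}
    (hKp : IsCompact Kp) (hKpM : Kp ⊆ M) (hp0 : ∀ x, x ∉ Kp → p x = 0) {Cp : ℝ}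
    (hpb : ∀ x, |p x| ≤ Cp) {Kpos Kneg : Set V} (h1 : MeasurableSet Kpos) (h2 : MeasurableSet Kneg)
    {E₀ : Set V} (hE₀ : CtLF d M h t E₀) (hE₀1 : Kpos ⊆ E₀) (hE₀2 : Disjoint E₀ Kneg)
    (hfin : wper d M h t E₀ univ ≠ ⊤) :
    ∃ A, CtLF d M h t A ∧ Kpos ⊆ A ∧ Disjoint A Kneg ∧ wper d M h t A univ ≠ ⊤ ∧
      ∀ B, CtLF d M h t B → Kpos ⊆ B → Disjoint B Kneg → ctTot d M h t p A ≤ ctTot d M h t p B := by
  set c := Cp * (wvol d M h t Kp).toReal with hc
  set 𝒞 : Set (Set V) := {B | CtLF d M h t B ∧ Kpos ⊆ B ∧ Disjoint B Kneg ∧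
    wper d M h t B univ ≠ ⊤} with h𝒞
  have hne : (ctJ d M h t p '' 𝒞).Nonempty := ⟨_, mem_image_of_mem _ ⟨hE₀, hE₀1, hE₀2, hfin⟩⟩
  have hbdd : BddBelow (ctJ d M h t p '' 𝒞) := by
    refine ⟨-c, ?_⟩
    rintro _ ⟨B, -, rfl⟩
    have := (abs_le.1 (ct_tot_lower hG hKp hKpM hp0 hpb B)).2
    have h0 : 0 ≤ (wper d M h t B univ).toReal := ENNReal.toReal_nonneg
    unfold ctJ
    linarith
  set m := sInf (ctJ d M h t p '' 𝒞) with hm
  have hseq : ∀ k : ℕ, ∃ B ∈ 𝒞, ctJ d M h t p B < m + 1 / ((k : ℝ) + 1) := by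
    intro k
    obtain ⟨_, ⟨B, hB, rfl⟩, hlt⟩ := exists_lt_of_csInf_lt hne
      (show sInf (ctJ d M h t p '' 𝒞) < m + 1 / ((k : ℝ) + 1) from
        lt_add_of_pos_right _ (by positivity))
    exact ⟨B, hB, hlt⟩
  choose B hB𝒞 hBJ using hseq
  have hBm : ∀ k, MeasurableSet (B k) := fun k => (hB𝒞 k).1.meas
  have hb : ∀ K, IsCompact K → K ⊆ M →
      ∃ C : ℝ≥0∞, C ≠ ⊤ ∧ ∀ᶠ i in atTop, wper d M h t (B i) K ≤ C := by
    intro K _ _
    refine ⟨ENNReal.ofReal (m + 1 + c), ENNReal.ofReal_ne_top, Eventually.of_forall fun k => ?_⟩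
    refine (measure_mono (subset_univ K)).trans ?_
    rw [← ENNReal.ofReal_toReal (hB𝒞 k).2.2.2]
    refine ENNReal.ofReal_le_ofReal ?_
    have e1 := (abs_le.1 (ct_tot_lower hG hKp hKpM hp0 hpb (B k))).2
    have e2 := hBJ k
    have e3 : 1 / ((k : ℝ) + 1) ≤ 1 := by
      rw [div_le_one (by positivity)]
      linarith [(Nat.cast_nonneg k : (0 : ℝ) ≤ k)]
    unfold ctJ at e2
    linarith
  obtain ⟨φ, A₀, hφ, hA₀, hconv⟩ := ct_compact hG B hBm (fun k => (hB𝒞 k).1.sub) hb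
  have hε : Tendsto (fun k => 1 / (((φ k : ℕ) : ℝ) + 1)) atTop (𝓝 0) :=
    tendsto_one_div_add_atTop_nhds_zero_nat.comp hφ.tendsto_atTop
  obtain ⟨hfin₀, hJ₀⟩ := ct_J_lsc hG hpm hKp hKpM hp0 hpb (fun k => hBm (φ k)) hA₀.meas hconv
    (fun k => (hB𝒞 (φ k)).2.2.2) hε fun k => (hBJ (φ k)).le
  have hAm : MeasurableSet ((A₀ ∪ Kpos) \ Kneg) := (hA₀.meas.union h1).diff h2
  have hAM : (A₀ ∪ Kpos) \ Kneg ⊆ M := by
    rintro x ⟨hx | hx, -⟩
    · exact hA₀.sub hx
    · exact hE₀.sub (hE₀1 hx)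
  have hnull : vol d M h (symmDiff A₀ ((A₀ ∪ Kpos) \ Kneg)) = 0 := by
    refine ct_null_of_conv hG hconv fun k => ?_
    rintro x (⟨a, b⟩ | ⟨⟨a | a, a'⟩, b⟩)
    · have hxn : x ∈ Kneg := by
        by_contra hn
        exact b ⟨Or.inl a, hn⟩
      exact Or.inr ⟨a, fun hx => (Set.disjoint_left.1 (hB𝒞 (φ k)).2.2.1) hx hxn⟩
    · exact absurd a b
    · exact Or.inl ⟨(hB𝒞 (φ k)).2.1 a, b⟩
  have hwp := ct_wper_ae_congr hG hA₀.meas hAm hnull
  have hJA : ctJ d M h t p ((A₀ ∪ Kpos) \ Kneg) = ctJ d M h t p A₀ := by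
    unfold ctJ
    rw [← hwp]
    have e1 : A₀ =ᵐ[wvol d M h t] ((A₀ ∪ Kpos) \ Kneg : Set V) :=
      measure_symmDiff_eq_zero_iff.1 ((ct_wvol_eq_zero_iff hG _).2 hnull)
    rw [setIntegral_congr_set e1]
  have hfinA : wper d M h t ((A₀ ∪ Kpos) \ Kneg) univ ≠ ⊤ := by rwa [← hwp]
  refine ⟨(A₀ ∪ Kpos) \ Kneg, hA₀.congr hG hAm hAM hnull, ?_, disjoint_sdiff_left, hfinA, ?_⟩
  · intro x hx
    exact ⟨Or.inr hx, fun hn => (Set.disjoint_left.1 hE₀2) (hE₀1 hx) hn⟩
  · intro B' hB' hB'1 hB'2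
    by_cases hfB : wper d M h t B' univ = ⊤
    · rw [ct_tot_eq_top hfB]
      exact le_top
    · rw [ct_tot_eq_J hfinA, ct_tot_eq_J hfB, EReal.coe_le_coe_iff, hJA]
      exact hJ₀.trans (csInf_le hbdd (mem_image_of_mem _ ⟨hB', hB'1, hB'2, hfB⟩))

/-- the total energy is the energy on `K` plus the energy off `K`. -/
theorem ct_J_split {p : V → ℝ} {X K : Set V} (hX : CtLF d M h t X)
    (hfin : wper d M h t X univ ≠ ⊤) (hpi : IntegrableOn p M (wvol d M h t))
    (hK : MeasurableSet K) :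
    ctJ d M h t p X = ctEn d M h t p X K +
      ((wper d M h t X Kᶜ).toReal - ∫ x in X \ K, p x ∂(wvol d M h t)) := by
  have h1 : wper d M h t X univ = wper d M h t X K + wper d M h t X Kᶜ := by
    rw [measure_add_measure_compl hK]
  have e : X = (X ∩ K) ∪ (X \ K) := (inter_union_diff X K).symm
  have hdisj : Disjoint (X ∩ K) (X \ K) := by
    rw [Set.disjoint_left]
    rintro x ⟨-, b⟩ ⟨-, b'⟩
    exact b' b
  have h2 : ∫ x in X, p x ∂(wvol d M h t) = (∫ x in X ∩ K, p x ∂(wvol d M h t)) +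
      ∫ x in X \ K, p x ∂(wvol d M h t) := by
    conv_lhs => rw [e]
    exact setIntegral_union hdisj (hX.meas.diff hK)
      (hpi.mono_set (inter_subset_left.trans hX.sub)) (hpi.mono_set (diff_subset.trans hX.sub))
  unfold ctJ ctEn
  rw [h2, h1, ENNReal.toReal_add (ne_top_of_le_ne_top hfin (measure_mono (subset_univ _)))
    (ne_top_of_le_ne_top hfin (measure_mono (subset_univ _)))]
  ring

/-- a constrained minimiser of the total energy is a local absolute minimiser in every open set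
which is disjoint from the constraints, for every smooth pressure which agrees with `p` there. -/
theorem ct_lam_of_min (hG : CtGeo d M h t) {p p' : V → ℝ} {Kpos Kneg A O : Set V}
    (hA : CtLF d M h t A) (hfin : wper d M h t A univ ≠ ⊤)
    (hpi : IntegrableOn p M (wvol d M h t))
    (hmin : ∀ B, CtLF d M h t B → Kpos ⊆ B → Disjoint B Kneg →
      ctTot d M h t p A ≤ ctTot d M h t p B) (hA1 : Kpos ⊆ A) (hA2 : Disjoint A Kneg)
    (hO : IsOpen O) (hO1 : Disjoint O Kpos) (hO2 : Disjoint O Kneg)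
    (hpp : ∀ x ∈ M ∩ O, p x = p' x) : CtLAM d (M ∩ O) h t p' (A ∩ O) := by
  refine ctLAM_inter_of hG hA hO fun K B hK hKM hB hAB => ?_
  have hiff : ∀ x, x ∉ K → (x ∈ A ↔ x ∈ B) := by
    intro x hxK
    constructor
    · intro ha
      by_contra hb
      exact hxK (hAB (Or.inl ⟨ha, hb⟩))
    · intro hb
      by_contra ha
      exact hxK (hAB (Or.inr ⟨hb, ha⟩))
  have hB1 : Kpos ⊆ B := fun x hx =>
    (hiff x fun hxK => (Set.disjoint_left.1 hO1) (hKM hxK).2 hx).1 (hA1 hx)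
  have hB2 : Disjoint B Kneg := by
    rw [Set.disjoint_left]
    intro x hx hxn
    exact (Set.disjoint_left.1 hA2)
      ((hiff x fun hxK => (Set.disjoint_left.1 hO2) (hKM hxK).2 hxn).2 hx) hxn
  have hemp : symmDiff A B ∩ Kᶜ = ∅ := by
    ext x
    simp only [mem_inter_iff, mem_compl_iff, mem_empty_iff_false, iff_false, not_and, not_not]
    exact fun hx => hAB hx
  have hr := ct_wper_congr hG hA.meas hB.meas hK.isClosed.isOpen_compl (by rw [hemp]; simp)
  have hc : wper d M h t A Kᶜ = wper d M h t B Kᶜ := by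
    have := congrArg (fun μ : Measure V => μ univ) hr
    simpa only [Measure.restrict_apply_univ] using this
  have hfinB : wper d M h t B univ ≠ ⊤ := by
    rw [← measure_add_measure_compl hK.measurableSet, ← hc]
    exact ENNReal.add_ne_top.2 ⟨hB.fin K hK (hKM.trans inter_subset_left),
      ne_top_of_le_ne_top hfin (measure_mono (subset_univ _))⟩
  have h1 := hmin B hB hB1 hB2
  rw [ct_tot_eq_J hfin, ct_tot_eq_J hfinB, EReal.coe_le_coe_iff,
    ct_J_split hA hfin hpi hK.measurableSet, ct_J_split hB hfinB hpi hK.measurableSet, hc] at h1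
  have hset : A \ K = B \ K := by
    ext x
    constructor
    · rintro ⟨a, b⟩
      exact ⟨(hiff x b).1 a, b⟩
    · rintro ⟨a, b⟩
      exact ⟨(hiff x b).2 a, b⟩
  rw [hset] at h1
  have key : ∀ C : Set V, MeasurableSet C → ctEn d M h t p' C K = ctEn d M h t p C K := by
    intro C hC
    unfold ctEn
    rw [setIntegral_congr_fun (hC.inter hK.measurableSet) fun x hx => hpp x (hKM hx.2)]
  rw [key A hA.meas, key B hB.meas]
  linarith

/-- **existence** (P Lemma B.3). -/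
theorem ct_exists (hG : CtGeo d M h t) (hM : IsClosed M) (hp : SmoothAlong d M p) :
    ∃ A, CtLAM d M h t p A := by
  classical
  have hpc := if_smoothAlong_continuousOn hG.mfd hp
  have hstep : ∀ k : ℕ, ∃ A, CtLAM d (M ∩ Metric.ball (0 : V) k) h t p A := by
    intro k
    set Kp : Set V := M ∩ Metric.closedBall (0 : V) k with hKpdef
    have hKp : IsCompact Kp := (isCompact_closedBall (0 : V) (k : ℝ)).inter_left hM
    have hKpM : Kp ⊆ M := inter_subset_left
    set q : V → ℝ := Kp.piecewise p fun _ => (0 : ℝ) with hq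
    have hqm : Measurable q :=
      (hpc.mono hKpM).measurable_piecewise continuousOn_const hKp.measurableSet
    have hq0 : ∀ x, x ∉ Kp → q x = 0 := fun x hx => by simp [hq, hx]
    have hq1 : ∀ x ∈ Kp, q x = p x := fun x hx => by simp [hq, hx]
    obtain ⟨C, hC⟩ := hKp.exists_bound_of_continuousOn (hpc.mono hKpM)
    have hqb : ∀ x, |q x| ≤ max C 0 := by
      intro x
      by_cases hx : x ∈ Kp
      · rw [hq1 x hx]
        exact (hC x hx).trans (le_max_left _ _)
      · rw [hq0 x hx, abs_zero]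
        exact le_max_right _ _
    obtain ⟨A, hA, hA1, hA2, hfin, hmin⟩ := ct_exists_min hG hqm hKp hKpM hq0 hqb
      (Kpos := ∅) (Kneg := ∅) MeasurableSet.empty MeasurableSet.empty (ctLF_empty hG)
      (empty_subset _) (disjoint_empty _) (by rw [ct_wper_empty hG]; simp)
    have hqi : IntegrableOn q M (wvol d M h t) := by
      have h1 : IntegrableOn q Kp (wvol d M h t) :=
        IntegrableOn.of_bound (ct_wvol_compact hG hKp hKpM).lt_top hqm.aestronglyMeasurable
          (max C 0) (Eventually.of_forall hqb)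
      have h2 : Integrable q (wvol d M h t) :=
        (integrableOn_iff_integrable_of_support_subset fun x hx => by
          by_contra hxK
          exact hx (hq0 x hxK)).1 h1
      exact h2.integrableOn
    exact ⟨_, ct_lam_of_min hG hA hfin hqi hmin hA1 hA2 Metric.isOpen_ball (disjoint_empty _)
      (disjoint_empty _) fun x hx => hq1 x ⟨hx.1, Metric.ball_subset_closedBall hx.2⟩⟩
  choose A hA using hstep
  obtain ⟨φ, A', -, hA', -⟩ := ct_closure hG hM hp (fun k : ℕ => Metric.ball (0 : V) k)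
    (fun _ => Metric.isOpen_ball) (fun K hK _ => by
      obtain ⟨r, hr⟩ := hK.isBounded.subset_ball (0 : V)
      filter_upwards [eventually_ge_atTop ⌈r⌉₊] with k hk
      exact hr.trans (Metric.ball_subset_ball ((Nat.le_ceil r).trans (Nat.cast_le.2 hk)))) A hA
  exact ⟨A', hA'⟩

end Claimed.Agent.R315
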