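import Claimed.Agent.R315.Ct.LamB

/-!
# Row 315, package Ct/LamG: BARRIERS (P Lemma B.4)   (architect: helper184)

PROVED (helper184); black boxes: `ct_gg_le` (`Ct/BvF`), `ct_wper_lattice`, `CtLF.union/inter` (`Ct/BvC`).

PLAN OF PROOFS
* `ct_wper_off`: if `B ⊆ K`, `K` closed, then `wper B Kᶜ = 0`: `ct_wper_congr` on the open set `Kᶜ` with `∅`, `ct_wper_empty`.
* `ct_wdiv_integrable`: `wdiv d M h t a f` is continuous on `M` (`if_lap_smoothAlong`, `if_gradIp_smoothAlong`, `if_smoothAlong_continuousOn`) and vanishes on `M` off the compact set of `CtCS M a`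
  [on the relatively open set `M \ K` the function `a` vanishes identically, so `a = 0` and `⟨da, df⟩ = 0` there: in a chart `a ∘ ψ = 0` on the open set `ψ⁻¹(Kᶜ) ∩ U`, `if_gradIp_eq`, `gradIpC` of a locally vanishing function is `0`]; `ct_integrableOn`, `ct_wvol_compl`.
* `ct_barrier`.  (1) `hmin` ⇒ `∫_{B \ A} p ≤ (wper (A ∪ B) K).toReal - (wper A K).toReal` (`(A ∪ B) ∩ K = (A ∩ K) ∪ (B \ A)` disjoint).  (2) `ct_wper_lattice` evaluated on `K`: `wper (A ∪ B) K - wper A K ≤ wper B K - wper (A ∩ B) K` (all finite: `CtLF.union`, `CtLF.inter`).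
  (3) `wper B K = wper B univ`, `wper (A ∩ B) K = wper (A ∩ B) univ` (`ct_wper_off`).  (4) `wper B univ ≤ ∫_B wdiv` (calibration); `∫_{A ∩ B} wdiv ≤ ∫ |a| |df| d(wper (A ∩ B)) ≤ wper (A ∩ B) univ` (`ct_gg_le`, `|a| |df| ≤ 1` on `M`, the measure lives on `M`).
  (5) so `∫_{B \ A} p ≤ ∫_B wdiv - ∫_{A ∩ B} wdiv = ∫_{B \ A} wdiv ≤ β wvol (B \ A)`, i.e. `∫_{B \ A} (p - β) ≤ 0` with `p - β > 0` on `B \ A`: `wvol (B \ A) = 0` (`setIntegral_pos_iff_support_of_nonneg_ae` / `integral_eq_zero_iff_of_nonneg_ae`); `ct_wvol_eq_zero_iff`.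
* `CtLAM.contains`: `K` from `hB.cpt`; `hA.min K (A ∪ B)` (`CtLF.union`, `symmDiff A (A ∪ B) ⊆ B ⊆ K`); `ct_barrier`.
* `CtLAM.avoids`: `CtLAM.contains` for `M \ A` with the pressure `-p` (`CtLAM.diff`); `B \ (M \ A) = B ∩ A` since `B ⊆ M`.
* `CtCal.of_inter`.  Let `(a, f)`, `K_a ⊆ M ∩ O` be the calibration in `M ∩ O`.  `a' = O.indicator a` is smooth along `M` (`if_smoothAlong_of_zero_off` with the closed set `K_a`); `χ ∈ C^∞_c(O)`, `χ = 1` near `K_a` (`if_exists_pou_closed` as in `ct_exists_cutoff`), `f' = χ f` (`if_smoothAlong_cutoff`).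
  At points of `M ∩ {χ = 1}°`: `wdiv_M a' f' = wdiv_{M ∩ O} a f`, `gradN_M f' = gradN_{M ∩ O} f` (`if_lap_congr`, `if_gradIp_congr`, `if_*_inter'`); elsewhere on `M`: `a' = 0` locally, both sides vanish.  `wper`, `wvol`: `ct_wper_inter`, `ct_wvol_inter`, `ct_wper_off` (`B ⊆ K ⊆ O`); `CtLF`: `ctLF_of_eq_off` with `A₁ = ∅`.
* `CtCal.congr_data`: `ct_wper_congr_data`, `ct_wvol_congr_data`; `lap`, `gradIp`, `gradSq` only depend on the values along `M` (`if_lap_congr`, `if_gradIp_congr`, `if_gradSq_congr` with `O = univ`).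
-/

set_option autoImplicit false
set_option linter.unusedVariables false
set_option linter.deprecated false
set_option linter.unusedSectionVars false
set_option linter.style.haveILetI false
open scoped ContDiff ENNReal Topology
open MeasureTheory Claims.C0499 Set Filter

namespace Claimed.Agent.R315

variable {V : Type} [NormedAddCommGroup V] [NormedSpace ℝ V] [FiniteDimensional ℝ V]
  [MeasurableSpace V] [BorelSpace V]
variable {d : ℕ} {M : Set V} {h : Ten V} {t p : V → ℝ}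

/-- `B` is a calibrated set with divergence bound `β`: there is a "field" `a ∇f` with `|a ∇f| ≤ 1`,
compact support, which calibrates `B`, and whose weighted divergence is `≤ β` on `B`. -/
structure CtCal (d : ℕ) (M : Set V) (h : Ten V) (t : V → ℝ) (B : Set V) (β : ℝ) : Prop where
  lf : CtLF d M h t B
  cpt : ∃ K, IsCompact K ∧ K ⊆ M ∧ B ⊆ K
  cal : ∃ a f : V → ℝ, SmoothAlong d M a ∧ SmoothAlong d M f ∧ CtCS M a ∧
    (∀ x ∈ M, |a x| * gradN d M h f x ≤ 1) ∧
    (wper d M h t B univ).toReal ≤ ∫ x in B, wdiv d M h t a f x ∂(wvol d M h t) ∧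
    ∀ x ∈ B, wdiv d M h t a f x ≤ β

theorem ct_wper_off (hG : CtGeo d M h t) {B K : Set V} (hB : MeasurableSet B) (hK : IsClosed K)
    (hBK : B ⊆ K) : wper d M h t B Kᶜ = 0 := by
  have hemp : symmDiff B ∅ ∩ Kᶜ = ∅ := by
    ext x
    simp only [mem_inter_iff, mem_compl_iff, mem_empty_iff_false, iff_false, not_and, not_not]
    rintro (hx | hx)
    · exact hBK hx.1
    · exact absurd hx.1 (notMem_empty x)
  have hr := ct_wper_congr hG hB MeasurableSet.empty hK.isOpen_compl (by rw [hemp]; simp)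
  have := congrArg (fun μ : Measure V => μ univ) hr
  simpa only [Measure.restrict_apply_univ, ct_wper_empty hG, Measure.coe_zero,
    Pi.zero_apply] using this

omit [MeasurableSpace V] [BorelSpace V] in
/-- `⟨da, df⟩ = 0` where `a` vanishes locally. -/
theorem ct_gradIp_eq_zero (hG : CtGeo d M h t) {a f : V → ℝ} (hf : SmoothAlong d M f) {x : V}
    (hx : x ∈ M) {O : Set V} (hO : O ∈ 𝓝 x) (ha : ∀ y ∈ M ∩ O, a y = 0) :
    gradIp d M h a f x = 0 := by
  rw [if_gradIp_congr (f' := fun _ => (0 : ℝ)) (k' := f) hO (fun _ _ => rfl) ha fun _ _ => rfl]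
  obtain ⟨ψ, U, hψ, u, hu, rfl⟩ := hG.mfd x hx
  rw [if_gradIp_eq hG.met (if_smoothAlong_of_contDiff contDiff_const) hf hψ hu]
  have h0 : ∀ i, pdiff ((fun _ : V => (0 : ℝ)) ∘ ψ) i u = 0 := by
    intro i
    unfold pdiff
    have : ((fun _ : V => (0 : ℝ)) ∘ ψ) = fun _ => (0 : ℝ) := rfl
    rw [this]
    simp
  unfold gradIpC
  simp [h0]

omit [MeasurableSpace V] [BorelSpace V] in
theorem ct_wdiv_continuousOn (hG : CtGeo d M h t) {a f : V → ℝ} (ha : SmoothAlong d M a)
    (hf : SmoothAlong d M f) : ContinuousOn (wdiv d M h t a f) M := by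
  have c := fun {g : V → ℝ} (hg : SmoothAlong d M g) => if_smoothAlong_continuousOn hG.mfd hg
  exact ((c ha).mul ((c (if_lap_smoothAlong hG.met hf)).sub
    (c (if_gradIp_smoothAlong hG.met hG.drift hf)))).add (c (if_gradIp_smoothAlong hG.met ha hf))

omit [MeasurableSpace V] [BorelSpace V] in
theorem ct_wdiv_eq_zero (hG : CtGeo d M h t) {a f : V → ℝ} (hf : SmoothAlong d M f) {x : V}
    (hx : x ∈ M) {O : Set V} (hO : O ∈ 𝓝 x) (ha : ∀ y ∈ M ∩ O, a y = 0) :
    wdiv d M h t a f x = 0 := by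
  unfold wdiv
  rw [ct_gradIp_eq_zero hG hf hx hO ha, ha x ⟨hx, mem_of_mem_nhds hO⟩]
  simp

theorem ct_wdiv_integrable (hG : CtGeo d M h t) {a f : V → ℝ} (ha : SmoothAlong d M a)
    (hf : SmoothAlong d M f) (hc : CtCS M a) : Integrable (wdiv d M h t a f) (wvol d M h t) := by
  obtain ⟨K, hK, hKM, h0⟩ := hc
  refine (ct_integrableOn hG (ct_wdiv_continuousOn hG ha hf) hK hKM).integrable_of_ae_notMem_eq_zero
    ?_
  have hM : ∀ᵐ x ∂(wvol d M h t), x ∈ M := by
    rw [ae_iff]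
    exact ct_wvol_compl hG
  filter_upwards [hM] with x hx hxK
  exact ct_wdiv_eq_zero hG hf hx (hK.isClosed.isOpen_compl.mem_nhds hxK) fun y hy => h0 y hy.1 hy.2

/-- the whole perimeter of a subset of a closed set `K` is in `K`. -/
theorem ct_wper_univ_eq (hG : CtGeo d M h t) {B K : Set V} (hB : MeasurableSet B) (hK : IsClosed K)
    (hBK : B ⊆ K) : wper d M h t B univ = wper d M h t B K := by
  rw [← measure_add_measure_compl hK.measurableSet, ct_wper_off hG hB hK hBK, add_zero]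

/-- a sub-unit field has flux at most the perimeter. -/
theorem ct_gg_le_per (hG : CtGeo d M h t) {C : Set V} (hC : CtLF d M h t C)
    (hfin : wper d M h t C univ ≠ ⊤) {a f : V → ℝ}
    (ha : SmoothAlong d M a) (hf : SmoothAlong d M f) (hc : CtCS M a)
    (h1 : ∀ x ∈ M, |a x| * gradN d M h f x ≤ 1) :
    ∫ x in C, wdiv d M h t a f x ∂(wvol d M h t) ≤ (wper d M h t C univ).toReal := by
  refine (ct_gg_le hG hC ha hf hc).trans ?_
  haveI : IsFiniteMeasure (wper d M h t C) := ⟨hfin.lt_top⟩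
  have hM : ∀ᵐ x ∂(wper d M h t C), x ∈ M := by
    rw [ae_iff]
    exact ct_wper_compl_M hG hC.meas
  have h2 : ∫ x, |a x| * gradN d M h f x ∂(wper d M h t C) ≤ ∫ _, (1 : ℝ) ∂(wper d M h t C) :=
    integral_mono_of_nonneg
      (Eventually.of_forall fun x => mul_nonneg (abs_nonneg _) (Real.sqrt_nonneg _))
      (integrable_const _) (hM.mono fun x hx => h1 x hx)
  refine h2.trans (le_of_eq ?_)
  simp [Measure.real]

/-- **barrier lemma**, one-sided form: if adding `B` does not decrease the energy and `p > β` on `B`,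
then `B ⊆ A` a.e. -/
theorem ct_barrier (hG : CtGeo d M h t) (hp : ContinuousOn p M) {A B K : Set V} {β : ℝ}
    (hA : CtLF d M h t A) (hB : CtCal d M h t B β) (hK : IsCompact K) (hKM : K ⊆ M) (hBK : B ⊆ K)
    (hmin : ctEn d M h t p A K ≤ ctEn d M h t p (A ∪ B) K) (hpβ : ∀ x ∈ B, β < p x) :
    vol d M h (B \ A) = 0 := by
  obtain ⟨a, f, ha, hf, hc, h1, hcal, hβ⟩ := hB.cal
  have hBl := hB.lf
  have hU := hA.union hG hBl
  have hI := hA.inter hG hBl
  have hpi := ct_integrableOn hG hp hK hKM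
  have hWi := ct_wdiv_integrable hG ha hf hc
  have hDm : MeasurableSet (B \ A) := hBl.meas.diff hA.meas
  have hDK : B \ A ⊆ K := diff_subset.trans hBK
  -- (1)
  have e1 : (A ∪ B) ∩ K = (A ∩ K) ∪ (B \ A) := by
    ext x
    constructor
    · rintro ⟨hx | hx, hxK⟩
      · exact Or.inl ⟨hx, hxK⟩
      · by_cases hxA : x ∈ A
        · exact Or.inl ⟨hxA, hxK⟩
        · exact Or.inr ⟨hx, hxA⟩
    · rintro (hx | hx)
      · exact ⟨Or.inl hx.1, hx.2⟩
      · exact ⟨Or.inr hx.1, hDK hx⟩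
  have hdisj : Disjoint (A ∩ K) (B \ A) := by
    rw [Set.disjoint_left]
    rintro x ⟨a', -⟩ ⟨-, b'⟩
    exact b' a'
  have i1 : ∫ x in (A ∪ B) ∩ K, p x ∂(wvol d M h t) = (∫ x in A ∩ K, p x ∂(wvol d M h t)) +
      ∫ x in B \ A, p x ∂(wvol d M h t) := by
    rw [e1, setIntegral_union hdisj hDm (hpi.mono_set inter_subset_right) (hpi.mono_set hDK)]
  unfold ctEn at hmin
  rw [i1] at hmin
  -- (2)
  have hlat := Measure.le_iff'.1 (ct_wper_lattice hG hA.meas hBl.meas) K
  simp only [Measure.coe_add, Pi.add_apply] at hlat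
  have fA := hA.fin K hK hKM
  have fB := hBl.fin K hK hKM
  have fU := hU.fin K hK hKM
  have fI := hI.fin K hK hKM
  have hlat' : (wper d M h t (A ∩ B) K).toReal + (wper d M h t (A ∪ B) K).toReal ≤
      (wper d M h t A K).toReal + (wper d M h t B K).toReal := by
    rw [← ENNReal.toReal_add fI fU, ← ENNReal.toReal_add fA fB]
    exact ENNReal.toReal_mono (ENNReal.add_ne_top.2 ⟨fA, fB⟩) hlat
  -- (3), (4)
  have uB := ct_wper_univ_eq hG hBl.meas hK.isClosed hBK
  have uI := ct_wper_univ_eq hG hI.meas hK.isClosed (inter_subset_right.trans hBK)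
  rw [uB] at hcal
  have hflux := ct_gg_le_per hG hI (by rw [uI]; exact fI) ha hf hc h1
  rw [uI] at hflux
  -- (5)
  have e2 : B = (A ∩ B) ∪ (B \ A) := by
    ext x
    constructor
    · intro hx
      by_cases hxA : x ∈ A
      · exact Or.inl ⟨hxA, hx⟩
      · exact Or.inr ⟨hx, hxA⟩
    · rintro (hx | hx)
      · exact hx.2
      · exact hx.1
  have hdisj2 : Disjoint (A ∩ B) (B \ A) := by
    rw [Set.disjoint_left]
    rintro x ⟨a', -⟩ ⟨-, b'⟩
    exact b' a'
  have i2 : ∫ x in B, wdiv d M h t a f x ∂(wvol d M h t) =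
      (∫ x in A ∩ B, wdiv d M h t a f x ∂(wvol d M h t)) +
      ∫ x in B \ A, wdiv d M h t a f x ∂(wvol d M h t) := by
    conv_lhs => rw [e2]
    exact setIntegral_union hdisj2 hDm hWi.integrableOn hWi.integrableOn
  have hfinD : wvol d M h t (B \ A) ≠ ⊤ :=
    ne_top_of_le_ne_top (ct_wvol_compact hG hK hKM) (measure_mono hDK)
  have hci : IntegrableOn (fun _ : V => β) (B \ A) (wvol d M h t) :=
    integrableOn_const hfinD
  have i3 : ∫ x in B \ A, wdiv d M h t a f x ∂(wvol d M h t) ≤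
      ∫ _ in B \ A, β ∂(wvol d M h t) :=
    setIntegral_mono_on hWi.integrableOn hci hDm fun x hx => hβ x hx.1
  have hle : ∫ x in B \ A, (p x - β) ∂(wvol d M h t) ≤ 0 := by
    rw [integral_sub (hpi.mono_set hDK) hci]
    linarith
  rw [← ct_wvol_eq_zero_iff hG]
  by_contra hne
  have hpos : 0 < wvol d M h t (Function.support (fun x => p x - β) ∩ (B \ A)) := by
    have : Function.support (fun x => p x - β) ∩ (B \ A) = B \ A := by
      refine inter_eq_right.2 fun x hx => ?_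
      exact (sub_pos.2 (hpβ x hx.1)).ne'
    rw [this]
    exact pos_iff_ne_zero.2 hne
  have := (setIntegral_pos_iff_support_of_nonneg_ae
    ((ae_restrict_iff' hDm).2 (Eventually.of_forall fun x hx => (sub_pos.2 (hpβ x hx.1)).le))
    ((hpi.mono_set hDK).sub hci)).2 hpos
  exact absurd hle (not_le.2 this)

/-- barrier for minimisers, plus side. -/
theorem CtLAM.contains (hG : CtGeo d M h t) (hp : SmoothAlong d M p) {A B : Set V} {β : ℝ}
    (hA : CtLAM d M h t p A) (hB : CtCal d M h t B β) (hpβ : ∀ x ∈ B, β < p x) :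
    vol d M h (B \ A) = 0 := by
  obtain ⟨K, hK, hKM, hBK⟩ := hB.cpt
  refine ct_barrier hG (if_smoothAlong_continuousOn hG.mfd hp) hA.lf hB hK hKM hBK
    (hA.min K _ hK hKM (hA.lf.union hG hB.lf) ?_) hpβ
  rintro x (⟨a, b⟩ | ⟨a | a, b⟩)
  · exact absurd (Or.inl a) b
  · exact absurd a b
  · exact hBK a

/-- barrier for minimisers, minus side. -/
theorem CtLAM.avoids (hG : CtGeo d M h t) (hp : SmoothAlong d M p) {A B : Set V} {β : ℝ}
    (hA : CtLAM d M h t p A) (hB : CtCal d M h t B β) (hpβ : ∀ x ∈ B, p x < -β) :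
    vol d M h (B ∩ A) = 0 := by
  have h1 := CtLAM.contains hG (p := fun x => -p x) (fun ψ U hψ => (hp ψ U hψ).neg) (hA.diff hG hp)
    hB fun x hx => by linarith [hpβ x hx]
  have e : B \ (M \ A) = B ∩ A := by
    ext x
    constructor
    · rintro ⟨a, b⟩
      refine ⟨a, ?_⟩
      by_contra hx
      exact b ⟨hB.lf.sub a, hx⟩
    · rintro ⟨a, b⟩
      exact ⟨a, fun hx => hx.2 b⟩
  rwa [e] at h1

omit [FiniteDimensional ℝ V] [MeasurableSpace V] [BorelSpace V] in
/-- `wdiv` is local. -/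
theorem ct_wdiv_congr {h' : Ten V} {t' a a' f f' : V → ℝ} {x : V} {O : Set V} (hO : O ∈ 𝓝 x)
    (hx : x ∈ M)
    (hh : ∀ y ∈ M ∩ O, h y = h' y) (ht : ∀ y ∈ M ∩ O, t y = t' y) (ha : ∀ y ∈ M ∩ O, a y = a' y)
    (hf : ∀ y ∈ M ∩ O, f y = f' y) : wdiv d M h t a f x = wdiv d M h' t' a' f' x := by
  unfold wdiv wlap
  rw [if_lap_congr hO hh hf, if_gradIp_congr hO hh ht hf, if_gradIp_congr hO hh ha hf,
    ha x ⟨hx, mem_of_mem_nhds hO⟩]

omit [FiniteDimensional ℝ V] [MeasurableSpace V] [BorelSpace V] in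
theorem ct_wdiv_inter' {O : Set V} (hO : IsOpen O) (a f : V → ℝ) {x : V} (hx : x ∈ O) :
    wdiv d (M ∩ O) h t a f x = wdiv d M h t a f x := by
  unfold wdiv wlap
  rw [if_lap_inter' h f hO hx, if_gradIp_inter' h t f hO hx, if_gradIp_inter' h a f hO hx]

/-- only the values of the data along `M` matter. -/
theorem CtCal.congr_data {h' : Ten V} {t' : V → ℝ} {B : Set V} {β : ℝ} (hB : CtCal d M h t B β)
    (hh : ∀ x ∈ M, h x = h' x) (ht : ∀ x ∈ M, t x = t' x) : CtCal d M h' t' B β := by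
  have hw := ct_wper_congr_data (d := d) hh ht B
  obtain ⟨a, f, ha, hf, hc, h1, hcal, hβ⟩ := hB.cal
  have hdiv : ∀ x ∈ M, wdiv d M h t a f x = wdiv d M h' t' a f x := fun x hx =>
    ct_wdiv_congr univ_mem hx (fun y hy => hh y hy.1) (fun y hy => ht y hy.1) (fun _ _ => rfl)
      fun _ _ => rfl
  refine ⟨⟨hB.lf.meas, hB.lf.sub, fun K hK hKM => by rw [← hw]; exact hB.lf.fin K hK hKM⟩, hB.cpt,
    a, f, ha, hf, hc, fun x hx => ?_, ?_, fun x hx => ?_⟩
  · have : gradN d M h' f x = gradN d M h f x := by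
      unfold gradN
      rw [if_gradSq_congr (g := h) (g' := h') (f' := f) univ_mem (fun y hy => hh y hy.1)
        fun _ _ => rfl]
    rw [this]
    exact h1 x hx
  · rw [← hw, ← ct_wvol_congr_data hh ht,
      ← setIntegral_congr_fun hB.lf.meas fun x hx => hdiv x (hB.lf.sub hx)]
    exact hcal
  · rw [← hdiv x (hB.lf.sub hx)]
    exact hβ x hx

/-- calibrations are local. -/
theorem CtCal.of_inter (hG : CtGeo d M h t) {O B : Set V} {β : ℝ} (hO : IsOpen O)
    (hB : CtCal d (M ∩ O) h t B β) : CtCal d M h t B β := by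
  classical
  have hG' := hG.inter hO
  obtain ⟨K, hK, hKM, hBK⟩ := hB.cpt
  obtain ⟨a, f, ha, hf, ⟨Ka, hKa, hKaM, ha0⟩, h1, hcal, hβ⟩ := hB.cal
  have hBm := hB.lf.meas
  have hBM : B ⊆ M := hB.lf.sub.trans inter_subset_left
  have hBO : B ∩ O = B := inter_eq_left.2 fun x hx => (hB.lf.sub hx).2
  have hKO : M ∩ K ⊆ O := fun x hx => (hKM hx.2).2
  have hwK : wper d M h t B K = wper d (M ∩ O) h t B K := by
    have := ct_wper_inter_apply hG hO hBm hKO
    rw [hBO] at this
    exact this.symm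
  have hlf : CtLF d M h t B := by
    refine ctLF_of_eq_off hG hBm hBM (ctLF_empty hG) hK.isClosed ?_ ?_
    · rw [diff_eq_empty.2 hBK, empty_diff]
    · rw [hwK]
      exact hB.lf.fin K hK hKM
  have hKaO : Ka ⊆ O := fun x hx => (hKaM hx).2
  obtain ⟨δ, hδ, hδO⟩ := hKa.exists_cthickening_subset_open hO hKaO
  obtain ⟨χ, hχs, -, hχsupp, -, hχ1, -⟩ := if_exists_pou_closed
    (Metric.isClosed_cthickening (δ := δ) (E := Ka)) (fun _ : Unit => O) (fun _ => hO)
    (hδO.trans (subset_iUnion (fun _ : Unit => O) ()))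
  simp only [finsum_unique] at hχ1
  set N := Metric.thickening δ Ka with hN
  have hNo : IsOpen N := Metric.isOpen_thickening
  have hKaN : Ka ⊆ N := Metric.self_subset_thickening hδ Ka
  have hNO : N ⊆ O := (Metric.thickening_subset_cthickening δ Ka).trans hδO
  have hχN : ∀ x ∈ N, χ default x = 1 := fun x hx =>
    hχ1 x (Metric.thickening_subset_cthickening δ Ka hx)
  set a' : V → ℝ := O.indicator a with ha'
  set f' : V → ℝ := fun x => χ default x • f x with hf'
  have ha'O : ∀ x ∈ O, a' x = a x := fun x hx => indicator_of_mem hx a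
  have ha'0 : ∀ x ∈ M, x ∉ Ka → a' x = 0 := by
    intro x hx hxK
    by_cases hxO : x ∈ O
    · rw [ha'O x hxO]
      exact ha0 x ⟨hx, hxO⟩ hxK
    · exact indicator_of_notMem hxO a
  have ha's : SmoothAlong d M a' :=
    if_smoothAlong_of_zero_off hO hKa.isClosed hKaO
      (if_smoothAlong_congr ha fun x hx => ha'O x hx.2) ha'0
  have hf's : SmoothAlong d M f' :=
    if_smoothAlong_cutoff hO (if_smoothAlong_of_contDiff (hχs default)) (hχsupp default) hf
  have hf'N : ∀ x ∈ N, f' x = f x := fun x hx => by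
    show χ default x • f x = f x
    rw [hχN x hx, one_smul]
  have hdivN : ∀ x ∈ M ∩ N, wdiv d M h t a' f' x = wdiv d (M ∩ O) h t a f x := by
    intro x hx
    rw [ct_wdiv_inter' hO a f (hNO hx.2)]
    exact ct_wdiv_congr (hNo.mem_nhds hx.2) hx.1 (fun _ _ => rfl) (fun _ _ => rfl)
      (fun y hy => ha'O y (hNO hy.2)) fun y hy => hf'N y hy.2
  have hdiv : ∀ x ∈ M ∩ O, wdiv d M h t a' f' x = wdiv d (M ∩ O) h t a f x := by
    intro x hx
    by_cases hxK : x ∈ Ka
    · exact hdivN x ⟨hx.1, hKaN hxK⟩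
    · rw [ct_wdiv_eq_zero hG hf's hx.1 (hKa.isClosed.isOpen_compl.mem_nhds hxK)
        fun y hy => ha'0 y hy.1 hy.2,
        ct_wdiv_eq_zero hG' hf hx (hKa.isClosed.isOpen_compl.mem_nhds hxK)
        fun y hy => ha0 y hy.1 hy.2]
  refine ⟨hlf, ⟨K, hK, hKM.trans inter_subset_left, hBK⟩, a', f', ha's, hf's,
    ⟨Ka, hKa, hKaM.trans inter_subset_left, ha'0⟩, fun x hx => ?_, ?_, fun x hx => ?_⟩
  · by_cases hxK : x ∈ Ka
    · have hxN := hKaN hxK
      have e : gradN d M h f' x = gradN d (M ∩ O) h f x := by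
        unfold gradN
        rw [if_gradSq_inter' h f hO (hNO hxN)]
        rw [if_gradSq_congr (g := h) (g' := h) (f := f') (f' := f) (hNo.mem_nhds hxN)
          (fun _ _ => rfl) fun y hy => hf'N y hy.2]
      rw [e, ha'O x (hNO hxN)]
      exact h1 x ⟨hx, hNO hxN⟩
    · rw [ha'0 x hx hxK]
      simp
  · rw [ct_wper_univ_eq hG hBm hK.isClosed hBK, hwK, ← ct_wper_univ_eq hG' hBm hK.isClosed hBK,
      setIntegral_congr_fun hBm fun x hx => hdiv x (hB.lf.sub hx)]
    rw [ct_wvol_inter hG hO, Measure.restrict_restrict hBm, hBO] at hcal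
    exact hcal
  · rw [hdiv x (hB.lf.sub hx)]
    exact hβ x hx

end Claimed.Agent.R315
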