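import Claimed.Agent.R315.Ct.LamG

/-!
# Row 315, package Ct/LamH: calibrated neighbourhoods exist   (architect: helper184)

PROVED (helper184); black boxes: `ct_gg_def`, `CtDef.lf`, `ct_wper_def_level` (`Ct/BvF`), `ct_measurableSet_lt` (`Ct/BvD`).

PLAN OF PROOFS
* `ct_cal_of_sublevel`: relatively compact sublevel sets `B = {x ∈ M | f x < c}` with regular values in `[c₁, c₂] ∋ c` are calibrated by `a ∇f`, `a = η(f)/|df|`.
  (0) `η : ℝ → ℝ` smooth, `0 ≤ η ≤ 1`, `η = 1` near `c`, `tsupport η ⊆ (c₁, c₂)` (`Real.smoothTransition` or `ContDiffBump`).  `a x = η (f x) / gradN d M h f x`.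
  (1) `a` is smooth along `M`: in a chart `a ∘ ψ = η(f∘ψ)/√(gradSqC G (f∘ψ))` (`if_gradSq_eq`); near points with `f ∈ [c₁,c₂]` the radicand is positive (`ContDiffAt.sqrt`, `ContDiffAt.div`), near the other points `η(f∘ψ) = 0` locally.
      `CtCS M a`: `a = 0` on `M` off the compact set `K`.   `|a| |df| = η(f) ≤ 1` (on `{|df| = 0}`: `0`).
  (2) `O₂` open with `M ∩ O₂ = {x ∈ M | c₁ < f x ∧ f x < c₂}` (`ct_exists_open_lt` for `f` and `-f`); `M₂ = M ∩ O₂`; `φ = f - c`: `CtDef d M₂ h (B ∩ O₂) φ` (`if_gradSq_inter'`, `gradSq (f - c) = gradSq f`: `if_gradSq_congr`-type computation in charts).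
  (3) `wper_M B O₂ᶜ = 0`: on an open `O₃` with `M ∩ O₃ = {f < c}`: `B = M` there, `wper M = wper (M \ ∅) = 0` (`ct_wper_diff`, `ct_wper_empty`, `ct_wper_congr`); on an open `O₄` with `M ∩ O₄ = {c < f}`: `B = ∅`; `M ⊆ O₂ ∪ O₃ ∪ O₄`; `ct_wper_compl_M`.
      So `wper_M B univ = wper_M B O₂ = wper_{M₂} (B ∩ O₂) univ` (`ct_wper_inter`) `= wper_{M₂} (B ∩ O₂) {φ = 0}` (`ct_wper_def_level`) `< ⊤` (`CtDef.lf`; `{x ∈ M | f x = c}` is a compact subset of `M₂`: closed in `K`).  Hence `CtLF d M h t B`.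
  (4) `ct_gg_def` on `M₂` (`a` has compact support in `M₂`: `{x ∈ M | f x ∈ tsupport η}`): `∫_{B ∩ O₂} wdiv_{M₂} a f = ∫ a ⟨df, dφ⟩/|dφ| d(wper_{M₂}) = ∫ η(f) d(wper_{M₂}) = wper_{M₂} (B ∩ O₂) univ` (`η(f) = 1` on `{φ = 0}`).
      `∫_B wdiv_M a f dμ_M = ∫_{B ∩ O₂} wdiv_{M₂} a f dμ_{M₂}` (`wdiv a f = 0` on `M \ O₂`, cf. `ct_wdiv_integrable`; `ct_wvol_inter`; `if_lap_inter'`, `if_gradIp_inter'`).
  (5) `β = sup_K wdiv` (continuous on `M`).
* `ct_cal_exists`: chart `(ψ, U)`, `ψ u₀ = x₀`; `R > 0` with `closedBall u₀ (2R) ⊆ U ∩ ψ⁻¹ O`; `M₁ = M ∩ O₁ = ψ '' ball u₀ (2R)` (`if_image_open`, intersect `O₁` with `O`); `(ψ, ball u₀ (2R))` is a global chart of `M₁` (`if_mono`, `if_param_inter`).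
  `f x = ‖invFunOn ψ U x - u₀‖²`: smooth along `M₁` (`if_smoothAlong_of_atlas`: `f ∘ ψ = ‖· - u₀‖²`); `gradSq f > 0` where `f > 0` (`if_gradSq_eq`: `G⁻¹` is positive definite, `∇‖u - u₀‖² = 2 (u - u₀)`).
  `ct_cal_of_sublevel` on `M₁` with `(c₁, c, c₂) = (R²/4, R², 9R²/4)`, `K = ψ '' closedBall u₀ (3R/2)`; `{x ∈ M₁ | f x < R²} = ψ '' ball u₀ R = M ∩ O'`; `CtCal.of_inter`.
-/

set_option autoImplicit false
set_option linter.unusedVariables false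
set_option linter.deprecated false
set_option linter.unusedSectionVars false
set_option linter.style.haveILetI false
open scoped ContDiff ENNReal Topology
open MeasureTheory Claims.C0499 Set Filter

namespace Claimed.Agent.R315

variable {V : Type} [NormedAddCommGroup V] [NormedSpace ℝ V] [FiniteDimensional ℝ V]
  [MeasurableSpace V] [BorelSpace V]
variable {d : ℕ} {M : Set V} {h : Ten V} {t p : V → ℝ}

omit [NormedSpace ℝ V] [FiniteDimensional ℝ V] [MeasurableSpace V] [BorelSpace V] in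
/-- relatively open preimages are traces of open sets. -/
theorem ct_exists_open_pre {f : V → ℝ} (hf : ContinuousOn f M) {T : Set ℝ} (hT : IsOpen T) :
    ∃ O : Set V, IsOpen O ∧ M ∩ O = {x | x ∈ M ∧ f x ∈ T} := by
  obtain ⟨O, hO, hOe⟩ := continuousOn_iff'.1 hf T hT
  refine ⟨O, hO, ?_⟩
  ext x
  constructor
  · rintro ⟨a, b⟩
    have : x ∈ f ⁻¹' T ∩ M := hOe ▸ (⟨b, a⟩ : x ∈ O ∩ M)
    exact ⟨a, this.1⟩
  · rintro ⟨a, b⟩
    have : x ∈ O ∩ M := hOe ▸ (⟨b, a⟩ : x ∈ f ⁻¹' T ∩ M)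
    exact ⟨a, this.1⟩

omit [FiniteDimensional ℝ V] [MeasurableSpace V] [BorelSpace V] in
theorem ct_pdiff_sub_const (F : E d → ℝ) (c : ℝ) (i : Fin d) (u : E d) :
    pdiff (fun w => F w - c) i u = pdiff F i u := by
  unfold pdiff
  rw [fderiv_sub_const]

omit [FiniteDimensional ℝ V] [MeasurableSpace V] [BorelSpace V] in
theorem ct_gradIp_sub_const (f k : V → ℝ) (c : ℝ) (x : V) :
    gradIp d M h f (fun y => k y - c) x = gradIp d M h f k x := by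
  refine if_pv_congr fun ψ U u _ _ _ => ?_
  unfold gradIpC
  refine Finset.sum_congr rfl fun i _ => Finset.sum_congr rfl fun j _ => ?_
  have : ((fun y => k y - c) ∘ ψ) = fun w => (k ∘ ψ) w - c := rfl
  rw [this, ct_pdiff_sub_const]

omit [FiniteDimensional ℝ V] [MeasurableSpace V] [BorelSpace V] in
theorem ct_gradSq_sub_const (f : V → ℝ) (c : ℝ) (x : V) :
    gradSq d M h (fun y => f y - c) x = gradSq d M h f x := by
  refine if_pv_congr fun ψ U u _ _ _ => ?_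
  unfold gradSqC
  refine Finset.sum_congr rfl fun i _ => Finset.sum_congr rfl fun j _ => ?_
  have : ((fun y => f y - c) ∘ ψ) = fun w => (f ∘ ψ) w - c := rfl
  rw [this, ct_pdiff_sub_const, ct_pdiff_sub_const]

omit [MeasurableSpace V] [BorelSpace V] in
/-- the coefficient `η(f)/|df|` of the calibration is smooth. -/
theorem ct_cal_coeff_smooth (hG : CtGeo d M h t) {f : V → ℝ} (hf : SmoothAlong d M f)
    {η : ℝ → ℝ} (hη : ContDiff ℝ ∞ η) {T : Set ℝ} (hT : IsClosed T) (hηT : ∀ s, s ∉ T → η s = 0)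
    (hreg : ∀ x ∈ M, f x ∈ T → 0 < gradSq d M h f x) :
    SmoothAlong d M fun x => η (f x) / gradN d M h f x := by
  have hfc := if_smoothAlong_continuousOn hG.mfd hf
  have hgs := if_gradSq_smoothAlong hG.met hf
  have hgc := if_smoothAlong_continuousOn hG.mfd hgs
  obtain ⟨O₁, hO₁, hO₁e⟩ := ct_exists_open_pre hgc isOpen_Ioi (T := Ioi (0 : ℝ))
  obtain ⟨O₂, hO₂, hO₂e⟩ := ct_exists_open_pre hfc hT.isOpen_compl
  refine if_smoothAlong_of_pieces fun x hx => ?_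
  by_cases hxT : f x ∈ T
  · have hxO : x ∈ M ∩ O₁ := hO₁e ▸ (⟨hx, hreg x hx hxT⟩ : x ∈ {x | x ∈ M ∧ gradSq d M h f x ∈ Ioi 0})
    refine ⟨O₁, hO₁, hxO.2, fun ψ U hψ => ?_⟩
    have hψM := if_param_of_inter hO₁ hψ
    have hpos : ∀ u ∈ U, (gradSq d M h f ∘ ψ) u ≠ 0 := by
      intro u hu
      have : ψ u ∈ {x | x ∈ M ∧ gradSq d M h f x ∈ Ioi 0} := hO₁e ▸ if_mem hψ hu
      exact (ne_of_gt this.2)
    have h1 : ContDiffOn ℝ ∞ (fun u => Real.sqrt ((gradSq d M h f ∘ ψ) u)) U :=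
      (hgs ψ U hψM).sqrt hpos
    refine (hη.comp_contDiffOn (hf ψ U hψM)).div h1 fun u hu => ?_
    exact (Real.sqrt_ne_zero'.2 (lt_of_le_of_ne (by
      have : ψ u ∈ {x | x ∈ M ∧ gradSq d M h f x ∈ Ioi 0} := hO₁e ▸ if_mem hψ hu
      exact le_of_lt this.2) (hpos u hu).symm))
  · have hxO : x ∈ M ∩ O₂ := hO₂e ▸ (⟨hx, hxT⟩ : x ∈ {x | x ∈ M ∧ f x ∈ Tᶜ})
    refine ⟨O₂, hO₂, hxO.2, if_smoothAlong_congr (if_smoothAlong_const 0) fun y hy => ?_⟩
    have : y ∈ {x | x ∈ M ∧ f x ∈ Tᶜ} := hO₂e ▸ hy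
    show η (f y) / gradN d M h f y = 0
    rw [hηT _ this.2, zero_div]

/-- the perimeter of a sublevel set lives near the level. -/
theorem ct_wper_sublevel_off (hG : CtGeo d M h t) {f : V → ℝ} (hf : SmoothAlong d M f) {c : ℝ}
    {O₂ : Set V} (hc : ∀ x ∈ M, f x = c → x ∈ O₂) :
    wper d M h t {x | x ∈ M ∧ f x < c} O₂ᶜ = 0 := by
  have hfc := if_smoothAlong_continuousOn hG.mfd hf
  have hBm := ct_measurableSet_lt hG hf c
  obtain ⟨O₃, hO₃, hO₃e⟩ := ct_exists_open_pre hfc (isOpen_Iio (a := c))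
  obtain ⟨O₄, hO₄, hO₄e⟩ := ct_exists_open_pre hfc (isOpen_Ioi (a := c))
  have h3 : wper d M h t {x | x ∈ M ∧ f x < c} O₃ = 0 := by
    have hemp : symmDiff {x | x ∈ M ∧ f x < c} M ∩ O₃ = ∅ := by
      ext x
      simp only [mem_inter_iff, mem_empty_iff_false, iff_false, not_and]
      rintro (⟨a, b⟩ | ⟨a, b⟩) hx
      · exact b a.1
      · have : x ∈ {x | x ∈ M ∧ f x ∈ Iio c} := hO₃e ▸ (⟨a, hx⟩ : x ∈ M ∩ O₃)
        exact b ⟨a, this.2⟩
    have hr := ct_wper_congr hG hBm (ct_measurableSet hG.mfd) hO₃ (by rw [hemp]; simp)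
    have := congrArg (fun μ : Measure V => μ univ) hr
    simpa only [Measure.restrict_apply_univ, ct_wper_univ hG, Measure.coe_zero,
      Pi.zero_apply] using this
  have h4 : wper d M h t {x | x ∈ M ∧ f x < c} O₄ = 0 := by
    have hemp : symmDiff {x | x ∈ M ∧ f x < c} ∅ ∩ O₄ = ∅ := by
      ext x
      simp only [mem_inter_iff, mem_empty_iff_false, iff_false, not_and]
      rintro (⟨a, b⟩ | ⟨a, b⟩) hx
      · have : x ∈ {x | x ∈ M ∧ f x ∈ Ioi c} := hO₄e ▸ (⟨a.1, hx⟩ : x ∈ M ∩ O₄)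
        exact absurd a.2 (not_lt.2 (le_of_lt this.2))
      · exact absurd a (notMem_empty x)
    have hr := ct_wper_congr hG hBm MeasurableSet.empty hO₄ (by rw [hemp]; simp)
    have := congrArg (fun μ : Measure V => μ univ) hr
    simpa only [Measure.restrict_apply_univ, ct_wper_empty hG, Measure.coe_zero,
      Pi.zero_apply] using this
  refine measure_mono_null (t := (O₃ ∪ O₄) ∪ Mᶜ) ?_
    (measure_union_null (measure_union_null h3 h4) (ct_wper_compl_M hG hBm))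
  intro x hx
  by_cases hxM : x ∈ M
  · left
    rcases lt_trichotomy (f x) c with hlt | heq | hgt
    · have : x ∈ M ∩ O₃ := hO₃e ▸ (⟨hxM, hlt⟩ : x ∈ {x | x ∈ M ∧ f x ∈ Iio c})
      exact Or.inl this.2
    · exact absurd (hc x hxM heq) hx
    · have : x ∈ M ∩ O₄ := hO₄e ▸ (⟨hxM, hgt⟩ : x ∈ {x | x ∈ M ∧ f x ∈ Ioi c})
      exact Or.inr this.2
  · exact Or.inr hxM

/-- the whole perimeter of a sublevel set, computed in a window around the level. -/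
theorem ct_wper_sublevel_window (hG : CtGeo d M h t) {f : V → ℝ} (hf : SmoothAlong d M f) {c : ℝ}
    {O₂ : Set V} (hO₂ : IsOpen O₂) (hc : ∀ x ∈ M, f x = c → x ∈ O₂) :
    wper d M h t {x | x ∈ M ∧ f x < c} univ =
      wper d (M ∩ O₂) h t ({x | x ∈ M ∧ f x < c} ∩ O₂) univ := by
  rw [ct_wper_inter hG (ct_measurableSet_lt hG hf c) hO₂, Measure.restrict_apply_univ,
    ← measure_add_measure_compl hO₂.measurableSet, ct_wper_sublevel_off hG hf hc, add_zero]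

omit [NormedSpace ℝ V] [FiniteDimensional ℝ V] [MeasurableSpace V] [BorelSpace V] in
/-- closed conditions on a compact set. -/
theorem ct_isCompact_pre {f : V → ℝ} {K : Set V} (hK : IsCompact K) (hf : ContinuousOn f K)
    {T : Set ℝ} (hT : IsClosed T) : IsCompact (K ∩ f ⁻¹' T) :=
  hK.of_isClosed_subset (hf.preimage_isClosed_of_isClosed hK.isClosed hT) inter_subset_left

/-- the calibration identity, with the cut-off `η` as a parameter. -/
theorem ct_cal_of_sublevel_aux (hG : CtGeo d M h t) {f : V → ℝ} (hf : SmoothAlong d M f)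
    {c₁ c c₂ : ℝ} {K : Set V} (hK : IsCompact K) (hKM : K ⊆ M)
    (hfK : ∀ x ∈ M, f x ≤ c₂ → x ∈ K)
    (hreg : ∀ x ∈ M, c₁ ≤ f x → f x ≤ c₂ → 0 < gradSq d M h f x)
    {η : ℝ → ℝ} (hηs : ContDiff ℝ ∞ η) (hη0 : ∀ s, 0 ≤ η s) (hη1 : ∀ s, η s ≤ 1) (hηc : η c = 1)
    {T : Set ℝ} (hT : IsClosed T) (hηT : ∀ s, s ∉ T → η s = 0) (hTI : T ⊆ Ioo c₁ c₂)
    (hcI : c ∈ Ioo c₁ c₂) :
    ∃ β : ℝ, CtCal d M h t {x | x ∈ M ∧ f x < c} β := by
  have hfc := if_smoothAlong_continuousOn hG.mfd hf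
  have ha : SmoothAlong d M fun x => η (f x) / gradN d M h f x :=
    ct_cal_coeff_smooth hG hf hηs hT hηT fun x hx hxT =>
      hreg x hx (le_of_lt (hTI hxT).1) (le_of_lt (hTI hxT).2)
  set a : V → ℝ := fun x => η (f x) / gradN d M h f x with hadef
  have ha0 : ∀ x, f x ∉ T → a x = 0 := fun x hx => by
    show η (f x) / gradN d M h f x = 0
    rw [hηT _ hx, zero_div]
  have hcs : CtCS M a := ⟨K, hK, hKM, fun x hx hxK => ha0 x fun hxT =>
    hxK (hfK x hx (le_of_lt (hTI hxT).2))⟩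
  have hle1 : ∀ x ∈ M, |a x| * gradN d M h f x ≤ 1 := by
    intro x _
    have hg0 : 0 ≤ gradN d M h f x := Real.sqrt_nonneg _
    rcases hg0.eq_or_lt with h0 | h0
    · rw [← h0, mul_zero]
      exact zero_le_one
    · show |η (f x) / gradN d M h f x| * gradN d M h f x ≤ 1
      rw [abs_div, abs_of_pos h0, div_mul_cancel₀ _ h0.ne', abs_of_nonneg (hη0 _)]
      exact hη1 _
  obtain ⟨O₂, hO₂, hO₂e⟩ := ct_exists_open_pre hfc (isOpen_Ioo (a := c₁) (b := c₂))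
  have hmem₂ : ∀ x, x ∈ M ∩ O₂ ↔ x ∈ M ∧ f x ∈ Ioo c₁ c₂ := fun x => by rw [hO₂e]; rfl
  have hG₂ := hG.inter hO₂
  have hBm := ct_measurableSet_lt hG hf c
  set B : Set V := {x | x ∈ M ∧ f x < c} with hB
  have hB₂m : MeasurableSet (B ∩ O₂) := hBm.inter hO₂.measurableSet
  have hB₂M : B ∩ O₂ ⊆ M ∩ O₂ := fun x hx => ⟨hx.1.1, hx.2⟩
  have hGpos : ∀ x ∈ M ∩ O₂, 0 < gradSq d M h f x := fun x hx =>
    hreg x hx.1 (le_of_lt ((hmem₂ x).1 hx).2.1) (le_of_lt ((hmem₂ x).1 hx).2.2)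
  have hdef : CtDef d (M ∩ O₂) h (B ∩ O₂) fun y => f y - c := by
    refine ⟨fun ψ U hψ => (hf ψ U (if_param_of_inter hO₂ hψ)).sub contDiffOn_const,
      fun x hx => ?_, ?_⟩
    · rw [ct_gradSq_sub_const, if_gradSq_inter' h f hO₂ hx.2]
      exact hGpos x hx
    · have : B ∩ O₂ = {x | x ∈ M ∩ O₂ ∧ f x - c < 0} := by
        ext x
        constructor
        · rintro ⟨⟨a1, a2⟩, a3⟩
          exact ⟨⟨a1, a3⟩, sub_neg.2 a2⟩
        · rintro ⟨⟨a1, a3⟩, a2⟩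
          exact ⟨⟨a1, sub_neg.1 a2⟩, a3⟩
      rw [← this, symmDiff_self]
      exact measure_empty
  have hlf₂ := CtDef.lf hG₂ hB₂m hB₂M hdef
  have hνlev := ct_wper_def_level hG₂ hB₂m hdef
  have hνM := ct_wper_compl_M hG₂ hB₂m
  have hZ : IsCompact (K ∩ f ⁻¹' {c}) := ct_isCompact_pre hK (hfc.mono hKM) isClosed_singleton
  have hZM : K ∩ f ⁻¹' {c} ⊆ M ∩ O₂ := fun x hx =>
    (hmem₂ x).2 ⟨hKM hx.1, by rw [show f x = c from hx.2]; exact hcI⟩
  have hνfin : wper d (M ∩ O₂) h t (B ∩ O₂) univ ≠ ⊤ := by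
    have hsub : (univ : Set V) ⊆ ((K ∩ f ⁻¹' {c}) ∪ {x | f x - c ≠ 0}) ∪ (M ∩ O₂)ᶜ := by
      intro x _
      by_cases hxM : x ∈ M ∩ O₂
      · left
        by_cases hxc : f x - c = 0
        · exact Or.inl ⟨hfK x hxM.1 (le_of_lt ((hmem₂ x).1 hxM).2.2), sub_eq_zero.1 hxc⟩
        · exact Or.inr hxc
      · exact Or.inr hxM
    refine ne_top_of_le_ne_top (hlf₂.fin _ hZ hZM) ?_
    calc wper d (M ∩ O₂) h t (B ∩ O₂) univ
        ≤ wper d (M ∩ O₂) h t (B ∩ O₂) (((K ∩ f ⁻¹' {c}) ∪ {x | f x - c ≠ 0}) ∪ (M ∩ O₂)ᶜ) :=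
          measure_mono hsub
      _ ≤ (wper d (M ∩ O₂) h t (B ∩ O₂) (K ∩ f ⁻¹' {c}) +
          wper d (M ∩ O₂) h t (B ∩ O₂) {x | f x - c ≠ 0}) +
          wper d (M ∩ O₂) h t (B ∩ O₂) (M ∩ O₂)ᶜ :=
          (measure_union_le _ _).trans (add_le_add_left (measure_union_le _ _) _)
      _ = wper d (M ∩ O₂) h t (B ∩ O₂) (K ∩ f ⁻¹' {c}) := by rw [hνlev, hνM, add_zero, add_zero]
  have huniv : wper d M h t B univ = wper d (M ∩ O₂) h t (B ∩ O₂) univ :=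
    ct_wper_sublevel_window hG hf hO₂ fun x hx hxc => ((hmem₂ x).2 ⟨hx, by rw [hxc]; exact hcI⟩).2
  have hlf : CtLF d M h t B := ⟨hBm, fun x hx => hx.1, fun K' _ _ =>
    ne_top_of_le_ne_top (by rw [huniv]; exact hνfin) (measure_mono (subset_univ _))⟩
  -- Gauss-Green in the window
  have hcs₂ : CtCS (M ∩ O₂) a := by
    refine ⟨K ∩ f ⁻¹' T, ct_isCompact_pre hK (hfc.mono hKM) hT, fun x hx =>
      (hmem₂ x).2 ⟨hKM hx.1, hTI hx.2⟩, fun x hx hxK => ha0 x fun hxT => hxK ⟨?_, hxT⟩⟩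
    exact hfK x hx.1 (le_of_lt (hTI hxT).2)
  have hgg := ct_gg_def hG₂ hB₂m hB₂M hdef (if_smoothAlong_inter ha hO₂)
    (if_smoothAlong_inter hf hO₂) hcs₂
  haveI : IsFiniteMeasure (wper d (M ∩ O₂) h t (B ∩ O₂)) := ⟨hνfin.lt_top⟩
  have hint1 : ∫ x, a x * gradIp d (M ∩ O₂) h f (fun y => f y - c) x /
      gradN d (M ∩ O₂) h (fun y => f y - c) x ∂(wper d (M ∩ O₂) h t (B ∩ O₂)) =
      (wper d (M ∩ O₂) h t (B ∩ O₂) univ).toReal := by
    have hae : ∀ᵐ x ∂(wper d (M ∩ O₂) h t (B ∩ O₂)), a x * gradIp d (M ∩ O₂) h f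
        (fun y => f y - c) x / gradN d (M ∩ O₂) h (fun y => f y - c) x = 1 := by
      have e1 : ∀ᵐ x ∂(wper d (M ∩ O₂) h t (B ∩ O₂)), x ∈ M ∩ O₂ := by
        rw [ae_iff]
        exact hνM
      have e2 : ∀ᵐ x ∂(wper d (M ∩ O₂) h t (B ∩ O₂)), f x - c = 0 := by
        rw [ae_iff]
        exact hνlev
      filter_upwards [e1, e2] with x hx hxc
      have hfx : f x = c := sub_eq_zero.1 hxc
      have hG0 := hGpos x hx
      have hs0 : 0 < Real.sqrt (gradSq d M h f x) := Real.sqrt_pos.2 hG0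
      have g1 : gradIp d (M ∩ O₂) h f (fun y => f y - c) x = gradSq d M h f x := by
        rw [ct_gradIp_sub_const, ← if_gradSq_eq_gradIp, if_gradSq_inter' h f hO₂ hx.2]
      have g2 : gradN d (M ∩ O₂) h (fun y => f y - c) x = Real.sqrt (gradSq d M h f x) := by
        unfold gradN
        rw [ct_gradSq_sub_const, if_gradSq_inter' h f hO₂ hx.2]
      rw [g1, g2]
      show η (f x) / Real.sqrt (gradSq d M h f x) * gradSq d M h f x /
        Real.sqrt (gradSq d M h f x) = 1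
      rw [hfx, hηc]
      have := Real.mul_self_sqrt hG0.le
      field_simp
      nlinarith [this]
    rw [integral_congr_ae hae]
    simp [Measure.real]
  have hint2 : ∫ x in B ∩ O₂, wdiv d (M ∩ O₂) h t a f x ∂(wvol d (M ∩ O₂) h t) =
      ∫ x in B, wdiv d M h t a f x ∂(wvol d M h t) := by
    rw [ct_wvol_inter hG hO₂, Measure.restrict_restrict hB₂m, inter_assoc, inter_self,
      setIntegral_congr_fun hB₂m fun x hx => ct_wdiv_inter' hO₂ a f hx.2]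
    refine (setIntegral_eq_of_subset_of_forall_diff_eq_zero hBm inter_subset_left
      fun x hx => ?_).symm
    have hxM : x ∈ M := hx.1.1
    have hxT : f x ∉ T := fun hxT => hx.2 ⟨hx.1, ((hmem₂ x).2 ⟨hxM, hTI hxT⟩).2⟩
    obtain ⟨O₅, hO₅, hO₅e⟩ := ct_exists_open_pre hfc hT.isOpen_compl
    have hxO₅ : x ∈ M ∩ O₅ := hO₅e ▸ (⟨hxM, hxT⟩ : x ∈ {x | x ∈ M ∧ f x ∈ Tᶜ})
    refine ct_wdiv_eq_zero hG hf hxM (hO₅.mem_nhds hxO₅.2) fun y hy => ha0 y ?_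
    have : y ∈ {x | x ∈ M ∧ f x ∈ Tᶜ} := hO₅e ▸ hy
    exact this.2
  obtain ⟨C, hC⟩ := hK.exists_bound_of_continuousOn ((ct_wdiv_continuousOn hG ha hf).mono hKM)
  have hBK : B ⊆ K := fun x hx => hfK x hx.1 (le_of_lt (lt_trans hx.2 hcI.2))
  refine ⟨C, hlf, ⟨K, hK, hKM, hBK⟩, a, f, ha, hf, hcs, hle1, ?_, fun x hx =>
    (le_abs_self _).trans (hC x (hBK hx))⟩
  rw [huniv, ← hint1, ← hgg, hint2]

/-- relatively compact regular sublevel sets are calibrated. -/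
theorem ct_cal_of_sublevel (hG : CtGeo d M h t) {f : V → ℝ} (hf : SmoothAlong d M f)
    {c₁ c c₂ : ℝ} (h1 : c₁ < c) (h2 : c < c₂) {K : Set V} (hK : IsCompact K) (hKM : K ⊆ M)
    (hfK : ∀ x ∈ M, f x ≤ c₂ → x ∈ K)
    (hreg : ∀ x ∈ M, c₁ ≤ f x → f x ≤ c₂ → 0 < gradSq d M h f x) :
    ∃ β : ℝ, CtCal d M h t {x | x ∈ M ∧ f x < c} β := by
  set r := min (c - c₁) (c₂ - c) with hr
  have hr0 : 0 < r := lt_min (sub_pos.2 h1) (sub_pos.2 h2)
  let b : ContDiffBump c := ⟨r / 4, r / 2, by positivity, by linarith⟩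
  refine ct_cal_of_sublevel_aux hG hf hK hKM hfK hreg (η := b) b.contDiff (fun _ => b.nonneg)
    (fun _ => b.le_one) (b.one_of_mem_closedBall (Metric.mem_closedBall_self (by positivity)))
    (T := Metric.closedBall c (r / 2)) Metric.isClosed_closedBall
    (fun s hs => b.zero_of_le_dist (le_of_lt (not_le.1 hs))) ?_ ⟨h1, h2⟩
  intro s hs
  rw [Metric.mem_closedBall, Real.dist_eq, abs_le] at hs
  have e1 : r ≤ c - c₁ := min_le_left _ _
  have e2 : r ≤ c₂ - c := min_le_right _ _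
  constructor <;> linarith [hs.1, hs.2]

/-- `|dF|²_G > 0` for `F = ‖· - u₀‖²` away from `u₀`. -/
theorem ct_gradSqC_normSq_pos {G : E d → Matrix (Fin d) (Fin d) ℝ} {F : E d → ℝ} {u u₀ : E d}
    (hG : (G u).PosDef) (hF : F =ᶠ[𝓝 u] fun w => ‖w - u₀‖ ^ 2) (hu : u ≠ u₀) :
    0 < gradSqC G F u := by
  have hp : ∀ i, pdiff F i u = ((2 : ℝ) • (u - u₀) : E d) i := by
    intro i
    unfold pdiff
    rw [hF.fderiv_eq, fderiv_comp_sub (f := fun w : E d => ‖w‖ ^ 2) u₀, fderiv_norm_sq_apply]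
    simp [EuclideanSpace.inner_single_right]
  have e : gradSqC G F u = if_bil (G u)⁻¹ ((2 : ℝ) • (u - u₀)) ((2 : ℝ) • (u - u₀)) := by
    rw [if_bil_apply]
    unfold gradSqC
    refine Finset.sum_congr rfl fun i _ => Finset.sum_congr rfl fun j _ => ?_
    rw [hp i, hp j, mul_assoc]
  rw [e]
  exact if_bil_pos hG.inv (smul_ne_zero two_ne_zero (sub_ne_zero.2 hu))

/-- small calibrated neighbourhoods exist, with locally uniform constants: every point `x₀` of `M`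
has a neighbourhood basis of calibrated open pieces. -/
theorem ct_cal_exists (hG : CtGeo d M h t) {x₀ : V} (hx₀ : x₀ ∈ M) {O : Set V} (hO : IsOpen O)
    (hx₀O : x₀ ∈ O) : ∃ (O' : Set V) (β : ℝ), IsOpen O' ∧ x₀ ∈ O' ∧ O' ⊆ O ∧
      CtCal d M h t (M ∩ O') β := by
  obtain ⟨ψ, U, hψ, u₀, hu₀, rfl⟩ := hG.mfd x₀ hx₀
  have hU' : IsOpen (U ∩ ψ ⁻¹' O) := (if_continuousOn hψ).isOpen_inter_preimage (if_open hψ) hO
  obtain ⟨ρ, hρ, hρU⟩ := Metric.nhds_basis_closedBall.mem_iff.1 (hU'.mem_nhds ⟨hu₀, hx₀O⟩)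
  set R := ρ / 2 with hR
  have hR0 : 0 < R := by positivity
  have hWU' : Metric.ball u₀ (2 * R) ⊆ U ∩ ψ ⁻¹' O := by
    have : 2 * R = ρ := by rw [hR]; ring
    rw [this]
    exact Metric.ball_subset_closedBall.trans hρU
  have hWU : Metric.ball u₀ (2 * R) ⊆ U := hWU'.trans inter_subset_left
  obtain ⟨O₁, hO₁, hO₁e⟩ := if_image_open hψ Metric.isOpen_ball hWU
  have hG₁ := hG.inter hO₁
  have hψW : IsParam M ψ (Metric.ball u₀ (2 * R)) := if_mono hψ Metric.isOpen_ball hWU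
  have hψ₁ : IsParam (M ∩ O₁) ψ (Metric.ball u₀ (2 * R)) :=
    if_param_inter hψW (hO₁e ▸ inter_subset_right)
  set f : V → ℝ := fun x => ‖Function.invFunOn ψ U x - u₀‖ ^ 2 with hfdef
  have hfψ : ∀ u ∈ U, f (ψ u) = ‖u - u₀‖ ^ 2 := fun u hu => by
    show ‖Function.invFunOn ψ U (ψ u) - u₀‖ ^ 2 = _
    rw [if_leftInv hψ hu]
  have hf : SmoothAlong d (M ∩ O₁) f := by
    refine if_smoothAlong_of_atlas fun x hx => ⟨ψ, _, hψ₁, hO₁e ▸ hx, ?_⟩
    have hs : ContDiff ℝ ∞ fun u : E d => ‖u - u₀‖ ^ 2 :=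
      (contDiff_id.sub contDiff_const).norm_sq ℝ
    exact hs.contDiffOn.congr fun u hu => hfψ u (hWU hu)
  have hKW : Metric.closedBall u₀ (3 * R / 2) ⊆ Metric.ball u₀ (2 * R) :=
    Metric.closedBall_subset_ball (by linarith)
  have hKc : IsCompact (ψ '' Metric.closedBall u₀ (3 * R / 2)) :=
    (isCompact_closedBall _ _).image_of_continuousOn ((if_continuousOn hψ).mono (hKW.trans hWU))
  have hKM : ψ '' Metric.closedBall u₀ (3 * R / 2) ⊆ M ∩ O₁ := hO₁e ▸ image_mono hKW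
  have hfK : ∀ x ∈ M ∩ O₁, f x ≤ 9 * R ^ 2 / 4 → x ∈ ψ '' Metric.closedBall u₀ (3 * R / 2) := by
    intro x hx hfx
    rw [← hO₁e] at hx
    obtain ⟨u, hu, rfl⟩ := hx
    rw [hfψ u (hWU hu)] at hfx
    refine ⟨u, ?_, rfl⟩
    rw [Metric.mem_closedBall, dist_eq_norm]
    nlinarith [norm_nonneg (u - u₀)]
  have hreg : ∀ x ∈ M ∩ O₁, R ^ 2 / 4 ≤ f x → f x ≤ 9 * R ^ 2 / 4 →
      0 < gradSq d (M ∩ O₁) h f x := by
    intro x hx hfx _
    rw [← hO₁e] at hx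
    obtain ⟨u, hu, rfl⟩ := hx
    rw [if_gradSq_eq hG₁.met hf hψ₁ hu]
    refine ct_gradSqC_normSq_pos ((if_metC hG₁.met hψ₁).posDef u hu) (u₀ := u₀) ?_ ?_
    · filter_upwards [Metric.isOpen_ball.mem_nhds hu] with w hw
      exact hfψ w (hWU hw)
    · rintro rfl
      rw [hfψ u (hWU hu), sub_self, norm_zero] at hfx
      nlinarith
  obtain ⟨β, hcal⟩ := ct_cal_of_sublevel hG₁ hf (c₁ := R ^ 2 / 4) (c := R ^ 2)
    (c₂ := 9 * R ^ 2 / 4) (by nlinarith) (by nlinarith) hKc hKM hfK hreg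
  have hBU : Metric.ball u₀ R ⊆ Metric.ball u₀ (2 * R) := Metric.ball_subset_ball (by linarith)
  obtain ⟨O₂, hO₂, hO₂e⟩ := if_image_open hψ Metric.isOpen_ball (hBU.trans hWU)
  have hset : {x | x ∈ M ∩ O₁ ∧ f x < R ^ 2} = M ∩ (O₂ ∩ O) := by
    ext x
    constructor
    · rintro ⟨hx, hfx⟩
      rw [← hO₁e] at hx
      obtain ⟨u, hu, rfl⟩ := hx
      rw [hfψ u (hWU hu)] at hfx
      have hub : u ∈ Metric.ball u₀ R := by
        rw [Metric.mem_ball, dist_eq_norm]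
        nlinarith [norm_nonneg (u - u₀)]
      have : ψ u ∈ M ∩ O₂ := hO₂e ▸ mem_image_of_mem ψ hub
      exact ⟨this.1, this.2, (hWU' hu).2⟩
    · rintro ⟨hxM, hx2, -⟩
      have : x ∈ ψ '' Metric.ball u₀ R := hO₂e ▸ (⟨hxM, hx2⟩ : x ∈ M ∩ O₂)
      obtain ⟨u, hu, rfl⟩ := this
      refine ⟨hO₁e ▸ mem_image_of_mem ψ (hBU hu), ?_⟩
      show f (ψ u) < R ^ 2
      rw [hfψ u (hWU (hBU hu))]
      rw [Metric.mem_ball, dist_eq_norm] at hu
      nlinarith [norm_nonneg (u - u₀)]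
  rw [hset] at hcal
  have hx₂ : ψ u₀ ∈ M ∩ O₂ := hO₂e ▸ mem_image_of_mem ψ (Metric.mem_ball_self hR0)
  exact ⟨O₂ ∩ O, β, hO₂.inter hO, ⟨hx₂.2, hx₀O⟩, inter_subset_right, hcal.of_inter hG hO₁⟩

end Claimed.Agent.R315
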