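import Claimed.Agent.R315.Ct.LamD

/-!
# Row 315, package Ct/LamI: ORDERING of minimisers (P Proposition B.5, first part)   (architect: helper184)

PROVED (helper184); black boxes: `ct_glue_level`, `ct_glue_lt`, `ct_iface_mono`, `ct_wper_lattice`, `ct_measurableSet_lt` (`Ct/Bv*`).

`D = A₁ \ A₂`, `D_τ = D ∩ {ρ < τ}`, `I(s) = ctIface d M h t ρ D a s = ∫_{D ∩ {a < ρ < s}} |dρ| dμ`.

PLAN OF PROOFS
* `ct_growth` (real analysis).  Suppose `I s₀ > 0`.  For a.e. `τ > s₀`: `deriv I τ ≥ c I τ ≥ c I s₀ > 0`, so `I` is differentiable at `τ` (`deriv ≠ 0`) and `deriv (log ∘ I) τ = deriv I τ / I τ ≥ c`.  `log ∘ I` is monotone on `[s₀, R]`: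
  `c (R - s₀) ≤ ∫_{s₀}^R deriv (log ∘ I) ≤ log (I R) - log (I s₀)` (`MonotoneOn.intervalIntegrable_deriv`, `MonotoneOn.intervalIntegral_deriv_mem_uIcc`, `intervalIntegral.integral_mono_ae`).
  So `I s₀ e^{c (R - s₀)} ≤ I R ≤ C e^{c R / 2}` for all `R`: contradiction for `R → ∞`.
* `ct_order_step`.  `G₁ = ctGlue ρ τ (A₁ ∩ A₂) A₁ = A₁ \ D_τ`, `G₂ = ctGlue ρ τ (A₁ ∪ A₂) A₂ = A₂ ∪ D_τ`; `symmDiff (A₁ ∩ A₂) A₁ = D = symmDiff (A₁ ∪ A₂) A₂`; `D ∩ {a < ρ < b} ⊆ Z ∩ {ρ ≤ b}` compact.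
  `ct_glue_level` twice (`CtLF.inter`, `CtLF.union`): for a.e. `τ ∈ (a,b)`: `G_i ∈ CtLF`, `wper G_i {ρ = τ} ≤ I'(τ)`.   `K = Z ∩ {ρ ≤ τ}` compact, `symmDiff A_i G_i = D_τ ⊆ K`.   `E = K ∩ {ρ < τ}` [measurable: `= K ∩ {x ∈ M | ρ x < τ}`, `ct_measurableSet_lt`], `K \ E = K ∩ {ρ = τ}`.
  `wper G₁ K = wper (A₁ ∩ A₂) E + wper G₁ (K ∩ {ρ = τ})` (`ct_glue_lt`), `wper A₁ K ≥ wper A₁ E`; the same for `G₂`, `A₁ ∪ A₂`, `A₂`.  `ct_wper_lattice` on `E`.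
  Pressure terms: `∫_{A₁ ∩ K} p₁ - ∫_{G₁ ∩ K} p₁ = ∫_{D_τ} p₁`, `∫_{G₂ ∩ K} p₂ - ∫_{A₂ ∩ K} p₂ = ∫_{D_τ} p₂`, `∫_{D_τ} (p₂ - p₁) ≥ δ μ(D_τ)` (`D_τ ⊆ Z`).
  Add `h₁.min K G₁` and `h₂.min K G₂`:  `δ μ(D_τ) ≤ 2 I'(τ)`.
* `ct_order_glob`.  (0) replace `A₂` by `A₂ ∪ ((A₁ \ A₂) \ Z)` (`CtLAM.congr`; `Z = ⋃_n Z ∩ {ρ ≤ n}` is measurable): now `D ⊆ Z`.  (1) `a = 0`, `L' = max L 1`: `I(τ) ≤ L' μ(D_τ)` (as `ct_iface_le`: `setLIntegral_mono`), so `(δ/(2L')) I ≤ I'` a.e. on `(0, ∞)` (`ct_order_step` on `(0, n)`, `ae_all_iff`).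
  Monotone: `ct_iface_mono`.  Growth: `I(R) ≤ L' μ(Z ∩ {ρ < R}) ≤ L' C e^{εR}`.  `ct_growth`: `I = 0` on `[0,∞)`, so `deriv I = 0` on `(0,∞)` and `μ(D_τ) = 0` for a.e. `τ > 0`, hence for all `τ` (monotone in `τ`); `D = ⋃_n D_n`.  `ct_wvol_eq_zero_iff`.
* `ct_order`: apply `ct_order_glob` on `M ∩ O` to `A₁ ∩ O`, `A₂ ∩ O` (`CtLAM.inter_open`, `CtGeo.inter`, `if_smoothAlong_inter`); `CtExh` on `M ∩ O`: `if_gradSq_inter'`, `ct_wvol_inter` (`Z ⊆ O`); `ct_vol_inter`.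
-/

set_option autoImplicit false
set_option linter.unusedVariables false
set_option linter.deprecated false
set_option linter.unusedSectionVars false
open scoped ContDiff ENNReal Topology
open MeasureTheory Claims.C0499 Set Filter

namespace Claimed.Agent.R315

variable {V : Type} [NormedAddCommGroup V] [NormedSpace ℝ V] [FiniteDimensional ℝ V]
  [MeasurableSpace V] [BorelSpace V]
variable {d : ℕ} {M : Set V} {h : Ten V} {t p : V → ℝ}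

/-- exhaustion of the closed set `Z ⊆ M`: `ρ` smooth, `Z ∩ {ρ ≤ R}` compact, `|dρ| ≤ L` on `Z`,
subexponential weighted volume growth of `Z`. -/
structure CtExh (d : ℕ) (M : Set V) (h : Ten V) (t : V → ℝ) (Z : Set V) (ρ : V → ℝ) (L : ℝ) :
    Prop where
  sub : Z ⊆ M
  smooth : SmoothAlong d M ρ
  cpt : ∀ R : ℝ, IsCompact (Z ∩ {x | ρ x ≤ R})
  grad : ∀ x ∈ Z, gradN d M h ρ x ≤ L
  growth : ∀ ε : ℝ, 0 < ε → ∃ C : ℝ, ∀ R : ℝ, 0 ≤ R →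
    wvol d M h t (Z ∩ {x | ρ x < R}) ≤ ENNReal.ofReal (C * Real.exp (ε * R))

/-- real analysis: `I' ≥ c I`, `I` monotone, subexponential growth ⇒ `I = 0`. -/
theorem ct_growth {I : ℝ → ℝ} {a c : ℝ} (hc : 0 < c) (hm : MonotoneOn I (Ici a))
    (h0 : ∀ s ∈ Ici a, 0 ≤ I s) (hode : ∀ᵐ τ : ℝ, a < τ → c * I τ ≤ deriv I τ)
    (hsub : ∀ ε : ℝ, 0 < ε → ∃ C : ℝ, ∀ R : ℝ, a ≤ R → I R ≤ C * Real.exp (ε * R)) :
    ∀ s ∈ Ici a, I s = 0 := by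
  intro s₀ hs₀
  by_contra hne
  have hpos : 0 < I s₀ := lt_of_le_of_ne (h0 s₀ hs₀) (Ne.symm hne)
  have hIpos : ∀ τ, s₀ ≤ τ → 0 < I τ := fun τ hτ =>
    lt_of_lt_of_le hpos (hm hs₀ (le_trans hs₀ hτ : a ≤ τ) hτ)
  obtain ⟨C, hC⟩ := hsub (c / 2) (by positivity)
  have hCpos : 0 < C := by
    have := hC s₀ hs₀
    by_contra hCn
    have h1 : C * Real.exp (c / 2 * s₀) ≤ 0 :=
      mul_nonpos_of_nonpos_of_nonneg (not_lt.1 hCn) (Real.exp_pos _).le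
    linarith
  have key : ∀ R, s₀ ≤ R → c * (R - s₀) ≤ Real.log (I R) - Real.log (I s₀) := by
    intro R hR
    have hmJ : MonotoneOn (fun τ => Real.log (I τ)) (uIcc s₀ R) := by
      rw [uIcc_of_le hR]
      intro x hx y hy hxy
      exact Real.log_le_log (hIpos x hx.1)
        (hm (le_trans hs₀ hx.1 : a ≤ x) (le_trans hs₀ hy.1 : a ≤ y) hxy)
    have hint := hmJ.intervalIntegrable_deriv
    have hle := hmJ.intervalIntegral_deriv_mem_uIcc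
    have hJ : Real.log (I s₀) ≤ Real.log (I R) :=
      Real.log_le_log hpos (hm hs₀ (le_trans hs₀ hR : a ≤ R) hR)
    rw [uIcc_of_le (sub_nonneg.2 hJ)] at hle
    have hae : ∀ᵐ τ ∂(volume.restrict (Ioc s₀ R)), c ≤ deriv (fun τ => Real.log (I τ)) τ := by
      rw [ae_restrict_iff' measurableSet_Ioc]
      filter_upwards [hode] with τ h1 hτ
      have hIτ := hIpos τ hτ.1.le
      have h2 := h1 (lt_of_le_of_lt hs₀ hτ.1)
      have hd : deriv I τ ≠ 0 := by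
        have : 0 < c * I τ := mul_pos hc hIτ
        linarith
      have hdiff : DifferentiableAt ℝ I τ := differentiableAt_of_deriv_ne_zero hd
      rw [(hdiff.hasDerivAt.log hIτ.ne').deriv, le_div_iff₀ hIτ]
      exact h2
    have h3 : (∫ _ in s₀..R, c) ≤ ∫ τ in s₀..R, deriv (fun τ => Real.log (I τ)) τ :=
      intervalIntegral.integral_mono_ae_restrict hR intervalIntegrable_const hint (by
        rw [← restrict_Ioc_eq_restrict_Icc]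
        exact hae)
    rw [intervalIntegral.integral_const, smul_eq_mul, mul_comm] at h3
    exact h3.trans hle.2
  set Q := c * s₀ + Real.log C - Real.log (I s₀) with hQ
  set R := max s₀ (2 * (Q + 1) / c) with hRdef
  have hR : s₀ ≤ R := le_max_left _ _
  have h1 := key R hR
  have h2 : Real.log (I R) ≤ Real.log C + c / 2 * R := by
    have := Real.log_le_log (hIpos R hR) (hC R (le_trans hs₀ hR))
    rwa [Real.log_mul hCpos.ne' (Real.exp_pos _).ne', Real.log_exp] at this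
  have h3 : 2 * (Q + 1) / c ≤ R := le_max_right _ _
  rw [div_le_iff₀ hc] at h3
  nlinarith

/-- perimeter of a glued set on a compact subset of `{ρ ≤ τ}`. -/
theorem ct_glue_per_le (hG : CtGeo d M h t) {ρ : V → ℝ} (hρ : SmoothAlong d M ρ) {X Y K : Set V}
    {τ ε : ℝ} (hX : CtLF d M h t X) (hY : CtLF d M h t Y) (hK : IsCompact K) (hKM : K ⊆ M)
    (hKτ : ∀ x ∈ K, ρ x ≤ τ) (hε0 : 0 ≤ ε)
    (hε : wper d M h t (ctGlue ρ τ X Y) {x | ρ x = τ} ≤ ENNReal.ofReal ε) :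
    (wper d M h t (ctGlue ρ τ X Y) K).toReal ≤
      (wper d M h t X (K ∩ {x | ρ x < τ})).toReal + ε := by
  have hEm : MeasurableSet (K ∩ {x | ρ x < τ}) := by
    have : K ∩ {x | ρ x < τ} = K ∩ {x | x ∈ M ∧ ρ x < τ} := by
      ext x
      constructor
      · rintro ⟨a, b⟩
        exact ⟨a, hKM a, b⟩
      · rintro ⟨a, -, b⟩
        exact ⟨a, b⟩
    rw [this]
    exact hK.measurableSet.inter (ct_measurableSet_lt hG hρ τ)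
  have hfX : wper d M h t X (K ∩ {x | ρ x < τ}) ≠ ⊤ :=
    ne_top_of_le_ne_top (hX.fin K hK hKM) (measure_mono inter_subset_left)
  have h1 : wper d M h t (ctGlue ρ τ X Y) K ≤
      wper d M h t X (K ∩ {x | ρ x < τ}) + ENNReal.ofReal ε := by
    rw [← measure_inter_add_diff K hEm, inter_eq_right.2 (inter_subset_left : K ∩ _ ⊆ K),
      ct_glue_lt hG hρ hX hY]
    gcongr
    refine (measure_mono ?_).trans hε
    rintro x ⟨hx, hx'⟩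
    exact le_antisymm (hKτ x hx) (not_lt.1 fun hlt => hx' ⟨hx, hlt⟩)
  have h2 := ENNReal.toReal_mono (ENNReal.add_ne_top.2 ⟨hfX, ENNReal.ofReal_ne_top⟩) h1
  rwa [ENNReal.toReal_add hfX ENNReal.ofReal_ne_top, ENNReal.toReal_ofReal hε0] at h2

/-- the differential inequality at one good level. -/
theorem ct_order_step_aux (hG : CtGeo d M h t) {p₁ p₂ : V → ℝ} (hp₁ : SmoothAlong d M p₁)
    (hp₂ : SmoothAlong d M p₂) {A₁ A₂ Z : Set V} {ρ : V → ℝ} {L δ : ℝ}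
    (h₁ : CtLAM d M h t p₁ A₁) (h₂ : CtLAM d M h t p₂ A₂) (hZ : CtExh d M h t Z ρ L)
    (hconf : A₁ \ A₂ ⊆ Z) (hpp : ∀ x ∈ Z, p₁ x + δ ≤ p₂ x) {τ ε : ℝ} (hε0 : 0 ≤ ε)
    (hlf₁ : CtLF d M h t (ctGlue ρ τ (A₁ ∩ A₂) A₁))
    (hε₁ : wper d M h t (ctGlue ρ τ (A₁ ∩ A₂) A₁) {x | ρ x = τ} ≤ ENNReal.ofReal ε)
    (hlf₂ : CtLF d M h t (ctGlue ρ τ (A₁ ∪ A₂) A₂))
    (hε₂ : wper d M h t (ctGlue ρ τ (A₁ ∪ A₂) A₂) {x | ρ x = τ} ≤ ENNReal.ofReal ε) :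
    δ * (wvol d M h t ((A₁ \ A₂) ∩ {x | ρ x < τ})).toReal ≤ 2 * ε := by
  have hρ := hZ.smooth
  have hK := hZ.cpt τ
  have hKM : Z ∩ {x | ρ x ≤ τ} ⊆ M := inter_subset_left.trans hZ.sub
  set K := Z ∩ {x | ρ x ≤ τ} with hKdef
  have hKτ : ∀ x ∈ K, ρ x ≤ τ := fun x hx => hx.2
  have hI := h₁.lf.inter hG h₂.lf
  have hU := h₁.lf.union hG h₂.lf
  have hDK : (A₁ \ A₂) ∩ {x | ρ x < τ} ⊆ K := fun x hx => ⟨hconf hx.1, (le_of_lt hx.2 : ρ x ≤ τ)⟩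
  have hDm : MeasurableSet ((A₁ \ A₂) ∩ {x | ρ x < τ}) := by
    have : (A₁ \ A₂) ∩ {x | ρ x < τ} = (A₁ \ A₂) ∩ {x | x ∈ M ∧ ρ x < τ} := by
      ext x
      constructor
      · rintro ⟨a, b⟩
        exact ⟨a, h₁.lf.sub a.1, b⟩
      · rintro ⟨a, -, b⟩
        exact ⟨a, b⟩
    rw [this]
    exact (h₁.lf.meas.diff h₂.lf.meas).inter (ct_measurableSet_lt hG hρ τ)
  -- minimality
  have hsd₁ : symmDiff A₁ (ctGlue ρ τ (A₁ ∩ A₂) A₁) ⊆ K := by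
    intro x hx
    obtain ⟨e1, e2⟩ := ct_glue_symmDiff ρ τ A₁ (A₁ ∩ A₂) hx
    refine hDK ⟨?_, e2⟩
    rcases e1 with ⟨a, b⟩ | ⟨a, b⟩
    · exact ⟨a, fun ha => b ⟨a, ha⟩⟩
    · exact absurd a.1 b
  have hsd₂ : symmDiff A₂ (ctGlue ρ τ (A₁ ∪ A₂) A₂) ⊆ K := by
    intro x hx
    obtain ⟨e1, e2⟩ := ct_glue_symmDiff ρ τ A₂ (A₁ ∪ A₂) hx
    refine hDK ⟨?_, e2⟩
    rcases e1 with ⟨a, b⟩ | ⟨a | a, b⟩
    · exact absurd (Or.inr a) b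
    · exact ⟨a, b⟩
    · exact absurd a b
  have m₁ := h₁.min K _ hK hKM hlf₁ hsd₁
  have m₂ := h₂.min K _ hK hKM hlf₂ hsd₂
  -- perimeters
  have g₁ := ct_glue_per_le hG hρ hI h₁.lf hK hKM hKτ hε0 hε₁
  have g₂ := ct_glue_per_le hG hρ hU h₂.lf hK hKM hKτ hε0 hε₂
  have fin : ∀ X : Set V, CtLF d M h t X → wper d M h t X (K ∩ {x | ρ x < τ}) ≠ ⊤ := fun X hX =>
    ne_top_of_le_ne_top (hX.fin K hK hKM) (measure_mono inter_subset_left)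
  have hlat := Measure.le_iff'.1 (ct_wper_lattice hG h₁.lf.meas h₂.lf.meas) (K ∩ {x | ρ x < τ})
  simp only [Measure.coe_add, Pi.add_apply] at hlat
  have hlat' : (wper d M h t (A₁ ∩ A₂) (K ∩ {x | ρ x < τ})).toReal +
      (wper d M h t (A₁ ∪ A₂) (K ∩ {x | ρ x < τ})).toReal ≤
      (wper d M h t A₁ (K ∩ {x | ρ x < τ})).toReal +
      (wper d M h t A₂ (K ∩ {x | ρ x < τ})).toReal := by
    rw [← ENNReal.toReal_add (fin _ hI) (fin _ hU), ← ENNReal.toReal_add (fin _ h₁.lf) (fin _ h₂.lf)]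
    exact ENNReal.toReal_mono (ENNReal.add_ne_top.2 ⟨fin _ h₁.lf, fin _ h₂.lf⟩) hlat
  have mono : ∀ X : Set V, CtLF d M h t X → (wper d M h t X (K ∩ {x | ρ x < τ})).toReal ≤
      (wper d M h t X K).toReal := fun X hX =>
    ENNReal.toReal_mono (hX.fin K hK hKM) (measure_mono inter_subset_left)
  have mo₁ := mono _ h₁.lf
  have mo₂ := mono _ h₂.lf
  -- integrals
  have hpi₁ := ct_integrableOn hG (if_smoothAlong_continuousOn hG.mfd hp₁) hK hKM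
  have hpi₂ := ct_integrableOn hG (if_smoothAlong_continuousOn hG.mfd hp₂) hK hKM
  have e₁ : A₁ ∩ K = (ctGlue ρ τ (A₁ ∩ A₂) A₁ ∩ K) ∪ ((A₁ \ A₂) ∩ {x | ρ x < τ}) := by
    ext x
    simp only [ctGlue, mem_inter_iff, mem_union, mem_diff, mem_setOf_eq]
    constructor
    · rintro ⟨a, k⟩
      by_cases hl : ρ x < τ
      · by_cases ha : x ∈ A₂
        · exact Or.inl ⟨Or.inl ⟨⟨a, ha⟩, hl⟩, k⟩
        · exact Or.inr ⟨⟨a, ha⟩, hl⟩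
      · exact Or.inl ⟨Or.inr ⟨a, hl⟩, k⟩
    · rintro (⟨⟨⟨a, -⟩, -⟩ | ⟨a, -⟩, k⟩ | ⟨⟨a, a'⟩, hl⟩)
      · exact ⟨a, k⟩
      · exact ⟨a, k⟩
      · exact ⟨a, hDK ⟨⟨a, a'⟩, hl⟩⟩
  have d₁ : Disjoint (ctGlue ρ τ (A₁ ∩ A₂) A₁ ∩ K) ((A₁ \ A₂) ∩ {x | ρ x < τ}) := by
    rw [Set.disjoint_left]
    rintro x ⟨⟨⟨-, a⟩, -⟩ | ⟨-, a⟩, -⟩ ⟨⟨-, b⟩, hl⟩
    · exact b a
    · exact a hl
  have i₁ : ∫ x in A₁ ∩ K, p₁ x ∂(wvol d M h t) =
      (∫ x in ctGlue ρ τ (A₁ ∩ A₂) A₁ ∩ K, p₁ x ∂(wvol d M h t)) +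
      ∫ x in (A₁ \ A₂) ∩ {x | ρ x < τ}, p₁ x ∂(wvol d M h t) := by
    rw [e₁, setIntegral_union d₁ hDm (hpi₁.mono_set inter_subset_right) (hpi₁.mono_set hDK)]
  have e₂ : ctGlue ρ τ (A₁ ∪ A₂) A₂ ∩ K = (A₂ ∩ K) ∪ ((A₁ \ A₂) ∩ {x | ρ x < τ}) := by
    ext x
    simp only [ctGlue, mem_inter_iff, mem_union, mem_diff, mem_setOf_eq]
    constructor
    · rintro ⟨⟨a | a, hl⟩ | ⟨a, hl⟩, k⟩
      · by_cases ha : x ∈ A₂
        · exact Or.inl ⟨ha, k⟩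
        · exact Or.inr ⟨⟨a, ha⟩, hl⟩
      · exact Or.inl ⟨a, k⟩
      · exact Or.inl ⟨a, k⟩
    · rintro (⟨a, k⟩ | ⟨⟨a, a'⟩, hl⟩)
      · by_cases hl : ρ x < τ
        · exact ⟨Or.inl ⟨Or.inr a, hl⟩, k⟩
        · exact ⟨Or.inr ⟨a, hl⟩, k⟩
      · exact ⟨Or.inl ⟨Or.inl a, hl⟩, hDK ⟨⟨a, a'⟩, hl⟩⟩
  have d₂ : Disjoint (A₂ ∩ K) ((A₁ \ A₂) ∩ {x | ρ x < τ}) := by
    rw [Set.disjoint_left]
    rintro x ⟨a, -⟩ ⟨⟨-, b⟩, -⟩
    exact b a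
  have i₂ : ∫ x in ctGlue ρ τ (A₁ ∪ A₂) A₂ ∩ K, p₂ x ∂(wvol d M h t) =
      (∫ x in A₂ ∩ K, p₂ x ∂(wvol d M h t)) +
      ∫ x in (A₁ \ A₂) ∩ {x | ρ x < τ}, p₂ x ∂(wvol d M h t) := by
    rw [e₂, setIntegral_union d₂ hDm (hpi₂.mono_set inter_subset_right) (hpi₂.mono_set hDK)]
  have hfinD : wvol d M h t ((A₁ \ A₂) ∩ {x | ρ x < τ}) ≠ ⊤ :=
    ne_top_of_le_ne_top (ct_wvol_compact hG hK hKM) (measure_mono hDK)
  have i₃ : δ * (wvol d M h t ((A₁ \ A₂) ∩ {x | ρ x < τ})).toReal ≤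
      (∫ x in (A₁ \ A₂) ∩ {x | ρ x < τ}, p₂ x ∂(wvol d M h t)) -
      ∫ x in (A₁ \ A₂) ∩ {x | ρ x < τ}, p₁ x ∂(wvol d M h t) := by
    rw [← integral_sub (hpi₂.mono_set hDK) (hpi₁.mono_set hDK)]
    have hci : IntegrableOn (fun _ : V => δ) ((A₁ \ A₂) ∩ {x | ρ x < τ}) (wvol d M h t) :=
      integrableOn_const hfinD
    have := setIntegral_mono_on hci ((hpi₂.mono_set hDK).sub (hpi₁.mono_set hDK)) hDm
      fun x hx => by
        have := hpp x (hconf hx.1)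
        show δ ≤ p₂ x - p₁ x
        linarith
    simpa [Measure.real, mul_comm] using this
  unfold ctEn at m₁ m₂
  rw [i₁] at m₁
  rw [i₂] at m₂
  linarith

theorem CtExh.slab {Z D : Set V} {ρ : V → ℝ} {L : ℝ} (hD : D ⊆ Z) (a b : ℝ) :
    D ∩ {x | a < ρ x ∧ ρ x < b} ⊆ Z ∩ {x | ρ x ≤ b} :=
  fun x hx => ⟨hD hx.1, (le_of_lt hx.2.2 : ρ x ≤ b)⟩

/-- the differential inequality. -/
theorem ct_order_step (hG : CtGeo d M h t) {p₁ p₂ : V → ℝ} (hp₁ : SmoothAlong d M p₁)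
    (hp₂ : SmoothAlong d M p₂) {A₁ A₂ Z : Set V} {ρ : V → ℝ} {L δ : ℝ}
    (h₁ : CtLAM d M h t p₁ A₁) (h₂ : CtLAM d M h t p₂ A₂) (hZ : CtExh d M h t Z ρ L)
    (hconf : A₁ \ A₂ ⊆ Z) (hδ : 0 < δ) (hpp : ∀ x ∈ Z, p₁ x + δ ≤ p₂ x) {a b : ℝ} (hab : a < b) :
    ∀ᵐ τ : ℝ, τ ∈ Ioo a b → δ * (wvol d M h t ((A₁ \ A₂) ∩ {x | ρ x < τ})).toReal ≤
      2 * deriv (ctIface d M h t ρ (A₁ \ A₂) a) τ := by
  have hρ := hZ.smooth
  have hK₀ := hZ.cpt b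
  have hK₀M : Z ∩ {x | ρ x ≤ b} ⊆ M := inter_subset_left.trans hZ.sub
  have e₁ : symmDiff (A₁ ∩ A₂) A₁ = A₁ \ A₂ := by
    ext x
    constructor
    · rintro (⟨a, b⟩ | ⟨a, b⟩)
      · exact absurd a.1 b
      · exact ⟨a, fun ha => b ⟨a, ha⟩⟩
    · rintro ⟨a, b⟩
      exact Or.inr ⟨a, fun ha => b ha.2⟩
  have e₂ : symmDiff (A₁ ∪ A₂) A₂ = A₁ \ A₂ := by
    ext x
    constructor
    · rintro (⟨a | a, b⟩ | ⟨a, b⟩)
      · exact ⟨a, b⟩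
      · exact absurd a b
      · exact absurd (Or.inr a) b
    · rintro ⟨a, b⟩
      exact Or.inl ⟨Or.inl a, b⟩
  have hD := CtExh.slab (ρ := ρ) (L := L) hconf a b
  have gl₁ := ct_glue_level hG hρ (h₁.lf.inter hG h₂.lf) h₁.lf hK₀ hK₀M (a := a) (b := b)
    (by rw [e₁]; exact hD)
  have gl₂ := ct_glue_level hG hρ (h₁.lf.union hG h₂.lf) h₂.lf hK₀ hK₀M (a := a) (b := b)
    (by rw [e₂]; exact hD)
  rw [e₁] at gl₁
  rw [e₂] at gl₂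
  have hmono := ct_iface_mono hG hρ hK₀ hK₀M hD
  filter_upwards [gl₁, gl₂] with τ g1 g2 hτ
  have hd0 : 0 ≤ deriv (ctIface d M h t ρ (A₁ \ A₂) a) τ := by
    rw [← derivWithin_of_mem_nhds (Iic_mem_nhds hτ.2)]
    exact hmono.derivWithin_nonneg
  exact ct_order_step_aux hG hp₁ hp₂ h₁ h₂ hZ hconf hpp hd0 (g1 hτ).1 (g1 hτ).2 (g2 hτ).1 (g2 hτ).2

/-- the interface integral is controlled by the volume of the sublevel part. -/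
theorem ct_iface_le_vol (hG : CtGeo d M h t) {D Z : Set V} {ρ : V → ℝ} {L : ℝ}
    (hZ : CtExh d M h t Z ρ L) (hDm : MeasurableSet D) (hDZ : D ⊆ Z) (a τ : ℝ) :
    ctIface d M h t ρ D a τ ≤ max L 1 * (wvol d M h t (D ∩ {x | ρ x < τ})).toReal := by
  have hρ := hZ.smooth
  have hK₀ := hZ.cpt τ
  have hK₀M : Z ∩ {x | ρ x ≤ τ} ⊆ M := inter_subset_left.trans hZ.sub
  have hset : D ∩ {x | ρ x < τ} = D ∩ {x | x ∈ M ∧ ρ x < τ} := by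
    ext x
    constructor
    · rintro ⟨a, b⟩
      exact ⟨a, hZ.sub (hDZ a), b⟩
    · rintro ⟨a, -, b⟩
      exact ⟨a, b⟩
  have hD'm : MeasurableSet (D ∩ {x | ρ x < τ}) := by
    rw [hset]
    exact hDm.inter (ct_measurableSet_lt hG hρ τ)
  have e1 : ctIface d M h t ρ D a τ = ctIface d M h t ρ (D ∩ {x | ρ x < τ}) a τ := by
    unfold ctIface
    congr 3
    ext x
    constructor
    · rintro ⟨a, b, c⟩
      exact ⟨⟨a, c⟩, b, c⟩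
    · rintro ⟨⟨a, -⟩, b, c⟩
      exact ⟨a, b, c⟩
  rw [e1]
  refine (ct_iface_le hG hρ hK₀ hK₀M hD'm (C := max L 1) (fun x hx =>
    ⟨hDZ hx.1.1, (le_of_lt hx.1.2 : ρ x ≤ τ)⟩) fun x hx =>
    (hZ.grad x hx.1).trans (le_max_left _ _)).trans ?_
  refine mul_le_mul_of_nonneg_left ?_ (le_trans zero_le_one (le_max_right _ _))
  refine ENNReal.toReal_mono ?_ (measure_mono inter_subset_left)
  exact ne_top_of_le_ne_top (ct_wvol_compact hG hK₀ hK₀M)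
    (measure_mono fun x hx => ⟨hDZ hx.1, (le_of_lt hx.2 : ρ x ≤ τ)⟩)

/-- ordering, global form, `A₁ \ A₂ ⊆ Z`. -/
theorem ct_order_glob_aux (hG : CtGeo d M h t) {p₁ p₂ : V → ℝ} (hp₁ : SmoothAlong d M p₁)
    (hp₂ : SmoothAlong d M p₂) {A₁ A₂ Z : Set V} {ρ : V → ℝ} {L δ : ℝ}
    (h₁ : CtLAM d M h t p₁ A₁) (h₂ : CtLAM d M h t p₂ A₂) (hZ : CtExh d M h t Z ρ L)
    (hconf : A₁ \ A₂ ⊆ Z) (hδ : 0 < δ) (hpp : ∀ x ∈ Z, p₁ x + δ ≤ p₂ x) :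
    vol d M h (A₁ \ A₂) = 0 := by
  have hρ := hZ.smooth
  have hDm : MeasurableSet (A₁ \ A₂) := h₁.lf.meas.diff h₂.lf.meas
  have hL' : 0 < max L 1 := lt_of_lt_of_le zero_lt_one (le_max_right _ _)
  set I := ctIface d M h t ρ (A₁ \ A₂) 0 with hI
  have hfinD : ∀ τ, wvol d M h t ((A₁ \ A₂) ∩ {x | ρ x < τ}) ≠ ⊤ := fun τ =>
    ne_top_of_le_ne_top (ct_wvol_compact hG (hZ.cpt τ) (inter_subset_left.trans hZ.sub))
      (measure_mono fun x hx => ⟨hconf hx.1, (le_of_lt hx.2 : ρ x ≤ τ)⟩)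
  have hstep : ∀ᵐ τ : ℝ, 0 < τ → δ * (wvol d M h t ((A₁ \ A₂) ∩ {x | ρ x < τ})).toReal ≤
      2 * deriv I τ := by
    have hall := ae_all_iff.2 fun n : ℕ => ct_order_step hG hp₁ hp₂ h₁ h₂ hZ hconf hδ hpp
      (a := 0) (b := (n : ℝ) + 1) (by positivity)
    filter_upwards [hall] with τ h1 hτ
    obtain ⟨n, hn⟩ := exists_nat_gt τ
    exact h1 n ⟨hτ, by linarith⟩
  have hm : MonotoneOn I (Ici 0) := by
    intro x _ y _ hxy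
    exact ct_iface_mono hG hρ (hZ.cpt y) (inter_subset_left.trans hZ.sub)
      (CtExh.slab (ρ := ρ) (L := L) hconf 0 y) (show x ≤ y from hxy) (show y ≤ y from le_rfl) hxy
  have hode : ∀ᵐ τ : ℝ, 0 < τ → δ / (2 * max L 1) * I τ ≤ deriv I τ := by
    filter_upwards [hstep] with τ h1 hτ
    have h2 := ct_iface_le_vol hG hZ hDm hconf 0 τ
    have h3 := h1 hτ
    rw [div_mul_eq_mul_div, div_le_iff₀ (by positivity)]
    nlinarith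
  have hsub : ∀ ε : ℝ, 0 < ε → ∃ C : ℝ, ∀ R : ℝ, 0 ≤ R → I R ≤ C * Real.exp (ε * R) := by
    intro ε hε
    obtain ⟨C₀, hC₀⟩ := hZ.growth ε hε
    refine ⟨max L 1 * max C₀ 0, fun R hR => ?_⟩
    refine (ct_iface_le_vol hG hZ hDm hconf 0 R).trans ?_
    rw [mul_assoc]
    refine mul_le_mul_of_nonneg_left ?_ hL'.le
    refine ENNReal.toReal_le_of_le_ofReal (mul_nonneg (le_max_right _ _) (Real.exp_pos _).le) ?_
    refine (measure_mono (inter_subset_inter_left _ hconf)).trans ((hC₀ R hR).trans ?_)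
    exact ENNReal.ofReal_le_ofReal
      (mul_le_mul_of_nonneg_right (le_max_left _ _) (Real.exp_pos _).le)
  have hzero := ct_growth (by positivity) hm (fun s _ => ENNReal.toReal_nonneg) hode hsub
  have hnull : ∀ᵐ τ : ℝ, 0 < τ → wvol d M h t ((A₁ \ A₂) ∩ {x | ρ x < τ}) = 0 := by
    filter_upwards [hstep] with τ h1 hτ
    have hd : deriv I τ = 0 := by
      have : I =ᶠ[𝓝 τ] fun _ => (0 : ℝ) := by
        filter_upwards [Ioi_mem_nhds hτ] with s hs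
        exact hzero s (le_of_lt hs : (0 : ℝ) ≤ s)
      rw [this.deriv_eq, deriv_const]
    have h2 := h1 hτ
    rw [hd, mul_zero] at h2
    have h3 : (wvol d M h t ((A₁ \ A₂) ∩ {x | ρ x < τ})).toReal = 0 :=
      le_antisymm (by nlinarith) ENNReal.toReal_nonneg
    exact ((ENNReal.toReal_eq_zero_iff _).1 h3).resolve_right (hfinD τ)
  rw [← ct_wvol_eq_zero_iff hG]
  have hn : ∀ n : ℕ, wvol d M h t ((A₁ \ A₂) ∩ {x | ρ x < (n : ℝ) + 1}) = 0 := by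
    intro n
    obtain ⟨τ, hτ, hP, -⟩ := ct_exists_good_level (I := fun _ => (0 : ℝ)) (a := (n : ℝ) + 1)
      (b := (n : ℝ) + 2) (by linarith) monotoneOn_const
      (hnull.mono fun τ h1 (hτ : τ ∈ Ioo ((n : ℝ) + 1) ((n : ℝ) + 2)) =>
        h1 (lt_trans (by positivity) hτ.1))
    refine measure_mono_null (fun x hx => ?_) hP
    exact ⟨hx.1, (lt_trans hx.2 hτ.1 : ρ x < τ)⟩
  refine measure_mono_null (fun x hx => ?_) (measure_iUnion_null hn)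
  obtain ⟨n, hn'⟩ := exists_nat_gt (ρ x)
  exact mem_iUnion.2 ⟨n, hx, (by linarith : ρ x < (n : ℝ) + 1)⟩

theorem CtExh.measurableSet {Z : Set V} {ρ : V → ℝ} {L : ℝ} (hZ : CtExh d M h t Z ρ L) :
    MeasurableSet Z := by
  have : Z = ⋃ n : ℕ, Z ∩ {x | ρ x ≤ (n : ℝ)} := by
    ext x
    constructor
    · intro hx
      obtain ⟨n, hn⟩ := exists_nat_ge (ρ x)
      exact mem_iUnion.2 ⟨n, hx, hn⟩
    · intro hx
      obtain ⟨n, hn⟩ := mem_iUnion.1 hx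
      exact hn.1
  rw [this]
  exact MeasurableSet.iUnion fun n => (hZ.cpt n).measurableSet

/-- ordering, global form. -/
theorem ct_order_glob (hG : CtGeo d M h t) {p₁ p₂ : V → ℝ} (hp₁ : SmoothAlong d M p₁)
    (hp₂ : SmoothAlong d M p₂) {A₁ A₂ Z : Set V} {ρ : V → ℝ} {L δ : ℝ}
    (h₁ : CtLAM d M h t p₁ A₁) (h₂ : CtLAM d M h t p₂ A₂) (hZ : CtExh d M h t Z ρ L)
    (hconf : vol d M h ((A₁ \ A₂) \ Z) = 0) (hδ : 0 < δ) (hpp : ∀ x ∈ Z, p₁ x + δ ≤ p₂ x) :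
    vol d M h (A₁ \ A₂) = 0 := by
  have hm : MeasurableSet (A₂ ∪ ((A₁ \ A₂) \ Z)) :=
    h₂.lf.meas.union ((h₁.lf.meas.diff h₂.lf.meas).diff hZ.measurableSet)
  have hsub : A₂ ∪ ((A₁ \ A₂) \ Z) ⊆ M := by
    rintro x (hx | hx)
    · exact h₂.lf.sub hx
    · exact h₁.lf.sub hx.1.1
  have hnull : vol d M h (symmDiff A₂ (A₂ ∪ ((A₁ \ A₂) \ Z))) = 0 := by
    refine measure_mono_null ?_ hconf
    rintro x (⟨a, b⟩ | ⟨a | a, b⟩)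
    · exact absurd (Or.inl a) b
    · exact absurd a b
    · exact a
  have h₂' := h₂.congr hG hm hsub hnull
  have h0 := ct_order_glob_aux hG hp₁ hp₂ h₁ h₂' hZ (fun x hx => by
    by_contra hxZ
    exact hx.2 (Or.inr ⟨⟨hx.1, fun ha => hx.2 (Or.inl ha)⟩, hxZ⟩)) hδ hpp
  refine measure_mono_null (t := (A₁ \ (A₂ ∪ ((A₁ \ A₂) \ Z))) ∪ ((A₁ \ A₂) \ Z)) ?_
    (measure_union_null h0 hconf)
  intro x hx
  by_cases hxZ : x ∈ Z
  · refine Or.inl ⟨hx.1, ?_⟩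
    rintro (ha | ha)
    · exact hx.2 ha
    · exact ha.2 hxZ
  · exact Or.inr ⟨hx, hxZ⟩

/-- **ordering** (P Proposition B.5, first part), localised. -/
theorem ct_order (hG : CtGeo d M h t) {p₁ p₂ : V → ℝ} (hp₁ : SmoothAlong d M p₁)
    (hp₂ : SmoothAlong d M p₂) {A₁ A₂ O Z : Set V} {ρ : V → ℝ} {L δ : ℝ}
    (h₁ : CtLAM d M h t p₁ A₁) (h₂ : CtLAM d M h t p₂ A₂) (hO : IsOpen O) (hZO : Z ⊆ O)
    (hZ : CtExh d M h t Z ρ L) (hconf : vol d M h (((A₁ \ A₂) ∩ O) \ Z) = 0) (hδ : 0 < δ)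
    (hpp : ∀ x ∈ Z, p₁ x + δ ≤ p₂ x) : vol d M h ((A₁ \ A₂) ∩ O) = 0 := by
  have hZ' : CtExh d (M ∩ O) h t Z ρ L := by
    refine ⟨subset_inter hZ.sub hZO, if_smoothAlong_inter hZ.smooth hO, hZ.cpt, fun x hx => ?_,
      fun ε hε => ?_⟩
    · unfold gradN
      rw [if_gradSq_inter' h ρ hO (hZO hx)]
      exact hZ.grad x hx
    · obtain ⟨C, hC⟩ := hZ.growth ε hε
      refine ⟨C, fun R hR => ?_⟩
      rw [ct_wvol_inter hG hO]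
      exact (Measure.restrict_apply_le _ _).trans (hC R hR)
  have e : (A₁ ∩ O) \ (A₂ ∩ O) = (A₁ \ A₂) ∩ O := by
    ext x
    constructor
    · rintro ⟨⟨a, o⟩, b⟩
      exact ⟨⟨a, fun ha => b ⟨ha, o⟩⟩, o⟩
    · rintro ⟨⟨a, b⟩, o⟩
      exact ⟨⟨a, o⟩, fun ha => b ha.1⟩
  have h0 := ct_order_glob (hG.inter hO) (if_smoothAlong_inter hp₁ hO) (if_smoothAlong_inter hp₂ hO)
    (h₁.inter_open hG hO) (h₂.inter_open hG hO) hZ' (by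
      rw [e, ct_vol_inter hG hO]
      exact le_antisymm ((Measure.restrict_apply_le _ _).trans hconf.le) zero_le) hδ hpp
  rw [e, ct_vol_inter hG hO, Measure.restrict_apply
    ((h₁.lf.meas.diff h₂.lf.meas).inter hO.measurableSet), inter_assoc, inter_self] at h0
  exact h0

end Claimed.Agent.R315
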