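import Claimed.Agent.R315.Ct.Bv

/-!
# Row 315, package Ct/LamJ: GENERIC UNIQUENESS (P Proposition B.5, second part)   (architect: helper184)

PLAN OF PROOFS
* `ct_vol_sigmaFinite`: `M = ⋃_k K_k` with `K_k` compact (`if_exists_atlas`; each open `U k ⊆ E d` is a countable union of compact sets, e.g. closed balls with rational centre/radius, or `IsOpen` ⇒ `IsSigmaCompact`; images under `ψ k` are compact), `vol K_k < ⊤` (`if_vol_lt_top_of_isCompact`), `vol Mᶜ = 0` (`ct_vol_spec`).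
* `ct_generic`.  `ν = (vol d M h).toFinite` (Mathlib `Measure.toFinite`): finite, `vol ≪ ν` and `ν ≪ vol` (`absolutelyContinuous_toFinite`, `toFinite_absolutelyContinuous`).  For `c` with `𝒜 c ≠ ∅` put
  `s c = sup {ν.real (A ∪ A') | A, A' ∈ 𝒜 c}`, `i c = inf {ν.real (A ∩ A') | A, A' ∈ 𝒜 c}` (bounded by `ν univ`).  `i c ≤ s c`.  For `c < c'`: `A ∪ A' ⊆ B ∩ B'` up to a `ν`-null set for `A, A' ∈ 𝒜 c`, `B, B' ∈ 𝒜 c'` (`hord` four times), so `s c ≤ i c'`.
  If `i c = s c`: `ν (A ∪ A') ≤ s c = i c ≤ ν (A ∩ A')`, so `ν (symmDiff A A') = ν (A ∪ A') - ν (A ∩ A') = 0` (`measure_diff`, measurability `hm`), so `vol (symmDiff A A') = 0`.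
  Hence the exceptional set is contained in `T = {c | 𝒜 c ≠ ∅ ∧ i c < s c}`.  On `T` the map `i` is strictly increasing (`i c < s c ≤ i c'`) and the intervals `Ioo (i c) (s c)` are pairwise disjoint:
  `Set.PairwiseDisjoint.countable_of_Ioo` applied to `i '' T` with `y (i c) = s c` (or: choose a rational in each interval: an injection `T → ℚ`).
-/

set_option autoImplicit false
open scoped ContDiff ENNReal Topology
open MeasureTheory Claims.C0499 Set Filter

namespace Claimed.Agent.R315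

variable {V : Type} [NormedAddCommGroup V] [NormedSpace ℝ V] [FiniteDimensional ℝ V]
  [MeasurableSpace V] [BorelSpace V]
variable {d : ℕ} {M : Set V} {h : Ten V} {t p : V → ℝ}

/-- abstract form of generic uniqueness. -/
theorem ctj_generic {α : Type} [MeasurableSpace α] (μ : Measure α) [SFinite μ] (𝒜 : ℝ → Set (Set α))
    (hm : ∀ c, ∀ A ∈ 𝒜 c, MeasurableSet A)
    (hord : ∀ c c', c < c' → ∀ A ∈ 𝒜 c, ∀ A' ∈ 𝒜 c', μ (A \ A') = 0) :
    {c : ℝ | ∃ A ∈ 𝒜 c, ∃ A' ∈ 𝒜 c, μ (symmDiff A A') ≠ 0}.Countable := by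
  classical
  set ν : Measure α := μ.toFinite with hν
  have hνμ : ν ≪ μ := toFinite_absolutelyContinuous μ
  have hμν : μ ≪ ν := absolutelyContinuous_toFinite μ
  set T : Set ℝ := {c : ℝ | ∃ A ∈ 𝒜 c, ∃ A' ∈ 𝒜 c, μ (symmDiff A A') ≠ 0} with hT
  have hch : ∀ c ∈ T, ∃ A A' : Set α, A ∈ 𝒜 c ∧ A' ∈ 𝒜 c ∧ ν (symmDiff A A') ≠ 0 := by
    rintro c ⟨A, hA, A', hA', hne⟩
    exact ⟨A, A', hA, hA', fun h => hne (hμν h)⟩
  choose! A A' hA hA' hne using hch
  set lo : ℝ → ℝ := fun c => ν.real (A c ∩ A' c) with hlo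
  set hi : ℝ → ℝ := fun c => ν.real (A c ∪ A' c) with hhi
  have hlt : ∀ c ∈ T, lo c < hi c := by
    intro c hc
    have hdisj : Disjoint (A c ∩ A' c) (symmDiff (A c) (A' c)) := by
      rw [disjoint_left]
      rintro x ⟨h1, h2⟩ (⟨_, h3⟩ | ⟨_, h3⟩)
      · exact h3 h2
      · exact h3 h1
    have hun : A c ∪ A' c = (A c ∩ A' c) ∪ symmDiff (A c) (A' c) := by
      ext x
      simp only [mem_union, mem_inter_iff, mem_symmDiff]
      tauto
    have hms : MeasurableSet (symmDiff (A c) (A' c)) :=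
      (hm c _ (hA c hc)).symmDiff (hm c _ (hA' c hc))
    have hpos : 0 < ν.real (symmDiff (A c) (A' c)) :=
      ENNReal.toReal_pos (hne c hc) (measure_ne_top _ _)
    show ν.real (A c ∩ A' c) < ν.real (A c ∪ A' c)
    rw [hun, measureReal_union hdisj hms]
    linarith
  have hle : ∀ c ∈ T, ∀ c' ∈ T, c < c' → hi c ≤ lo c' := by
    intro c hc c' hc' hcc
    have h0 : ν ((A c ∪ A' c) \ (A c' ∩ A' c')) = 0 := by
      refine measure_mono_null
        (t := ((A c \ A c') ∪ (A c \ A' c')) ∪ ((A' c \ A c') ∪ (A' c \ A' c'))) ?_ ?_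
      · intro x
        simp only [mem_union, mem_inter_iff, Set.mem_sdiff]
        tauto
      · refine measure_union_null (measure_union_null ?_ ?_) (measure_union_null ?_ ?_)
        · exact hνμ (hord c c' hcc _ (hA c hc) _ (hA c' hc'))
        · exact hνμ (hord c c' hcc _ (hA c hc) _ (hA' c' hc'))
        · exact hνμ (hord c c' hcc _ (hA' c hc) _ (hA c' hc'))
        · exact hνμ (hord c c' hcc _ (hA' c hc) _ (hA' c' hc'))
    exact ENNReal.toReal_mono (measure_ne_top _ _) (measure_mono_ae (ae_le_set.2 h0))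
  have hq : ∀ c ∈ T, ∃ q : ℚ, lo c < q ∧ (q : ℝ) < hi c := fun c hc => exists_rat_btwn (hlt c hc)
  choose! q hq1 hq2 using hq
  have hmono : ∀ c ∈ T, ∀ c' ∈ T, c < c' → (q c : ℝ) < q c' := fun c hc c' hc' hcc =>
    (hq2 c hc).trans_le ((hle c hc c' hc' hcc).trans (hq1 c' hc').le)
  refine (mapsTo_univ q T).countable_of_injOn ?_ (countable_univ)
  intro c hc c' hc' heq
  rcases lt_trichotomy c c' with h | h | h
  · have := hmono c hc c' hc' h
    rw [heq] at this
    exact absurd this (lt_irrefl _)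
  · exact h
  · have := hmono c' hc' c hc h
    rw [heq] at this
    exact absurd this (lt_irrefl _)

theorem ct_vol_sigmaFinite (hG : CtGeo d M h t) : SigmaFinite (vol d M h) := by
  have hloc : ∀ x ∈ M, ∃ s ∈ 𝓝[M] x, vol d M h s < ⊤ := by
    intro x hx
    obtain ⟨ψ, U, hp, u₀, hu, rfl⟩ := hG.mfd x hx
    obtain ⟨r, hr, hball⟩ := Metric.nhds_basis_closedBall.mem_iff.1 ((if_open hp).mem_nhds hu)
    obtain ⟨O, hO, he⟩ := if_image_open hp Metric.isOpen_ball
      (Metric.ball_subset_closedBall.trans hball)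
    have hmem : ψ u₀ ∈ M ∩ O := he ▸ mem_image_of_mem ψ (Metric.mem_ball_self hr)
    refine ⟨M ∩ O, Filter.inter_mem self_mem_nhdsWithin
      (mem_nhdsWithin_of_mem_nhds (hO.mem_nhds hmem.2)), ?_⟩
    rw [← he]
    refine (measure_mono (image_mono Metric.ball_subset_closedBall)).trans_lt ?_
    exact if_vol_lt_top_of_isCompact hG.mfd hG.ten
      ((isCompact_closedBall u₀ r).image_of_continuousOn ((if_smooth hp).continuousOn.mono hball))
      ((image_mono hball).trans (if_image_subset hp))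
  choose! s hs hsf using hloc
  obtain ⟨T, hTM, hTc, hcov⟩ := TopologicalSpace.countable_cover_nhdsWithin hs
  refine Measure.sigmaFinite_of_countable (S := insert Mᶜ (s '' T)) ((hTc.image s).insert _) ?_ ?_
  · rintro _ (rfl | ⟨x, hx, rfl⟩)
    · rw [(ct_vol_spec hG).1]; exact ENNReal.zero_lt_top
    · exact hsf x (hTM hx)
  · rw [sUnion_insert, sUnion_image]
    refine eq_univ_of_forall fun x => ?_
    by_cases hx : x ∈ M
    · exact Or.inr (hcov hx)
    · exact Or.inl hx

/-- **generic uniqueness** (P Proposition B.5, second part): a family of classes `𝒜 c` of phases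
which is ordered (`c < c'` ⇒ every member of `𝒜 c` is a.e. contained in every member of `𝒜 c'`) has
a.e. unique members for all but countably many `c`. -/
theorem ct_generic (hG : CtGeo d M h t) (𝒜 : ℝ → Set (Set V))
    (hm : ∀ c, ∀ A ∈ 𝒜 c, MeasurableSet A)
    (hord : ∀ c c', c < c' → ∀ A ∈ 𝒜 c, ∀ A' ∈ 𝒜 c', vol d M h (A \ A') = 0) :
    {c : ℝ | ∃ A ∈ 𝒜 c, ∃ A' ∈ 𝒜 c, vol d M h (symmDiff A A') ≠ 0}.Countable := by
  have := ct_vol_sigmaFinite hG
  exact ctj_generic (vol d M h) 𝒜 hm hord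

end Claimed.Agent.R315
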