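import Claimed.Agent.R315.Ct.Reg

/-!
# Row 315, package Ct, part 5: translations and cylinders (P Proposition B.5, last part)

* `ctTr v X = X + v`; all notions of the package are equivariant under ambient translations
  (a parametrisation `ψ` of `M` gives the parametrisation `ψ + v` of `M + v` with the same coordinate
  matrices when the data are transported).
* `ctPr τ e z = z - τ z • e` (in a frame: `F.drop i`), `ctCyl τ e X = {z | ctPr τ e z ∈ X}` the cylinder
  over `X ⊆ ker τ`, with the pulled back data `h ∘ ctPr`, `t ∘ ctPr`, `p ∘ ctPr`; the ambient tensor is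
  normalised along `X`: `h x e w = τ w` (`CtNormal`), so that the cylinder carries `h_X + dτ²`.
* `ct_cyl_base`: if the cylinder over `F` is a minimiser then `F` is a minimiser (the `L^d` versus
  `L^{d-1}` argument of the paper with `d = 1`; only perimeters of PRODUCT sets are needed).
* `ct_inv_cyl`: a phase which is a.e. invariant under all translations `s • e` is a cylinder.

PACKAGE L-Ct-ProdA (translations).  PLAN.
Key lemma (add it): `IsParam M ψ U ↔ IsParam (ctTr v M) (fun u => ψ u + v) U`, and for the transported data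
`cm (fun z => h (z - v)) (fun u => ψ u + v) = cm h ψ` (`fderiv_add_const`, `(ψ u + v) - v = ψ u`); hence `ctA`, `ctRho`, `ctF`,
`ctPre` of `(ψ + v, transported data, ctTr v A)` are those of `(ψ, data, A)`.  Every parametrisation of `ctTr v M` is of
this form (`ψ' = (ψ' - v) + v`).
* `CtGeo.translate`: unfold `IsMfd`, `IsMetricOn`, `SmoothAlong` + key lemma.
* scalar quantities: value in ANY parametrisation (`If/Lap.lean`: `if_lap_eq`, `if_Dsc_eq`; `If/Loc.lean`: `if_scal_eq'` ...;
  or `If/Iso.lean`: a translation is an `if_LocIso`); off the manifold both sides are the default value of `pv`.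
* `rdist`: `c ↦ c + v` is a bijection of admissible curves which preserves the length.
* sets (`ctBd`, ...): existential over parametrisations + key lemma.
* `vol`, `wvol`, `wper`: the push-forward under `· + v` satisfies `IsVol` / `IsWPer` for the transported data; uniqueness
  (`if_isVol_unique`, `ct_wper_unique`).  * `CtLAM.translate`, `CtCal.translate`: all ingredients are equivariant.
* `CtLAM.congr_data`: `cm h ψ u`, `t (ψ u)`, `p (ψ u)` only see the data at points of `M` (`if_cm_congr`); so `IsVol`, `IsWPer` are the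
  same predicates (`ct_vol_congr_data`, `ct_wvol_congr_data`; add `ct_wper_congr_data`).
-/

set_option autoImplicit false
set_option linter.unusedSectionVars false
open scoped ContDiff ENNReal Topology
open MeasureTheory Claims.C0499 Set Filter

namespace Claimed.Agent.R315


variable {V : Type} [NormedAddCommGroup V] [NormedSpace ℝ V]

/-- translate of a set. -/
def ctTr (v : V) (X : Set V) : Set V := {z | z - v ∈ X}

/-- projection along `e`. -/
noncomputable def ctPr (τ : V →L[ℝ] ℝ) (e : V) (z : V) : V := z - τ z • e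

/-- the cylinder over `X`. -/
def ctCyl (τ : V →L[ℝ] ℝ) (e : V) (X : Set V) : Set V := {z | ctPr τ e z ∈ X}

/-- `e` is a unit normal of the ambient tensor along `X`. -/
def CtNormal (τ : V →L[ℝ] ℝ) (e : V) (X : Set V) (h : Ten V) : Prop :=
  ∀ x ∈ X, ∀ w, h x e w = τ w ∧ h x w e = τ w

variable [FiniteDimensional ℝ V]
variable {d : ℕ} {M : Set V} {h : Ten V} {t p : V → ℝ}

/-! ### translations -/

section trHelpers

omit [FiniteDimensional ℝ V]

theorem ct_tr_tr_neg (v : V) (X : Set V) : ctTr (-v) (ctTr v X) = X := by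
  ext z
  simp [ctTr]

theorem ct_tr_neg_tr (v : V) (X : Set V) : ctTr v (ctTr (-v) X) = X := by
  ext z
  simp [ctTr]

theorem ct_tr_exists_eq (v : V) (X : Set V) : ∃ Y, X = ctTr v Y := ⟨ctTr (-v) X, (ct_tr_neg_tr v X).symm⟩

theorem ct_tr_subset_iff (v : V) {X Y : Set V} : ctTr v X ⊆ ctTr v Y ↔ X ⊆ Y := by
  constructor
  · intro H z hz
    have : z + v ∈ ctTr v X := by
      show z + v - v ∈ X
      simpa using hz
    have h2 : z + v - v ∈ Y := H this
    simpa using h2
  · intro H z hz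
    exact H hz

theorem ct_tr_eq_image (v : V) (X : Set V) : ctTr v X = (fun z => z + v) '' X := by
  ext z
  constructor
  · intro hz
    exact ⟨z - v, hz, by simp⟩
  · rintro ⟨y, hy, rfl⟩
    show y + v - v ∈ X
    simpa using hy

theorem ct_tr_isCompact {v : V} {K : Set V} (hK : IsCompact K) : IsCompact (ctTr v K) := by
  rw [ct_tr_eq_image]
  exact hK.image (continuous_id.add continuous_const)

theorem ct_tr_isCompact_iff {v : V} {K : Set V} : IsCompact (ctTr v K) ↔ IsCompact K :=
  ⟨fun H => by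
    have := ct_tr_isCompact (v := -v) H
    rwa [ct_tr_tr_neg] at this, ct_tr_isCompact⟩

theorem ct_tr_symmDiff (v : V) (A B : Set V) : symmDiff (ctTr v A) (ctTr v B) = ctTr v (symmDiff A B) := rfl

theorem ct_tr_inter (v : V) (A B : Set V) : ctTr v A ∩ ctTr v B = ctTr v (A ∩ B) := rfl

/-- **key lemma**: `ψ + v` parametrises `M + v`. -/
theorem ct_tr_param {ψ : E d → V} {U : Set (E d)} (hψ : IsParam M ψ U) (v : V) :
    IsParam (ctTr v M) (fun u => ψ u + v) U := by
  obtain ⟨hU, hs, hinj, hI, ⟨O, hO, hOe⟩, hc⟩ := hψ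
  have himg : (fun u => ψ u + v) '' U = ctTr v (ψ '' U) := by
    ext z
    constructor
    · rintro ⟨u, hu, rfl⟩
      exact ⟨u, hu, by simp⟩
    · rintro ⟨u, hu, hz⟩
      exact ⟨u, hu, by simp [hz]⟩
  have hI' : Set.InjOn (fun u => ψ u + v) U := fun a ha b hb hab => hI ha hb (add_right_cancel hab)
  refine ⟨hU, hs.add contDiffOn_const, ?_, hI', ⟨ctTr v O, ?_, ?_⟩, ?_⟩
  · intro u hu
    rw [fderiv_add_const]
    exact hinj u hu
  · exact hO.preimage (continuous_id.sub continuous_const)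
  · rw [himg, hOe]
    rfl
  · rw [himg]
    have h1 : ContinuousOn (fun z => Function.invFunOn ψ U (z - v)) (ctTr v (ψ '' U)) :=
      hc.comp (continuous_id.sub continuous_const).continuousOn (fun z hz => hz)
    refine h1.congr ?_
    rintro z ⟨u, hu, hz⟩
    have e1 : Function.invFunOn (fun u => ψ u + v) U z = u := by
      have : z = (fun u => ψ u + v) u := by simp [hz]
      rw [this]
      exact hI'.leftInvOn_invFunOn hu
    have e2 : Function.invFunOn ψ U (z - v) = u := by
      rw [← hz]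
      exact hI.leftInvOn_invFunOn hu
    show Function.invFunOn (fun u => ψ u + v) U z = Function.invFunOn ψ U (z - v)
    rw [e1, e2]

theorem ct_tr_param_iff {ψ' : E d → V} {U : Set (E d)} (v : V) :
    IsParam (ctTr v M) ψ' U ↔ IsParam M (fun u => ψ' u - v) U := by
  constructor
  · intro H
    have := ct_tr_param H (-v)
    rw [ct_tr_tr_neg] at this
    simpa only [sub_eq_add_neg] using this
  · intro H
    have := ct_tr_param H v
    simpa only [sub_add_cancel] using this

theorem ct_tr_cm (h : Ten V) (ψ' : E d → V) (v : V) :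
    cm (fun z => h (z - v)) ψ' = cm h (fun u => ψ' u - v) := by
  funext u
  unfold cm
  simp only [fderiv_sub_const]

/-- transport of statements "there is a parametrisation with ...". -/
theorem ct_tr_exists (v : V) {P P' : (E d → V) → Set (E d) → E d → Prop}
    (H : ∀ ψ' U u, P' ψ' U u ↔ P (fun w => ψ' w - v) U u) (x : V) :
    (∃ (ψ' : E d → V) (U : Set (E d)) (u : E d), IsParam (ctTr v M) ψ' U ∧ u ∈ U ∧ ψ' u = x ∧ P' ψ' U u) ↔
      ∃ (ψ : E d → V) (U : Set (E d)) (u : E d), IsParam M ψ U ∧ u ∈ U ∧ ψ u = x - v ∧ P ψ U u := by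
  constructor
  · rintro ⟨ψ', U, u, hp, hu, hx, hP⟩
    exact ⟨fun w => ψ' w - v, U, u, (ct_tr_param_iff v).1 hp, hu, by simp [hx], (H ψ' U u).1 hP⟩
  · rintro ⟨ψ, U, u, hp, hu, hx, hP⟩
    refine ⟨fun w => ψ w + v, U, u, ct_tr_param hp v, hu, by simp [hx], (H _ U u).2 ?_⟩
    simpa only [add_sub_cancel_right] using hP

theorem ct_tr_pv (v : V) {Φ Φ' : (E d → V) → E d → ℝ}
    (H : ∀ ψ' u, Φ' ψ' u = Φ (fun w => ψ' w - v) u) (z : V) :
    pv (ctTr v M) Φ' z = pv M Φ (z - v) := by
  unfold pv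
  congr 1
  ext r
  exact ct_tr_exists (M := M) v (P := fun ψ _ u => r = Φ ψ u) (P' := fun ψ' _ u => r = Φ' ψ' u)
    (fun ψ' _ u => by rw [H]) z

theorem ct_tr_scal (v : V) (h : Ten V) (z : V) :
    scal d (ctTr v M) (fun z => h (z - v)) z = scal d M h (z - v) :=
  ct_tr_pv v (fun ψ' u => by rw [ct_tr_cm]) z

theorem ct_tr_gradSq (v : V) (h : Ten V) (f : V → ℝ) (z : V) :
    gradSq d (ctTr v M) (fun z => h (z - v)) (fun z => f (z - v)) z = gradSq d M h f (z - v) :=
  ct_tr_pv v (fun ψ' u => by rw [ct_tr_cm]; rfl) z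

theorem ct_tr_gradIp (v : V) (h : Ten V) (f k : V → ℝ) (z : V) :
    gradIp d (ctTr v M) (fun z => h (z - v)) (fun z => f (z - v)) (fun z => k (z - v)) z =
      gradIp d M h f k (z - v) :=
  ct_tr_pv v (fun ψ' u => by rw [ct_tr_cm]; rfl) z

theorem ct_tr_lap (v : V) (h : Ten V) (f : V → ℝ) (z : V) :
    lap d (ctTr v M) (fun z => h (z - v)) (fun z => f (z - v)) z = lap d M h f (z - v) :=
  ct_tr_pv v (fun ψ' u => by rw [ct_tr_cm]; rfl) z

theorem ct_tr_gradN (v : V) (h : Ten V) (f : V → ℝ) (z : V) :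
    gradN d (ctTr v M) (fun z => h (z - v)) (fun z => f (z - v)) z = gradN d M h f (z - v) := by
  unfold gradN
  rw [ct_tr_gradSq]

theorem ct_tr_wdiv (v : V) (h : Ten V) (t a f : V → ℝ) (z : V) :
    wdiv d (ctTr v M) (fun z => h (z - v)) (fun z => t (z - v)) (fun z => a (z - v)) (fun z => f (z - v)) z =
      wdiv d M h t a f (z - v) := by
  unfold wdiv wlap
  rw [ct_tr_lap, ct_tr_gradIp, ct_tr_gradIp]

theorem ct_tr_smoothAlong {a : V → ℝ} (ha : SmoothAlong d M a) (v : V) :
    SmoothAlong d (ctTr v M) (fun z => a (z - v)) :=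
  fun ψ' U hψ' => ha (fun u => ψ' u - v) U ((ct_tr_param_iff v).1 hψ')

theorem ct_tr_pre (v : V) (ψ' : E d → V) (U : Set (E d)) (A : Set V) :
    ctPre ψ' U (ctTr v A) = ctPre (fun u => ψ' u - v) U A := rfl

theorem ct_tr_ctA (v : V) (h : Ten V) (t : V → ℝ) (ψ' : E d → V) :
    ctA (fun z => h (z - v)) (fun z => t (z - v)) ψ' = ctA h t (fun u => ψ' u - v) := by
  funext u
  unfold ctA
  rw [ct_tr_cm]

theorem ct_tr_data_neg {α : Type*} (v : V) (h : V → α) : (fun z => (fun z => h (z - v)) (z - -v)) = h := by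
  funext z
  simp

end trHelpers

theorem CtGeo.translate (hG : CtGeo d M h t) (v : V) :
    CtGeo d (ctTr v M) (fun z => h (z - v)) (fun z => t (z - v)) := by
  refine ⟨?_, ?_, ct_tr_smoothAlong hG.drift v⟩
  · intro q hq
    obtain ⟨ψ, U, hψ, u, hu, hz⟩ := hG.mfd (q - v) hq
    exact ⟨fun u => ψ u + v, U, ct_tr_param hψ v, u, hu, by simp [hz]⟩
  · intro ψ' U hψ'
    rw [ct_tr_cm]
    exact hG.met _ U ((ct_tr_param_iff v).1 hψ')

/-- scalar quantities are equivariant. -/
theorem ct_translate_Dsc (hG : CtGeo d M h t) (v : V) (z : V) :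
    Dsc d (ctTr v M) (fun z => h (z - v)) (fun z => t (z - v)) z = Dsc d M h t (z - v) := by
  unfold Dsc
  rw [ct_tr_scal, ct_tr_lap, ct_tr_gradSq]

theorem ct_translate_gradSq (hG : CtGeo d M h t) (v : V) (f : V → ℝ) (z : V) :
    gradSq d (ctTr v M) (fun z => h (z - v)) (fun z => f (z - v)) z = gradSq d M h f (z - v) :=
  ct_tr_gradSq v h f z

theorem ct_translate_rdist (v : V) (x y : V) :
    rdist (ctTr v M) (fun z => h (z - v)) x y = rdist M h (x - v) (y - v) := by
  unfold rdist
  congr 1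
  ext L
  constructor
  · rintro ⟨c, hc, hcM, h0, h1, rfl⟩
    refine ⟨fun s => c s - v, hc.sub contDiff_const, fun s hs => hcM s hs, by simp [h0], by simp [h1], ?_⟩
    simp only [deriv_sub_const]
  · rintro ⟨c, hc, hcM, h0, h1, rfl⟩
    refine ⟨fun s => c s + v, hc.add contDiff_const, fun s hs => ?_, by simp [h0], by simp [h1], ?_⟩
    · show c s + v - v ∈ M
      simpa using hcM s hs
    · simp only [deriv_add_const, add_sub_cancel_right]

theorem ct_translate_sets (v : V) (A : Set V) :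
    ctBd d (ctTr v M) (ctTr v A) = ctTr v (ctBd d M A) ∧
      ctWall d (ctTr v M) (ctTr v A) = ctTr v (ctWall d M A) ∧
      ctSing d (ctTr v M) (ctTr v A) = ctTr v (ctSing d M A) ∧
      ctIn d (ctTr v M) (ctTr v A) = ctTr v (ctIn d M A) ∧
      ctOut d (ctTr v M) (ctTr v A) = ctTr v (ctOut d M A) := by
  have hBd : ∀ x, x ∈ ctBd d (ctTr v M) (ctTr v A) ↔ x - v ∈ ctBd d M A := fun x =>
    ct_tr_exists (M := M) v (P := fun ψ U u => u ∈ Gmt.gmtBd (ctPre ψ U A))
      (P' := fun ψ' U u => u ∈ Gmt.gmtBd (ctPre ψ' U (ctTr v A))) (fun _ _ _ => Iff.rfl) x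
  have hReg : ∀ x, CtReg d (ctTr v M) (ctTr v A) x ↔ CtReg d M A (x - v) := fun x =>
    ct_tr_exists (M := M) v (P := fun ψ U u => Gmt.GmtReg (ctPre ψ U A) u)
      (P' := fun ψ' U u => Gmt.GmtReg (ctPre ψ' U (ctTr v A)) u) (fun _ _ _ => Iff.rfl) x
  refine ⟨Set.ext hBd, Set.ext hReg, ?_, ?_, ?_⟩
  · ext x
    exact and_congr (hBd x) (not_congr (hReg x))
  · ext x
    exact ct_tr_exists (M := M) v (P := fun ψ U u => ∃ r > 0, volume (Metric.ball u r \ ctPre ψ U A) = 0)
      (P' := fun ψ' U u => ∃ r > 0, volume (Metric.ball u r \ ctPre ψ' U (ctTr v A)) = 0)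
      (fun _ _ _ => Iff.rfl) x
  · ext x
    exact ct_tr_exists (M := M) v (P := fun ψ U u => ∃ r > 0, volume (Metric.ball u r ∩ ctPre ψ U A) = 0)
      (P' := fun ψ' U u => ∃ r > 0, volume (Metric.ball u r ∩ ctPre ψ' U (ctTr v A)) = 0)
      (fun _ _ _ => Iff.rfl) x

variable [MeasurableSpace V] [BorelSpace V]

theorem ct_tr_preimage (v : V) (B : Set V) : (MeasurableEquiv.addRight v) ⁻¹' (ctTr v B) = B := by
  ext x
  simp [ctTr]

theorem ct_tr_preimage_image (v : V) (ψ' : E d → V) (A : Set (E d)) :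
    (MeasurableEquiv.addRight v) ⁻¹' (ψ' '' A) = (fun u => ψ' u - v) '' A := by
  ext x
  simp only [mem_preimage, MeasurableEquiv.coe_addRight, mem_image]
  constructor
  · rintro ⟨u, hu, hx⟩
    exact ⟨u, hu, by simp [hx]⟩
  · rintro ⟨u, hu, rfl⟩
    exact ⟨u, hu, by simp⟩

theorem ct_tr_measurableSet {v : V} {A : Set V} (hA : MeasurableSet A) : MeasurableSet (ctTr v A) :=
  (measurable_id.sub_const v) hA

theorem ct_tr_isVol {μ : Measure V} (hμ : IsVol d M h μ) (v : V) :
    IsVol d (ctTr v M) (fun z => h (z - v)) (μ.map (MeasurableEquiv.addRight v)) := by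
  constructor
  · rw [MeasurableEquiv.map_apply, preimage_compl, ct_tr_preimage]
    exact hμ.1
  · intro ψ' U hψ' A hAU hA
    rw [MeasurableEquiv.map_apply, ct_tr_preimage_image, ct_tr_cm]
    exact hμ.2 _ U ((ct_tr_param_iff v).1 hψ') A hAU hA

theorem ct_tr_vol_eq (hG : CtGeo d M h t) (v : V) :
    vol d (ctTr v M) (fun z => h (z - v)) = (vol d M h).map (MeasurableEquiv.addRight v) :=
  if_vol_eq_of_isVol (hG.translate v).mfd (ct_tr_isVol (if_isVol_vol hG.mfd h) v)

theorem ct_translate_vol (hG : CtGeo d M h t) (v : V) (B : Set V) :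
    vol d (ctTr v M) (fun z => h (z - v)) (ctTr v B) = vol d M h B := by
  rw [ct_tr_vol_eq hG, MeasurableEquiv.map_apply, ct_tr_preimage]

theorem ct_tr_wvol_eq (hG : CtGeo d M h t) (v : V) :
    wvol d (ctTr v M) (fun z => h (z - v)) (fun z => t (z - v)) =
      (wvol d M h t).map (MeasurableEquiv.addRight v) := by
  unfold wvol
  rw [ct_tr_vol_eq hG]
  ext s hs
  rw [withDensity_apply _ hs, MeasurableEquiv.map_apply,
    withDensity_apply _ ((MeasurableEquiv.addRight v).measurable hs), MeasurableEquiv.restrict_map,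
    lintegral_map_equiv]
  refine lintegral_congr fun y => ?_
  by_cases hy : y ∈ M
  · have hy' : (MeasurableEquiv.addRight v) y ∈ ctTr v M := by
      show y + v - v ∈ M
      simpa using hy
    rw [indicator_of_mem hy, indicator_of_mem hy']
    simp
  · have hy' : (MeasurableEquiv.addRight v) y ∉ ctTr v M := by
      intro hc
      apply hy
      have : y + v - v ∈ M := hc
      simpa using this
    rw [indicator_of_notMem hy, indicator_of_notMem hy']

theorem ct_translate_wvol (hG : CtGeo d M h t) (v : V) (B : Set V) :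
    wvol d (ctTr v M) (fun z => h (z - v)) (fun z => t (z - v)) (ctTr v B) = wvol d M h t B := by
  rw [ct_tr_wvol_eq hG, MeasurableEquiv.map_apply, ct_tr_preimage]

theorem ct_tr_isWPer {A : Set V} {μ : Measure V} (hμ : IsWPer d M h t A μ) (v : V) :
    IsWPer d (ctTr v M) (fun z => h (z - v)) (fun z => t (z - v)) (ctTr v A)
      (μ.map (MeasurableEquiv.addRight v)) := by
  constructor
  · rw [MeasurableEquiv.map_apply, preimage_compl, ct_tr_preimage]
    exact hμ.1
  · intro ψ' U hψ' B hBU hB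
    rw [MeasurableEquiv.map_apply, ct_tr_preimage_image, ct_tr_ctA, ct_tr_pre]
    exact hμ.2 _ U ((ct_tr_param_iff v).1 hψ') B hBU hB

theorem ct_tr_wper_eq (hG : CtGeo d M h t) (v : V) {A : Set V} (hA : MeasurableSet A) :
    wper d (ctTr v M) (fun z => h (z - v)) (fun z => t (z - v)) (ctTr v A) =
      (wper d M h t A).map (MeasurableEquiv.addRight v) :=
  (ct_wper_unique (hG.translate v) (ct_tr_isWPer (ct_wper_spec hG hA) v)).symm

theorem ct_translate_wper (hG : CtGeo d M h t) (v : V) {A : Set V} (hA : MeasurableSet A)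
    (B : Set V) :
    wper d (ctTr v M) (fun z => h (z - v)) (fun z => t (z - v)) (ctTr v A) (ctTr v B) =
      wper d M h t A B := by
  rw [ct_tr_wper_eq hG v hA, MeasurableEquiv.map_apply, ct_tr_preimage]

theorem ct_tr_lf (hG : CtGeo d M h t) {A : Set V} (hA : CtLF d M h t A) (v : V) :
    CtLF d (ctTr v M) (fun z => h (z - v)) (fun z => t (z - v)) (ctTr v A) := by
  refine ⟨ct_tr_measurableSet hA.meas, (ct_tr_subset_iff v).2 hA.sub, ?_⟩
  intro K' hK' hK'M
  obtain ⟨K, rfl⟩ := ct_tr_exists_eq v K'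
  rw [ct_translate_wper hG v hA.meas]
  exact hA.fin K (ct_tr_isCompact_iff.1 hK') ((ct_tr_subset_iff v).1 hK'M)

theorem ct_tr_lf_iff (hG : CtGeo d M h t) {A : Set V} (v : V) :
    CtLF d (ctTr v M) (fun z => h (z - v)) (fun z => t (z - v)) (ctTr v A) ↔ CtLF d M h t A := by
  refine ⟨fun H => ?_, fun H => ct_tr_lf hG H v⟩
  have := ct_tr_lf (hG.translate v) H (-v)
  rwa [ct_tr_tr_neg, ct_tr_tr_neg, ct_tr_data_neg, ct_tr_data_neg] at this

theorem ct_tr_integral (hG : CtGeo d M h t) (v : V) (B : Set V) (q : V → ℝ) :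
    ∫ x in ctTr v B, q (x - v) ∂(wvol d (ctTr v M) (fun z => h (z - v)) (fun z => t (z - v))) =
      ∫ x in B, q x ∂(wvol d M h t) := by
  rw [ct_tr_wvol_eq hG, MeasurableEquiv.restrict_map, integral_map_equiv, ct_tr_preimage]
  simp

theorem ct_tr_en (hG : CtGeo d M h t) (v : V) {A : Set V} (hA : MeasurableSet A) (K : Set V) :
    ctEn d (ctTr v M) (fun z => h (z - v)) (fun z => t (z - v)) (fun z => p (z - v)) (ctTr v A) (ctTr v K) =
      ctEn d M h t p A K := by
  unfold ctEn
  rw [ct_translate_wper hG v hA, ct_tr_inter, ct_tr_integral hG v (A ∩ K) p]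

theorem CtLAM.translate (hG : CtGeo d M h t) {A : Set V} (hA : CtLAM d M h t p A) (v : V) :
    CtLAM d (ctTr v M) (fun z => h (z - v)) (fun z => t (z - v)) (fun z => p (z - v))
      (ctTr v A) := by
  refine ⟨ct_tr_lf hG hA.lf v, ?_⟩
  intro K' B' hK' hK'M hB' hsd
  obtain ⟨K, rfl⟩ := ct_tr_exists_eq v K'
  obtain ⟨B, rfl⟩ := ct_tr_exists_eq v B'
  have hB := (ct_tr_lf_iff hG v).1 hB'
  rw [ct_tr_en hG v hA.lf.meas, ct_tr_en hG v hB.meas]
  refine hA.min K B (ct_tr_isCompact_iff.1 hK') ((ct_tr_subset_iff v).1 hK'M) hB ?_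
  rw [ct_tr_symmDiff] at hsd
  exact (ct_tr_subset_iff v).1 hsd

theorem CtCal.translate (hG : CtGeo d M h t) {B : Set V} {β : ℝ} (hB : CtCal d M h t B β) (v : V) :
    CtCal d (ctTr v M) (fun z => h (z - v)) (fun z => t (z - v)) (ctTr v B) β := by
  obtain ⟨K, hK, hKM, hBK⟩ := hB.cpt
  obtain ⟨a, f, ha, hf, ⟨K₁, hK₁, hK₁M, ha0⟩, hle, hcal, hβ⟩ := hB.cal
  refine ⟨ct_tr_lf hG hB.lf v, ⟨ctTr v K, ct_tr_isCompact hK, (ct_tr_subset_iff v).2 hKM,
    (ct_tr_subset_iff v).2 hBK⟩, fun z => a (z - v), fun z => f (z - v), ct_tr_smoothAlong ha v,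
    ct_tr_smoothAlong hf v, ⟨ctTr v K₁, ct_tr_isCompact hK₁, (ct_tr_subset_iff v).2 hK₁M,
      fun x hx hxK => ha0 (x - v) hx hxK⟩, ?_, ?_, ?_⟩
  · intro x hx
    rw [ct_tr_gradN]
    exact hle (x - v) hx
  · have huniv : (univ : Set V) = ctTr v univ := rfl
    rw [huniv, ct_translate_wper hG v hB.lf.meas]
    simp only [ct_tr_wdiv]
    rw [ct_tr_integral hG v B (fun x => wdiv d M h t a f x)]
    exact hcal
  · intro x hx
    rw [ct_tr_wdiv]
    exact hβ (x - v) hx

/-- only the values of the data along `M` matter (metric: on all pairs of vectors, for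
simplicity). -/
theorem CtLAM.congr_data {h' : Ten V} {t' p' : V → ℝ} {A : Set V} (hA : CtLAM d M h t p A)
    (hh : ∀ x ∈ M, h x = h' x) (ht : ∀ x ∈ M, t x = t' x) (hp : ∀ x ∈ M, p x = p' x) :
    CtLAM d M h' t' p' A := by
  have hlf : ∀ B, CtLF d M h t B ↔ CtLF d M h' t' B := fun B =>
    ⟨fun H => ⟨H.meas, H.sub, fun K hK hKM => by rw [← ct_wper_congr_data hh ht]; exact H.fin K hK hKM⟩,
      fun H => ⟨H.meas, H.sub, fun K hK hKM => by rw [ct_wper_congr_data hh ht]; exact H.fin K hK hKM⟩⟩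
  have hen : ∀ B K, IsCompact K → CtLF d M h t B → ctEn d M h t p B K = ctEn d M h' t' p' B K := by
    intro B K hK hB
    unfold ctEn
    rw [ct_wper_congr_data hh ht, ct_wvol_congr_data hh ht]
    congr 1
    exact setIntegral_congr_fun (hB.meas.inter hK.isClosed.measurableSet) fun x hx => hp x (hB.sub hx.1)
  refine ⟨(hlf A).1 hA.lf, ?_⟩
  intro K B hK hKM hB hsd
  have hB' := (hlf B).2 hB
  rw [← hen A K hK hA.lf, ← hen B K hK hB']
  exact hA.min K B hK hKM hB' hsd

end Claimed.Agent.R315
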