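import Claimed.Agent.R315.Ct.ProdA
import Claimed.Agent.R315.Pk.Mfd
import Claimed.Agent.R315.Rm.Glob

/-!
# Row 315, package Ct: file `ProdB.lean`, continuation of `ProdA.lean` (general description: header of `Ct/ProdA.lean`)

PACKAGE L-Ct-ProdB (geometry of cylinders).  PLAN.
Key lemma (add it): for `IsParam M ψ U` the map `Ψ b = ψ (rm_tl d b) + b 0 • e` on `{b | rm_tl d b ∈ U}` is a parametrisation of
`ctCyl τ e M` (compare `pk_param_prod`, `Pk/Mfd.lean`; `Rm/Calc.lean`: `rm_tl`, `rm_J`; inverse: `z ↦ (τ z, ψ⁻¹ (ctPr τ e z))`), these cover the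
cylinder, and `cm (h ∘ ctPr) Ψ b` is the block matrix `1 ⊕ cm h ψ (rm_tl d b)`: `fderiv Ψ b (eb 0) = e`,
`fderiv Ψ b (eb (k+1)) = fderiv ψ _ (eb k)`, `h x e w = τ w` (`CtNormal`), `τ (fderiv ψ u w) = 0` because `τ ∘ ψ = 0` on the open `U`.
* `CtGeo.cyl`, `ct_cyl_smooth`: by `if_*_of_atlas` (`If/Loc.lean`) it is enough to check the parametrisations `Ψ`.
* `ct_cyl_Dsc`, `ct_cyl_gradSq`: values in the parametrisation `Ψ` (`if_Dsc_eq`, ...); the metric is of lapse form with lapse `1` and slices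
  independent of `b 0`: `rm_adm_Dsc` (`Rm/Adm.lean`) or a direct computation with the block matrix (inverse = block inverse).
* `ct_cyl_wvol`: both sides vanish off the cylinder; on `Ψ '' B` use `ct_wvol_chart`, `ctRho (h∘pr) (t∘pr) Ψ b = ctRho h t ψ (rm_tl d b)`,
  `volume` on `E (d+1)` = `volume × volume` under `b ↦ (rm_tl d b, b 0)` (`MeasureTheory.volume_preserving_piFinSuccAbove` + `EuclideanSpace.volume_preserving_measurableEquiv`),
  then uniqueness of measures which agree on the π-system of measurable subsets of chart images (countable atlas), or `if_isVol_unique` for the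
  unweighted statement + `withDensity`.   * `ct_cyl_null`: from the `vol` version of `ct_cyl_wvol` (`Measure.prod` of a null set).
-/

set_option autoImplicit false
set_option linter.unusedSectionVars false
open scoped ContDiff ENNReal Topology
open MeasureTheory Claims.C0499 Set Filter

namespace Claimed.Agent.R315

variable {V : Type} [NormedAddCommGroup V] [NormedSpace ℝ V]
variable [FiniteDimensional ℝ V]
variable {d : ℕ} {M : Set V} {h : Ten V} {t p : V → ℝ}
/-! ### the product parametrisation -/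

section prodparam

variable {τ : V →L[ℝ] ℝ} {e : V} {ψ : E d → V} {U : Set (E d)}

/-- the product parametrisation of the cylinder over the image of `ψ`. -/
noncomputable def ctPsi {d : ℕ} (e : V) (ψ : E d → V) : E (d + 1) → V :=
  fun b => ψ (rm_tl d b) + b 0 • e

/-- its domain. -/
def ctDom {d : ℕ} (U : Set (E d)) : Set (E (d + 1)) := {b | rm_tl d b ∈ U}

theorem ct_prodB_eqns_cite : True := by
  have := @ctPsi.eq_1
  have := @ctDom.eq_1
  trivial

theorem ct_dom_open (hU : IsOpen U) : IsOpen (ctDom U) := hU.preimage (rm_tl d).continuous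

theorem ct_J_mem_dom {u : E d} (hu : u ∈ U) (q : ℝ) : rm_J q u ∈ ctDom U := by
  show rm_tl d (rm_J q u) ∈ U
  rw [rm_tl_J]
  exact hu

theorem ct_psi_J (e : V) (ψ : E d → V) (q : ℝ) (u : E d) : ctPsi e ψ (rm_J q u) = ψ u + q • e := by
  unfold ctPsi
  rw [rm_tl_J, rm_J_zero]

theorem ct_psi_hasFDerivAt (hp : IsParam M ψ U) (e : V) {b : E (d + 1)} (hb : b ∈ ctDom U) :
    HasFDerivAt (ctPsi e ψ)
      ((fderiv ℝ ψ (rm_tl d b)).comp (rm_tl d) + (if_pr (0 : Fin (d + 1))).smulRight e) b :=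
  ((if_differentiableAt hp hb).hasFDerivAt.comp b (rm_tl d).hasFDerivAt).add
    ((if_pr (0 : Fin (d + 1))).hasFDerivAt.smul_const e)

theorem ct_psi_fderiv (hp : IsParam M ψ U) (e : V) {b : E (d + 1)} (hb : b ∈ ctDom U) (X : E (d + 1)) :
    fderiv ℝ (ctPsi e ψ) b X = fderiv ℝ ψ (rm_tl d b) (rm_tl d X) + X 0 • e := by
  rw [(ct_psi_hasFDerivAt hp e hb).fderiv]
  rfl

theorem ct_psi_smooth (hp : IsParam M ψ U) (e : V) : ContDiffOn ℝ ∞ (ctPsi e ψ) (ctDom U) :=
  ((if_smooth hp).comp (rm_tl d).contDiff.contDiffOn fun _ hb => hb).add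
    ((if_pr (0 : Fin (d + 1))).contDiff.contDiffOn.smul contDiffOn_const)

/-- tangent vectors of `M` lie in the kernel of `τ`. -/
theorem ct_tau_fderiv (hp : IsParam M ψ U) (hM : ∀ x ∈ M, τ x = 0) {u : E d} (hu : u ∈ U) (w : E d) :
    τ (fderiv ℝ ψ u w) = 0 := by
  have h1 : (τ ∘ ψ) =ᶠ[𝓝 u] fun _ => (0 : ℝ) := by
    filter_upwards [(if_open hp).mem_nhds hu] with y hy
    exact hM _ (if_mem hp hy)
  have h2 := (τ.hasFDerivAt.comp u (if_differentiableAt hp hu).hasFDerivAt).fderiv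
  have h3 : fderiv ℝ (τ ∘ ψ) u = 0 := by
    rw [h1.fderiv_eq]
    simp
  rw [h3] at h2
  exact (congrArg (fun L : E d →L[ℝ] ℝ => L w) h2).symm

theorem ct_tau_psi (hp : IsParam M ψ U) (hτ : τ e = 1) (hM : ∀ x ∈ M, τ x = 0) {b : E (d + 1)}
    (hb : b ∈ ctDom U) : τ (ctPsi e ψ b) = b 0 := by
  simp [ctPsi, hM _ (if_mem hp hb), hτ]

theorem ct_pr_psi (hp : IsParam M ψ U) (hτ : τ e = 1) (hM : ∀ x ∈ M, τ x = 0) {b : E (d + 1)}
    (hb : b ∈ ctDom U) : ctPr τ e (ctPsi e ψ b) = ψ (rm_tl d b) := by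
  unfold ctPr
  rw [ct_tau_psi hp hτ hM hb]
  simp [ctPsi]

theorem ct_pr_add_smul (τ : V →L[ℝ] ℝ) (e z : V) : ctPr τ e z + τ z • e = z := by
  simp [ctPr]

theorem ct_pr_continuous (τ : V →L[ℝ] ℝ) (e : V) : Continuous (ctPr τ e) := by
  unfold ctPr
  exact continuous_id.sub (τ.continuous.smul continuous_const)

/-- **key lemma**: the product parametrisation. -/
theorem ct_cyl_param (hp : IsParam M ψ U) (hτ : τ e = 1) (hM : ∀ x ∈ M, τ x = 0) :
    IsParam (ctCyl τ e M) (ctPsi e ψ) (ctDom U) := by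
  obtain ⟨O, hO, hOe⟩ := if_image hp
  refine pk_param_mk (O := ctPr τ e ⁻¹' O)
    (g := fun z : V => rm_J (τ z) (Function.invFunOn ψ U (ctPr τ e z))) (ct_dom_open (if_open hp))
    (ct_psi_smooth hp e) ?_ (hO.preimage (ct_pr_continuous τ e)) ?_ ?_ ?_
  · intro b hb v w hvw
    rw [ct_psi_fderiv hp e hb, ct_psi_fderiv hp e hb] at hvw
    have h1 := congrArg τ hvw
    simp only [map_add, map_smul, ct_tau_fderiv hp hM hb, hτ, smul_eq_mul, mul_one, zero_add] at h1
    rw [h1] at hvw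
    rw [← rm_J_tl v, ← rm_J_tl w, h1, if_imm hp hb (add_right_cancel hvw)]
  · ext z
    constructor
    · rintro ⟨b, hb, rfl⟩
      have : ψ (rm_tl d b) ∈ M ∩ O := hOe ▸ Set.mem_image_of_mem ψ hb
      show ctPr τ e (ctPsi e ψ b) ∈ M ∧ ctPr τ e (ctPsi e ψ b) ∈ O
      rw [ct_pr_psi hp hτ hM hb]
      exact this
    · rintro ⟨h1, h2⟩
      have : ctPr τ e z ∈ ψ '' U := hOe ▸ (⟨h1, h2⟩ : ctPr τ e z ∈ M ∩ O)
      obtain ⟨u, hu, hue⟩ := this
      refine ⟨rm_J (τ z) u, ct_J_mem_dom hu _, ?_⟩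
      rw [ct_psi_J, hue, ct_pr_add_smul]
  · have h1 : ContinuousOn (fun z : V => Function.invFunOn ψ U (ctPr τ e z))
        (ctPsi e ψ '' ctDom U) := by
      refine (if_contInv hp).comp (ct_pr_continuous τ e).continuousOn ?_
      rintro _ ⟨b, hb, rfl⟩
      show ctPr τ e (ctPsi e ψ b) ∈ ψ '' U
      rw [ct_pr_psi hp hτ hM hb]
      exact Set.mem_image_of_mem ψ hb
    unfold rm_J
    exact (τ.continuous.continuousOn.smul continuousOn_const).add
      ((rm_in d).continuous.comp_continuousOn h1)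
  · intro b hb
    show rm_J (τ (ctPsi e ψ b)) (Function.invFunOn ψ U (ctPr τ e (ctPsi e ψ b))) = b
    rw [ct_tau_psi hp hτ hM hb, ct_pr_psi hp hτ hM hb, if_leftInv hp hb, rm_J_tl]

/-- the product parametrisations cover the cylinder. -/
theorem ct_cyl_cover (hMf : IsMfd d M) {z : V} (hz : z ∈ ctCyl τ e M) :
    ∃ (ψ : E d → V) (U : Set (E d)) (u : E d), IsParam M ψ U ∧ u ∈ U ∧ ψ u = ctPr τ e z ∧
      rm_J (τ z) u ∈ ctDom U ∧ ctPsi e ψ (rm_J (τ z) u) = z := by
  obtain ⟨ψ, U, hp, u, hu, hue⟩ := hMf _ hz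
  exact ⟨ψ, U, u, hp, hu, hue, ct_J_mem_dom hu _, by rw [ct_psi_J, hue, ct_pr_add_smul]⟩

/-- **the metric of the cylinder in the product parametrisation**. -/
theorem ct_cyl_bil (hp : IsParam M ψ U) (hτ : τ e = 1) (hM : ∀ x ∈ M, τ x = 0)
    (hn : CtNormal τ e M h) {b : E (d + 1)} (hb : b ∈ ctDom U) (X Y : E (d + 1)) :
    if_bil (cm (fun z => h (ctPr τ e z)) (ctPsi e ψ) b) X Y =
      if_bil (cm h ψ (rm_tl d b)) (rm_tl d X) (rm_tl d Y) + X 0 * Y 0 := by
  have hx := if_mem hp hb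
  rw [if_cm_bil, if_cm_bil, ct_pr_psi hp hτ hM hb, ct_psi_fderiv hp e hb, ct_psi_fderiv hp e hb]
  simp only [map_add, map_smul, add_apply, smul_apply, smul_eq_mul, (hn _ hx _).1, (hn _ hx _).2,
    ct_tau_fderiv hp hM hb, hτ]
  ring

theorem ct_tl_eb_succ (a : Fin d) : rm_tl d (eb a.succ) = eb a := by
  rw [← rm_in_eb]
  ext c
  rw [rm_tl_apply, rm_in_succ]

end prodparam

/-! ### block metrics `1 ⊕ g ∘ rm_tl` in a chart -/

section block

/-- `G = 1 ⊕ g ∘ rm_tl` on `ctDom U`. -/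
structure CtBlk {d : ℕ} (G : rm_MF (d + 1)) (g : rm_MF d) (U : Set (E d)) : Prop where
  met : rm_Met g U
  bil : ∀ b ∈ ctDom U, ∀ X Y : E (d + 1),
    if_bil (G b) X Y = if_bil (g (rm_tl d b)) (rm_tl d X) (rm_tl d Y) + X 0 * Y 0

/-- `F = f ∘ rm_tl + a q` on `ctDom U`. -/
structure CtLift {d : ℕ} (F : E (d + 1) → ℝ) (f : E d → ℝ) (a : ℝ) (U : Set (E d)) : Prop where
  smooth : ContDiffOn ℝ ∞ f U
  eq : ∀ b ∈ ctDom U, F b = f (rm_tl d b) + a * b 0

variable {G : rm_MF (d + 1)} {g : rm_MF d} {U : Set (E d)} {b : E (d + 1)}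
  {F K : E (d + 1) → ℝ} {f k : E d → ℝ} {a c : ℝ}

theorem CtBlk.e00 (H : CtBlk G g U) (hb : b ∈ ctDom U) : G b 0 0 = 1 := by
  rw [← if_bil_eb (G b), H.bil b hb, rm_tl_eb0]
  simp

theorem CtBlk.e0s (H : CtBlk G g U) (hb : b ∈ ctDom U) (i : Fin d) : G b 0 i.succ = 0 := by
  rw [← if_bil_eb (G b), H.bil b hb, rm_tl_eb0]
  simp [Fin.succ_ne_zero, eq_comm]

theorem CtBlk.es0 (H : CtBlk G g U) (hb : b ∈ ctDom U) (i : Fin d) : G b i.succ 0 = 0 := by
  rw [← if_bil_eb (G b), H.bil b hb, rm_tl_eb0]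
  simp [Fin.succ_ne_zero, eq_comm]

theorem CtBlk.ess (H : CtBlk G g U) (hb : b ∈ ctDom U) (i j : Fin d) :
    G b i.succ j.succ = g (rm_tl d b) i j := by
  rw [← if_bil_eb (G b), H.bil b hb, ct_tl_eb_succ, ct_tl_eb_succ, if_bil_eb]
  simp [Fin.succ_ne_zero, eq_comm]

theorem CtBlk.rmMet (H : CtBlk G g U) : rm_Met G (ctDom U) := by
  refine ⟨ct_dom_open H.met.opn, fun i j => ?_, fun b hb => ?_⟩
  · refine Fin.cases ?_ (fun i => ?_) i <;> refine Fin.cases ?_ (fun j => ?_) j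
    · exact contDiffOn_const.congr fun b hb => H.e00 hb
    · exact contDiffOn_const.congr fun b hb => H.e0s hb j
    · exact contDiffOn_const.congr fun b hb => H.es0 hb i
    · exact ((H.met.smooth i j).comp (rm_tl d).contDiff.contDiffOn fun _ hb => hb).congr
        fun b hb => H.ess hb i j
  · have hpd := H.met.pos _ hb
    refine pk_posDef_of_bil (fun i j => ?_) fun X hX => ?_
    · rw [← if_bil_eb (G b) i j, ← if_bil_eb (G b) j i, H.bil b hb, H.bil b hb,
        if_bil_symm (if_isSymm_of_posSemidef hpd.posSemidef), mul_comm]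
    · rw [H.bil b hb]
      by_cases h0 : rm_tl d X = 0
      · have hX0 : X 0 ≠ 0 := by
          intro h1
          apply hX
          rw [← rm_J_tl X, h0, h1]
          simp [rm_J]
        rw [h0]
        simp only [map_zero, zero_add]
        exact mul_self_pos.2 hX0
      · have := pk_mfd_bil_pos hpd h0
        have := mul_self_nonneg (X 0)
        linarith

theorem CtBlk.orth (H : CtBlk G g U) : rm_Orth G (ctDom U) := fun _ hb i => H.e0s hb i

theorem CtBlk.lps (H : CtBlk G g U) (hb : b ∈ ctDom U) : rm_lps G b = 1 := by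
  unfold rm_lps
  rw [H.e00 hb, Real.sqrt_one]

theorem CtBlk.tan (H : CtBlk G g U) (hb : b ∈ ctDom U) : rm_tan G b = g (rm_tl d b) := by
  ext i j
  exact H.ess hb i j

theorem CtBlk.sl (H : CtBlk G g U) (q : ℝ) {y : E d} (hy : y ∈ U) : rm_sl G q y = g y := by
  unfold rm_sl
  rw [H.tan (ct_J_mem_dom hy q), rm_tl_J]

theorem CtBlk.sl_ev (H : CtBlk G g U) (q : ℝ) {y : E d} (hy : y ∈ U) : rm_sl G q =ᶠ[𝓝 y] g :=
  Filter.eventuallyEq_of_mem (H.met.opn.mem_nhds hy) fun _ hw => H.sl q hw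

theorem ct_pdiff_tl_zero {φ : E d → ℝ} (hφ : DifferentiableAt ℝ φ (rm_tl d b)) :
    pdiff (fun w => φ (rm_tl d w)) 0 b = 0 := by
  unfold pdiff
  have := (hφ.hasFDerivAt.comp b (rm_tl d).hasFDerivAt).fderiv
  have h2 : (fun w => φ (rm_tl d w)) = φ ∘ rm_tl d := rfl
  rw [h2, this, ContinuousLinearMap.comp_apply, rm_tl_eb0, map_zero]

theorem ct_pdiff_add_const (φ : E d → ℝ) (r : ℝ) (i : Fin d) (y : E d) :
    pdiff (fun w => φ w + r) i y = pdiff φ i y := by
  unfold pdiff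
  rw [fderiv_add_const]

theorem ct_pdiff_coord (r : ℝ) : pdiff (fun w : E (d + 1) => r * w 0) 0 b = r := by
  have h1 : HasFDerivAt (fun w : E (d + 1) => r * w 0) (r • if_pr (0 : Fin (d + 1))) b :=
    (if_pr (0 : Fin (d + 1))).hasFDerivAt.const_mul r
  unfold pdiff
  rw [h1.fderiv]
  simp

theorem CtBlk.sff (H : CtBlk G g U) (hb : b ∈ ctDom U) : rm_sff G b = 0 := by
  ext i j
  show (2 * rm_lps G b)⁻¹ * pdiff (fun w => G w i.succ j.succ) 0 b = 0
  rw [rm_pdiff_congr_on (g := fun w => g (rm_tl d w) i j) (ct_dom_open H.met.opn) hb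
    fun w hw => H.ess hw i j,
    ct_pdiff_tl_zero (φ := fun y => g y i j) (rm_da H.met.opn (H.met.smooth i j) hb), mul_zero]

theorem CtBlk.H0 (H : CtBlk G g U) (hb : b ∈ ctDom U) : rm_H G b = 0 := by
  unfold rm_H
  rw [H.sff hb]
  simp

theorem CtBlk.Jsq0 (H : CtBlk G g U) (hb : b ∈ ctDom U) : rm_Jsq G b = 0 := by
  unfold rm_Jsq
  rw [H.sff hb]
  simp

theorem CtLift.contDiffOn (hF : CtLift F f a U) : ContDiffOn ℝ ∞ F (ctDom U) :=
  ((hF.smooth.comp (rm_tl d).contDiff.contDiffOn fun _ hb => hb).add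
    (contDiffOn_const.mul (if_pr (0 : Fin (d + 1))).contDiff.contDiffOn)).congr hF.eq

theorem CtLift.pdiff0 (hF : CtLift F f a U) (hU : IsOpen U) (hb : b ∈ ctDom U) :
    pdiff F 0 b = a := by
  rw [rm_pdiff_congr_on (g := fun w => f (rm_tl d w) + a * w 0) (ct_dom_open hU) hb hF.eq,
    rm_pdiff_add (f := fun w => f (rm_tl d w)) (g := fun w => a * w 0)
      ((rm_da hU hF.smooth hb).comp b (rm_tl d).differentiableAt)
      ((if_pr (0 : Fin (d + 1))).differentiableAt.const_mul a),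
    ct_pdiff_tl_zero (rm_da hU hF.smooth hb), ct_pdiff_coord, zero_add]

theorem CtLift.fs_ev (hF : CtLift F f a U) (hU : IsOpen U) (q : ℝ) {y : E d} (hy : y ∈ U) :
    rm_fs F q =ᶠ[𝓝 y] fun w => f w + a * q :=
  Filter.eventuallyEq_of_mem (hU.mem_nhds hy) fun w hw => by
    show F (rm_J q w) = _
    rw [hF.eq _ (ct_J_mem_dom hw q), rm_tl_J, rm_J_zero]

theorem CtBlk.e_lift (H : CtBlk G g U) (hF : CtLift F f a U) (hb : b ∈ ctDom U) :
    rm_e G F b = a := by
  unfold rm_e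
  rw [H.lps hb, hF.pdiff0 H.met.opn hb]
  simp

theorem CtBlk.e_of_const (H : CtBlk G g U) {r : ℝ} (hF : ∀ w ∈ ctDom U, F w = r)
    (hb : b ∈ ctDom U) : rm_e G F b = 0 := by
  unfold rm_e
  rw [rm_pdiff_congr_on (g := fun _ => r) (ct_dom_open H.met.opn) hb hF, rm_pdiff_const, mul_zero]

theorem CtBlk.ipS_lift (H : CtBlk G g U) (hF : CtLift F f a U) (hK : CtLift K k c U)
    (hb : b ∈ ctDom U) : rm_ipS G F K b = gradIpC g f k (rm_tl d b) := by
  unfold rm_ipS
  rw [if_gradIpC_congr₂ (H.sl (b 0) hb) (hF.fs_ev H.met.opn (b 0) hb) (hK.fs_ev H.met.opn (b 0) hb)]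
  unfold gradIpC
  simp only [ct_pdiff_add_const]

theorem CtBlk.lapS_lift (H : CtBlk G g U) (hF : CtLift F f a U) (hb : b ∈ ctDom U) :
    rm_lapS G F b = lapC g f (rm_tl d b) := by
  unfold rm_lapS
  rw [if_lapC_congr (H.sl_ev (b 0) hb) (hF.fs_ev H.met.opn (b 0) hb)]
  unfold lapC
  simp only [ct_pdiff_add_const]

theorem CtBlk.lps_lift (H : CtBlk G g U) : CtLift (rm_lps G) (fun _ => 1) 0 U :=
  ⟨contDiffOn_const, fun b hb => by rw [H.lps hb]; simp⟩

theorem ct_gradIpC_const (g : rm_MF d) (r : ℝ) (k : E d → ℝ) (y : E d) :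
    gradIpC g (fun _ => r) k y = 0 := by
  unfold gradIpC
  simp [rm_pdiff_const]

/-- scalar curvature of a block metric. -/
theorem CtBlk.scalar (H : CtBlk G g U) (hb : b ∈ ctDom U) :
    scalarCoord G b = scalarCoord g (rm_tl d b) := by
  rw [rm_adm_scal H.rmMet H.orth hb, H.Jsq0 hb, H.H0 hb,
    H.e_of_const (r := 0) (fun w hw => H.H0 hw) hb, H.lapS_lift H.lps_lift hb, rm_lap_const]
  unfold rm_scalS
  rw [if_scalar_congr (H.sl_ev (b 0) hb)]
  simp

/-- inner products for a block metric. -/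
theorem CtBlk.ip (H : CtBlk G g U) (hF : CtLift F f a U) (hK : CtLift K k c U)
    (hb : b ∈ ctDom U) : gradIpC G F K b = gradIpC g f k (rm_tl d b) + a * c := by
  rw [rm_adm_ip H.rmMet H.orth hb hF.contDiffOn hK.contDiffOn, H.ipS_lift hF hK hb,
    H.e_lift hF hb, H.e_lift hK hb]

/-- the Laplacian of a block metric. -/
theorem CtBlk.lap (H : CtBlk G g U) (hF : CtLift F f a U) (hb : b ∈ ctDom U) :
    lapC G F b = lapC g f (rm_tl d b) := by
  rw [rm_adm_lap H.rmMet H.orth hb hF.contDiffOn, H.lapS_lift hF hb,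
    H.e_of_const (r := a) (fun w hw => H.e_lift hF hw) hb, H.H0 hb, H.ipS_lift H.lps_lift hF hb,
    ct_gradIpC_const]
  simp

end block

/-! ### the geometry of the cylinder -/

section cylgeo

variable {τ : V →L[ℝ] ℝ} {e : V} {ψ : E d → V} {U : Set (E d)}

theorem ct_cyl_blk (hG : CtGeo d M h t) (hp : IsParam M ψ U) (hτ : τ e = 1)
    (hM : ∀ x ∈ M, τ x = 0) (hn : CtNormal τ e M h) :
    CtBlk (cm (fun z => h (ctPr τ e z)) (ctPsi e ψ)) (cm h ψ) U :=
  ⟨gs_met hG.met hp, fun _ hb X Y => ct_cyl_bil hp hτ hM hn hb X Y⟩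

theorem ct_cyl_lift (hp : IsParam M ψ U) (hτ : τ e = 1) (hM : ∀ x ∈ M, τ x = 0) {f F : V → ℝ}
    {a : ℝ} (hf : SmoothAlong d M f) (hF : ∀ z ∈ ctCyl τ e M, F z = f (ctPr τ e z) + a * τ z) :
    CtLift (F ∘ ctPsi e ψ) (f ∘ ψ) a U :=
  ⟨hf ψ U hp, fun b hb => by
    show F (ctPsi e ψ b) = f (ψ (rm_tl d b)) + a * b 0
    rw [hF _ (if_mem (ct_cyl_param hp hτ hM) hb), ct_pr_psi hp hτ hM hb, ct_tau_psi hp hτ hM hb]⟩

theorem ct_cyl_mfd (hMf : IsMfd d M) (hτ : τ e = 1) (hM : ∀ x ∈ M, τ x = 0) :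
    IsMfd (d + 1) (ctCyl τ e M) := fun _ hz => by
  obtain ⟨ψ, U, u, hp, -, -, hb, he⟩ := ct_cyl_cover hMf hz
  exact ⟨ctPsi e ψ, ctDom U, ct_cyl_param hp hτ hM, _, hb, he⟩

theorem ct_cyl_smooth_aux (hMf : IsMfd d M) (hτ : τ e = 1) (hM : ∀ x ∈ M, τ x = 0) {f F : V → ℝ}
    {a : ℝ} (hf : SmoothAlong d M f) (hF : ∀ z ∈ ctCyl τ e M, F z = f (ctPr τ e z) + a * τ z) :
    SmoothAlong (d + 1) (ctCyl τ e M) F :=
  if_smoothAlong_of_atlas fun _ hz => by
    obtain ⟨ψ, U, u, hp, -, -, hb, he⟩ := ct_cyl_cover hMf hz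
    exact ⟨ctPsi e ψ, ctDom U, ct_cyl_param hp hτ hM, ⟨_, hb, he⟩,
      (ct_cyl_lift hp hτ hM hf hF).contDiffOn⟩

theorem ct_cyl_met (hG : CtGeo d M h t) (hτ : τ e = 1) (hM : ∀ x ∈ M, τ x = 0)
    (hn : CtNormal τ e M h) : IsMetricOn (d + 1) (ctCyl τ e M) (fun z => h (ctPr τ e z)) :=
  if_isMetricOn_of_atlas fun _ hz => by
    obtain ⟨ψ, U, u, hp, -, -, hb, he⟩ := ct_cyl_cover hG.mfd hz
    have H := (ct_cyl_blk hG hp hτ hM hn).rmMet
    exact ⟨ctPsi e ψ, ctDom U, ct_cyl_param hp hτ hM, ⟨_, hb, he⟩, H.smooth, H.pos⟩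

/-- scalar curvature of a cylinder. -/
theorem ct_cyl_scal (hG : CtGeo d M h t) (hτ : τ e = 1) (hM : ∀ x ∈ M, τ x = 0)
    (hn : CtNormal τ e M h) {z : V} (hz : z ∈ ctCyl τ e M) :
    scal (d + 1) (ctCyl τ e M) (fun z => h (ctPr τ e z)) z = scal d M h (ctPr τ e z) := by
  obtain ⟨ψ, U, u, hp, hu, hue, hb, he⟩ := ct_cyl_cover hG.mfd hz
  have h1 := if_scal_eq (ct_cyl_met hG hτ hM hn) (ct_cyl_param hp hτ hM) hb
  rw [he] at h1
  rw [h1, (ct_cyl_blk hG hp hτ hM hn).scalar hb, rm_tl_J, ← if_scal_eq hG.met hp hu, hue]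

/-- inner products on a cylinder. -/
theorem ct_cyl_ip_aux (hG : CtGeo d M h t) (hτ : τ e = 1) (hM : ∀ x ∈ M, τ x = 0)
    (hn : CtNormal τ e M h) {f k F K : V → ℝ} {a c : ℝ} (hf : SmoothAlong d M f)
    (hk : SmoothAlong d M k) (hF : ∀ z ∈ ctCyl τ e M, F z = f (ctPr τ e z) + a * τ z)
    (hK : ∀ z ∈ ctCyl τ e M, K z = k (ctPr τ e z) + c * τ z) {z : V} (hz : z ∈ ctCyl τ e M) :
    gradIp (d + 1) (ctCyl τ e M) (fun z => h (ctPr τ e z)) F K z =
      gradIp d M h f k (ctPr τ e z) + a * c := by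
  obtain ⟨ψ, U, u, hp, hu, hue, hb, he⟩ := ct_cyl_cover hG.mfd hz
  have h1 := if_gradIp_eq (ct_cyl_met hG hτ hM hn) (ct_cyl_smooth_aux hG.mfd hτ hM hf hF)
    (ct_cyl_smooth_aux hG.mfd hτ hM hk hK) (ct_cyl_param hp hτ hM) hb
  rw [he] at h1
  rw [h1, (ct_cyl_blk hG hp hτ hM hn).ip (ct_cyl_lift hp hτ hM hf hF) (ct_cyl_lift hp hτ hM hk hK) hb,
    rm_tl_J, ← if_gradIp_eq hG.met hf hk hp hu, hue]

/-- the Laplacian on a cylinder. -/
theorem ct_cyl_lap_aux (hG : CtGeo d M h t) (hτ : τ e = 1) (hM : ∀ x ∈ M, τ x = 0)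
    (hn : CtNormal τ e M h) {f F : V → ℝ} {a : ℝ} (hf : SmoothAlong d M f)
    (hF : ∀ z ∈ ctCyl τ e M, F z = f (ctPr τ e z) + a * τ z) {z : V} (hz : z ∈ ctCyl τ e M) :
    lap (d + 1) (ctCyl τ e M) (fun z => h (ctPr τ e z)) F z = lap d M h f (ctPr τ e z) := by
  obtain ⟨ψ, U, u, hp, hu, hue, hb, he⟩ := ct_cyl_cover hG.mfd hz
  have h1 := if_lap_eq (ct_cyl_met hG hτ hM hn) (ct_cyl_smooth_aux hG.mfd hτ hM hf hF)
    (ct_cyl_param hp hτ hM) hb
  rw [he] at h1
  rw [h1, (ct_cyl_blk hG hp hτ hM hn).lap (ct_cyl_lift hp hτ hM hf hF) hb,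
    rm_tl_J, ← if_lap_eq hG.met hf hp hu, hue]

/-- inner products on a cylinder (the form used in `Rg/Tail.lean`). -/
theorem ct_cyl_ip (hG : CtGeo d M h t) (hτ : τ e = 1) (hM : ∀ x ∈ M, τ x = 0)
    (hn : CtNormal τ e M h) {f g : V → ℝ} (hf : SmoothAlong d M f) (hg : SmoothAlong d M g)
    (a b : ℝ) {z : V} (hz : z ∈ ctCyl τ e M) :
    gradIp (d + 1) (ctCyl τ e M) (fun z => h (ctPr τ e z)) (fun z => f (ctPr τ e z) + a * τ z)
        (fun z => g (ctPr τ e z) + b * τ z) z =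
      gradIp d M h f g (ctPr τ e z) + a * b :=
  ct_cyl_ip_aux hG hτ hM hn hf hg (fun _ _ => rfl) (fun _ _ => rfl) hz

/-- the drift Laplacian on a cylinder (the form used in `Rg/Tail.lean`). -/
theorem ct_cyl_wlap (hG : CtGeo d M h t) (hτ : τ e = 1) (hM : ∀ x ∈ M, τ x = 0)
    (hn : CtNormal τ e M h) {f : V → ℝ} (hf : SmoothAlong d M f) (a : ℝ) {z : V}
    (hz : z ∈ ctCyl τ e M) :
    wlap (d + 1) (ctCyl τ e M) (fun z => h (ctPr τ e z)) (fun z => t (ctPr τ e z))
        (fun z => f (ctPr τ e z) + a * τ z) z =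
      wlap d M h t f (ctPr τ e z) := by
  unfold wlap
  rw [ct_cyl_lap_aux hG hτ hM hn hf (fun _ _ => rfl) hz,
    ct_cyl_ip_aux hG hτ hM hn (a := 0) hG.drift hf (fun _ _ => by simp) (fun _ _ => rfl) hz]
  simp

end cylgeo

variable [MeasurableSpace V] [BorelSpace V]

/-! ### cylinders -/

variable {τ : V →L[ℝ] ℝ} {e : V}

omit [MeasurableSpace V] [BorelSpace V] in
theorem CtGeo.cyl (hG : CtGeo d M h t) (hτ : τ e = 1) (hM : ∀ x ∈ M, τ x = 0)
    (hn : CtNormal τ e M h) :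
    CtGeo (d + 1) (ctCyl τ e M) (fun z => h (ctPr τ e z)) (fun z => t (ctPr τ e z)) := by
  exact ⟨ct_cyl_mfd hG.mfd hτ hM, ct_cyl_met hG hτ hM hn,
    ct_cyl_smooth_aux hG.mfd hτ hM (a := 0) hG.drift fun _ _ => by simp⟩

omit [MeasurableSpace V] [BorelSpace V] in
/-- the drift scalar curvature of a cylinder. -/
theorem ct_cyl_Dsc (hG : CtGeo d M h t) (hτ : τ e = 1) (hM : ∀ x ∈ M, τ x = 0)
    (hn : CtNormal τ e M h) {z : V} (hz : z ∈ ctCyl τ e M) :
    Dsc (d + 1) (ctCyl τ e M) (fun z => h (ctPr τ e z)) (fun z => t (ctPr τ e z)) z =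
      Dsc d M h t (ctPr τ e z) := by
  unfold Dsc
  rw [ct_cyl_scal hG hτ hM hn hz,
    ct_cyl_lap_aux hG hτ hM hn (a := 0) hG.drift (fun _ _ => by simp) hz,
    if_gradSq_eq_gradIp, if_gradSq_eq_gradIp,
    ct_cyl_ip_aux hG hτ hM hn (a := 0) (c := 0) hG.drift hG.drift (fun _ _ => by simp)
      (fun _ _ => by simp) hz]
  simp

omit [MeasurableSpace V] [BorelSpace V] in
/-- pulled back functions are smooth along the cylinder. -/
theorem ct_cyl_smooth (hG : CtGeo d M h t) (hτ : τ e = 1) (hM : ∀ x ∈ M, τ x = 0) {f : V → ℝ}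
    (hf : SmoothAlong d M f) : SmoothAlong (d + 1) (ctCyl τ e M) (fun z => f (ctPr τ e z)) := by
  exact ct_cyl_smooth_aux hG.mfd hτ hM (a := 0) hf fun _ _ => by simp

omit [MeasurableSpace V] [BorelSpace V] in
/-- gradients on a cylinder. -/
theorem ct_cyl_gradSq (hG : CtGeo d M h t) (hτ : τ e = 1) (hM : ∀ x ∈ M, τ x = 0)
    (hn : CtNormal τ e M h) {f : V → ℝ} (hf : SmoothAlong d M f) (c : ℝ) {z : V}
    (hz : z ∈ ctCyl τ e M) :
    gradSq (d + 1) (ctCyl τ e M) (fun z => h (ctPr τ e z)) (fun z => f (ctPr τ e z) + c * τ z) z =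
      gradSq d M h f (ctPr τ e z) + c ^ 2 := by
  rw [if_gradSq_eq_gradIp, if_gradSq_eq_gradIp, ct_cyl_ip hG hτ hM hn hf hf c c hz]
  ring

/-! ### the volume of a cylinder -/

/-- `(u, s) ↦ (s, u)` from `E d × ℝ` to `E (d + 1)` preserves the volume. -/
theorem ct_J_measurePreserving (d : ℕ) :
    MeasurePreserving (fun p : E d × ℝ => rm_J p.2 p.1)
      ((volume : Measure (E d)).prod (volume : Measure ℝ)) (volume : Measure (E (d + 1))) := by
  have h1 : MeasurePreserving (Prod.swap : E d × ℝ → ℝ × E d) (volume.prod volume)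
      (volume.prod volume) := Measure.measurePreserving_swap
  have h2 : MeasurePreserving (Prod.map id (WithLp.ofLp) : ℝ × E d → ℝ × (Fin d → ℝ))
      (volume.prod volume) (volume.prod volume) :=
    (MeasurePreserving.id _).prod (PiLp.volume_preserving_ofLp (Fin d))
  have h3 := (volume_preserving_piFinSuccAbove (fun _ : Fin (d + 1) => ℝ) 0).symm
    (MeasurableEquiv.piFinSuccAbove (fun _ : Fin (d + 1) => ℝ) 0)
  have h4 := PiLp.volume_preserving_toLp (Fin (d + 1))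
  have h5 := h4.comp (h3.comp (h2.comp h1))
  have e : (fun p : E d × ℝ => rm_J p.2 p.1) = (WithLp.toLp 2 ∘
      ⇑(MeasurableEquiv.piFinSuccAbove (fun _ : Fin (d + 1) => ℝ) 0).symm ∘
        Prod.map id WithLp.ofLp ∘ Prod.swap) := by
    funext p
    ext i
    refine Fin.cases ?_ (fun a => ?_) i
    · rw [rm_J_zero]
      simp [MeasurableEquiv.piFinSuccAbove, Fin.insertNthEquiv]
    · rw [rm_J_succ]
      simp [MeasurableEquiv.piFinSuccAbove, Fin.insertNthEquiv]
  rw [e]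
  exact h5

/-- Fubini in the chart of a cylinder. -/
theorem ct_fubini_chart {U : Set (E d)} (hU : IsOpen U) {r : E d → ℝ≥0∞} (hr : ContinuousOn r U)
    {A : Set (E (d + 1))} (hA : MeasurableSet A) (hAU : A ⊆ ctDom U) :
    ∫⁻ b in A, r (rm_tl d b) = ∫⁻ u in U, r u * volume {s : ℝ | rm_J s u ∈ A} := by
  classical
  set r' : E d → ℝ≥0∞ := U.indicator r with hr'
  have hr'm : Measurable r' := by
    rw [hr', ← Set.piecewise_eq_indicator]
    exact hr.measurable_piecewise continuousOn_const hU.measurableSet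
  have hFm : Measurable (A.indicator fun b => r' (rm_tl d b)) :=
    (hr'm.comp (rm_tl d).continuous.measurable).indicator hA
  have hJm : Measurable (fun p : E d × ℝ => rm_J p.2 p.1) := (ct_J_measurePreserving d).measurable
  calc ∫⁻ b in A, r (rm_tl d b) = ∫⁻ b in A, r' (rm_tl d b) :=
        setLIntegral_congr_fun hA fun b hb =>
          (Set.indicator_of_mem (show rm_tl d b ∈ U from hAU hb) r).symm
    _ = ∫⁻ b, A.indicator (fun b => r' (rm_tl d b)) b := (lintegral_indicator hA _).symm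
    _ = ∫⁻ p : E d × ℝ, A.indicator (fun b => r' (rm_tl d b)) (rm_J p.2 p.1)
          ∂((volume : Measure (E d)).prod (volume : Measure ℝ)) :=
        ((ct_J_measurePreserving d).lintegral_comp hFm).symm
    _ = ∫⁻ u, ∫⁻ s, A.indicator (fun b => r' (rm_tl d b)) (rm_J s u) :=
        lintegral_prod _ (hFm.comp hJm).aemeasurable
    _ = ∫⁻ u, r' u * volume {s : ℝ | rm_J s u ∈ A} := by
        refine lintegral_congr fun u => ?_
        have : (fun s : ℝ => A.indicator (fun b => r' (rm_tl d b)) (rm_J s u)) =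
            {s : ℝ | rm_J s u ∈ A}.indicator fun _ => r' u := by
          funext s
          by_cases hs : rm_J s u ∈ A
          · rw [Set.indicator_of_mem hs,
              Set.indicator_of_mem (show s ∈ {s : ℝ | rm_J s u ∈ A} from hs), rm_tl_J]
          · rw [Set.indicator_of_notMem hs,
              Set.indicator_of_notMem (show s ∉ {s : ℝ | rm_J s u ∈ A} from hs)]
        rw [this, lintegral_indicator_const]
        exact (hJm.comp measurable_prodMk_left) hA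
    _ = ∫⁻ u in U, r u * volume {s : ℝ | rm_J s u ∈ A} := by
        rw [← lintegral_indicator hU.measurableSet]
        refine lintegral_congr fun u => ?_
        by_cases hu : u ∈ U
        · rw [Set.indicator_of_mem hu, hr', Set.indicator_of_mem hu]
        · rw [Set.indicator_of_notMem hu, hr', Set.indicator_of_notMem hu, zero_mul]

/-- two measures which are carried by a countable union of measurable sets and which agree on the
measurable subsets of these sets are equal. -/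
theorem ct_measure_ext_cover {ν ν' : Measure V} {C : ℕ → Set V} (hC : ∀ k, MeasurableSet (C k))
    (h0 : ν (⋃ k, C k)ᶜ = 0) (h0' : ν' (⋃ k, C k)ᶜ = 0)
    (H : ∀ k, ∀ B, MeasurableSet B → B ⊆ C k → ν B = ν' B) : ν = ν' := by
  have hDm : ∀ k, MeasurableSet (disjointed C k) := MeasurableSet.disjointed hC
  have key : ∀ μ : Measure V, μ (⋃ k, C k)ᶜ = 0 → ∀ B, MeasurableSet B →
      μ B = ∑' k, μ (B ∩ disjointed C k) := by
    intro μ hμ B hB
    have h1 : μ B = μ (B ∩ ⋃ k, C k) := (measure_inter_conull hμ).symm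
    rw [h1, ← iUnion_disjointed, inter_iUnion, measure_iUnion
      (fun i j hij => ((disjoint_disjointed C) hij).mono inter_subset_right inter_subset_right)
      fun k => hB.inter (hDm k)]
  ext B hB
  rw [key ν h0 B hB, key ν' h0' B hB]
  exact tsum_congr fun k => H k _ (hB.inter (hDm k)) (inter_subset_right.trans (disjointed_subset C k))

omit [MeasurableSpace V] [BorelSpace V] in
theorem ct_cyl_rho {ψ : E d → V} {U : Set (E d)} (hG : CtGeo d M h t) (hp : IsParam M ψ U)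
    (hτ : τ e = 1) (hM : ∀ x ∈ M, τ x = 0) (hn : CtNormal τ e M h) {b : E (d + 1)}
    (hb : b ∈ ctDom U) :
    ctRho (fun z => h (ctPr τ e z)) (fun z => t (ctPr τ e z)) (ctPsi e ψ) b =
      ctRho h t ψ (rm_tl d b) := by
  have H := ct_cyl_blk hG hp hτ hM hn
  unfold ctRho
  beta_reduce
  rw [ct_pr_psi hp hτ hM hb, rm_blk_det H.rmMet H.orth hb, H.e00 hb, H.tan hb, one_mul]

omit [MeasurableSpace V] [BorelSpace V] in
theorem ct_pr_of_mem (hτ : τ e = 1) (hM : ∀ x ∈ M, τ x = 0) {y : V} (hy : y ∈ M) (s : ℝ) :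
    ctPr τ e (y + s • e) = y := by
  simp [ctPr, hM y hy, hτ]

theorem ct_S_measurable (e : V) : Measurable (fun y : V × ℝ => y.1 + y.2 • e) :=
  (continuous_fst.add (continuous_snd.smul continuous_const)).measurable

/-- the two measures agree on the measurable subsets of the image of a product parametrisation. -/
theorem ct_cyl_wvol_chart {ψ : E d → V} {U : Set (E d)} (hG : CtGeo d M h t) (hp : IsParam M ψ U)
    (hτ : τ e = 1) (hM : ∀ x ∈ M, τ x = 0) (hn : CtNormal τ e M h) {B : Set V}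
    (hB : MeasurableSet B) (hBC : B ⊆ ctPsi e ψ '' ctDom U) :
    wvol (d + 1) (ctCyl τ e M) (fun z => h (ctPr τ e z)) (fun z => t (ctPr τ e z)) B =
      ((wvol d M h t).prod (volume : Measure ℝ)).map (fun y : V × ℝ => y.1 + y.2 • e) B := by
  have hG' := hG.cyl hτ hM hn
  have hp' := ct_cyl_param hp hτ hM
  have hSm := ct_S_measurable e
  set A := ctDom U ∩ ctPsi e ψ ⁻¹' B with hA
  have hAm : MeasurableSet A := if_measurableSet_preimage hp' hB
  have hBA : B = ctPsi e ψ '' A := by rw [hA, image_inter_preimage, inter_eq_right.2 hBC]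
  have hT : MeasurableSet (ψ '' U) := if_measurableSet_image hp (if_open hp).measurableSet Subset.rfl
  have L : wvol (d + 1) (ctCyl τ e M) (fun z => h (ctPr τ e z)) (fun z => t (ctPr τ e z)) B =
      ∫⁻ b in A, ENNReal.ofReal (ctRho h t ψ (rm_tl d b)) := by
    conv_lhs => rw [hBA]
    rw [ct_wvol_chart hG' hp' inter_subset_left hAm]
    exact setLIntegral_congr_fun hAm fun b hb => by rw [ct_cyl_rho hG hp hτ hM hn hb.1]
  rw [L, Measure.map_apply hSm hB, Measure.prod_apply (hSm hB)]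
  set φ : V → ℝ≥0∞ := fun y =>
    volume (Prod.mk y ⁻¹' ((fun y : V × ℝ => y.1 + y.2 • e) ⁻¹' B)) with hφ
  have h1 : ∫⁻ y, φ y ∂(wvol d M h t) = ∫⁻ y in ψ '' U, φ y ∂(wvol d M h t) := by
    rw [← lintegral_indicator hT]
    refine lintegral_congr_ae ?_
    have hae : ∀ᵐ y ∂(wvol d M h t), y ∈ M := by
      rw [ae_iff]
      exact ct_wvol_compl hG
    filter_upwards [hae] with y hy
    by_cases hyT : y ∈ ψ '' U
    · rw [indicator_of_mem hyT]
    · rw [indicator_of_notMem hyT]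
      have : Prod.mk y ⁻¹' ((fun y : V × ℝ => y.1 + y.2 • e) ⁻¹' B) = ∅ := by
        ext s
        simp only [mem_preimage, mem_empty_iff_false, iff_false]
        intro hs
        obtain ⟨b, hb, hbe⟩ := hBC hs
        apply hyT
        have h2 := ct_pr_psi hp hτ hM hb
        rw [hbe, ct_pr_of_mem hτ hM hy] at h2
        exact ⟨_, hb, h2.symm⟩
      show volume _ = 0
      rw [this, measure_empty]
  rw [h1, ct_lintegral_wvol_chart hG hp Subset.rfl (if_open hp).measurableSet φ,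
    ct_fubini_chart (if_open hp) (r := fun u => ENNReal.ofReal (ctRho h t ψ u))
      (ENNReal.continuous_ofReal.comp_continuousOn (ct_rho_continuousOn hG hp)) hAm
      inter_subset_left]
  refine setLIntegral_congr_fun (if_open hp).measurableSet fun u hu => ?_
  have hset : {s : ℝ | rm_J s u ∈ A} =
      Prod.mk (ψ u) ⁻¹' ((fun y : V × ℝ => y.1 + y.2 • e) ⁻¹' B) := by
    ext s
    show rm_J s u ∈ A ↔ ψ u + s • e ∈ B
    rw [hA]
    constructor
    · rintro ⟨_, h2⟩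
      rwa [mem_preimage, ct_psi_J] at h2
    · intro h2
      exact ⟨ct_J_mem_dom hu s, by rw [mem_preimage, ct_psi_J]; exact h2⟩
  show _ * volume {s : ℝ | rm_J s u ∈ A} = _ * φ (ψ u)
  rw [hset]

theorem ct_cyl_wvol_aux (hG : CtGeo d M h t) (hτ : τ e = 1) (hM : ∀ x ∈ M, τ x = 0)
    (hn : CtNormal τ e M h) :
    wvol (d + 1) (ctCyl τ e M) (fun z => h (ctPr τ e z)) (fun z => t (ctPr τ e z)) =
      ((wvol d M h t).prod (volume : Measure ℝ)).map (fun y : V × ℝ => y.1 + y.2 • e) := by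
  have hG' := hG.cyl hτ hM hn
  have hSm := ct_S_measurable e
  obtain ⟨ψ, U, hp, he⟩ := if_exists_atlas hG.mfd
  have hp' : ∀ k, IsParam (ctCyl τ e M) (ctPsi e (ψ k)) (ctDom (U k)) :=
    fun k => ct_cyl_param (hp k) hτ hM
  have hcov : (⋃ k, ctPsi e (ψ k) '' ctDom (U k)) = ctCyl τ e M := by
    ext z
    constructor
    · intro hz
      obtain ⟨k, hk⟩ := mem_iUnion.1 hz
      exact if_image_subset (hp' k) hk
    · intro hz
      have h1 : ctPr τ e z ∈ ⋃ k, ψ k '' U k := he ▸ hz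
      obtain ⟨k, u, hu, hue⟩ := mem_iUnion.1 h1
      exact mem_iUnion.2 ⟨k, rm_J (τ z) u, ct_J_mem_dom hu _, by
        rw [ct_psi_J, hue, ct_pr_add_smul]⟩
  refine ct_measure_ext_cover (C := fun k => ctPsi e (ψ k) '' ctDom (U k))
    (fun k => if_measurableSet_image (hp' k) (if_open (hp' k)).measurableSet Subset.rfl) ?_ ?_ ?_
  · rw [hcov]
    exact ct_wvol_compl hG'
  · rw [hcov, Measure.map_apply hSm (ct_measurableSet hG'.mfd).compl]
    refine measure_mono_null (t := Mᶜ ×ˢ univ) ?_ ?_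
    · rintro ⟨y, s⟩ hys
      refine ⟨fun hy => hys ?_, mem_univ _⟩
      show ctPr τ e (y + s • e) ∈ M
      rw [ct_pr_of_mem hτ hM hy]
      exact hy
    · rw [Measure.prod_prod, ct_wvol_compl hG, zero_mul]
  · intro k B hB hBC
    exact ct_cyl_wvol_chart hG (hp k) hτ hM hn hB hBC

/-- cylinders over null sets are null. -/
theorem ct_cyl_null (hG : CtGeo d M h t) (hτ : τ e = 1) (hM : ∀ x ∈ M, τ x = 0)
    (hn : CtNormal τ e M h) {N : Set V} (hN : vol d M h N = 0) :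
    vol (d + 1) (ctCyl τ e M) (fun z => h (ctPr τ e z)) (ctCyl τ e N) = 0 := by
  have hG' := hG.cyl hτ hM hn
  rw [← ct_wvol_eq_zero_iff hG']
  have hN' : wvol d M h t N = 0 := (ct_wvol_eq_zero_iff hG N).2 hN
  set N' := toMeasurable (wvol d M h t) N with hN'def
  have hN'0 : wvol d M h t N' = 0 := by
    rw [hN'def, measure_toMeasurable]
    exact hN'
  have hN'm : MeasurableSet N' := measurableSet_toMeasurable _ _
  refine measure_mono_null (t := ctCyl τ e N') (fun z hz => subset_toMeasurable _ _ hz) ?_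
  have hm : MeasurableSet (ctCyl τ e N') := (ct_pr_continuous τ e).measurable hN'm
  rw [ct_cyl_wvol_aux hG hτ hM hn, Measure.map_apply (ct_S_measurable e) hm]
  refine measure_mono_null (t := (N' ∪ Mᶜ) ×ˢ univ) ?_ ?_
  · rintro ⟨y, s⟩ hys
    refine ⟨?_, mem_univ _⟩
    by_cases hy : y ∈ M
    · left
      have h1 : ctPr τ e (y + s • e) ∈ N' := hys
      rwa [ct_pr_of_mem hτ hM hy] at h1
    · right
      exact hy
  · rw [Measure.prod_prod, measure_union_null hN'0 (ct_wvol_compl hG), zero_mul]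

/-- weighted volume of a cylinder = product measure. -/
theorem ct_cyl_wvol (hG : CtGeo d M h t) (hτ : τ e = 1) (hM : ∀ x ∈ M, τ x = 0)
    (hn : CtNormal τ e M h) :
    wvol (d + 1) (ctCyl τ e M) (fun z => h (ctPr τ e z)) (fun z => t (ctPr τ e z)) =
      ((wvol d M h t).prod (volume : Measure ℝ)).map (fun y : V × ℝ => y.1 + y.2 • e) := by
  exact ct_cyl_wvol_aux hG hτ hM hn

end Claimed.Agent.R315
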