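import Claimed.Agent.R315.Ct.ProdB
import Claimed.Agent.R315.Pk.Mfd
import Claimed.Agent.Lib.Gmt.BvProdM

/-!
# Row 315, package Ct: file `ProdC.lean`, continuation of `ProdB.lean`

PACKAGE L-Ct-ProdC (perimeter measure of a cylinder set).  PLAN.
By `ct_wper_unique` it is enough to show that the right hand side is `IsWPer` for the cylinder.  In the product parametrisation `Ψ` of
`ProdB` one has `ctPre Ψ _ (ctCyl τ e F) = Gmt.gmtTimesR`-type product of `ctPre ψ U F` (coordinate `0` = the line; `Lib/Gmt/BvProd.lean`, `IFp.lean`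
use `gmtHor`, `gmtTimesR`, `gmtProdInt`; permute coordinates if necessary by `gmtPer_linear`) and `ctA (h∘pr) (t∘pr) Ψ = gmtProdInt (ctA h t ψ) c` with
`c = ctRho²` (block matrix: `ω² det G · (1 ⊕ G⁻¹)`).  The chart statement `gmtPerM (gmtProdInt A c) (S × ℝ) = gmtPerM A S × volume` is in the products chain
of helper75 (`BvProd`); if it is not stated there in this form ask helper75.  `IsWPer` must be checked for ALL parametrisations of the cylinder:
use `ct_perM_transition` (`BvB`) to pass from an arbitrary parametrisation to the `Ψ`'s (countable cover).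
-/

set_option autoImplicit false
open scoped ContDiff ENNReal Topology
open MeasureTheory Claims.C0499 Set Filter

namespace Claimed.Agent.R315

/-! ### block matrices -/

/-- the block matrix `G ⊕ 1` (last coordinate = the line). -/
noncomputable def ctcBlk {d : ℕ} (G : Matrix (Fin d) (Fin d) ℝ) :
    Matrix (Fin (d + 1)) (Fin (d + 1)) ℝ :=
  Matrix.reindex finSumFinEquiv finSumFinEquiv
    (Matrix.fromBlocks G 0 0 (1 : Matrix (Fin 1) (Fin 1) ℝ))

variable {d : ℕ}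

theorem ctcBlk_symm_castSucc (a : Fin d) :
    (finSumFinEquiv (m := d) (n := 1)).symm (Fin.castSucc a) = Sum.inl a :=
  finSumFinEquiv_symm_apply_castAdd a

theorem ctcBlk_cc (G : Matrix (Fin d) (Fin d) ℝ) (a b : Fin d) :
    ctcBlk G (Fin.castSucc a) (Fin.castSucc b) = G a b := by
  simp only [ctcBlk, Matrix.reindex_apply, Matrix.submatrix_apply, ctcBlk_symm_castSucc,
    Matrix.fromBlocks_apply₁₁]

theorem ctcBlk_cl (G : Matrix (Fin d) (Fin d) ℝ) (a : Fin d) :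
    ctcBlk G (Fin.castSucc a) (Fin.last d) = 0 := by
  simp only [ctcBlk, Matrix.reindex_apply, Matrix.submatrix_apply, ctcBlk_symm_castSucc,
    finSumFinEquiv_symm_last, Matrix.fromBlocks_apply₁₂, Matrix.zero_apply]

theorem ctcBlk_lc (G : Matrix (Fin d) (Fin d) ℝ) (b : Fin d) :
    ctcBlk G (Fin.last d) (Fin.castSucc b) = 0 := by
  simp only [ctcBlk, Matrix.reindex_apply, Matrix.submatrix_apply, ctcBlk_symm_castSucc,
    finSumFinEquiv_symm_last, Matrix.fromBlocks_apply₂₁, Matrix.zero_apply]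

theorem ctcBlk_ll (G : Matrix (Fin d) (Fin d) ℝ) : ctcBlk G (Fin.last d) (Fin.last d) = 1 := by
  simp only [ctcBlk, Matrix.reindex_apply, Matrix.submatrix_apply,
    finSumFinEquiv_symm_last, Matrix.fromBlocks_apply₂₂, Matrix.one_apply_eq]

theorem ctcBlk_det (G : Matrix (Fin d) (Fin d) ℝ) : (ctcBlk G).det = G.det := by
  unfold ctcBlk
  rw [Matrix.det_reindex_self, Matrix.det_fromBlocks_zero₂₁, Matrix.det_one, mul_one]

theorem ctcBlk_inv {G : Matrix (Fin d) (Fin d) ℝ} (hG : IsUnit G) : (ctcBlk G)⁻¹ = ctcBlk G⁻¹ := by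
  unfold ctcBlk
  rw [Matrix.inv_reindex, Matrix.inv_fromBlocks_zero₂₁_of_isUnit_iff _ _ _
    (iff_of_true hG isUnit_one)]
  simp

theorem ctcBlk_bil (H : Matrix (Fin d) (Fin d) ℝ) (ξ η : E (d + 1)) :
    if_bil (ctcBlk H) ξ η =
      if_bil H (Gmt.gmtHor ξ) (Gmt.gmtHor η) + Gmt.gmtVer ξ * Gmt.gmtVer η := by
  rw [if_bil_apply, if_bil_apply]
  simp only [Fin.sum_univ_castSucc, ctcBlk_cc, ctcBlk_cl, ctcBlk_lc, ctcBlk_ll, zero_mul,
    add_zero, Finset.sum_const_zero, zero_add, one_mul, Gmt.fl_hor_apply, Gmt.fl_ver_apply]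

theorem ctcBlk_eq {G : Matrix (Fin d) (Fin d) ℝ} {G' : Matrix (Fin (d + 1)) (Fin (d + 1)) ℝ}
    (hcc : ∀ a b, G' (Fin.castSucc a) (Fin.castSucc b) = G a b)
    (hcl : ∀ a, G' (Fin.castSucc a) (Fin.last d) = 0)
    (hlc : ∀ b, G' (Fin.last d) (Fin.castSucc b) = 0)
    (hll : G' (Fin.last d) (Fin.last d) = 1) : G' = ctcBlk G := by
  ext i j
  refine Fin.lastCases ?_ (fun a => ?_) i <;> refine Fin.lastCases ?_ (fun b => ?_) j
  · rw [hll, ctcBlk_ll]
  · rw [hlc, ctcBlk_lc]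
  · rw [hcl, ctcBlk_cl]
  · rw [hcc, ctcBlk_cc]


/-! ### the product parametrisation (the line is the LAST coordinate, as in `Lib/Gmt`) -/

section param

variable {V : Type} [NormedAddCommGroup V] [NormedSpace ℝ V]
variable {M : Set V} {h : Ten V} {t : V → ℝ} {τ : V →L[ℝ] ℝ} {e : V}
variable {ψ : E d → V} {U : Set (E d)}

/-- the product parametrisation. -/
noncomputable def ctcPsi (e : V) (ψ : E d → V) (y : E (d + 1)) : V :=
  ψ (Gmt.gmtHor y) + Gmt.gmtVer y • e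

theorem ctc_Psi_join (e : V) (ψ : E d → V) (u : E d) (s : ℝ) :
    ctcPsi e ψ (Gmt.gmtJoin u s) = ψ u + s • e := by
  unfold ctcPsi
  rw [Gmt.fl_hor_join, Gmt.fl_ver_join]

theorem ctc_continuous_pr (τ : V →L[ℝ] ℝ) (e : V) : Continuous (ctPr τ e) := by
  unfold ctPr
  exact continuous_id.sub (τ.continuous.smul continuous_const)

theorem ctc_pr_add (hτ : τ e = 1) {x : V} (hx : τ x = 0) (s : ℝ) : ctPr τ e (x + s • e) = x := by
  unfold ctPr
  rw [map_add, map_smul, hx, hτ, smul_eq_mul, mul_one, zero_add, add_sub_cancel_right]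

theorem ctc_tau_fderiv (hM : ∀ x ∈ M, τ x = 0) (hψ : IsParam M ψ U) {u : E d} (hu : u ∈ U)
    (w : E d) : τ (fderiv ℝ ψ u w) = 0 := by
  have h1 : (fun v => τ (ψ v)) =ᶠ[𝓝 u] fun _ => (0 : ℝ) := by
    filter_upwards [(if_open hψ).mem_nhds hu] with v hv
    exact hM _ (if_mem hψ hv)
  have h2 : HasFDerivAt (fun v => τ (ψ v)) (τ.comp (fderiv ℝ ψ u)) u :=
    τ.hasFDerivAt.comp u (if_differentiableAt hψ hu).hasFDerivAt
  have h3 := h1.fderiv_eq (𝕜 := ℝ)
  rw [h2.fderiv, (hasFDerivAt_const (0 : ℝ) u).fderiv] at h3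
  exact DFunLike.congr_fun h3 w

theorem ctc_tau_Psi (hτ : τ e = 1) (hM : ∀ x ∈ M, τ x = 0) (hψ : IsParam M ψ U)
    {y : E (d + 1)} (hy : Gmt.gmtHor y ∈ U) : τ (ctcPsi e ψ y) = Gmt.gmtVer y := by
  unfold ctcPsi
  rw [map_add, map_smul, hM _ (if_mem hψ hy), hτ, smul_eq_mul, mul_one, zero_add]

theorem ctc_pr_Psi (hτ : τ e = 1) (hM : ∀ x ∈ M, τ x = 0) (hψ : IsParam M ψ U)
    {y : E (d + 1)} (hy : Gmt.gmtHor y ∈ U) : ctPr τ e (ctcPsi e ψ y) = ψ (Gmt.gmtHor y) :=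
  ctc_pr_add hτ (hM _ (if_mem hψ hy)) _

theorem ctc_Psi_hasFDerivAt (hψ : IsParam M ψ U) {y : E (d + 1)} (hy : Gmt.gmtHor y ∈ U) :
    HasFDerivAt (ctcPsi e ψ)
      ((fderiv ℝ ψ (Gmt.gmtHor y)).comp (Gmt.gmtHorL d) + (Gmt.gmtVerL d).smulRight e) y := by
  have h1 : HasFDerivAt (fun y : E (d + 1) => ψ (Gmt.gmtHor y))
      ((fderiv ℝ ψ (Gmt.gmtHor y)).comp (Gmt.gmtHorL d)) y :=
    (if_differentiableAt hψ hy).hasFDerivAt.comp y (Gmt.gmtHorL d).hasFDerivAt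
  have h2 : HasFDerivAt (fun y : E (d + 1) => Gmt.gmtVer y • e) ((Gmt.gmtVerL d).smulRight e) y :=
    (Gmt.gmtVerL d).hasFDerivAt.smul_const e
  exact h1.add h2

theorem ctc_Psi_fderiv_apply (hψ : IsParam M ψ U) {y : E (d + 1)} (hy : Gmt.gmtHor y ∈ U)
    (v : E (d + 1)) :
    fderiv ℝ (ctcPsi e ψ) y v = fderiv ℝ ψ (Gmt.gmtHor y) (Gmt.gmtHor v) + Gmt.gmtVer v • e := by
  rw [(ctc_Psi_hasFDerivAt hψ hy).fderiv]
  rfl

theorem ctc_param (hτ : τ e = 1) (hM : ∀ x ∈ M, τ x = 0) (hψ : IsParam M ψ U) :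
    IsParam (ctCyl τ e M) (ctcPsi e ψ) (Gmt.gmtTimesR U) := by
  obtain ⟨O, hO, hOe⟩ := if_image hψ
  have hprc := ctc_continuous_pr τ e
  refine pk_param_mk (O := ctPr τ e ⁻¹' O)
    (g := fun z => Gmt.gmtJoin (Function.invFunOn ψ U (ctPr τ e z)) (τ z))
    (Gmt.isOpen_gmtTimesR (if_open hψ)) ?_ ?_ (hO.preimage hprc) ?_ ?_ ?_
  · exact ((if_smooth hψ).comp (Gmt.gmtHorL d).contDiff.contDiffOn fun y hy => hy).add
      ((Gmt.gmtVerL d).contDiff.contDiffOn.smul contDiffOn_const)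
  · intro y hy v w hvw
    rw [ctc_Psi_fderiv_apply hψ hy, ctc_Psi_fderiv_apply hψ hy] at hvw
    have h1 : Gmt.gmtVer v = Gmt.gmtVer w := by
      have := congrArg τ hvw
      rw [map_add, map_add, map_smul, map_smul, ctc_tau_fderiv hM hψ hy,
        ctc_tau_fderiv hM hψ hy, hτ] at this
      simpa using this
    have h2 : Gmt.gmtHor v = Gmt.gmtHor w := by
      rw [h1] at hvw
      exact if_imm hψ hy (add_right_cancel hvw)
    rw [← Gmt.fl_join_hor_ver v, ← Gmt.fl_join_hor_ver w, h1, h2]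
  · ext z
    constructor
    · rintro ⟨y, hy, rfl⟩
      have : ψ (Gmt.gmtHor y) ∈ M ∩ O := hOe ▸ mem_image_of_mem ψ hy
      rw [← ctc_pr_Psi hτ hM hψ hy] at this
      exact this
    · rintro ⟨h1, h2⟩
      have : ctPr τ e z ∈ ψ '' U := hOe ▸ (⟨h1, h2⟩ : ctPr τ e z ∈ M ∩ O)
      obtain ⟨u, hu, hue⟩ := this
      refine ⟨Gmt.gmtJoin u (τ z), by
        show Gmt.gmtHor _ ∈ U
        rw [Gmt.fl_hor_join]
        exact hu, ?_⟩
      rw [ctc_Psi_join, hue]
      unfold ctPr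
      exact sub_add_cancel _ _
  · have h1 : ContinuousOn (fun z => Function.invFunOn ψ U (ctPr τ e z))
        (ctcPsi e ψ '' Gmt.gmtTimesR U) := by
      refine (if_contInv hψ).comp hprc.continuousOn ?_
      rintro _ ⟨y, hy, rfl⟩
      rw [ctc_pr_Psi hτ hM hψ hy]
      exact mem_image_of_mem ψ hy
    exact Gmt.fl_continuous_join.comp_continuousOn (h1.prodMk τ.continuous.continuousOn)
  · intro y hy
    show Gmt.gmtJoin (Function.invFunOn ψ U (ctPr τ e (ctcPsi e ψ y))) (τ (ctcPsi e ψ y)) = y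
    rw [ctc_pr_Psi hτ hM hψ hy, ctc_tau_Psi hτ hM hψ hy, if_leftInv hψ hy, Gmt.fl_join_hor_ver]

theorem ctc_cm (hτ : τ e = 1) (hM : ∀ x ∈ M, τ x = 0) (hn : CtNormal τ e M h)
    (hψ : IsParam M ψ U) {y : E (d + 1)} (hy : Gmt.gmtHor y ∈ U) :
    cm (fun z => h (ctPr τ e z)) (ctcPsi e ψ) y = ctcBlk (cm h ψ (Gmt.gmtHor y)) := by
  have hc : ∀ a : Fin d, fderiv ℝ (ctcPsi e ψ) y (eb (Fin.castSucc a)) =
      fderiv ℝ ψ (Gmt.gmtHor y) (eb a) := by
    intro a
    have hv : Gmt.gmtVer (eb (Fin.castSucc a) : E (d + 1)) = 0 := by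
      rw [Gmt.fl_ver_apply]
      simp [eb, Fin.castSucc_ne_last]
    rw [ctc_Psi_fderiv_apply hψ hy, Gmt.flh_hor_eb, hv, zero_smul, add_zero]
  have hl : fderiv ℝ (ctcPsi e ψ) y (eb (Fin.last d)) = e := by
    rw [ctc_Psi_fderiv_apply hψ hy, Gmt.fl_hor_en, Gmt.fl_ver_en, map_zero, zero_add, one_smul]
  have hx : ψ (Gmt.gmtHor y) ∈ M := if_mem hψ hy
  have hcm : ∀ i j, cm (fun z => h (ctPr τ e z)) (ctcPsi e ψ) y i j =
      h (ψ (Gmt.gmtHor y)) (fderiv ℝ (ctcPsi e ψ) y (eb i)) (fderiv ℝ (ctcPsi e ψ) y (eb j)) := by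
    intro i j
    show h (ctPr τ e (ctcPsi e ψ y)) _ _ = _
    rw [ctc_pr_Psi hτ hM hψ hy]
  refine ctcBlk_eq (fun a b => ?_) (fun a => ?_) (fun b => ?_) ?_
  · rw [hcm, hc, hc]
    rfl
  · rw [hcm, hc, hl, (hn _ hx _).2, ctc_tau_fderiv hM hψ hy]
  · rw [hcm, hc, hl, (hn _ hx _).1, ctc_tau_fderiv hM hψ hy]
  · rw [hcm, hl, (hn _ hx _).1, hτ]

theorem ctc_pre (hτ : τ e = 1) (hM : ∀ x ∈ M, τ x = 0) (hψ : IsParam M ψ U) (F : Set V) :
    ctPre (ctcPsi e ψ) (Gmt.gmtTimesR U) (ctCyl τ e F) = Gmt.gmtTimesR (ctPre ψ U F) := by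
  ext y
  constructor
  · rintro ⟨h1, h2⟩
    have h1' : ctPr τ e (ctcPsi e ψ y) ∈ F := h1
    rw [ctc_pr_Psi hτ hM hψ h2] at h1'
    exact ⟨h1', h2⟩
  · rintro ⟨h1, h2⟩
    refine ⟨?_, h2⟩
    show ctPr τ e (ctcPsi e ψ y) ∈ F
    rw [ctc_pr_Psi hτ hM hψ h2]
    exact h1

end param

/-! ### measures -/

variable {V : Type} [NormedAddCommGroup V] [NormedSpace ℝ V]
variable [FiniteDimensional ℝ V]
variable {M : Set V} {h : Ten V} {t p : V → ℝ}
variable [MeasurableSpace V] [BorelSpace V]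
variable {τ : V →L[ℝ] ℝ} {e : V}

theorem ctc_A (hG : CtGeo d M h t) (hτ : τ e = 1) (hM : ∀ x ∈ M, τ x = 0)
    (hn : CtNormal τ e M h) {ψ : E d → V} {U : Set (E d)} (hψ : IsParam M ψ U) {y : E (d + 1)} (hy : Gmt.gmtHor y ∈ U)
    (ξ η : E (d + 1)) :
    ctA (fun z => h (ctPr τ e z)) (fun z => t (ctPr τ e z)) (ctcPsi e ψ) y ξ η =
      Gmt.gmtProdInt (ctA h t ψ) (fun u => Real.exp (-(2 * t (ψ u))) * (cm h ψ u).det) y ξ η := by
  rw [ct_A_apply, Gmt.gmtProdInt_apply, ct_A_apply, ctc_cm hτ hM hn hψ hy, ctcBlk_det,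
    ctcBlk_inv ((hG.met ψ U hψ).2 _ hy).isUnit, ctcBlk_bil, ctc_pr_Psi hτ hM hψ hy]
  ring

omit [NormedSpace ℝ V] [FiniteDimensional ℝ V] [BorelSpace V] in
/-- two measures which vanish off `M'` and agree on the measurable subsets of countably many
measurable pieces covering `M'` are equal. -/
theorem ctc_measure_ext {μ ν : Measure V} {M' : Set V} {O : ℕ → Set V}
    (hO : ∀ k, MeasurableSet (O k)) (hcov : M' ⊆ ⋃ k, O k) (h0 : μ M'ᶜ = 0) (h0' : ν M'ᶜ = 0)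
    (H : ∀ k, ∀ Y, MeasurableSet Y → Y ⊆ O k → μ Y = ν Y) : μ = ν := by
  ext Y hY
  have hDm : ∀ k, MeasurableSet (disjointed O k) := MeasurableSet.disjointed hO
  have key : ∀ ρ : Measure V, ρ M'ᶜ = 0 → ρ Y = ∑' k, ρ (Y ∩ disjointed O k) := by
    intro ρ hρ
    have h1 : ρ Y = ρ (Y ∩ ⋃ k, disjointed O k) := by
      refine (measure_inter_conull ?_).symm
      refine measure_mono_null ?_ hρ
      rw [iUnion_disjointed]
      exact compl_subset_compl.2 hcov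
    rw [h1, inter_iUnion, measure_iUnion ?_ (fun k => hY.inter (hDm k))]
    exact fun i j hij => (disjoint_disjointed O hij).mono inter_subset_right inter_subset_right
  rw [key μ h0, key ν h0']
  exact tsum_congr fun k => H k _ (hY.inter (hDm k))
    (inter_subset_right.trans (disjointed_subset O k))

/-- the product measure on a piece of the product parametrisation. -/
theorem ctc_nu_piece (hG : CtGeo d M h t) (hτ : τ e = 1) (hM : ∀ x ∈ M, τ x = 0) {F : Set V}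
    (hF : MeasurableSet F) {ψ : E d → V} {W : Set (E d)} (hψ : IsParam M ψ W)
    {B : Set (E (d + 1))} (hB : MeasurableSet B) (hBW : B ⊆ Gmt.gmtTimesR W) :
    ((wper d M h t F).prod (volume : Measure ℝ)).map (fun y : V × ℝ => y.1 + y.2 • e)
        (ctcPsi e ψ '' B) =
      ∫⁻ u in W, volume {s : ℝ | Gmt.gmtJoin u s ∈ B}
        ∂(Gmt.gmtPerM (ctA h t ψ) (ctPre ψ W F)) := by
  have hΨ := ctc_param hτ hM hψ
  have hTm : Measurable (fun y : V × ℝ => y.1 + y.2 • e) :=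
    measurable_fst.add (measurable_snd.smul_const e)
  have hIm : MeasurableSet (ctcPsi e ψ '' B) := if_measurableSet_image hΨ hB hBW
  rw [Measure.map_apply hTm hIm, Measure.prod_apply (hTm hIm)]
  obtain ⟨g, hg⟩ : ∃ g : V → ℝ≥0∞, g = fun x => volume {s : ℝ | x + s • e ∈ ctcPsi e ψ '' B} :=
    ⟨_, rfl⟩
  have e0 : ∫⁻ x, volume (Prod.mk x ⁻¹' ((fun y : V × ℝ => y.1 + y.2 • e) ⁻¹'
      (ctcPsi e ψ '' B))) ∂(wper d M h t F) = ∫⁻ x, g x ∂(wper d M h t F) := by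
    rw [hg]
    rfl
  rw [e0]
  have hgW : ∀ x ∈ M, x ∉ ψ '' W → g x = 0 := by
    intro x hx hxW
    have hemp : {s : ℝ | x + s • e ∈ ctcPsi e ψ '' B} = ∅ := by
      ext s
      simp only [mem_setOf_eq, mem_empty_iff_false, iff_false]
      rintro ⟨y, hy, hye⟩
      apply hxW
      have h1 := congrArg (ctPr τ e) hye
      rw [ctc_pr_Psi hτ hM hψ (hBW hy), ctc_pr_add hτ (hM x hx)] at h1
      exact ⟨_, hBW hy, h1⟩
    rw [hg]
    show volume {s : ℝ | x + s • e ∈ ctcPsi e ψ '' B} = 0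
    rw [hemp, measure_empty]
  have hae : ∀ᵐ x ∂(wper d M h t F), x ∈ M := by
    rw [ae_iff]
    exact ct_wper_compl_M hG hF
  have hWm : MeasurableSet (ψ '' W) :=
    if_measurableSet_image hψ (if_open hψ).measurableSet Subset.rfl
  have e1 : ∫⁻ x, g x ∂(wper d M h t F) = ∫⁻ x in ψ '' W, g x ∂(wper d M h t F) := by
    rw [← lintegral_indicator hWm]
    refine lintegral_congr_ae ?_
    filter_upwards [hae] with x hx
    by_cases hxW : x ∈ ψ '' W
    · rw [indicator_of_mem hxW]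
    · rw [indicator_of_notMem hxW, hgW x hx hxW]
  rw [e1, ct_lintegral_wper_chart' hG hψ hF Subset.rfl (if_open hψ).measurableSet g]
  refine setLIntegral_congr_fun (if_open hψ).measurableSet fun u hu => ?_
  rw [hg]
  show volume {s : ℝ | ψ u + s • e ∈ ctcPsi e ψ '' B} = volume {s : ℝ | Gmt.gmtJoin u s ∈ B}
  congr 1
  ext s
  simp only [mem_setOf_eq]
  constructor
  · rintro ⟨y, hy, hye⟩
    have h2 : y = Gmt.gmtJoin u s := by
      refine if_injOn hΨ (hBW hy) ?_ (hye.trans (ctc_Psi_join e ψ u s).symm)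
      show Gmt.gmtHor (Gmt.gmtJoin u s) ∈ W
      rw [Gmt.fl_hor_join]
      exact hu
    rw [← h2]
    exact hy
  · intro hs
    exact ⟨_, hs, ctc_Psi_join e ψ u s⟩

/-- the perimeter measure of the cylinder on a piece of the product parametrisation. -/
theorem ctc_mu_piece (hG : CtGeo d M h t) (hτ : τ e = 1) (hM : ∀ x ∈ M, τ x = 0)
    (hn : CtNormal τ e M h) {F : Set V} (hF : MeasurableSet F) {ψ : E d → V} {W : Set (E d)}
    (hψ : IsParam M ψ W) (hfin : wper d M h t F (ψ '' W) ≠ ⊤)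
    {B : Set (E (d + 1))} (hB : MeasurableSet B) (hBW : B ⊆ Gmt.gmtTimesR W) :
    wper (d + 1) (ctCyl τ e M) (fun z => h (ctPr τ e z)) (fun z => t (ctPr τ e z)) (ctCyl τ e F)
        (ctcPsi e ψ '' B) =
      ∫⁻ u in W, volume {s : ℝ | Gmt.gmtJoin u s ∈ B}
        ∂(Gmt.gmtPerM (ctA h t ψ) (ctPre ψ W F)) := by
  have hΨ := ctc_param hτ hM hψ
  have hF' : MeasurableSet (ctCyl τ e F) := (ctc_continuous_pr τ e).measurable hF
  rw [ct_wper_chart (hG.cyl hτ hM hn) hΨ hF' hBW hB, ctc_pre hτ hM hψ,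
    Gmt.gmtPerM_congr_int _ (Gmt.isOpen_gmtTimesR (if_open hψ))
      (fun y hy ξ => ctc_A hG hτ hM hn hψ hy ξ ξ) hBW]
  refine Gmt.gmtPerM_timesR_apply _ (fun u hu => ?_) (ct_measurableSet_pre hψ hF) (if_open hψ) ?_
    hB hBW
  · exact mul_nonneg (Real.exp_pos _).le ((hG.met ψ W hψ).2 u hu).det_pos.le
  · rw [← ct_wper_chart hG hψ hF Subset.rfl (if_open hψ).measurableSet]
    exact hfin

/-- a countable atlas of pieces of finite perimeter. -/
theorem ctc_exists_atlas (hG : CtGeo d M h t) {F : Set V} (hF : CtLF d M h t F) :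
    ∃ (ψ : ℕ → E d → V) (W : ℕ → Set (E d)), (∀ k, IsParam M (ψ k) (W k)) ∧
      (∀ k, wper d M h t F (ψ k '' W k) ≠ ⊤) ∧ M ⊆ ⋃ k, ψ k '' W k := by
  classical
  have hloc : ∀ x ∈ M, ∃ (ψ : E d → V) (W : Set (E d)), IsParam M ψ W ∧
      wper d M h t F (ψ '' W) ≠ ⊤ ∧ x ∈ ψ '' W := by
    intro x hx
    obtain ⟨ψ, U, hψ, u, hu, rfl⟩ := hG.mfd x hx
    obtain ⟨r, hr, hball⟩ := Metric.nhds_basis_closedBall.mem_iff.1 ((if_open hψ).mem_nhds hu)
    have hbU : Metric.ball u r ⊆ U := Metric.ball_subset_closedBall.trans hball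
    refine ⟨ψ, Metric.ball u r, if_mono hψ Metric.isOpen_ball hbU, ?_, u,
      Metric.mem_ball_self hr, rfl⟩
    exact ne_top_of_le_ne_top (hF.fin (ψ '' Metric.closedBall u r)
      ((isCompact_closedBall u r).image_of_continuousOn ((if_continuousOn hψ).mono hball))
      ((image_mono hball).trans (if_image_subset hψ)))
      (measure_mono (image_mono Metric.ball_subset_closedBall))
  choose! ψ W hp hfin hmem using hloc
  have h1 : ∀ x ∈ M, ψ x '' W x ∈ 𝓝[M] x := by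
    intro x hx
    obtain ⟨u, hu, he⟩ := hmem x hx
    have := if_image_mem_nhdsWithin (hp x hx) hu
    rwa [he] at this
  obtain ⟨s, hsM, hsc, hcov⟩ := TopologicalSpace.countable_cover_nhdsWithin h1
  rcases s.eq_empty_or_nonempty with rfl | hne
  · have hM0 : M = ∅ := by
      simpa using hcov
    refine ⟨fun _ => 0, fun _ => ∅, fun _ => if_param_empty M _, fun _ => by simp, ?_⟩
    simp [hM0]
  · obtain ⟨f, hf⟩ := hsc.exists_eq_range hne
    have hfM : ∀ k, f k ∈ M := fun k => hsM (hf ▸ mem_range_self k)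
    refine ⟨fun k => ψ (f k), fun k => W (f k), fun k => hp _ (hfM k), fun k => hfin _ (hfM k), ?_⟩
    intro x hx
    obtain ⟨y, hy, hxy⟩ := mem_iUnion₂.1 (hcov hx)
    rw [hf] at hy
    obtain ⟨k, rfl⟩ := hy
    exact mem_iUnion.2 ⟨k, hxy⟩

/-- perimeter measure of a cylinder set = product measure. -/
theorem ct_cyl_wper (hG : CtGeo d M h t) (hτ : τ e = 1) (hM : ∀ x ∈ M, τ x = 0)
    (hn : CtNormal τ e M h) {F : Set V} (hF : CtLF d M h t F) :
    wper (d + 1) (ctCyl τ e M) (fun z => h (ctPr τ e z)) (fun z => t (ctPr τ e z)) (ctCyl τ e F) =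
      ((wper d M h t F).prod (volume : Measure ℝ)).map (fun y : V × ℝ => y.1 + y.2 • e) := by
  obtain ⟨ψ, W, hp, hfin, hcov⟩ := ctc_exists_atlas hG hF
  have hG' := hG.cyl hτ hM hn
  have hF' : MeasurableSet (ctCyl τ e F) := (ctc_continuous_pr τ e).measurable hF.meas
  have hΨ : ∀ k, IsParam (ctCyl τ e M) (ctcPsi e (ψ k)) (Gmt.gmtTimesR (W k)) := fun k =>
    ctc_param hτ hM (hp k)
  have hTm : Measurable (fun y : V × ℝ => y.1 + y.2 • e) :=
    measurable_fst.add (measurable_snd.smul_const e)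
  refine ctc_measure_ext (M' := ctCyl τ e M)
    (O := fun k => ctcPsi e (ψ k) '' Gmt.gmtTimesR (W k)) (fun k => ?_) ?_
    (ct_wper_compl_M hG' hF') ?_ fun k Y hY hYk => ?_
  · exact if_measurableSet_image (hΨ k) (if_open (hΨ k)).measurableSet Subset.rfl
  · intro z hz
    obtain ⟨k, u, hu, hue⟩ := mem_iUnion.1 (hcov hz)
    refine mem_iUnion.2 ⟨k, Gmt.gmtJoin u (τ z), ?_, ?_⟩
    · show Gmt.gmtHor _ ∈ W k
      rw [Gmt.fl_hor_join]
      exact hu
    · rw [ctc_Psi_join, hue]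
      unfold ctPr
      exact sub_add_cancel _ _
  · rw [Measure.map_apply hTm (ct_measurableSet hG'.mfd).compl]
    refine measure_mono_null (t := Mᶜ ×ˢ (univ : Set ℝ)) ?_ ?_
    · rintro ⟨x, s⟩ hxs
      refine ⟨fun hx => hxs ?_, mem_univ _⟩
      show ctPr τ e (x + s • e) ∈ M
      rw [ctc_pr_add hτ (hM x hx)]
      exact hx
    · rw [Measure.prod_prod, ct_wper_compl_M hG hF.meas, zero_mul]
  · have hBm : MeasurableSet (Gmt.gmtTimesR (W k) ∩ ctcPsi e (ψ k) ⁻¹' Y) :=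
      if_measurableSet_preimage (hΨ k) hY
    have hYe : Y = ctcPsi e (ψ k) '' (Gmt.gmtTimesR (W k) ∩ ctcPsi e (ψ k) ⁻¹' Y) := by
      rw [image_inter_preimage, inter_eq_right.2 hYk]
    rw [hYe, ctc_mu_piece hG hτ hM hn hF.meas (hp k) (hfin k) hBm inter_subset_left,
      ctc_nu_piece hG hτ hM hF.meas (hp k) hBm inter_subset_left]

end Claimed.Agent.R315
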