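import Claimed.Agent.R315.Ct.ProdA

/-!
# Row 315, package Ct/ProdE: boundary, wall, singular set and phases of cylinder sets (`ct_cyl_sets`)   (architect: helper184)

Product parametrisation with the line as LAST coordinate (the convention of `Lib/Gmt`: `gmtHor`, `gmtVer`, `gmtJoin`, `gmtTimesR`, `gmtProdInt`):  `ctCylP ψ e b = ψ (gmtHor b) + gmtVer b • e` on `gmtTimesR U`.
Then `ctPre (ctCylP ψ e) (gmtTimesR U) (ctCyl τ e A) = gmtTimesR (ctPre ψ U A)` EXACTLY, and by `Ct/RegA.lean` all notions may be tested in this parametrisation.  No metric is involved.  (`Ct/ProdC.lean` should use `ctCylP` as well: no permutation of coordinates.)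
Coordinates: `Gmt.fl_join_hor_ver`, `Gmt.fl_hor_join` (+ the `gmtVer` analogue) in `Lib/Gmt/FlCoord1.lean`; `gmtHor = gmtHorL n`, `gmtVer = gmtVerL n` are continuous linear.

PLAN OF PROOFS
* `ct_cylP_pr`: `τ (ψ u) = 0` (`hM`, `if_mem`), `τ e = 1`: `τ (ψ u + s • e) = s`, `ctPr τ e (ψ u + s • e) = ψ u`.
* `ct_cylP_param`.  open: `Gmt.isOpen_gmtTimesR` (or preimage under `gmtHorL`).  smooth: `(if_smooth hψ).comp (gmtHorL d).contDiff.contDiffOn` + `(gmtVerL d).contDiff.smul contDiff_const`.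
  `fderiv (ctCylP ψ e) b = (fderiv ψ (gmtHor b)).comp (gmtHorL d) + (gmtVerL d).smulRight e`.  Injective: `τ ∘ ψ = 0` on the open set `U` ⇒ `τ (fderiv ψ u w) = 0` (`fderiv` of the composition `τ ∘ ψ`, `Filter.EventuallyEq.fderiv_eq`); apply `τ`: `gmtVer w = 0`; then `if_imm`: `gmtHor w = 0`; `fl_join_hor_ver`: `w = 0`.
  `InjOn`: apply `τ` and `ctPr` (`ct_cylP_pr`), `if_injOn`, `fl_join_hor_ver`.   image: `ψ '' U = M ∩ O` ⇒ `ctCylP ψ e '' gmtTimesR U = ctCyl τ e M ∩ (ctPr τ e) ⁻¹' O` [`z = ctPr τ e z + τ z • e`], `ctPr τ e` is continuous.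
  inverse: on the image `invFunOn (ctCylP ψ e) (gmtTimesR U) z = gmtJoin (invFunOn ψ U (ctPr τ e z)) (τ z)` (by `InjOn`), continuous by `if_contInv` and the continuity of `gmtJoin` (`ContinuousOn.congr`).
* `ct_cylP_pre`: `ct_cylP_pr`, unfold `ctPre`, `ctCyl`, `Gmt.gmtTimesR`.
* `ct_cyl_exists`: `z ∈ ctCyl τ e M` ⇒ chart `(ψ, U, u)` of `M` at `ctPr τ e z`; `b = gmtJoin u (τ z)`.
* `ct_full_timesR`, `ct_null_timesR`: `gmtBox (ball z (r/2)) (s - r/2) (s + r/2) ⊆ ball (gmtJoin z s) r ⊆ gmtBox (ball z r) (s - r) (s + r)` (`‖y‖² = ‖gmtHor y‖² + (gmtVer y)²`), `Gmt.volume_timesR_box` (for `\`: apply it to `D = Sᶜ`, `gmtTimesR Sᶜ = (gmtTimesR S)ᶜ`); a product `a * ofReal (b - a')` with `b > a'` vanishes iff `a = 0`.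
* `ct_cyl_sets`.  For `z ∉ ctCyl τ e M` both sides are false (`ct_bd_subset`; `ctIn, ctOut, ctWall ⊆ M`).  For `z = ctCylP ψ e b`, `b = gmtJoin u s`: `ct_bd_iff (ct_cylP_param ..)`, `ct_cylP_pre`, `Gmt.gmtBd_timesR` and `ct_bd_iff hψ`;  wall: `ct_reg_iff`, `Gmt.gmtReg_timesR`, `Gmt.gmtReg_of_timesR`;  sing: from bd and wall;  in/out: `ct_in_iff`, `ct_out_iff`, `ct_full_timesR`, `ct_null_timesR`.
-/

set_option autoImplicit false
open scoped ContDiff ENNReal Topology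
open MeasureTheory Claims.C0499 Set Filter

namespace Claimed.Agent.R315

variable {V : Type} [NormedAddCommGroup V] [NormedSpace ℝ V] [FiniteDimensional ℝ V]
variable {d : ℕ} {M : Set V} {τ : V →L[ℝ] ℝ} {e : V}

/-- product parametrisation of a cylinder; the line is the LAST coordinate. -/
noncomputable def ctCylP (ψ : E d → V) (e : V) (b : E (d + 1)) : V :=
  ψ (Gmt.gmtHor b) + Gmt.gmtVer b • e

theorem ct_cylP_pr (hτ : τ e = 1) (hM : ∀ x ∈ M, τ x = 0) {ψ : E d → V} {U : Set (E d)}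
    (hψ : IsParam M ψ U) {b : E (d + 1)} (hb : b ∈ Gmt.gmtTimesR U) :
    ctPr τ e (ctCylP ψ e b) = ψ (Gmt.gmtHor b) ∧ τ (ctCylP ψ e b) = Gmt.gmtVer b := by
  have h0 : τ (ψ (Gmt.gmtHor b)) = 0 := hM _ (if_mem hψ hb)
  have h1 : τ (ctCylP ψ e b) = Gmt.gmtVer b := by
    unfold ctCylP
    rw [map_add, map_smul, h0, hτ, zero_add, smul_eq_mul, mul_one]
  refine ⟨?_, h1⟩
  unfold ctPr
  rw [h1]
  unfold ctCylP
  rw [add_sub_cancel_right]

omit [FiniteDimensional ℝ V] in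
theorem ct_prE_continuous (τ : V →L[ℝ] ℝ) (e : V) : Continuous (ctPr τ e) := by
  unfold ctPr
  fun_prop

omit [FiniteDimensional ℝ V] in
theorem ct_prE_add (τ : V →L[ℝ] ℝ) (e z : V) : ctPr τ e z + τ z • e = z := by
  unfold ctPr
  rw [sub_add_cancel]

omit [FiniteDimensional ℝ V] in
theorem ct_cylP_join (ψ : E d → V) (e : V) (u : E d) (s : ℝ) :
    ctCylP ψ e (Gmt.gmtJoin u s) = ψ u + s • e := by
  unfold ctCylP
  rw [Gmt.fl_hor_join, Gmt.fl_ver_join]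

theorem ct_cylP_ext {b b' : E (d + 1)} (h1 : Gmt.gmtHor b = Gmt.gmtHor b')
    (h2 : Gmt.gmtVer b = Gmt.gmtVer b') : b = b' := by
  rw [← Gmt.fl_join_hor_ver b, ← Gmt.fl_join_hor_ver b', h1, h2]

theorem ct_cylP_injOn (hτ : τ e = 1) (hM : ∀ x ∈ M, τ x = 0) {ψ : E d → V} {U : Set (E d)}
    (hψ : IsParam M ψ U) : InjOn (ctCylP ψ e) (Gmt.gmtTimesR U) := by
  intro b hb b' hb' hbb
  obtain ⟨a1, a2⟩ := ct_cylP_pr hτ hM hψ hb
  obtain ⟨c1, c2⟩ := ct_cylP_pr hτ hM hψ hb'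
  rw [hbb] at a1 a2
  exact ct_cylP_ext (if_injOn hψ hb hb' (a1.symm.trans c1)) (a2.symm.trans c2)

theorem ct_cylP_param (hτ : τ e = 1) (hM : ∀ x ∈ M, τ x = 0) {ψ : E d → V} {U : Set (E d)}
    (hψ : IsParam M ψ U) : IsParam (ctCyl τ e M) (ctCylP ψ e) (Gmt.gmtTimesR U) := by
  have hinj := ct_cylP_injOn hτ hM hψ
  refine ⟨Gmt.isOpen_gmtTimesR (if_open hψ), ?_, ?_, hinj, ?_, ?_⟩
  · exact ((if_smooth hψ).comp (Gmt.gmtHorL d).contDiff.contDiffOn (fun b hb => hb)).add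
      (((Gmt.gmtVerL d).contDiff.smul contDiff_const).contDiffOn)
  · intro b hb
    have hb' : Gmt.gmtHor b ∈ U := hb
    have hd : DifferentiableAt ℝ ψ (Gmt.gmtHor b) :=
      ((if_smooth hψ).contDiffAt ((if_open hψ).mem_nhds hb')).differentiableAt (by simp)
    have h1 : HasFDerivAt (fun b => ψ (Gmt.gmtHorL d b))
        ((fderiv ℝ ψ (Gmt.gmtHor b)).comp (Gmt.gmtHorL d)) b :=
      HasFDerivAt.comp b (f := Gmt.gmtHorL d) hd.hasFDerivAt (Gmt.gmtHorL d).hasFDerivAt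
    have h2 : HasFDerivAt (fun b => Gmt.gmtVerL d b • e) ((Gmt.gmtVerL d).smulRight e) b :=
      (Gmt.gmtVerL d).hasFDerivAt.smul_const e
    have h3 : HasFDerivAt (ctCylP ψ e)
        ((fderiv ℝ ψ (Gmt.gmtHor b)).comp (Gmt.gmtHorL d) + (Gmt.gmtVerL d).smulRight e) b := h1.add h2
    rw [h3.fderiv]
    have hτψ : ∀ v, τ (fderiv ℝ ψ (Gmt.gmtHor b) v) = 0 := by
      intro v
      have g1 : HasFDerivAt (τ ∘ ψ) (τ.comp (fderiv ℝ ψ (Gmt.gmtHor b))) (Gmt.gmtHor b) :=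
        τ.hasFDerivAt.comp _ hd.hasFDerivAt
      have g2 : HasFDerivAt (τ ∘ ψ) (0 : E d →L[ℝ] ℝ) (Gmt.gmtHor b) := by
        refine (hasFDerivAt_const (0 : ℝ) (Gmt.gmtHor b)).congr_of_eventuallyEq ?_
        filter_upwards [(if_open hψ).mem_nhds hb'] with u hu
        exact hM _ (if_mem hψ hu)
      have g3 := g1.unique g2
      exact congrArg (fun L : E d →L[ℝ] ℝ => L v) g3
    rw [injective_iff_map_eq_zero]
    intro w hw
    have hw' : fderiv ℝ ψ (Gmt.gmtHor b) (Gmt.gmtHor w) + Gmt.gmtVer w • e = 0 := hw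
    have hv : Gmt.gmtVer w = 0 := by
      have := congrArg τ hw'
      rw [map_add, map_smul, hτψ, hτ, map_zero, zero_add, smul_eq_mul, mul_one] at this
      exact this
    rw [hv, zero_smul, add_zero] at hw'
    have hh : Gmt.gmtHor w = 0 := by
      apply if_imm hψ hb'
      rw [hw', map_zero]
    apply ct_cylP_ext
    · rw [hh]
      exact (map_zero (Gmt.gmtHorL d)).symm
    · rw [hv]
      exact (map_zero (Gmt.gmtVerL d)).symm
  · obtain ⟨O, hO, hOe⟩ := if_image hψ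
    refine ⟨ctPr τ e ⁻¹' O, hO.preimage (ct_prE_continuous τ e), ?_⟩
    ext z
    constructor
    · rintro ⟨b, hb, rfl⟩
      have h1 : ψ (Gmt.gmtHor b) ∈ M ∩ O := hOe ▸ mem_image_of_mem ψ hb
      have h2 := (ct_cylP_pr hτ hM hψ hb).1
      constructor
      · show ctPr τ e (ctCylP ψ e b) ∈ M
        rw [h2]
        exact h1.1
      · show ctPr τ e (ctCylP ψ e b) ∈ O
        rw [h2]
        exact h1.2
    · rintro ⟨h1, h2⟩
      have h3 : ctPr τ e z ∈ ψ '' U := hOe ▸ (⟨h1, h2⟩ : ctPr τ e z ∈ M ∩ O)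
      obtain ⟨u, hu, hue⟩ := h3
      refine ⟨Gmt.gmtJoin u (τ z), ?_, ?_⟩
      · show Gmt.gmtHor (Gmt.gmtJoin u (τ z)) ∈ U
        rw [Gmt.fl_hor_join]
        exact hu
      · rw [ct_cylP_join, hue, ct_prE_add]
  · have hc : ContinuousOn (fun z => Gmt.gmtJoin (Function.invFunOn ψ U (ctPr τ e z)) (τ z))
        (ctCylP ψ e '' Gmt.gmtTimesR U) := by
      have h1 : ContinuousOn (fun z => Function.invFunOn ψ U (ctPr τ e z)) (ctCylP ψ e '' Gmt.gmtTimesR U) := by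
        refine (if_contInv hψ).comp (ct_prE_continuous τ e).continuousOn ?_
        rintro _ ⟨b, hb, rfl⟩
        rw [(ct_cylP_pr hτ hM hψ hb).1]
        exact mem_image_of_mem ψ hb
      exact Gmt.fl_continuous_join.comp_continuousOn (h1.prodMk τ.continuous.continuousOn)
    refine hc.congr ?_
    rintro _ ⟨b, hb, rfl⟩
    rw [hinj.leftInvOn_invFunOn hb]
    obtain ⟨a1, a2⟩ := ct_cylP_pr hτ hM hψ hb
    show b = Gmt.gmtJoin (Function.invFunOn ψ U (ctPr τ e (ctCylP ψ e b))) (τ (ctCylP ψ e b))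
    rw [a1, a2, if_leftInv hψ hb, Gmt.fl_join_hor_ver]

theorem ct_cylP_pre (hτ : τ e = 1) (hM : ∀ x ∈ M, τ x = 0) {ψ : E d → V} {U : Set (E d)}
    (hψ : IsParam M ψ U) (A : Set V) :
    ctPre (ctCylP ψ e) (Gmt.gmtTimesR U) (ctCyl τ e A) = Gmt.gmtTimesR (ctPre ψ U A) := by
  ext b
  constructor
  · rintro ⟨h1, h2⟩
    have h3 : ctPr τ e (ctCylP ψ e b) ∈ A := h1
    rw [(ct_cylP_pr hτ hM hψ h2).1] at h3
    exact ⟨h3, h2⟩
  · rintro ⟨h1, h2⟩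
    have h2' : b ∈ Gmt.gmtTimesR U := h2
    refine ⟨?_, h2'⟩
    show ctPr τ e (ctCylP ψ e b) ∈ A
    rw [(ct_cylP_pr hτ hM hψ h2').1]
    exact h1

theorem ct_cyl_exists (hMf : IsMfd d M) {z : V} (hz : z ∈ ctCyl τ e M) :
    ∃ (ψ : E d → V) (U : Set (E d)) (u : E d), IsParam M ψ U ∧ u ∈ U ∧ ψ u = ctPr τ e z ∧
      ctCylP ψ e (Gmt.gmtJoin u (τ z)) = z ∧ Gmt.gmtJoin u (τ z) ∈ Gmt.gmtTimesR U := by
  obtain ⟨ψ, U, hψ, u, hu, he⟩ := hMf _ hz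
  refine ⟨ψ, U, u, hψ, hu, he, ?_, ?_⟩
  · rw [ct_cylP_join, he, ct_prE_add]
  · show Gmt.gmtHor (Gmt.gmtJoin u (τ z)) ∈ U
    rw [Gmt.fl_hor_join]
    exact hu

theorem ct_timesR_box_sub (y : E (d + 1)) {r : ℝ} (hr : 0 < r) :
    Gmt.gmtBox (Metric.ball (Gmt.gmtHor y) (r / 2)) (Gmt.gmtVer y - r / 2) (Gmt.gmtVer y + r / 2) ⊆
      Metric.ball y r := by
  rintro w ⟨h1, h2, h3⟩
  rw [mem_ball_iff_norm] at h1 ⊢
  have e1 : Gmt.gmtHor (w - y) = Gmt.gmtHor w - Gmt.gmtHor y := map_sub (Gmt.gmtHorL d) w y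
  have e2 : Gmt.gmtVer (w - y) = Gmt.gmtVer w - Gmt.gmtVer y := map_sub (Gmt.gmtVerL d) w y
  have h4 := Gmt.fl_norm_sq (w - y)
  rw [e1, e2] at h4
  have h6 : (Gmt.gmtVer w - Gmt.gmtVer y) ^ 2 < (r / 2) ^ 2 := sq_lt_sq' (by linarith) (by linarith)
  have h7 : ‖Gmt.gmtHor w - Gmt.gmtHor y‖ ^ 2 < (r / 2) ^ 2 :=
    pow_lt_pow_left₀ h1 (norm_nonneg _) two_ne_zero
  have h8 : ‖w - y‖ ^ 2 < r ^ 2 := by nlinarith
  exact lt_of_pow_lt_pow_left₀ 2 hr.le h8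

theorem ct_timesR_ball_sub (y : E (d + 1)) (r : ℝ) :
    Metric.ball y r ⊆
      Gmt.gmtBox (Metric.ball (Gmt.gmtHor y) r) (Gmt.gmtVer y - r) (Gmt.gmtVer y + r) := by
  intro w hw
  rw [mem_ball_iff_norm] at hw
  have e1 : Gmt.gmtHor (w - y) = Gmt.gmtHor w - Gmt.gmtHor y := map_sub (Gmt.gmtHorL d) w y
  have e2 : Gmt.gmtVer (w - y) = Gmt.gmtVer w - Gmt.gmtVer y := map_sub (Gmt.gmtVerL d) w y
  have h4 := Gmt.fl_norm_sq (w - y)
  rw [e1, e2] at h4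
  have h5 : ‖Gmt.gmtHor w - Gmt.gmtHor y‖ ≤ ‖w - y‖ := by
    have := abs_le_of_sq_le_sq (a := ‖Gmt.gmtHor w - Gmt.gmtHor y‖) (b := ‖w - y‖)
      (by nlinarith [sq_nonneg (Gmt.gmtVer w - Gmt.gmtVer y)]) (norm_nonneg _)
    exact (le_abs_self _).trans this
  have h6 : |Gmt.gmtVer w - Gmt.gmtVer y| ≤ ‖w - y‖ :=
    abs_le_of_sq_le_sq (by nlinarith [sq_nonneg ‖Gmt.gmtHor w - Gmt.gmtHor y‖]) (norm_nonneg _)
  have h7 := abs_lt.1 (h6.trans_lt hw)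
  refine ⟨mem_ball_iff_norm.2 (h5.trans_lt hw), ?_, ?_⟩
  · linarith [h7.1]
  · linarith [h7.2]

theorem ct_null_timesR_aux (D : Set (E d)) (y : E (d + 1)) :
    (∃ r > 0, volume (Metric.ball y r ∩ Gmt.gmtTimesR D) = 0) ↔
      ∃ r > 0, volume (Metric.ball (Gmt.gmtHor y) r ∩ D) = 0 := by
  constructor
  · rintro ⟨r, hr, h0⟩
    refine ⟨r / 2, by positivity, ?_⟩
    have h1 : volume (Gmt.gmtTimesR D ∩ Gmt.gmtBox (Metric.ball (Gmt.gmtHor y) (r / 2))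
        (Gmt.gmtVer y - r / 2) (Gmt.gmtVer y + r / 2)) = 0 :=
      measure_mono_null (fun w hw => (⟨ct_timesR_box_sub y hr hw.2, hw.1⟩ :
        w ∈ Metric.ball y r ∩ Gmt.gmtTimesR D)) h0
    rw [Gmt.volume_timesR_box _ _ (by linarith)] at h1
    have h2 : ENNReal.ofReal (Gmt.gmtVer y + r / 2 - (Gmt.gmtVer y - r / 2)) ≠ 0 := by
      rw [Ne, ENNReal.ofReal_eq_zero, not_le]
      linarith
    rw [inter_comm]
    exact (mul_eq_zero.1 h1).resolve_right h2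
  · rintro ⟨r, hr, h0⟩
    refine ⟨r, hr, ?_⟩
    refine measure_mono_null (t := Gmt.gmtTimesR D ∩ Gmt.gmtBox (Metric.ball (Gmt.gmtHor y) r)
      (Gmt.gmtVer y - r) (Gmt.gmtVer y + r)) (fun w hw => ⟨hw.2, ct_timesR_ball_sub y r hw.1⟩) ?_
    rw [Gmt.volume_timesR_box _ _ (by linarith), inter_comm, h0, zero_mul]

theorem ct_full_timesR (S : Set (E d)) (y : E (d + 1)) :
    (∃ r > 0, volume (Metric.ball y r \ Gmt.gmtTimesR S) = 0) ↔
      ∃ r > 0, volume (Metric.ball (Gmt.gmtHor y) r \ S) = 0 := by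
  exact ct_null_timesR_aux Sᶜ y

theorem ct_null_timesR (S : Set (E d)) (y : E (d + 1)) :
    (∃ r > 0, volume (Metric.ball y r ∩ Gmt.gmtTimesR S) = 0) ↔
      ∃ r > 0, volume (Metric.ball (Gmt.gmtHor y) r ∩ S) = 0 := by
  exact ct_null_timesR_aux S y

theorem ct_cyl_sets_aux (hMf : IsMfd d M) {X Y : Set V} (hX : X ⊆ ctCyl τ e M) (hY : Y ⊆ M)
    (H : ∀ (ψ : E d → V) (U : Set (E d)) (u : E d) (s : ℝ), IsParam M ψ U → u ∈ U →
      (ctCylP ψ e (Gmt.gmtJoin u s) ∈ X ↔ ψ u ∈ Y)) : X = ctCyl τ e Y := by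
  ext z
  by_cases hz : z ∈ ctCyl τ e M
  · obtain ⟨ψ, U, u, hψ, hu, h1, h2, -⟩ := ct_cyl_exists hMf hz
    have h3 := H ψ U u (τ z) hψ hu
    rw [h2, h1] at h3
    exact h3
  · exact ⟨fun h => absurd (hX h) hz, fun h => absurd (hY h) hz⟩

omit [FiniteDimensional ℝ V] in
theorem ct_in_subset' (A : Set V) : ctIn d M A ⊆ M := by
  rintro x ⟨ψ, U, u, hψ, hu, rfl, -⟩
  exact if_mem hψ hu

omit [FiniteDimensional ℝ V] in
theorem ct_out_subset' (A : Set V) : ctOut d M A ⊆ M := by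
  rintro x ⟨ψ, U, u, hψ, hu, rfl, -⟩
  exact if_mem hψ hu

/-- **boundary, wall, singular set, phases of a cylinder set.** -/
theorem ct_cyl_sets (hMf : IsMfd d M) (hτ : τ e = 1) (hM : ∀ x ∈ M, τ x = 0) (A : Set V) :
    ctBd (d + 1) (ctCyl τ e M) (ctCyl τ e A) = ctCyl τ e (ctBd d M A) ∧
      ctWall (d + 1) (ctCyl τ e M) (ctCyl τ e A) = ctCyl τ e (ctWall d M A) ∧
      ctSing (d + 1) (ctCyl τ e M) (ctCyl τ e A) = ctCyl τ e (ctSing d M A) ∧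
      ctIn (d + 1) (ctCyl τ e M) (ctCyl τ e A) = ctCyl τ e (ctIn d M A) ∧
      ctOut (d + 1) (ctCyl τ e M) (ctCyl τ e A) = ctCyl τ e (ctOut d M A) := by
  have hmem : ∀ {U : Set (E d)} {u : E d} (s : ℝ), u ∈ U → Gmt.gmtJoin u s ∈ Gmt.gmtTimesR U := by
    intro U u s hu
    show Gmt.gmtHor (Gmt.gmtJoin u s) ∈ U
    rw [Gmt.fl_hor_join]
    exact hu
  have hbd : ctBd (d + 1) (ctCyl τ e M) (ctCyl τ e A) = ctCyl τ e (ctBd d M A) := by
    refine ct_cyl_sets_aux hMf (ct_bd_subset _) (ct_bd_subset _) (fun ψ U u s hψ hu => ?_)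
    rw [ct_bd_iff (ct_cylP_param hτ hM hψ) _ (hmem s hu), ct_cylP_pre hτ hM hψ, Gmt.gmtBd_timesR,
      ct_bd_iff hψ A hu]
    show Gmt.gmtHor (Gmt.gmtJoin u s) ∈ Gmt.gmtBd (ctPre ψ U A) ↔ _
    rw [Gmt.fl_hor_join]
  have hwall : ctWall (d + 1) (ctCyl τ e M) (ctCyl τ e A) = ctCyl τ e (ctWall d M A) := by
    refine ct_cyl_sets_aux hMf ((ct_wall_subset_bd _).trans (ct_bd_subset _))
      ((ct_wall_subset_bd _).trans (ct_bd_subset _)) (fun ψ U u s hψ hu => ?_)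
    show CtReg _ _ _ _ ↔ CtReg _ _ _ _
    rw [ct_reg_iff (ct_cylP_param hτ hM hψ) _ (hmem s hu), ct_cylP_pre hτ hM hψ, ct_reg_iff hψ A hu]
    constructor
    · intro h
      have := Gmt.gmtReg_of_timesR h
      rwa [Gmt.fl_hor_join] at this
    · intro h
      exact Gmt.gmtReg_timesR h s
  refine ⟨hbd, hwall, ?_, ?_, ?_⟩
  · have e1 : ∀ (k : ℕ) (N B : Set V), ctSing k N B = ctBd k N B \ ctWall k N B := fun _ _ _ => rfl
    rw [e1, e1, hbd, hwall]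
    rfl
  · refine ct_cyl_sets_aux hMf (ct_in_subset' _) (ct_in_subset' _) (fun ψ U u s hψ hu => ?_)
    rw [ct_in_iff (ct_cylP_param hτ hM hψ) _ (hmem s hu), ct_cylP_pre hτ hM hψ, ct_full_timesR,
      ct_in_iff hψ A hu, Gmt.fl_hor_join]
  · refine ct_cyl_sets_aux hMf (ct_out_subset' _) (ct_out_subset' _) (fun ψ U u s hψ hu => ?_)
    rw [ct_out_iff (ct_cylP_param hτ hM hψ) _ (hmem s hu), ct_cylP_pre hτ hM hψ, ct_null_timesR,
      ct_out_iff hψ A hu, Gmt.fl_hor_join]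

end Claimed.Agent.R315
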