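import Claimed.Agent.R315.Ct.ProdC
import Claimed.Agent.R315.Ct.ProdE

/-!
# Row 315, package Ct: file `ProdD.lean`, continuation of `ProdC.lean`

PACKAGE L-Ct-ProdD (invariant phases, base of a minimising cylinder, factorisation).  PLAN.
* `ct_inv_cyl`: by `ct_cyl_wvol` (version for `vol`) transport to `(vol_M) × volume` on `V × ℝ`: `A' = {(y,s) | y + s • e ∈ A}` is a.e. invariant under all
  translations in `s`.  Put `F = {y ∈ M | volume {s ∈ (0,1) | (y,s) ∈ A'} > 1/2}` (measurable by `measurable_measure_prodMk_left`).  For a.e. `y` the section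
  `A'_y ⊆ ℝ` is a.e. invariant under all rational translations (Fubini for each rational), hence null or conull
  (Lebesgue density, or: `s ↦ ∫ 1_{A'_y} φ(·+s)` is continuous and constant on `ℚ`, so `1_{A'_y}` is a.e. constant).
* `ct_cyl_lf`: chartwise (`ctLF_of_chart`, `CtLF.chart`) from the products chain of `Lib/Gmt/BvProd.lean` (test fields `T(x) η(s)`).
* `ct_cyl_base`: `F` is `CtLF` by `ct_cyl_lf`.  Let `F'` be a competitor, `F △ F' ⊆ K`, gain `η = En(F;K) - En(F';K) > 0`.  For `L > 0` glue `ctCyl F'` inside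
  `{|τ| < L'}` with `ctCyl F` outside, `L' ∈ (L, L+1)` generic: `ct_glue_level` twice (functions `τ` and `-τ`, `gradN τ = 1` by `ct_cyl_gradSq`), the interface cost is
  the derivative of `s ↦ wvol ((F △ F') × (a,s)) = (s - a) wvol_M (F △ F')`, i.e. `≤ wvol_M (F △ F')` at each of the two levels; inside, `ct_glue_lt/gt`,
  `ct_cyl_wper`, `ct_cyl_wvol` give energy `2 L' · En(F';K)` versus `2 L' · En(F;K)`.  Minimality of the cylinder on the compact set `K + [-L-1,L+1] e`: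
  `2 L' η ≤ 2 wvol_M (F △ F')`; `L → ∞` is a contradiction.
* `ct_cyl_unique`: for `s : ℝ`, `ctTr (s • e) A` is a minimiser for the same data (`CtLAM.translate` + `CtLAM.congr_data`: the data are invariant,
  `ctPr τ e (z - s • e) = ctPr τ e z`, `ctTr (s • e) (ctCyl τ e M) = ctCyl τ e M`), so `huc` gives invariance; `ct_inv_cyl` gives `F₀`; `CtLAM.congr` + `ct_cyl_base` make `F₀`
  a minimiser of the base; `hub` + `ct_cyl_null`.
-/

set_option autoImplicit false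
set_option linter.unusedSectionVars false
open scoped ContDiff ENNReal Topology
open MeasureTheory Claims.C0499 Set Filter

namespace Claimed.Agent.R315

/-! ### host-free measure theory -/

/-- sections of a set which is a.e. invariant under all vertical translations are null or conull. -/
theorem ctd_section_null_or_conull {α : Type*} [MeasurableSpace α] (μ : Measure α) [SFinite μ]
    {A : Set (α × ℝ)} (hA : MeasurableSet A)
    (hinv : ∀ s : ℝ, (μ.prod (volume : Measure ℝ)) {q | q ∈ A ∧ (q.1, q.2 - s) ∉ A} = 0) :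
    ∀ᵐ y ∂μ, (volume : Measure ℝ) (Prod.mk y ⁻¹' A) = 0 ∨
      (volume : Measure ℝ) (Prod.mk y ⁻¹' Aᶜ) = 0 := by
  classical
  set f : α × ℝ → ℝ≥0∞ := A.indicator 1 with hf
  set g : α × ℝ → ℝ≥0∞ := Aᶜ.indicator 1 with hg
  have hfm : Measurable f := measurable_one.indicator hA
  have hgm : Measurable g := measurable_one.indicator hA.compl
  have hkm : Measurable (fun z : (α × ℝ) × ℝ => f z.1 * g (z.1.1, z.1.2 - z.2)) := by
    refine (hfm.comp measurable_fst).mul (hgm.comp ?_)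
    exact (measurable_fst.comp measurable_fst).prodMk
      ((measurable_snd.comp measurable_fst).sub measurable_snd)
  have h1 : ∫⁻ q, ∫⁻ s, f q * g (q.1, q.2 - s) ∂(volume : Measure ℝ) ∂(μ.prod volume) = 0 := by
    rw [lintegral_lintegral_swap hkm.aemeasurable]
    have : ∀ s : ℝ, ∫⁻ q, f q * g (q.1, q.2 - s) ∂(μ.prod (volume : Measure ℝ)) = 0 := by
      intro s
      have hset : MeasurableSet {q : α × ℝ | q ∈ A ∧ (q.1, q.2 - s) ∉ A} := by
        refine hA.inter ?_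
        exact (hA.compl).preimage (measurable_fst.prodMk (measurable_snd.sub_const s))
      have e : (fun q : α × ℝ => f q * g (q.1, q.2 - s)) =
          {q : α × ℝ | q ∈ A ∧ (q.1, q.2 - s) ∉ A}.indicator 1 := by
        funext q
        by_cases h1 : q ∈ A <;> by_cases h2 : (q.1, q.2 - s) ∈ A <;>
          simp [hf, hg, indicator, h1, h2]
      rw [e, lintegral_indicator_one hset, hinv s]
    simp [this]
  have h2 : ∀ q : α × ℝ, ∫⁻ s, f q * g (q.1, q.2 - s) ∂(volume : Measure ℝ) =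
      f q * (volume : Measure ℝ) (Prod.mk q.1 ⁻¹' Aᶜ) := by
    intro q
    have hm : Measurable (fun r : ℝ => g (q.1, r)) := hgm.comp measurable_prodMk_left
    have hm' : Measurable (fun s : ℝ => g (q.1, q.2 - s)) :=
      hm.comp (measurable_const.sub measurable_id)
    rw [lintegral_const_mul _ hm']
    congr 1
    rw [lintegral_sub_left_eq_self (fun r => g (q.1, r)) q.2]
    have e : (fun r : ℝ => g (q.1, r)) = (Prod.mk q.1 ⁻¹' Aᶜ).indicator 1 := by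
      funext r
      simp [hg, indicator]
    rw [e, lintegral_indicator_one (measurable_prodMk_left hA.compl)]
  simp only [h2] at h1
  have hmc : Measurable (fun y : α => (volume : Measure ℝ) (Prod.mk y ⁻¹' Aᶜ)) :=
    measurable_measure_prodMk_left hA.compl
  have hma : Measurable (fun y : α => (volume : Measure ℝ) (Prod.mk y ⁻¹' A)) :=
    measurable_measure_prodMk_left hA
  have hfc : Measurable (fun q : α × ℝ => f q * (volume : Measure ℝ) (Prod.mk q.1 ⁻¹' Aᶜ)) :=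
    hfm.mul (hmc.comp measurable_fst)
  rw [lintegral_prod _ hfc.aemeasurable] at h1
  have h3 : ∀ y : α, ∫⁻ r, f (y, r) * (volume : Measure ℝ) (Prod.mk y ⁻¹' Aᶜ) ∂(volume : Measure ℝ) =
      (volume : Measure ℝ) (Prod.mk y ⁻¹' A) * (volume : Measure ℝ) (Prod.mk y ⁻¹' Aᶜ) := by
    intro y
    have hm' : Measurable (fun r : ℝ => f (y, r)) := hfm.comp measurable_prodMk_left
    rw [lintegral_mul_const _ hm']
    congr 1
    have e : (fun r : ℝ => f (y, r)) = (Prod.mk y ⁻¹' A).indicator 1 := by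
      funext r
      simp [hf, indicator]
    rw [e, lintegral_indicator_one (measurable_prodMk_left hA)]
  simp only [h3] at h1
  have hmm : Measurable (fun y : α => (volume : Measure ℝ) (Prod.mk y ⁻¹' A) *
      (volume : Measure ℝ) (Prod.mk y ⁻¹' Aᶜ)) := hma.mul hmc
  rw [lintegral_eq_zero_iff hmm] at h1
  filter_upwards [h1] with y hy
  exact mul_eq_zero.1 hy

/-- bookkeeping for two successive cuts along the levels `c₂ < c₁` of `f`. -/
theorem ctd_two_cuts {α : Type*} [MeasurableSpace α] {ν₂ ν₁ νB νF : Measure α} {f : α → ℝ}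
    (hf : Measurable f) {K : Set α} (hK : MeasurableSet K) {c₂ c₁ : ℝ} {W : ℝ≥0∞}
    (h1 : ∀ S, ν₂ (S ∩ {x | f x < c₂}) = νF (S ∩ {x | f x < c₂}))
    (h2 : ∀ S, ν₂ (S ∩ {x | c₂ < f x}) = ν₁ (S ∩ {x | c₂ < f x}))
    (h3 : ν₂ {x | f x = c₂} ≤ W)
    (h4 : ∀ S, ν₁ (S ∩ {x | f x < c₁}) = νB (S ∩ {x | f x < c₁}))
    (h5 : ∀ S, ν₁ (S ∩ {x | c₁ < f x}) = νF (S ∩ {x | c₁ < f x}))
    (h6 : ν₁ {x | f x = c₁} ≤ W) :
    ν₂ K + νF (K ∩ f ⁻¹' Ioo c₂ c₁) ≤ νB (K ∩ f ⁻¹' Ioo c₂ c₁) + νF K + W + W := by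
  have hT : MeasurableSet (f ⁻¹' Ioo c₂ c₁) := hf measurableSet_Ioo
  have ha : ν₂ (K ∩ f ⁻¹' Ioo c₂ c₁) = νB (K ∩ f ⁻¹' Ioo c₂ c₁) := by
    have e1 : K ∩ f ⁻¹' Ioo c₂ c₁ = (K ∩ {x | f x < c₁}) ∩ {x | c₂ < f x} := by
      ext x
      simp only [mem_inter_iff, mem_preimage, mem_Ioo, mem_ofPred_eq]
      tauto
    have e2 : (K ∩ {x | f x < c₁}) ∩ {x | c₂ < f x} = (K ∩ {x | c₂ < f x}) ∩ {x | f x < c₁} := by
      ext x
      simp only [mem_inter_iff, mem_ofPred_eq]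
      tauto
    rw [e1, h2, e2, h4]
  have hS4 : MeasurableSet ((K ∩ {x | c₂ < f x}) ∩ {x | c₁ < f x}) :=
    (hK.inter (measurableSet_lt measurable_const hf)).inter (measurableSet_lt measurable_const hf)
  have hb : ν₂ (K \ f ⁻¹' Ioo c₂ c₁) ≤ νF (K \ f ⁻¹' Ioo c₂ c₁) + (W + W) := by
    have hsub : K \ f ⁻¹' Ioo c₂ c₁ ⊆ ((K ∩ {x | f x < c₂}) ∪
        ((K ∩ {x | c₁ < f x}) ∩ {x | c₂ < f x})) ∪
        ({x | f x = c₂} ∪ ({x | f x = c₁} ∩ {x | c₂ < f x})) := by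
      rintro x ⟨hxK, hxT⟩
      simp only [mem_preimage, mem_Ioo, not_and, not_lt] at hxT
      rcases lt_trichotomy (f x) c₂ with h | h | h
      · exact Or.inl (Or.inl ⟨hxK, h⟩)
      · exact Or.inr (Or.inl h)
      · rcases (hxT h).eq_or_lt with h' | h'
        · exact Or.inr (Or.inr ⟨h'.symm, h⟩)
        · exact Or.inl (Or.inr ⟨⟨hxK, h'⟩, h⟩)
    have e4 : (K ∩ {x | c₁ < f x}) ∩ {x | c₂ < f x} = (K ∩ {x | c₂ < f x}) ∩ {x | c₁ < f x} := by
      ext x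
      simp only [mem_inter_iff, mem_ofPred_eq]
      tauto
    have hdisj : Disjoint (K ∩ {x | f x < c₂}) ((K ∩ {x | c₂ < f x}) ∩ {x | c₁ < f x}) := by
      rw [Set.disjoint_left]
      rintro x ⟨_, h⟩ ⟨⟨_, h'⟩, _⟩
      exact lt_asymm (show f x < c₂ from h) (show c₂ < f x from h')
    have hsub2 : (K ∩ {x | f x < c₂}) ∪ ((K ∩ {x | c₂ < f x}) ∩ {x | c₁ < f x}) ⊆
        K \ f ⁻¹' Ioo c₂ c₁ := by
      rintro x (⟨hxK, h⟩ | ⟨⟨hxK, _⟩, h⟩)
      · exact ⟨hxK, fun hx => lt_asymm h hx.1⟩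
      · exact ⟨hxK, fun hx => lt_asymm h hx.2⟩
    calc ν₂ (K \ f ⁻¹' Ioo c₂ c₁)
        ≤ ν₂ (((K ∩ {x | f x < c₂}) ∪ ((K ∩ {x | c₁ < f x}) ∩ {x | c₂ < f x})) ∪
            ({x | f x = c₂} ∪ ({x | f x = c₁} ∩ {x | c₂ < f x}))) := measure_mono hsub
      _ ≤ (ν₂ (K ∩ {x | f x < c₂}) + ν₂ ((K ∩ {x | c₁ < f x}) ∩ {x | c₂ < f x})) +
            (ν₂ {x | f x = c₂} + ν₂ ({x | f x = c₁} ∩ {x | c₂ < f x})) :=
          (measure_union_le _ _).trans (add_le_add (measure_union_le _ _) (measure_union_le _ _))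
      _ = (νF (K ∩ {x | f x < c₂}) + νF ((K ∩ {x | c₂ < f x}) ∩ {x | c₁ < f x})) +
            (ν₂ {x | f x = c₂} + ν₁ ({x | f x = c₁} ∩ {x | c₂ < f x})) := by
          rw [h1, h2, h2, e4, h5]
      _ ≤ (νF (K ∩ {x | f x < c₂}) + νF ((K ∩ {x | c₂ < f x}) ∩ {x | c₁ < f x})) + (W + W) := by
          gcongr
          exact (measure_mono inter_subset_left).trans h6
      _ = νF ((K ∩ {x | f x < c₂}) ∪ ((K ∩ {x | c₂ < f x}) ∩ {x | c₁ < f x})) + (W + W) := by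
          rw [measure_union hdisj hS4]
      _ ≤ νF (K \ f ⁻¹' Ioo c₂ c₁) + (W + W) := by
          gcongr
  calc ν₂ K + νF (K ∩ f ⁻¹' Ioo c₂ c₁)
      = (ν₂ (K ∩ f ⁻¹' Ioo c₂ c₁) + ν₂ (K \ f ⁻¹' Ioo c₂ c₁)) + νF (K ∩ f ⁻¹' Ioo c₂ c₁) := by
        rw [measure_inter_add_sdiff K hT]
    _ ≤ (νB (K ∩ f ⁻¹' Ioo c₂ c₁) + (νF (K \ f ⁻¹' Ioo c₂ c₁) + (W + W))) +
          νF (K ∩ f ⁻¹' Ioo c₂ c₁) := by
        exact add_le_add (add_le_add ha.le hb) le_rfl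
    _ = νB (K ∩ f ⁻¹' Ioo c₂ c₁) + (νF (K ∩ f ⁻¹' Ioo c₂ c₁) + νF (K \ f ⁻¹' Ioo c₂ c₁)) +
          W + W := by ring
    _ = νB (K ∩ f ⁻¹' Ioo c₂ c₁) + νF K + W + W := by rw [measure_inter_add_sdiff K hT]

/-! ### algebra of `ctPr`, `ctCyl` -/

section alg

variable {V : Type} [NormedAddCommGroup V] [NormedSpace ℝ V] {τ : V →L[ℝ] ℝ} {e : V}

theorem ctd_pr_add (hτ : τ e = 1) (y : V) (s : ℝ) : ctPr τ e (y + s • e) = ctPr τ e y := by
  simp only [ctPr, map_add, map_smul, hτ, smul_eq_mul, mul_one, add_smul]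
  abel

theorem ctd_pr_sub (hτ : τ e = 1) (y : V) (s : ℝ) : ctPr τ e (y - s • e) = ctPr τ e y := by
  rw [sub_eq_add_neg, ← neg_smul, ctd_pr_add hτ]

theorem ctd_pr_of_zero {y : V} (h : τ y = 0) : ctPr τ e y = y := by
  simp [ctPr, h]

theorem ctd_pr_add_smul (z : V) : ctPr τ e z + τ z • e = z := by
  simp [ctPr]

theorem ctd_continuous_pr : Continuous (ctPr τ e) := by
  unfold ctPr
  exact continuous_id.sub (τ.continuous.smul continuous_const)

theorem ctd_continuous_phi : Continuous (fun y : V × ℝ => y.1 + y.2 • e) :=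
  continuous_fst.add (continuous_snd.smul continuous_const)

theorem ctd_cyl_mono {X Y : Set V} (h : X ⊆ Y) : ctCyl τ e X ⊆ ctCyl τ e Y := fun _ hz => h hz

theorem ctd_cyl_inter (X Y : Set V) : ctCyl τ e (X ∩ Y) = ctCyl τ e X ∩ ctCyl τ e Y := rfl

theorem ctd_cyl_symmDiff (X Y : Set V) :
    ctCyl τ e (symmDiff X Y) = symmDiff (ctCyl τ e X) (ctCyl τ e Y) := rfl

theorem ctd_tr_cyl (hτ : τ e = 1) (s : ℝ) (X : Set V) :
    ctTr (s • e) (ctCyl τ e X) = ctCyl τ e X := by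
  ext z
  simp only [ctTr, ctCyl, mem_ofPred_eq, ctd_pr_sub hτ]

theorem ctd_measurableSet_cyl [MeasurableSpace V] [BorelSpace V] {X : Set V}
    (hX : MeasurableSet X) : MeasurableSet (ctCyl τ e X) :=
  ctd_continuous_pr.measurable hX

/-- the box `K × I` in the cylinder. -/
theorem ctd_box_eq (hτ : τ e = 1) {K : Set V} (hK : ∀ x ∈ K, τ x = 0) (I : Set ℝ) :
    ctCyl τ e K ∩ τ ⁻¹' I = (fun y : V × ℝ => y.1 + y.2 • e) '' (K ×ˢ I) := by
  ext z
  constructor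
  · rintro ⟨h1, h2⟩
    exact ⟨(ctPr τ e z, τ z), ⟨h1, h2⟩, ctd_pr_add_smul z⟩
  · rintro ⟨⟨y, s⟩, ⟨h1, h2⟩, rfl⟩
    have h3 : τ (y + s • e) = s := by simp [hK y h1, hτ]
    refine ⟨?_, ?_⟩
    · change ctPr τ e (y + s • e) ∈ K
      rw [ctd_pr_add hτ, ctd_pr_of_zero (hK y h1)]
      exact h1
    · change τ (y + s • e) ∈ I
      rw [h3]
      exact h2

theorem ctd_box_compact (hτ : τ e = 1) {K : Set V} (hK0 : ∀ x ∈ K, τ x = 0) (hK : IsCompact K)
    (a b : ℝ) : IsCompact (ctCyl τ e K ∩ τ ⁻¹' Icc a b) := by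
  rw [ctd_box_eq hτ hK0]
  exact (hK.prod isCompact_Icc).image ctd_continuous_phi

variable [MeasurableSpace V] [BorelSpace V]

/-- product measures which live on `M ⊆ ker τ`, pushed to the cylinder: boxes. -/
theorem ctd_map_box (hτ : τ e = 1) {M : Set V} (hM : ∀ x ∈ M, τ x = 0)
    (μ : Measure V) [SFinite μ] (hμ : μ Mᶜ = 0) {S : Set V} (hS : MeasurableSet S) {I : Set ℝ}
    (hI : MeasurableSet I) :
    ((μ.prod (volume : Measure ℝ)).map (fun y : V × ℝ => y.1 + y.2 • e))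
      (ctCyl τ e S ∩ τ ⁻¹' I) = μ S * volume I := by
  have hΦ : Measurable (fun y : V × ℝ => y.1 + y.2 • e) := ctd_continuous_phi.measurable
  rw [Measure.map_apply hΦ ((ctd_measurableSet_cyl hS).inter (τ.continuous.measurable hI)),
    ← Measure.prod_prod]
  have hae : ∀ᵐ q ∂(μ.prod (volume : Measure ℝ)), q.1 ∈ M := by
    have h0 : (μ.prod (volume : Measure ℝ)) (Mᶜ ×ˢ univ) = 0 := by
      rw [Measure.prod_prod, hμ, zero_mul]
    refine measure_mono_null ?_ h0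
    intro q hq
    exact ⟨hq, mem_univ _⟩
  refine measure_congr ?_
  filter_upwards [hae] with q hq
  have h1 : ctPr τ e (q.1 + q.2 • e) = q.1 := by
    rw [ctd_pr_add hτ, ctd_pr_of_zero (hM _ hq)]
  have h2 : τ (q.1 + q.2 • e) = q.2 := by simp [hM _ hq, hτ]
  apply propext
  change (ctPr τ e (q.1 + q.2 • e) ∈ S ∧ τ (q.1 + q.2 • e) ∈ I) ↔ (q.1 ∈ S ∧ q.2 ∈ I)
  rw [h1, h2]

end alg

variable {V : Type} [NormedAddCommGroup V] [NormedSpace ℝ V]
variable [FiniteDimensional ℝ V]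
variable {d : ℕ} {M : Set V} {h : Ten V} {t p : V → ℝ}
variable [MeasurableSpace V] [BorelSpace V]
variable {τ : V →L[ℝ] ℝ} {e : V}

/-! ### the unweighted product formula -/

theorem ctd_geo_zero (hG : CtGeo d M h t) : CtGeo d M h (fun _ => 0) :=
  ⟨hG.mfd, hG.met, gs_sm_const 0⟩

theorem ctd_wvol_zero (hG : CtGeo d M h t) : wvol d M h (fun _ => 0) = vol d M h := by
  have hMm : MeasurableSet M := ct_measurableSet hG.mfd
  unfold wvol
  have e : (M.indicator fun _ : V => ENNReal.ofReal (Real.exp (-(0 : ℝ)))) =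
      M.indicator (1 : V → ℝ≥0∞) := by
    simp only [neg_zero, Real.exp_zero, ENNReal.ofReal_one]
    rfl
  rw [e, withDensity_indicator hMm, withDensity_one]
  exact Measure.restrict_eq_self_of_ae_mem (ct_vol_spec hG).1

/-- volume of a cylinder = product measure. -/
theorem ctd_cyl_vol (hG : CtGeo d M h t) (hτ : τ e = 1) (hM : ∀ x ∈ M, τ x = 0)
    (hn : CtNormal τ e M h) :
    vol (d + 1) (ctCyl τ e M) (fun z => h (ctPr τ e z)) =
      ((vol d M h).prod (volume : Measure ℝ)).map (fun y : V × ℝ => y.1 + y.2 • e) := by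
  have h0 := ctd_geo_zero hG
  have h1 := ct_cyl_wvol h0 hτ hM hn
  rw [ctd_wvol_zero hG] at h1
  rw [← h1]
  exact (ctd_wvol_zero (h0.cyl hτ hM hn)).symm

/-- an invariant phase is a cylinder. -/
theorem ct_inv_cyl (hG : CtGeo d M h t) (hτ : τ e = 1) (hM : ∀ x ∈ M, τ x = 0)
    (hn : CtNormal τ e M h) {A : Set V} (hA : MeasurableSet A) (hAM : A ⊆ ctCyl τ e M)
    (hinv : ∀ s : ℝ, vol (d + 1) (ctCyl τ e M) (fun z => h (ctPr τ e z))
      (symmDiff A (ctTr (s • e) A)) = 0) :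
    ∃ F, MeasurableSet F ∧ F ⊆ M ∧ vol (d + 1) (ctCyl τ e M) (fun z => h (ctPr τ e z))
      (symmDiff A (ctCyl τ e F)) = 0 := by
  have hsf : SigmaFinite (vol d M h) := ct_vol_sigmaFinite hG
  have hΦ : Measurable (fun y : V × ℝ => y.1 + y.2 • e) := ctd_continuous_phi.measurable
  set A' : Set (V × ℝ) := (fun y : V × ℝ => y.1 + y.2 • e) ⁻¹' A with hA'
  have hA'm : MeasurableSet A' := hΦ hA
  have htr : ∀ s : ℝ, MeasurableSet (ctTr (s • e) A) := fun s =>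
    (measurable_id.sub_const (s • e)) hA
  rw [ctd_cyl_vol hG hτ hM hn] at hinv ⊢
  have hinv' : ∀ s : ℝ, ((vol d M h).prod (volume : Measure ℝ))
      {q | q ∈ A' ∧ (q.1, q.2 - s) ∉ A'} = 0 := by
    intro s
    have h1 := hinv s
    rw [Measure.map_apply hΦ (hA.symmDiff (htr s))] at h1
    refine measure_mono_null ?_ h1
    rintro q ⟨hq1, hq2⟩
    refine Or.inl ⟨hq1, fun hq3 => hq2 ?_⟩
    change q.1 + (q.2 - s) • e ∈ A
    have : q.1 + q.2 • e - s • e = q.1 + (q.2 - s) • e := by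
      rw [sub_smul]; abel
    rw [← this]
    exact hq3
  have hsec := ctd_section_null_or_conull (vol d M h) hA'm hinv'
  have hmc : Measurable (fun y : V => (volume : Measure ℝ) (Prod.mk y ⁻¹' A'ᶜ)) :=
    measurable_measure_prodMk_left hA'm.compl
  set F : Set V := {y | τ y = 0 ∧ (volume : Measure ℝ) (Prod.mk y ⁻¹' A'ᶜ) = 0} with hF
  have hFm : MeasurableSet F :=
    (measurableSet_eq_fun τ.continuous.measurable measurable_const).inter
      (measurableSet_eq_fun hmc measurable_const)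
  have hFM : F ⊆ M := by
    rintro y ⟨hy0, hy1⟩
    have hne : (Prod.mk y ⁻¹' A').Nonempty := by
      by_contra hemp
      rw [not_nonempty_iff_eq_empty] at hemp
      have : Prod.mk y ⁻¹' A'ᶜ = univ := by
        rw [preimage_compl, hemp, compl_empty]
      rw [this] at hy1
      simp at hy1
    obtain ⟨r, hr⟩ := hne
    have h2 : ctPr τ e (y + r • e) ∈ M := hAM hr
    rwa [ctd_pr_add hτ, ctd_pr_of_zero hy0] at h2
  refine ⟨F, hFm, hFM, ?_⟩
  rw [Measure.map_apply hΦ (hA.symmDiff (ctd_measurableSet_cyl hFm)),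
    Measure.measure_prod_null (hΦ (hA.symmDiff (ctd_measurableSet_cyl hFm)))]
  have haeM : ∀ᵐ y ∂(vol d M h), y ∈ M := (ct_vol_spec hG).1
  filter_upwards [hsec, haeM] with y hy hyM
  have hy0 : τ y = 0 := hM y hyM
  have hcy : ∀ r : ℝ, (y + r • e ∈ ctCyl τ e F) ↔ y ∈ F := by
    intro r
    change ctPr τ e (y + r • e) ∈ F ↔ _
    rw [ctd_pr_add hτ, ctd_pr_of_zero hy0]
  by_cases hyF : y ∈ F
  · refine measure_mono_null ?_ hyF.2
    rintro r (⟨_, h2⟩ | ⟨_, h2⟩)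
    · exact absurd ((hcy r).2 hyF) h2
    · exact h2
  · have h0 : (volume : Measure ℝ) (Prod.mk y ⁻¹' A') = 0 := by
      rcases hy with h | h
      · exact h
      · exact absurd ⟨hy0, h⟩ hyF
    refine measure_mono_null ?_ h0
    rintro r (⟨h1, _⟩ | ⟨h1, _⟩)
    · exact h1
    · exact absurd ((hcy r).1 h1) hyF

/-! ### locally finite perimeter -/

theorem ctd_lf_of_timesR {n : ℕ} {S U : Set (E n)} (hU : IsOpen U)
    (h : Gmt.GmtLF (Gmt.gmtTimesR S) (Gmt.gmtTimesR U)) : Gmt.GmtLF S U := by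
  have hSm : MeasurableSet S := Gmt.measurableSet_of_gmtTimesR h.1
  refine ⟨hSm, fun W hW => ?_⟩
  have h1 := h.2 _ (Gmt.gmtBox_cc hW 0 1)
  rw [← Gmt.gmtPer_ne_top_iff (Gmt.isOpen_gmtTimesR hU)
    (Gmt.gmtProdInt_int (Gmt.gmtInt_eu U) (c := fun _ => 1) contDiffOn_const
      (fun _ _ => one_pos)) (Gmt.gmtBox_cc hW 0 1),
    Gmt.gmtPer_timesR_box _ hW.1 (fun _ _ => zero_le_one) hSm zero_le_one, sub_zero,
    ENNReal.ofReal_one, one_mul] at h1
  exact h1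

/-- if the cylinder over `F` has locally finite perimeter, so has `F`. -/
theorem ct_cyl_lf (hG : CtGeo d M h t) (hτ : τ e = 1) (hM : ∀ x ∈ M, τ x = 0)
    (hn : CtNormal τ e M h) {F : Set V} (hF : MeasurableSet F) (hFM : F ⊆ M)
    (hc : CtLF (d + 1) (ctCyl τ e M) (fun z => h (ctPr τ e z)) (fun z => t (ctPr τ e z))
      (ctCyl τ e F)) : CtLF d M h t F := by
  refine ctLF_of_chart hG hF hFM fun x hx => ?_
  obtain ⟨ψ, U, hψ, hxU⟩ := hG.mfd x hx
  refine ⟨ψ, U, hψ, hxU, ctd_lf_of_timesR (if_open hψ) ?_⟩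
  have h1 := hc.chart (hG.cyl hτ hM hn) (ct_cylP_param hτ hM hψ)
  rwa [ct_cylP_pre hτ hM hψ] at h1

/-! ### product formulas on boxes -/

theorem ctd_wper_sigmaFinite (hG : CtGeo d M h t) {A : Set V} (hA : CtLF d M h t A) :
    SigmaFinite (wper d M h t A) := by
  obtain ⟨K, hKc, hKM, hMK⟩ := ct_exists_compact_exhaustion hG.mfd
  refine Measure.sigmaFinite_of_countable (S := insert Mᶜ (range K))
    ((countable_range K).insert _) ?_ ?_
  · rintro _ (rfl | ⟨n, rfl⟩)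
    · rw [ct_wper_compl_M hG hA.meas]; exact ENNReal.zero_lt_top
    · exact (hA.fin _ (hKc n) (hKM n)).lt_top
  · rw [sUnion_insert, sUnion_range, ← hMK]
    exact compl_union_self M

theorem ctd_wvol_sFinite (hG : CtGeo d M h t) : SFinite (wvol d M h t) := by
  have := ct_vol_sigmaFinite hG
  unfold wvol
  infer_instance

theorem ctd_cyl_wper_box (hG : CtGeo d M h t) (hτ : τ e = 1) (hM : ∀ x ∈ M, τ x = 0)
    (hn : CtNormal τ e M h) {F : Set V} (hF : CtLF d M h t F) {S : Set V} (hS : MeasurableSet S)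
    {I : Set ℝ} (hI : MeasurableSet I) :
    wper (d + 1) (ctCyl τ e M) (fun z => h (ctPr τ e z)) (fun z => t (ctPr τ e z)) (ctCyl τ e F)
      (ctCyl τ e S ∩ τ ⁻¹' I) = wper d M h t F S * volume I := by
  have := ctd_wper_sigmaFinite hG hF
  rw [ct_cyl_wper hG hτ hM hn hF]
  exact ctd_map_box hτ hM _ (ct_wper_compl_M hG hF.meas) hS hI

theorem ctd_cyl_wvol_box (hG : CtGeo d M h t) (hτ : τ e = 1) (hM : ∀ x ∈ M, τ x = 0)
    (hn : CtNormal τ e M h) {S : Set V} (hS : MeasurableSet S) {I : Set ℝ}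
    (hI : MeasurableSet I) :
    wvol (d + 1) (ctCyl τ e M) (fun z => h (ctPr τ e z)) (fun z => t (ctPr τ e z))
      (ctCyl τ e S ∩ τ ⁻¹' I) = wvol d M h t S * volume I := by
  have := ctd_wvol_sFinite hG
  rw [ct_cyl_wvol hG hτ hM hn]
  exact ctd_map_box hτ hM _ (ct_wvol_compl hG) hS hI

theorem ctd_continuousOn_pull (hG : CtGeo d M h t) (hp : SmoothAlong d M p) :
    ContinuousOn (fun z => p (ctPr τ e z)) (ctCyl τ e M) :=
  (if_smoothAlong_continuousOn hG.mfd hp).comp ctd_continuous_pr.continuousOn (fun _ hz => hz)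

/-- integrals of pulled back functions over boxes. -/
theorem ctd_cyl_integral_box (hG : CtGeo d M h t) (hp : SmoothAlong d M p) (hτ : τ e = 1)
    (hM : ∀ x ∈ M, τ x = 0) (hn : CtNormal τ e M h) {S : Set V} (hS : MeasurableSet S)
    {I : Set ℝ} (hI : MeasurableSet I) :
    ∫ z in ctCyl τ e S ∩ τ ⁻¹' I, p (ctPr τ e z)
      ∂(wvol (d + 1) (ctCyl τ e M) (fun z => h (ctPr τ e z)) (fun z => t (ctPr τ e z))) =
      (∫ y in S, p y ∂(wvol d M h t)) * (volume I).toReal := by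
  have := ctd_wvol_sFinite hG
  have hΦ : Measurable (fun y : V × ℝ => y.1 + y.2 • e) := ctd_continuous_phi.measurable
  have hsm := ct_aestronglyMeasurable (hG.cyl hτ hM hn) (ctd_continuousOn_pull (τ := τ) (e := e) hG hp)
  rw [ct_cyl_wvol hG hτ hM hn] at hsm ⊢
  rw [setIntegral_map ((ctd_measurableSet_cyl hS).inter (τ.continuous.measurable hI)) hsm
    hΦ.aemeasurable]
  have hae : ∀ᵐ q ∂((wvol d M h t).prod (volume : Measure ℝ)), q.1 ∈ M := by
    have h0 : ((wvol d M h t).prod (volume : Measure ℝ)) (Mᶜ ×ˢ univ) = 0 := by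
      rw [Measure.prod_prod, ct_wvol_compl hG, zero_mul]
    refine measure_mono_null ?_ h0
    intro q hq
    exact ⟨hq, mem_univ _⟩
  have hset : ((fun y : V × ℝ => y.1 + y.2 • e) ⁻¹' (ctCyl τ e S ∩ τ ⁻¹' I) : Set (V × ℝ))
      =ᵐ[(wvol d M h t).prod (volume : Measure ℝ)] (S ×ˢ I : Set (V × ℝ)) := by
    filter_upwards [hae] with q hq
    have h1 : ctPr τ e (q.1 + q.2 • e) = q.1 := by
      rw [ctd_pr_add hτ, ctd_pr_of_zero (hM _ hq)]
    have h2 : τ (q.1 + q.2 • e) = q.2 := by simp [hM _ hq, hτ]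
    apply propext
    change (ctPr τ e (q.1 + q.2 • e) ∈ S ∧ τ (q.1 + q.2 • e) ∈ I) ↔ (q.1 ∈ S ∧ q.2 ∈ I)
    rw [h1, h2]
  rw [setIntegral_congr_set hset]
  have hfun : ∀ᵐ q ∂(((wvol d M h t).prod (volume : Measure ℝ)).restrict (S ×ˢ I)),
      p (ctPr τ e (q.1 + q.2 • e)) = p q.1 * (fun _ : ℝ => (1 : ℝ)) q.2 := by
    refine ae_restrict_of_ae ?_
    filter_upwards [hae] with q hq
    rw [ctd_pr_add hτ, ctd_pr_of_zero (hM _ hq), mul_one]
  rw [integral_congr_ae hfun, setIntegral_prod_mul p (fun _ : ℝ => (1 : ℝ)) S I]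
  simp [Measure.real]

/-- the cylinder over a phase of locally finite perimeter. -/
theorem ctd_cyl_lf_of (hG : CtGeo d M h t) (hτ : τ e = 1) (hM : ∀ x ∈ M, τ x = 0)
    (hn : CtNormal τ e M h) {B : Set V} (hB : CtLF d M h t B) :
    CtLF (d + 1) (ctCyl τ e M) (fun z => h (ctPr τ e z)) (fun z => t (ctPr τ e z))
      (ctCyl τ e B) := by
  refine ⟨ctd_measurableSet_cyl hB.meas, ctd_cyl_mono hB.sub, fun K hK hKM => ?_⟩
  have hK1 : IsCompact (ctPr τ e '' K) := hK.image ctd_continuous_pr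
  have hK1M : ctPr τ e '' K ⊆ M := by
    rintro _ ⟨z, hz, rfl⟩
    exact hKM hz
  obtain ⟨R, hR⟩ := hK.exists_bound_of_continuousOn τ.continuous.continuousOn
  have hsub : K ⊆ ctCyl τ e (ctPr τ e '' K) ∩ τ ⁻¹' Icc (-R) R := by
    intro z hz
    exact ⟨⟨z, hz, rfl⟩, abs_le.1 (hR z hz)⟩
  refine ne_top_of_le_ne_top ?_ (measure_mono hsub)
  rw [ctd_cyl_wper_box hG hτ hM hn hB hK1.measurableSet measurableSet_Icc]
  exact ENNReal.mul_ne_top (hB.fin _ hK1 hK1M) (by simp)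

/-! ### gluing along the levels of `τ` -/

theorem ctd_gradN_tau (hG : CtGeo d M h t) (hτ : τ e = 1) (hM : ∀ x ∈ M, τ x = 0)
    (hn : CtNormal τ e M h) {z : V} (hz : z ∈ ctCyl τ e M) :
    gradN (d + 1) (ctCyl τ e M) (fun z => h (ctPr τ e z)) (fun z => τ z) z = 1 := by
  have h1 := ct_cyl_gradSq hG hτ hM hn (f := fun _ => 0) (gs_sm_const 0) 1 hz
  rw [gs_sq_const hG.mfd hG.met 0 hz] at h1
  simp only [zero_add, one_mul, one_pow] at h1
  unfold gradN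
  rw [h1, Real.sqrt_one]

theorem ctd_iface_eq (hG : CtGeo d M h t) (hτ : τ e = 1) (hM : ∀ x ∈ M, τ x = 0)
    (hn : CtNormal τ e M h) {D D₀ : Set V} (hD₀ : MeasurableSet D₀) {a s : ℝ} (has : a ≤ s)
    (hD : D ∩ {x | a < τ x ∧ τ x < s} = ctCyl τ e D₀ ∩ τ ⁻¹' Ioo a s) :
    ctIface (d + 1) (ctCyl τ e M) (fun z => h (ctPr τ e z)) (fun z => t (ctPr τ e z))
      (fun z => τ z) D a s = (wvol d M h t D₀).toReal * (s - a) := by
  unfold ctIface
  rw [hD]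
  have hae : ∀ᵐ x ∂((wvol (d + 1) (ctCyl τ e M) (fun z => h (ctPr τ e z))
      (fun z => t (ctPr τ e z))).restrict (ctCyl τ e D₀ ∩ τ ⁻¹' Ioo a s)),
      ENNReal.ofReal (gradN (d + 1) (ctCyl τ e M) (fun z => h (ctPr τ e z)) (fun z => τ z) x) =
        1 := by
    refine ae_restrict_of_ae ?_
    have h0 : ∀ᵐ x ∂(wvol (d + 1) (ctCyl τ e M) (fun z => h (ctPr τ e z))
        (fun z => t (ctPr τ e z))), x ∈ ctCyl τ e M := ct_wvol_compl (hG.cyl hτ hM hn)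
    filter_upwards [h0] with x hx
    rw [ctd_gradN_tau hG hτ hM hn hx, ENNReal.ofReal_one]
  rw [lintegral_congr_ae hae, lintegral_one, Measure.restrict_apply_univ,
    ctd_cyl_wvol_box hG hτ hM hn hD₀ measurableSet_Ioo, Real.volume_Ioo, ENNReal.toReal_mul,
    ENNReal.toReal_ofReal (by linarith)]

theorem ctd_iface_deriv (hG : CtGeo d M h t) (hτ : τ e = 1) (hM : ∀ x ∈ M, τ x = 0)
    (hn : CtNormal τ e M h) {D D₀ : Set V} (hD₀ : MeasurableSet D₀) {a b c : ℝ}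
    (hc : c ∈ Ioo a b)
    (hD : ∀ s ≤ b, D ∩ {x | a < τ x ∧ τ x < s} = ctCyl τ e D₀ ∩ τ ⁻¹' Ioo a s) :
    deriv (ctIface (d + 1) (ctCyl τ e M) (fun z => h (ctPr τ e z)) (fun z => t (ctPr τ e z))
      (fun z => τ z) D a) c = (wvol d M h t D₀).toReal := by
  have hev : ctIface (d + 1) (ctCyl τ e M) (fun z => h (ctPr τ e z)) (fun z => t (ctPr τ e z))
      (fun z => τ z) D a =ᶠ[𝓝 c] fun s => (wvol d M h t D₀).toReal * (s - a) := by
    filter_upwards [Ioo_mem_nhds hc.1 hc.2] with s hs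
    exact ctd_iface_eq hG hτ hM hn hD₀ hs.1.le (hD s hs.2.le)
  rw [hev.deriv_eq]
  simp

/-- one gluing step along a generic level of `τ`. -/
theorem ctd_glue_step (hG : CtGeo d M h t) (hτ : τ e = 1) (hM : ∀ x ∈ M, τ x = 0)
    (hn : CtNormal τ e M h) {A₁ A₂ D₀ K : Set V}
    (h₁ : CtLF (d + 1) (ctCyl τ e M) (fun z => h (ctPr τ e z)) (fun z => t (ctPr τ e z)) A₁)
    (h₂ : CtLF (d + 1) (ctCyl τ e M) (fun z => h (ctPr τ e z)) (fun z => t (ctPr τ e z)) A₂)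
    (hD₀ : MeasurableSet D₀) (hD₀K : D₀ ⊆ K) (hK : IsCompact K) (hKM : K ⊆ M) {a b : ℝ}
    (hab : a < b)
    (hD : ∀ s ≤ b, symmDiff A₁ A₂ ∩ {x | a < τ x ∧ τ x < s} = ctCyl τ e D₀ ∩ τ ⁻¹' Ioo a s) :
    ∃ c ∈ Ioo a b,
      CtLF (d + 1) (ctCyl τ e M) (fun z => h (ctPr τ e z)) (fun z => t (ctPr τ e z))
        (ctGlue (fun z => τ z) c A₁ A₂) ∧
      wper (d + 1) (ctCyl τ e M) (fun z => h (ctPr τ e z)) (fun z => t (ctPr τ e z))
        (ctGlue (fun z => τ z) c A₁ A₂) {x | τ x = c} ≤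
          ENNReal.ofReal (wvol d M h t D₀).toReal := by
  have hK0 : ∀ x ∈ K, τ x = 0 := fun x hx => hM x (hKM hx)
  have hsm : SmoothAlong (d + 1) (ctCyl τ e M) (fun z => τ z) :=
    if_smoothAlong_of_contDiff τ.contDiff
  have hsub : symmDiff A₁ A₂ ∩ {x | a < τ x ∧ τ x < b} ⊆ ctCyl τ e K ∩ τ ⁻¹' Icc a b := by
    rw [hD b le_rfl]
    exact inter_subset_inter (ctd_cyl_mono hD₀K) (preimage_mono Ioo_subset_Icc_self)
  have hgl := ct_glue_level (hG.cyl hτ hM hn) hsm h₁ h₂ (ctd_box_compact hτ hK0 hK a b)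
    (inter_subset_left.trans (ctd_cyl_mono hKM)) hsub
  have hvol : (volume : Measure ℝ) (Ioo a b) ≠ 0 := by
    rw [Real.volume_Ioo, Ne, ENNReal.ofReal_eq_zero, not_le]
    linarith
  obtain ⟨c, hc, hP⟩ := Gmt.gmt_bpd_exists_of_ae hgl hvol
  obtain ⟨hP1, hP2⟩ := hP hc
  refine ⟨c, hc, hP1, ?_⟩
  rwa [ctd_iface_deriv hG hτ hM hn hD₀ hc hD] at hP2

omit [FiniteDimensional ℝ V] [MeasurableSpace V] [BorelSpace V] in
theorem ctd_mem_glue_lt {f : V → ℝ} {c : ℝ} {A₁ A₂ : Set V} {z : V} (hz : f z < c) :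
    z ∈ ctGlue f c A₁ A₂ ↔ z ∈ A₁ := by
  constructor
  · rintro (⟨h1, _⟩ | ⟨_, h2⟩)
    · exact h1
    · exact absurd hz h2
  · exact fun h1 => Or.inl ⟨h1, hz⟩

omit [FiniteDimensional ℝ V] [MeasurableSpace V] [BorelSpace V] in
theorem ctd_mem_glue_ge {f : V → ℝ} {c : ℝ} {A₁ A₂ : Set V} {z : V} (hz : ¬ f z < c) :
    z ∈ ctGlue f c A₁ A₂ ↔ z ∈ A₂ := by
  constructor
  · rintro (⟨_, h2⟩ | ⟨h1, _⟩)
    · exact absurd h2 hz
    · exact h1
  · exact fun h1 => Or.inr ⟨h1, hz⟩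

/-- **the base of a minimising cylinder is a minimiser.** -/
theorem ct_cyl_base (hG : CtGeo d M h t) (hp : SmoothAlong d M p) (hτ : τ e = 1)
    (hM : ∀ x ∈ M, τ x = 0) (hn : CtNormal τ e M h) {F : Set V} (hF : MeasurableSet F)
    (hFM : F ⊆ M)
    (hc : CtLAM (d + 1) (ctCyl τ e M) (fun z => h (ctPr τ e z)) (fun z => t (ctPr τ e z))
      (fun z => p (ctPr τ e z)) (ctCyl τ e F)) : CtLAM d M h t p F := by
  have hGC := hG.cyl hτ hM hn
  have hFlf : CtLF d M h t F := ct_cyl_lf hG hτ hM hn hF hFM hc.lf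
  refine ⟨hFlf, fun K B hK hKM hB hFB => ?_⟩
  by_contra hlt
  rw [not_le] at hlt
  have hD₀m : MeasurableSet (symmDiff B F) := hB.meas.symmDiff hF
  have hD₀K : symmDiff B F ⊆ K := by rw [symmDiff_comm]; exact hFB
  obtain ⟨w, hw⟩ : ∃ w : ℝ, w = (wvol d M h t (symmDiff B F)).toReal := ⟨_, rfl⟩
  have hw0 : 0 ≤ w := hw ▸ ENNReal.toReal_nonneg
  obtain ⟨η, hη⟩ : ∃ η : ℝ, η = ctEn d M h t p F K - ctEn d M h t p B K := ⟨_, rfl⟩
  have hη0 : 0 < η := hη ▸ sub_pos.2 hlt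
  obtain ⟨L, hL⟩ : ∃ L : ℝ, L = w / η + 1 := ⟨_, rfl⟩
  have hL0 : 0 < L := by rw [hL]; positivity
  have hLη : w < L * η := by
    rw [hL, add_mul, div_mul_cancel₀ _ hη0.ne']; linarith
  have hA₁ := ctd_cyl_lf_of hG hτ hM hn hB
  have hA₂ := hc.lf
  have hsm : SmoothAlong (d + 1) (ctCyl τ e M) (fun z => τ z) :=
    if_smoothAlong_of_contDiff τ.contDiff
  -- first cut
  obtain ⟨c₁, hc₁, hG₁, hG₁w⟩ := ctd_glue_step hG hτ hM hn hA₁ hA₂ hD₀m hD₀K hK hKM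
    (a := L) (b := L + 1) (by linarith) (fun s _ => rfl)
  -- second cut
  obtain ⟨c₂, hc₂, hG₂, hG₂w⟩ := ctd_glue_step hG hτ hM hn hA₂ hG₁ hD₀m hD₀K hK hKM
    (a := -(L + 1)) (b := -L) (by linarith) (fun s hs => by
      ext z
      constructor
      · rintro ⟨hz, h1, h2⟩
        have hzc : (fun z => τ z) z < c₁ := by
          have := hc₁.1
          change τ z < c₁
          change τ z < s at h2
          linarith
        refine ⟨?_, h1, h2⟩
        change z ∈ symmDiff (ctCyl τ e B) (ctCyl τ e F)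
        rcases hz with ⟨ha, hb⟩ | ⟨ha, hb⟩
        · exact Or.inr ⟨ha, fun hB' => hb ((ctd_mem_glue_lt hzc).2 hB')⟩
        · exact Or.inl ⟨(ctd_mem_glue_lt hzc).1 ha, hb⟩
      · rintro ⟨hz, h1, h2⟩
        have hzc : (fun z => τ z) z < c₁ := by
          have := hc₁.1
          change τ z < c₁
          change τ z < s at h2
          linarith
        refine ⟨?_, h1, h2⟩
        change z ∈ symmDiff (ctCyl τ e B) (ctCyl τ e F) at hz
        rcases hz with ⟨ha, hb⟩ | ⟨ha, hb⟩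
        · exact Or.inr ⟨(ctd_mem_glue_lt hzc).2 ha, hb⟩
        · exact Or.inl ⟨ha, fun hB' => hb ((ctd_mem_glue_lt hzc).1 hB')⟩)
  rw [← hw] at hG₁w hG₂w
  have hc21 : c₂ < c₁ := by linarith [hc₂.2, hc₁.1]
  have hℓ : 2 * L < c₁ - c₂ := by linarith [hc₂.2, hc₁.1]
  -- membership in the competitor
  have hin : ∀ z, τ z ∈ Ico c₂ c₁ →
      (z ∈ ctGlue (fun z => τ z) c₂ (ctCyl τ e F)
        (ctGlue (fun z => τ z) c₁ (ctCyl τ e B) (ctCyl τ e F)) ↔ z ∈ ctCyl τ e B) := by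
    intro z hz
    rw [ctd_mem_glue_ge (f := fun z => τ z) (not_lt.2 hz.1),
      ctd_mem_glue_lt (f := fun z => τ z) hz.2]
  have hout : ∀ z, τ z ∉ Ico c₂ c₁ →
      (z ∈ ctGlue (fun z => τ z) c₂ (ctCyl τ e F)
        (ctGlue (fun z => τ z) c₁ (ctCyl τ e B) (ctCyl τ e F)) ↔ z ∈ ctCyl τ e F) := by
    intro z hz
    by_cases h1 : τ z < c₂
    · rw [ctd_mem_glue_lt (f := fun z => τ z) h1]
    · have h2 : ¬ τ z < c₁ := fun h2 => hz ⟨not_lt.1 h1, h2⟩
      rw [ctd_mem_glue_ge (f := fun z => τ z) h1, ctd_mem_glue_ge (f := fun z => τ z) h2]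
  -- the compact box
  have hK0 : ∀ x ∈ K, τ x = 0 := fun x hx => hM x (hKM hx)
  have hK2c : IsCompact (ctCyl τ e K ∩ τ ⁻¹' Icc (-(L + 1)) (L + 1)) :=
    ctd_box_compact hτ hK0 hK _ _
  have hK2C : ctCyl τ e K ∩ τ ⁻¹' Icc (-(L + 1)) (L + 1) ⊆ ctCyl τ e M :=
    inter_subset_left.trans (ctd_cyl_mono hKM)
  have hIco : Ico c₂ c₁ ⊆ Icc (-(L + 1)) (L + 1) := fun r hr =>
    ⟨by linarith [hr.1, hc₂.1], by linarith [hr.2, hc₁.2]⟩
  have hsub : symmDiff (ctCyl τ e F) (ctGlue (fun z => τ z) c₂ (ctCyl τ e F)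
      (ctGlue (fun z => τ z) c₁ (ctCyl τ e B) (ctCyl τ e F))) ⊆
      ctCyl τ e K ∩ τ ⁻¹' Icc (-(L + 1)) (L + 1) := by
    intro z hz
    by_cases hzI : τ z ∈ Ico c₂ c₁
    · refine ⟨?_, hIco hzI⟩
      apply ctd_cyl_mono hFB
      change z ∈ symmDiff (ctCyl τ e F) (ctCyl τ e B)
      rcases hz with ⟨ha, hb⟩ | ⟨ha, hb⟩
      · exact Or.inl ⟨ha, fun hB' => hb ((hin z hzI).2 hB')⟩
      · exact Or.inr ⟨(hin z hzI).1 ha, hb⟩
    · rcases hz with ⟨ha, hb⟩ | ⟨ha, hb⟩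
      · exact absurd ((hout z hzI).2 ha) hb
      · exact absurd ((hout z hzI).1 ha) hb
  have hmin := hc.min _ _ hK2c hK2C hG₂ hsub
  -- perimeters
  have hper := ctd_two_cuts (f := fun z => τ z) τ.continuous.measurable hK2c.measurableSet
    (fun S => ct_glue_lt hGC hsm hA₂ hG₁ c₂ S) (fun S => ct_glue_gt hGC hsm hA₂ hG₁ c₂ S) hG₂w
    (fun S => ct_glue_lt hGC hsm hA₁ hA₂ c₁ S) (fun S => ct_glue_gt hGC hsm hA₁ hA₂ c₁ S) hG₁w
  have hbox : (ctCyl τ e K ∩ τ ⁻¹' Icc (-(L + 1)) (L + 1)) ∩ (fun z => τ z) ⁻¹' Ioo c₂ c₁ =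
      ctCyl τ e K ∩ τ ⁻¹' Ioo c₂ c₁ := by
    ext z
    constructor
    · rintro ⟨⟨h1, _⟩, h3⟩
      exact ⟨h1, h3⟩
    · rintro ⟨h1, h3⟩
      exact ⟨⟨h1, hIco (Ioo_subset_Ico_self h3)⟩, h3⟩
  rw [hbox, ctd_cyl_wper_box hG hτ hM hn hB hK.measurableSet measurableSet_Ioo,
    ctd_cyl_wper_box hG hτ hM hn hFlf hK.measurableSet measurableSet_Ioo, Real.volume_Ioo] at hper
  have hfB := hB.fin K hK hKM
  have hfF := hFlf.fin K hK hKM
  have hf2 := hG₂.fin _ hK2c hK2C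
  have hfA := hA₂.fin _ hK2c hK2C
  have hper' := ENNReal.toReal_mono (by
    exact ENNReal.add_ne_top.2 ⟨ENNReal.add_ne_top.2 ⟨ENNReal.add_ne_top.2
      ⟨ENNReal.mul_ne_top hfB ENNReal.ofReal_ne_top, hfA⟩, ENNReal.ofReal_ne_top⟩,
      ENNReal.ofReal_ne_top⟩) hper
  rw [ENNReal.toReal_add hf2 (ENNReal.mul_ne_top hfF ENNReal.ofReal_ne_top),
    ENNReal.toReal_add (ENNReal.add_ne_top.2 ⟨ENNReal.add_ne_top.2
      ⟨ENNReal.mul_ne_top hfB ENNReal.ofReal_ne_top, hfA⟩, ENNReal.ofReal_ne_top⟩)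
      ENNReal.ofReal_ne_top,
    ENNReal.toReal_add (ENNReal.add_ne_top.2
      ⟨ENNReal.mul_ne_top hfB ENNReal.ofReal_ne_top, hfA⟩) ENNReal.ofReal_ne_top,
    ENNReal.toReal_add (ENNReal.mul_ne_top hfB ENNReal.ofReal_ne_top) hfA,
    ENNReal.toReal_mul, ENNReal.toReal_mul, ENNReal.toReal_ofReal hw0,
    ENNReal.toReal_ofReal (by linarith : (0 : ℝ) ≤ c₁ - c₂)] at hper'
  -- pressure integrals
  have hint := ct_integrableOn hGC (ctd_continuousOn_pull (τ := τ) (e := e) hG hp) hK2c hK2C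
  have hT' : MeasurableSet (τ ⁻¹' Ico c₂ c₁) := τ.continuous.measurable measurableSet_Ico
  have hi2 := integral_inter_add_sdiff (s := ctGlue (fun z => τ z) c₂ (ctCyl τ e F)
      (ctGlue (fun z => τ z) c₁ (ctCyl τ e B) (ctCyl τ e F)) ∩
      (ctCyl τ e K ∩ τ ⁻¹' Icc (-(L + 1)) (L + 1))) hT' (hint.mono_set inter_subset_right)
  have hiA := integral_inter_add_sdiff (s := ctCyl τ e F ∩
      (ctCyl τ e K ∩ τ ⁻¹' Icc (-(L + 1)) (L + 1))) hT' (hint.mono_set inter_subset_right)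
  have e1 : (ctGlue (fun z => τ z) c₂ (ctCyl τ e F)
      (ctGlue (fun z => τ z) c₁ (ctCyl τ e B) (ctCyl τ e F)) ∩
      (ctCyl τ e K ∩ τ ⁻¹' Icc (-(L + 1)) (L + 1))) ∩ τ ⁻¹' Ico c₂ c₁ =
      ctCyl τ e (B ∩ K) ∩ τ ⁻¹' Ico c₂ c₁ := by
    ext z
    constructor
    · rintro ⟨⟨h1, h2, _⟩, h3⟩
      exact ⟨⟨(hin z h3).1 h1, h2⟩, h3⟩
    · rintro ⟨⟨h1, h2⟩, h3⟩
      exact ⟨⟨(hin z h3).2 h1, h2, hIco h3⟩, h3⟩
  have e2 : (ctCyl τ e F ∩ (ctCyl τ e K ∩ τ ⁻¹' Icc (-(L + 1)) (L + 1))) ∩ τ ⁻¹' Ico c₂ c₁ =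
      ctCyl τ e (F ∩ K) ∩ τ ⁻¹' Ico c₂ c₁ := by
    ext z
    constructor
    · rintro ⟨⟨h1, h2, _⟩, h3⟩
      exact ⟨⟨h1, h2⟩, h3⟩
    · rintro ⟨⟨h1, h2⟩, h3⟩
      exact ⟨⟨h1, h2, hIco h3⟩, h3⟩
  have e3 : (ctGlue (fun z => τ z) c₂ (ctCyl τ e F)
      (ctGlue (fun z => τ z) c₁ (ctCyl τ e B) (ctCyl τ e F)) ∩
      (ctCyl τ e K ∩ τ ⁻¹' Icc (-(L + 1)) (L + 1))) \ τ ⁻¹' Ico c₂ c₁ =
      (ctCyl τ e F ∩ (ctCyl τ e K ∩ τ ⁻¹' Icc (-(L + 1)) (L + 1))) \ τ ⁻¹' Ico c₂ c₁ := by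
    ext z
    constructor
    · rintro ⟨⟨h1, h2⟩, h3⟩
      exact ⟨⟨(hout z h3).1 h1, h2⟩, h3⟩
    · rintro ⟨⟨h1, h2⟩, h3⟩
      exact ⟨⟨(hout z h3).2 h1, h2⟩, h3⟩
  rw [e1, e3, ctd_cyl_integral_box hG hp hτ hM hn (hB.meas.inter hK.measurableSet)
    measurableSet_Ico, Real.volume_Ico,
    ENNReal.toReal_ofReal (by linarith : (0 : ℝ) ≤ c₁ - c₂)] at hi2
  rw [e2, ctd_cyl_integral_box hG hp hτ hM hn (hF.inter hK.measurableSet)
    measurableSet_Ico, Real.volume_Ico,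
    ENNReal.toReal_ofReal (by linarith : (0 : ℝ) ≤ c₁ - c₂)] at hiA
  -- conclusion
  unfold ctEn at hmin hη
  have hfinal : (c₁ - c₂) * η ≤ 2 * w := by
    rw [hη]
    nlinarith [hmin, hper', hi2, hiA]
  nlinarith [hfinal, hℓ, hLη, hη0]

/-- **factorisation**: if minimisers are a.e. unique on the cylinder and on the base, the minimiser
on the cylinder is the cylinder over the minimiser of the base. -/
theorem ct_cyl_unique (hG : CtGeo d M h t) (hp : SmoothAlong d M p) (hτ : τ e = 1)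
    (hM : ∀ x ∈ M, τ x = 0) (hn : CtNormal τ e M h)
    (huc : ∀ A A', CtLAM (d + 1) (ctCyl τ e M) (fun z => h (ctPr τ e z)) (fun z => t (ctPr τ e z))
        (fun z => p (ctPr τ e z)) A →
      CtLAM (d + 1) (ctCyl τ e M) (fun z => h (ctPr τ e z)) (fun z => t (ctPr τ e z))
        (fun z => p (ctPr τ e z)) A' →
      vol (d + 1) (ctCyl τ e M) (fun z => h (ctPr τ e z)) (symmDiff A A') = 0)
    (hub : ∀ F F', CtLAM d M h t p F → CtLAM d M h t p F' → vol d M h (symmDiff F F') = 0)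
    {A F : Set V}
    (hA : CtLAM (d + 1) (ctCyl τ e M) (fun z => h (ctPr τ e z)) (fun z => t (ctPr τ e z))
      (fun z => p (ctPr τ e z)) A) (hF : CtLAM d M h t p F) :
    vol (d + 1) (ctCyl τ e M) (fun z => h (ctPr τ e z)) (symmDiff A (ctCyl τ e F)) = 0 := by
  have hGC := hG.cyl hτ hM hn
  have hinv : ∀ s : ℝ, vol (d + 1) (ctCyl τ e M) (fun z => h (ctPr τ e z))
      (symmDiff A (ctTr (s • e) A)) = 0 := by
    intro s
    have h1 := hA.translate hGC (s • e)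
    simp only [ctd_pr_sub hτ, ctd_tr_cyl hτ] at h1
    exact huc _ _ hA h1
  obtain ⟨F₀, hF₀m, hF₀M, hF₀⟩ := ct_inv_cyl hG hτ hM hn hA.lf.meas hA.lf.sub hinv
  have h2 := hA.congr hGC (ctd_measurableSet_cyl hF₀m) (ctd_cyl_mono hF₀M) hF₀
  have h3 := ct_cyl_base hG hp hτ hM hn hF₀m hF₀M h2
  have h4 := ct_cyl_null hG hτ hM hn (hub _ _ h3 hF)
  rw [ctd_cyl_symmDiff] at h4
  refine measure_mono_null (symmDiff_triangle A (ctCyl τ e F₀) (ctCyl τ e F)) ?_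
  exact measure_union_null hF₀ h4

end Claimed.Agent.R315
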