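import Claimed.Agent.R315.Ct.Defs
import Claimed.Agent.Lib.Gmt.Dif

/-!
# Row 315, package Ct/RegA (R1): boundary, regular, singular points, phases do not depend on the chart   (architect: helper184)

Imports only `Ct/Defs.lean` and `Lib/Gmt/Dif.lean` (so `Ct/Bv*.lean` may import this file).  General description of `Ct/Reg*`: transfer of `Lib/Gmt/IF*.lean` (P Theorem B.6) to Core manifolds; everything is chartwise.

PLAN OF PROOFS
* `ct_tr_diffeo` (proved): the transition map `τ = if_tr ψ' U' ψ : if_trDom ψ U ψ' U' → if_trDom ψ' U' ψ U` is a `Gmt.GmtDiffeo` with inverse `if_tr ψ U ψ'` (`IfParam.lean`).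
* `ct_pre_tr`: for `u ∈ W = if_trDom ψ U ψ' U'`: `u ∈ U`, `τ u ∈ U'` (`if_tr_mem`), `ψ' (τ u) = ψ u` (`if_tr_spec`); so `u ∈ ctPre ψ U A ↔ ψ u ∈ A ↔ τ u ∈ ctPre ψ' U' A`.
* `ct_chart_indep`: `P` = any property of (set, point) which is invariant under `GmtDiffeo`.  (←) take `(ψ, U, u)`.  (→) given `(ψ', U', u')` with `ψ' u' = ψ u`: `u' ∈ if_trDom ψ' U' ψ U` (`if_mem_trDom`), `if_tr ψ U ψ' u' = u` (`if_tr_eq`); apply `hP (ct_tr_diffeo hψ' hψ) (ct_pre_tr hψ' hψ A)`.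
* `ct_bd_iff`, `ct_reg_iff`, `ct_in_iff`, `ct_out_iff`: `ct_chart_indep` with `Gmt.gmtBd_diffeo`, `Gmt.gmtReg_diffeo`, `Gmt.gmtFull_diffeo`, `Gmt.gmtNull_diffeo` (unfold `ctBd`, `CtReg`, `ctIn`, `ctOut`; `Set.mem_setOf_eq`).
* `ct_sing_iff`: `ct_bd_iff`, `ct_reg_iff`, `hu`.
-/

set_option autoImplicit false
open scoped ContDiff ENNReal Topology
open MeasureTheory Claims.C0499 Set Filter

namespace Claimed.Agent.R315

variable {V : Type} [NormedAddCommGroup V] [NormedSpace ℝ V] [FiniteDimensional ℝ V]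
variable {d : ℕ} {M : Set V}

/-- transition maps are diffeomorphisms. -/
theorem ct_tr_diffeo {ψ ψ' : E d → V} {U U' : Set (E d)} (hψ : IsParam M ψ U)
    (hψ' : IsParam M ψ' U') :
    Gmt.GmtDiffeo (if_trDom ψ U ψ' U') (if_trDom ψ' U' ψ U) (if_tr ψ' U' ψ) (if_tr ψ U ψ') :=
  ⟨if_isOpen_trDom hψ hψ', if_isOpen_trDom hψ' hψ, if_tr_contDiffOn hψ hψ',
    if_tr_contDiffOn hψ' hψ, if_tr_mapsTo, if_tr_mapsTo, fun _ hu => if_tr_tr hψ hu,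
    fun _ hv => if_tr_tr hψ' hv⟩

omit [FiniteDimensional ℝ V] in
/-- the phase in two charts. -/
theorem ct_pre_tr {ψ ψ' : E d → V} {U U' : Set (E d)} (A : Set V) :
    ctPre ψ U A ∩ if_trDom ψ U ψ' U' =
      if_tr ψ' U' ψ ⁻¹' (ctPre ψ' U' A) ∩ if_trDom ψ U ψ' U' := by
  ext u
  constructor
  · rintro ⟨⟨hA, _⟩, hW⟩
    refine ⟨⟨?_, if_tr_mem hW⟩, hW⟩
    show ψ' (if_tr ψ' U' ψ u) ∈ A
    rw [if_tr_spec hW]
    exact hA
  · rintro ⟨⟨hA, _⟩, hW⟩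
    refine ⟨⟨?_, hW.1⟩, hW⟩
    have hA' : ψ' (if_tr ψ' U' ψ u) ∈ A := hA
    rw [if_tr_spec hW] at hA'
    exact hA'

/-- a diffeomorphism invariant property of (set, point) may be tested in any chart. -/
theorem ct_chart_indep {P : Set (E d) → E d → Prop}
    (hP : ∀ (W W' : Set (E d)) (τ σ : E d → E d), Gmt.GmtDiffeo W W' τ σ → ∀ S S' : Set (E d),
      S ∩ W = τ ⁻¹' S' ∩ W → ∀ u ∈ W, (P S u ↔ P S' (τ u)))
    {ψ : E d → V} {U : Set (E d)} (hψ : IsParam M ψ U) (A : Set V) {u : E d} (hu : u ∈ U) :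
    (∃ (ψ' : E d → V) (U' : Set (E d)) (u' : E d), IsParam M ψ' U' ∧ u' ∈ U' ∧ ψ' u' = ψ u ∧
      P (ctPre ψ' U' A) u') ↔ P (ctPre ψ U A) u := by
  constructor
  · rintro ⟨ψ', U', u', hψ', hu', he, hPu⟩
    have hW : u' ∈ if_trDom ψ' U' ψ U := if_mem_trDom hu' hu he
    have h1 := hP _ _ _ _ (ct_tr_diffeo hψ' hψ) _ _ (ct_pre_tr (ψ := ψ') (ψ' := ψ) (U := U') (U' := U) A) u' hW
    rw [if_tr_eq hψ hu he] at h1
    exact h1.1 hPu
  · intro h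
    exact ⟨ψ, U, u, hψ, hu, rfl, h⟩

/-! ### R1: the definitions do not depend on the chart -/

theorem ct_bd_iff {ψ : E d → V} {U : Set (E d)} (hψ : IsParam M ψ U) (A : Set V) {u : E d}
    (hu : u ∈ U) : ψ u ∈ ctBd d M A ↔ u ∈ Gmt.gmtBd (ctPre ψ U A) := by
  exact ct_chart_indep (P := fun S u => u ∈ Gmt.gmtBd S)
    (fun _ _ _ _ h _ _ hS _ hu => Gmt.gmtBd_diffeo h hS hu) hψ A hu

theorem ct_reg_iff {ψ : E d → V} {U : Set (E d)} (hψ : IsParam M ψ U) (A : Set V) {u : E d}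
    (hu : u ∈ U) : CtReg d M A (ψ u) ↔ Gmt.GmtReg (ctPre ψ U A) u := by
  exact ct_chart_indep (P := fun S u => Gmt.GmtReg S u)
    (fun _ _ _ _ h _ _ hS _ hu => Gmt.gmtReg_diffeo h hS hu) hψ A hu

theorem ct_sing_iff {ψ : E d → V} {U : Set (E d)} (hψ : IsParam M ψ U) (A : Set V) {u : E d}
    (hu : u ∈ U) : ψ u ∈ ctSing d M A ↔ u ∈ Gmt.gmtSing (ctPre ψ U A) U := by
  show (ψ u ∈ ctBd d M A ∧ ¬ CtReg d M A (ψ u)) ↔
    (u ∈ U ∧ u ∈ Gmt.gmtBd (ctPre ψ U A) ∧ ¬ Gmt.GmtReg (ctPre ψ U A) u)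
  rw [ct_bd_iff hψ A hu, ct_reg_iff hψ A hu]
  exact ⟨fun h => ⟨hu, h⟩, fun h => h.2⟩

theorem ct_in_iff {ψ : E d → V} {U : Set (E d)} (hψ : IsParam M ψ U) (A : Set V) {u : E d}
    (hu : u ∈ U) : ψ u ∈ ctIn d M A ↔ ∃ r > 0, volume (Metric.ball u r \ ctPre ψ U A) = 0 := by
  exact ct_chart_indep (P := fun S u => ∃ r > 0, volume (Metric.ball u r \ S) = 0)
    (fun _ _ _ _ h _ _ hS _ hu => Gmt.gmtFull_diffeo h hS hu) hψ A hu

theorem ct_out_iff {ψ : E d → V} {U : Set (E d)} (hψ : IsParam M ψ U) (A : Set V) {u : E d}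
    (hu : u ∈ U) : ψ u ∈ ctOut d M A ↔ ∃ r > 0, volume (Metric.ball u r ∩ ctPre ψ U A) = 0 := by
  exact ct_chart_indep (P := fun S u => ∃ r > 0, volume (Metric.ball u r ∩ S) = 0)
    (fun _ _ _ _ h _ _ hS _ hu => Gmt.gmtNull_diffeo h hS hu) hψ A hu

end Claimed.Agent.R315
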