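import Claimed.Agent.R315.Ct.RegA
import Claimed.Agent.R315.Pack004
import Claimed.Agent.R315.Pack003

/-!
# Row 315, package Ct/RegB (R2): the three parts `ctIn`, `ctOut`, `ctBd` of `M`; open pieces; components   (architect: helper184)

Point set topology + null sets in charts.  No BV theory, no metric.  (`Ct/Bv*.lean` may import this file.)

PLAN OF PROOFS
* `ct_isOpen_full`, `ct_isOpen_null`: if `ball u r \ S` is null and `v ∈ ball u r` then `ball v (r - dist v u) ⊆ ball u r` (`Metric.ball_subset_ball'`), `measure_mono_null`; `Metric.isOpen_iff`.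
* `ct_open_of_charts`: for `x ∈ Q` choose `(ψ, U)` with `x ∈ ψ '' U` (`hM`); `W = U ∩ ψ ⁻¹' Q` is open; `if_image_open hψ hW inter_subset_left` gives an open `O_x` with `ψ '' W = M ∩ O_x`; `O = ⋃ O_x` (indexed by `x : Q`, `Classical.choose`).  `M ∩ O_x = ψ '' W ⊆ Q`, `x ∈ O_x`.
* `ct_pre_diff`: `ψ u ∈ M` for `u ∈ U` (`if_mem`).      `ct_bd_subset`: `if_mem`.
* `ct_trichotomy'`.  Fix `x ∈ M`, a chart `(ψ, U, u)`, `S = ctPre ψ U A`; by `ct_in_iff`, `ct_out_iff`, `ct_bd_iff` everything is a statement on `(S, u)`: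
  `u ∉ gmtBd S ↔ (∃ r > 0, volume (S ∩ ball u r) = 0) ∨ (∃ r > 0, volume (ball u r \ S) = 0)` (`pos_iff_ne_zero`, `not_and_or`, `inter_comm`); not both: `ball u (min r r')` would be null (`Metric.measure_ball_pos`).  `ctIn, ctOut ⊆ M` by `if_mem`.
* `ct_in_open`, `ct_out_open`: `ct_open_of_charts`; `U ∩ ψ ⁻¹' ctIn d M A = U ∩ {u | ∃ r > 0, ..}` by `ct_in_iff`; `ct_isOpen_full`.
* `ct_out_eq`, `ct_bd_diff`: chartwise with `ct_pre_diff`: for `ball u r ⊆ U`: `ball u r \ (U \ S) = ball u r ∩ S`; shrink radii (`Metric.isOpen_iff` for `U`; the conditions are monotone in `r`).  For `gmtBd`: `Gmt.gmtBd_local` reduces `U \ S` to `Sᶜ`, and `gmtBd Sᶜ = gmtBd S` by definition (`diff_eq`, `compl_compl`, `inter_comm`, `and_comm`).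
* `ct_wall_subset_bd`: `Gmt.gmtReg_mem_gmtBd` in the chart of the definition.
* `ct_wall_open`: for `x = ψ u` in the wall, `r` from `Gmt.gmtReg_open`, `W = ball u r ∩ U`, `ψ '' W = M ∩ O_x` (`if_image_open`); `ctBd ∩ O_x ⊆ ctWall` by `ct_bd_subset`, `ct_bd_iff`, `ct_reg_iff`; `O = ⋃ O_x`; `ctWall ⊆ ctBd` by `ct_wall_subset_bd`.
* `ct_bd_inter`: one lemma `ct_inter_aux` for a LOCAL property `P` (i.e. `S ∩ W = S' ∩ W`, `W` open, `u ∈ W` ⇒ `P S u ↔ P S' u`): parametrisations of `M ∩ O` are the parametrisations of `M` with image in `O` (`if_param_inter_iff`), for those `ctPre ψ U (A ∩ O) = ctPre ψ U A`;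
  conversely restrict a parametrisation of `M` to `U ∩ ψ ⁻¹' O` (`if_param_restrict`), `ctPre ψ (U ∩ ψ ⁻¹' O) (A ∩ O) ∩ W = ctPre ψ U A ∩ W` with `W = U ∩ ψ ⁻¹' O`.   Locality: `Gmt.gmtBd_local`, `Gmt.gmtReg_local`, `Gmt.gmtFull_diffeo`/`gmtNull_diffeo` with `gmtDiffeo_refl`.
* `ct_component_open`: `C = connectedComponentIn (M ∩ O) x`.  For `y ∈ C`: chart `(ψ, U, u)` of `M ∩ O` (`if_mfd_inter`), `ball u r ⊆ U`; `ψ '' ball u r` is preconnected (`(convex_ball _ _).isPreconnected.image`, `if_continuousOn`), contains `y`, lies in `M ∩ O`: so it lies in `C`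
  (`IsPreconnected.subset_connectedComponentIn`, `connectedComponentIn_eq`); `ψ '' ball u r = (M ∩ O) ∩ O_y`; `O' = ⋃ (O_y ∩ O)`.
-/

set_option autoImplicit false
open scoped ContDiff ENNReal Topology
open MeasureTheory Claims.C0499 Set Filter

namespace Claimed.Agent.R315

variable {V : Type} [NormedAddCommGroup V] [NormedSpace ℝ V] [FiniteDimensional ℝ V]
variable {d : ℕ} {M : Set V}

theorem ct_isOpen_full (S : Set (E d)) :
    IsOpen {u : E d | ∃ r > 0, volume (Metric.ball u r \ S) = 0} := by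
  rw [Metric.isOpen_iff]
  rintro u ⟨r, hr, h0⟩
  refine ⟨r, hr, fun v hv => ?_⟩
  have hv' : dist v u < r := hv
  refine ⟨r - dist v u, by linarith, measure_mono_null ?_ h0⟩
  exact diff_subset_diff_left (Metric.ball_subset_ball' (by linarith))

theorem ct_isOpen_null (S : Set (E d)) :
    IsOpen {u : E d | ∃ r > 0, volume (Metric.ball u r ∩ S) = 0} := by
  rw [Metric.isOpen_iff]
  rintro u ⟨r, hr, h0⟩
  refine ⟨r, hr, fun v hv => ?_⟩
  have hv' : dist v u < r := hv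
  refine ⟨r - dist v u, by linarith, measure_mono_null ?_ h0⟩
  exact inter_subset_inter_left _ (Metric.ball_subset_ball' (by linarith))

/-- a subset of `M` which is open in all charts is relatively open. -/
theorem ct_open_of_charts (hM : IsMfd d M) {Q : Set V} (hQM : Q ⊆ M)
    (hQ : ∀ (ψ : E d → V) (U : Set (E d)), IsParam M ψ U → IsOpen (U ∩ ψ ⁻¹' Q)) :
    ∃ O : Set V, IsOpen O ∧ M ∩ O = Q := by
  have key : ∀ x ∈ Q, ∃ O : Set V, IsOpen O ∧ x ∈ O ∧ M ∩ O ⊆ Q := by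
    intro x hx
    obtain ⟨ψ, U, h, u, hu, rfl⟩ := hM x (hQM hx)
    obtain ⟨O, hO, he⟩ := if_image_open h (hQ ψ U h) inter_subset_left
    refine ⟨O, hO, ?_, ?_⟩
    · have h1 : ψ u ∈ ψ '' (U ∩ ψ ⁻¹' Q) := mem_image_of_mem ψ ⟨hu, hx⟩
      rw [he] at h1
      exact h1.2
    · rw [← he]
      rintro _ ⟨w, hw, rfl⟩
      exact hw.2
  choose! O hO hxO hsub using key
  refine ⟨⋃ x ∈ Q, O x, isOpen_biUnion hO, ?_⟩
  ext y
  constructor
  · rintro ⟨hyM, hy⟩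
    obtain ⟨x, hx, hyx⟩ := mem_iUnion₂.1 hy
    exact hsub x hx ⟨hyM, hyx⟩
  · intro hy
    exact ⟨hQM hy, mem_iUnion₂.2 ⟨y, hy, hxO y hy⟩⟩

theorem ct_pre_diff {ψ : E d → V} {U : Set (E d)} (hψ : IsParam M ψ U) (A : Set V) :
    ctPre ψ U (M \ A) = U \ ctPre ψ U A := by
  ext u
  constructor
  · rintro ⟨⟨_, hA⟩, hu⟩
    exact ⟨hu, fun h => hA h.1⟩
  · rintro ⟨hu, hA⟩
    exact ⟨⟨if_mem hψ hu, fun h => hA ⟨h, hu⟩⟩, hu⟩

/-! ### R2: the three parts of `M` -/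

theorem ct_bd_subset (A : Set V) : ctBd d M A ⊆ M := by
  rintro x ⟨ψ, U, u, h, hu, rfl, _⟩
  exact if_mem h hu

/-- a point is not a boundary point iff the set is null or full near it. -/
theorem ct_not_bd_iff (S : Set (E d)) (u : E d) :
    u ∉ Gmt.gmtBd S ↔ (∃ r > 0, volume (Metric.ball u r ∩ S) = 0) ∨
      (∃ r > 0, volume (Metric.ball u r \ S) = 0) := by
  constructor
  · intro h
    have h' : ¬ ∀ r > 0, 0 < volume (S ∩ Metric.ball u r) ∧ 0 < volume (Metric.ball u r \ S) := h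
    push Not at h'
    obtain ⟨r, hr, h1⟩ := h'
    by_cases h2 : 0 < volume (S ∩ Metric.ball u r)
    · exact Or.inr ⟨r, hr, nonpos_iff_eq_zero.1 (h1 h2)⟩
    · refine Or.inl ⟨r, hr, ?_⟩
      rw [inter_comm]
      exact nonpos_iff_eq_zero.1 (not_lt.1 h2)
  · rintro (⟨r, hr, h0⟩ | ⟨r, hr, h0⟩) h
    · have h1 := (h r hr).1
      rw [inter_comm, h0] at h1
      exact lt_irrefl _ h1
    · have h1 := (h r hr).2
      rw [h0] at h1
      exact lt_irrefl _ h1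

/-- a set is not both full and null near a point. -/
theorem ct_not_full_null (S : Set (E d)) (u : E d) (h1 : ∃ r > 0, volume (Metric.ball u r \ S) = 0)
    (h2 : ∃ r > 0, volume (Metric.ball u r ∩ S) = 0) : False := by
  obtain ⟨r, hr, h1⟩ := h1
  obtain ⟨r', hr', h2⟩ := h2
  have hpos := Metric.measure_ball_pos (volume : Measure (E d)) u (lt_min hr hr')
  have hsub : Metric.ball u (min r r') ⊆ (Metric.ball u r \ S) ∪ (Metric.ball u r' ∩ S) := by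
    intro y hy
    by_cases hyS : y ∈ S
    · exact Or.inr ⟨Metric.ball_subset_ball (min_le_right _ _) hy, hyS⟩
    · exact Or.inl ⟨Metric.ball_subset_ball (min_le_left _ _) hy, hyS⟩
  have h0 : volume (Metric.ball u (min r r')) = 0 :=
    measure_mono_null hsub (measure_union_null h1 h2)
  rw [h0] at hpos
  exact lt_irrefl _ hpos

theorem ct_in_subset (A : Set V) : ctIn d M A ⊆ M := by
  rintro x ⟨ψ, U, u, h, hu, rfl, _⟩
  exact if_mem h hu

theorem ct_out_subset (A : Set V) : ctOut d M A ⊆ M := by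
  rintro x ⟨ψ, U, u, h, hu, rfl, _⟩
  exact if_mem h hu

/-- `M` is the disjoint union of `ctIn`, `ctOut`, `ctBd` (any dimension). -/
theorem ct_trichotomy' (hM : IsMfd d M) (A : Set V) :
    ctIn d M A ∪ ctOut d M A ∪ ctBd d M A = M ∧ Disjoint (ctIn d M A) (ctOut d M A) ∧
      Disjoint (ctIn d M A) (ctBd d M A) ∧ Disjoint (ctOut d M A) (ctBd d M A) := by
  refine ⟨?_, ?_, ?_, ?_⟩
  · ext x
    constructor
    · rintro ((h | h) | h)
      · exact ct_in_subset A h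
      · exact ct_out_subset A h
      · exact ct_bd_subset A h
    · intro hx
      obtain ⟨ψ, U, h, u, hu, rfl⟩ := hM x hx
      by_cases hb : u ∈ Gmt.gmtBd (ctPre ψ U A)
      · exact Or.inr ((ct_bd_iff h A hu).2 hb)
      · rcases (ct_not_bd_iff _ _).1 hb with h1 | h1
        · exact Or.inl (Or.inr ((ct_out_iff h A hu).2 h1))
        · exact Or.inl (Or.inl ((ct_in_iff h A hu).2 h1))
  · rw [Set.disjoint_left]
    rintro x ⟨ψ, U, u, h, hu, rfl, h1⟩ h2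
    exact ct_not_full_null _ _ h1 ((ct_out_iff h A hu).1 h2)
  · rw [Set.disjoint_left]
    rintro x ⟨ψ, U, u, h, hu, rfl, h1⟩ h2
    exact (ct_not_bd_iff _ _).2 (Or.inr h1) ((ct_bd_iff h A hu).1 h2)
  · rw [Set.disjoint_left]
    rintro x ⟨ψ, U, u, h, hu, rfl, h1⟩ h2
    exact (ct_not_bd_iff _ _).2 (Or.inl h1) ((ct_bd_iff h A hu).1 h2)

/-- `M` is the disjoint union of `ctIn`, `ctOut`, `ctBd`. -/
theorem ct_trichotomy (hM : IsMfd d M) (_hd : 1 ≤ d) (A : Set V) :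
    ctIn d M A ∪ ctOut d M A ∪ ctBd d M A = M ∧ Disjoint (ctIn d M A) (ctOut d M A) ∧
      Disjoint (ctIn d M A) (ctBd d M A) ∧ Disjoint (ctOut d M A) (ctBd d M A) :=
  ct_trichotomy' hM A

theorem ct_in_open (hM : IsMfd d M) (A : Set V) : ∃ O : Set V, IsOpen O ∧ M ∩ O = ctIn d M A := by
  refine ct_open_of_charts hM (ct_in_subset A) fun ψ U h => ?_
  have e : U ∩ ψ ⁻¹' ctIn d M A
      = U ∩ {u : E d | ∃ r > 0, volume (Metric.ball u r \ ctPre ψ U A) = 0} := by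
    ext u
    exact and_congr_right fun hu => ct_in_iff h A hu
  rw [e]
  exact (if_open h).inter (ct_isOpen_full _)

theorem ct_out_open (hM : IsMfd d M) (A : Set V) :
    ∃ O : Set V, IsOpen O ∧ M ∩ O = ctOut d M A := by
  refine ct_open_of_charts hM (ct_out_subset A) fun ψ U h => ?_
  have e : U ∩ ψ ⁻¹' ctOut d M A
      = U ∩ {u : E d | ∃ r > 0, volume (Metric.ball u r ∩ ctPre ψ U A) = 0} := by
    ext u
    exact and_congr_right fun hu => ct_out_iff h A hu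
  rw [e]
  exact (if_open h).inter (ct_isOpen_null _)

theorem ct_out_eq (hM : IsMfd d M) (A : Set V) : ctOut d M A = ctIn d M (M \ A) := by
  have key : ∀ (ψ : E d → V) (U : Set (E d)) (u : E d), IsParam M ψ U → u ∈ U →
      (ψ u ∈ ctOut d M A ↔ ψ u ∈ ctIn d M (M \ A)) := by
    intro ψ U u h hu
    rw [ct_out_iff h A hu, ct_in_iff h (M \ A) hu, ct_pre_diff h A]
    constructor
    · rintro ⟨r, hr, h0⟩
      obtain ⟨ρ, hρ, hsub⟩ := Metric.isOpen_iff.1 (if_open h) u hu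
      refine ⟨min r ρ, lt_min hr hρ, measure_mono_null ?_ h0⟩
      rintro y ⟨hy, hyn⟩
      have hyU : y ∈ U := hsub (Metric.ball_subset_ball (min_le_right _ _) hy)
      refine ⟨Metric.ball_subset_ball (min_le_left _ _) hy, ?_⟩
      by_contra hyS
      exact hyn ⟨hyU, hyS⟩
    · rintro ⟨r, hr, h0⟩
      refine ⟨r, hr, measure_mono_null ?_ h0⟩
      rintro y ⟨hy, hyS⟩
      exact ⟨hy, fun hh => hh.2 hyS⟩
  ext x
  constructor
  · intro hx
    obtain ⟨ψ, U, h, u, hu, rfl⟩ := hM x (ct_out_subset A hx)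
    exact (key ψ U u h hu).1 hx
  · intro hx
    obtain ⟨ψ, U, h, u, hu, rfl⟩ := hM x (ct_in_subset _ hx)
    exact (key ψ U u h hu).2 hx

/-- the boundary of the complement. -/
theorem ct_gmtBd_compl (S : Set (E d)) : Gmt.gmtBd Sᶜ = Gmt.gmtBd S := by
  ext u
  have e1 : ∀ r, Sᶜ ∩ Metric.ball u r = Metric.ball u r \ S := by
    intro r
    rw [inter_comm, diff_eq]
  have e2 : ∀ r, Metric.ball u r \ Sᶜ = S ∩ Metric.ball u r := by
    intro r
    rw [diff_eq, compl_compl, inter_comm]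
  show (∀ r > 0, 0 < volume (Sᶜ ∩ Metric.ball u r) ∧ 0 < volume (Metric.ball u r \ Sᶜ)) ↔
    (∀ r > 0, 0 < volume (S ∩ Metric.ball u r) ∧ 0 < volume (Metric.ball u r \ S))
  simp only [e1, e2]
  exact forall₂_congr fun _ _ => and_comm

theorem ct_bd_diff (hM : IsMfd d M) (A : Set V) : ctBd d M (M \ A) = ctBd d M A := by
  have key : ∀ (ψ : E d → V) (U : Set (E d)) (u : E d), IsParam M ψ U → u ∈ U →
      (ψ u ∈ ctBd d M (M \ A) ↔ ψ u ∈ ctBd d M A) := by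
    intro ψ U u h hu
    rw [ct_bd_iff h A hu, ct_bd_iff h (M \ A) hu, ct_pre_diff h A, ← ct_gmtBd_compl (ctPre ψ U A)]
    refine Gmt.gmtBd_local (if_open h) ?_ hu
    ext y
    constructor
    · rintro ⟨⟨_, hyS⟩, hyU⟩
      exact ⟨hyS, hyU⟩
    · rintro ⟨hyS, hyU⟩
      exact ⟨⟨hyU, hyS⟩, hyU⟩
  ext x
  constructor
  · intro hx
    obtain ⟨ψ, U, h, u, hu, rfl⟩ := hM x (ct_bd_subset _ hx)
    exact (key ψ U u h hu).1 hx
  · intro hx
    obtain ⟨ψ, U, h, u, hu, rfl⟩ := hM x (ct_bd_subset _ hx)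
    exact (key ψ U u h hu).2 hx

theorem ct_wall_subset_bd (A : Set V) : ctWall d M A ⊆ ctBd d M A := by
  rintro x ⟨ψ, U, u, h, hu, rfl, hr⟩
  exact ⟨ψ, U, u, h, hu, rfl, Gmt.gmtReg_mem_gmtBd hr⟩

/-- the wall is relatively open in the boundary. -/
theorem ct_wall_open (hM : IsMfd d M) (A : Set V) :
    ∃ O : Set V, IsOpen O ∧ ctBd d M A ∩ O = ctWall d M A := by
  have key : ∀ x ∈ ctWall d M A, ∃ O : Set V, IsOpen O ∧ x ∈ O ∧ ctBd d M A ∩ O ⊆ ctWall d M A := by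
    rintro x ⟨ψ, U, u, h, hu, rfl, hr⟩
    obtain ⟨r, hr0, hreg⟩ := Gmt.gmtReg_open hr
    obtain ⟨O, hO, he⟩ := if_image_open h (Metric.isOpen_ball.inter (if_open h))
      (inter_subset_right : Metric.ball u r ∩ U ⊆ U)
    refine ⟨O, hO, ?_, ?_⟩
    · have h1 : ψ u ∈ ψ '' (Metric.ball u r ∩ U) :=
        mem_image_of_mem ψ ⟨Metric.mem_ball_self hr0, hu⟩
      rw [he] at h1
      exact h1.2
    · rintro z ⟨hzb, hzO⟩
      have h1 : z ∈ M ∩ O := ⟨ct_bd_subset A hzb, hzO⟩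
      rw [← he] at h1
      obtain ⟨w, hw, rfl⟩ := h1
      exact (ct_reg_iff h A hw.2).2 (hreg w hw.1 ((ct_bd_iff h A hw.2).1 hzb))
  choose! O hO hxO hsub using key
  refine ⟨⋃ x ∈ ctWall d M A, O x, isOpen_biUnion hO, ?_⟩
  ext y
  constructor
  · rintro ⟨hyb, hy⟩
    obtain ⟨x, hx, hyx⟩ := mem_iUnion₂.1 hy
    exact hsub x hx ⟨hyb, hyx⟩
  · intro hy
    exact ⟨ct_wall_subset_bd A hy, mem_iUnion₂.2 ⟨y, hy, hxO y hy⟩⟩

/-- a local property of (set, point) on an open piece. -/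
theorem ct_inter_aux {P : Set (E d) → E d → Prop}
    (hP : ∀ (W S S' : Set (E d)), IsOpen W → S ∩ W = S' ∩ W → ∀ u ∈ W, (P S u ↔ P S' u))
    (A : Set V) {O : Set V} (hO : IsOpen O) (x : V) :
    (∃ (ψ : E d → V) (U : Set (E d)) (u : E d), IsParam (M ∩ O) ψ U ∧ u ∈ U ∧ ψ u = x ∧
      P (ctPre ψ U (A ∩ O)) u) ↔
    (∃ (ψ : E d → V) (U : Set (E d)) (u : E d), IsParam M ψ U ∧ u ∈ U ∧ ψ u = x ∧
      P (ctPre ψ U A) u) ∧ x ∈ O := by
  constructor
  · rintro ⟨ψ, U, u, h, hu, rfl, hPu⟩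
    obtain ⟨h1, h2⟩ := (if_param_inter_iff hO).1 h
    have e : ctPre ψ U (A ∩ O) = ctPre ψ U A := by
      ext w
      constructor
      · rintro ⟨hw, hwU⟩
        exact ⟨hw.1, hwU⟩
      · rintro ⟨hw, hwU⟩
        exact ⟨⟨hw, h2 (mem_image_of_mem ψ hwU)⟩, hwU⟩
    rw [e] at hPu
    exact ⟨⟨ψ, U, u, h1, hu, rfl, hPu⟩, h2 (mem_image_of_mem ψ hu)⟩
  · rintro ⟨⟨ψ, U, u, h, hu, rfl, hPu⟩, hxO⟩
    refine ⟨ψ, U ∩ ψ ⁻¹' O, u, if_param_restrict hO h, ⟨hu, hxO⟩, rfl, ?_⟩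
    refine (hP (U ∩ ψ ⁻¹' O) _ _ ((if_continuousOn h).isOpen_inter_preimage (if_open h) hO) ?_ u
      ⟨hu, hxO⟩).2 hPu
    ext w
    constructor
    · rintro ⟨⟨hw, _⟩, hwW⟩
      exact ⟨⟨hw.1, hwW.1⟩, hwW⟩
    · rintro ⟨⟨hw, _⟩, hwW⟩
      exact ⟨⟨⟨hw, hwW.2⟩, hwW⟩, hwW⟩

/-- open pieces. -/
theorem ct_bd_inter (hM : IsMfd d M) (A : Set V) {O : Set V} (hO : IsOpen O) :
    ctBd d (M ∩ O) (A ∩ O) = ctBd d M A ∩ O ∧ ctWall d (M ∩ O) (A ∩ O) = ctWall d M A ∩ O ∧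
      ctSing d (M ∩ O) (A ∩ O) = ctSing d M A ∩ O ∧ ctIn d (M ∩ O) (A ∩ O) = ctIn d M A ∩ O ∧
      ctOut d (M ∩ O) (A ∩ O) = ctOut d M A ∩ O := by
  have hb : ∀ x, x ∈ ctBd d (M ∩ O) (A ∩ O) ↔ x ∈ ctBd d M A ∧ x ∈ O := fun x =>
    ct_inter_aux (P := fun S u => u ∈ Gmt.gmtBd S)
      (fun _ _ _ hW hS _ hu => Gmt.gmtBd_local hW hS hu) A hO x
  have hw : ∀ x, CtReg d (M ∩ O) (A ∩ O) x ↔ CtReg d M A x ∧ x ∈ O := fun x =>
    ct_inter_aux (P := fun S u => Gmt.GmtReg S u)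
      (fun _ _ _ hW hS _ hu => Gmt.gmtReg_local hW hS hu) A hO x
  refine ⟨Set.ext hb, Set.ext hw, ?_, ?_, ?_⟩
  · ext x
    show (x ∈ ctBd d (M ∩ O) (A ∩ O) ∧ ¬ CtReg d (M ∩ O) (A ∩ O) x) ↔
      (x ∈ ctBd d M A ∧ ¬ CtReg d M A x) ∧ x ∈ O
    rw [hb, hw]
    constructor
    · rintro ⟨⟨h1, h2⟩, h3⟩
      exact ⟨⟨h1, fun h => h3 ⟨h, h2⟩⟩, h2⟩
    · rintro ⟨⟨h1, h3⟩, h2⟩
      exact ⟨⟨h1, h2⟩, fun h => h3 h.1⟩
  · ext x
    exact ct_inter_aux (P := fun S u => ∃ r > 0, volume (Metric.ball u r \ S) = 0)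
      (fun _ _ _ hW hS _ hu => Gmt.gmtFull_diffeo (Gmt.gmtDiffeo_refl hW) hS hu) A hO x
  · ext x
    exact ct_inter_aux (P := fun S u => ∃ r > 0, volume (Metric.ball u r ∩ S) = 0)
      (fun _ _ _ hW hS _ hu => Gmt.gmtNull_diffeo (Gmt.gmtDiffeo_refl hW) hS hu) A hO x

/-- Core manifolds are locally connected: components of open pieces are open pieces. -/
theorem ct_component_open (hM : IsMfd d M) {O : Set V} (hO : IsOpen O) {x : V} (hx : x ∈ M ∩ O) :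
    ∃ O' : Set V, IsOpen O' ∧ O' ⊆ O ∧ M ∩ O' = connectedComponentIn (M ∩ O) x := by
  have key : ∀ y ∈ connectedComponentIn (M ∩ O) x, ∃ Oy : Set V, IsOpen Oy ∧ y ∈ Oy ∧
      (M ∩ O) ∩ Oy ⊆ connectedComponentIn (M ∩ O) x := by
    intro y hy
    have hyMO : y ∈ M ∩ O := connectedComponentIn_subset _ _ hy
    obtain ⟨ψ, U, h, u, hu, rfl⟩ := if_mfd_inter hM hO y hyMO
    obtain ⟨r, hr, hsub⟩ := Metric.isOpen_iff.1 (if_open h) u hu
    obtain ⟨Oy, hOy, he⟩ := if_image_open h Metric.isOpen_ball hsub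
    have hmem : ψ u ∈ ψ '' Metric.ball u r := mem_image_of_mem ψ (Metric.mem_ball_self hr)
    refine ⟨Oy, hOy, ?_, ?_⟩
    · have h1 := hmem
      rw [he] at h1
      exact h1.2
    · rw [← he, connectedComponentIn_eq hy]
      refine IsPreconnected.subset_connectedComponentIn ?_ hmem ?_
      · exact (convex_ball u r).isPreconnected.image ψ ((if_continuousOn h).mono hsub)
      · rintro _ ⟨w, hw, rfl⟩
        exact if_mem h (hsub hw)
  choose! Oy hOy hyO hsub using key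
  refine ⟨⋃ y ∈ connectedComponentIn (M ∩ O) x, (Oy y ∩ O),
    isOpen_biUnion fun y hy => (hOy y hy).inter hO, ?_, ?_⟩
  · intro z hz
    obtain ⟨y, _, hzy⟩ := mem_iUnion₂.1 hz
    exact hzy.2
  · ext z
    constructor
    · rintro ⟨hzM, hz⟩
      obtain ⟨y, hy, hzy⟩ := mem_iUnion₂.1 hz
      exact hsub y hy ⟨⟨hzM, hzy.2⟩, hzy.1⟩
    · intro hz
      have hzMO : z ∈ M ∩ O := connectedComponentIn_subset _ _ hz
      exact ⟨hzMO.1, mem_iUnion₂.2 ⟨z, hz, hyO z hz, hzMO.2⟩⟩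

end Claimed.Agent.R315
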