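import Claimed.Agent.R315.Ct.RegB
import Claimed.Agent.R315.Ct.BvA
import Claimed.Agent.R315.Gs.Calc

/-!
# Row 315, package Ct/RegC (R3a): null sets in charts; the dictionary `CtDef` ↔ chart; phases and null sets   (architect: helper184)

Notation: `S = ctPre ψ U A`, `G = cm h ψ`.   Tools: `ct_vol_spec hG : IsVol d M h (vol d M h)` (`vol Mᶜ = 0`; `vol (ψ '' B) = ∫⁻_B ofReal √det G` for measurable `B ⊆ U`), `if_metC`/`gs_met` (`G` smooth, positive definite on `U`), `if_exists_atlas`, `RegA`, `RegB`.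

PLAN OF PROOFS
* `ct_vol_null_chart`.  (←) `B ⊆ B' := toMeasurable volume B ∩ U` measurable, null: `vol (ψ '' B') = ∫⁻_{B'} .. = 0` (`setLIntegral_measure_zero`).   (→) `N' = toMeasurable (vol d M h) (ψ '' B)`, `B' = U ∩ ψ ⁻¹' N'` measurable (`if_measurableSet_preimage`), `B ⊆ B'`, `ψ '' B' ⊆ N'`;
  `∫⁻_{B'} ofReal √det G = 0` with a positive density (`(hmet.pos u hu).det_pos`, `Real.sqrt_pos`) which is measurable on `U` (`ct_rho_continuousOn`-style: `if_sqrt_det_contDiffOn`): `setLIntegral_eq_zero_iff`/`lintegral_eq_zero_iff` + `ae_restrict_iff`, so `volume B' = 0`.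
* `ct_vol_null_pre`: `ψ '' (U ∩ ψ ⁻¹' N) ⊆ N`, `ct_vol_null_chart`.
* `ct_vol_null_of_charts`: countable atlas `(ψ k, U k)` (`if_exists_atlas hG.mfd`): `N ⊆ Mᶜ ∪ ⋃ k, ψ k '' (U k ∩ ψ k ⁻¹' N)`; `measure_iUnion_null`, `ct_vol_null_chart`.
* `ct_fderiv_ne`: `gs_sq_eq`: `gradSq .. (ψ u) = gradSqC G (φ ∘ ψ) u = ξᵀ G⁻¹ ξ`, `ξ i = pdiff (φ ∘ ψ) i u = fderiv (φ ∘ ψ) u (eb i)`; `G⁻¹` is positive definite (`Matrix.PosDef.inv`): `> 0 ↔ ξ ≠ 0 ↔ fderiv ≠ 0` (`if_lin_ext`/`if_clm_expand`: a linear form vanishing on all `eb i` is `0`).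
* `CtDef.chart`: `hφ.smooth ψ U hψ`; `ct_fderiv_ne` + `hφ.reg`; `symmDiff S {u ∈ U | φ (ψ u) < 0} = U ∩ ψ ⁻¹' (symmDiff A {x ∈ M | φ x < 0})` (`if_mem`), `ct_vol_null_pre`; `ae_eq_set`/`measure_symmDiff_eq_zero_iff`.
* `ct_def_of_chart`.  `ψ` is a parametrisation of `M ∩ O` (`if_param_inter hψ`).  `φ = φ₀ ∘ invFunOn ψ U`, `φ (ψ u) = φ₀ u` on `U` (`if_leftInv`).  `smooth`: for a parametrisation `(χ, W)` of `M ∩ O`: `φ ∘ χ = φ₀ ∘ if_tr ψ U χ` (rfl), `if_trDom χ W ψ U = W` (as `χ '' W ⊆ M ∩ O = ψ '' U`), `if_tr_contDiffOn`, `if_tr_mapsTo`.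
  `reg`: every `x ∈ M ∩ O` is `ψ u`; `ct_fderiv_ne` on `M ∩ O` (`CtGeo.inter`), `φ ∘ ψ = φ₀` near `u` (`Filter.EventuallyEq.fderiv_eq`).  `eq`: `symmDiff (A ∩ O) {x ∈ M ∩ O | φ x < 0} ⊆ (M ∩ O)ᶜ ∪ ψ '' (symmDiff S {u ∈ U | φ₀ u < 0})`; `ct_vol_null_chart`, `(ct_vol_spec _).1`.
* `ct_in_of_null`: `x = ψ u`, `W = U ∩ ψ ⁻¹' O` open (`(if_continuousOn hψ).isOpen_inter_preimage`), `ball u r ⊆ W`; `ball u r \ S ⊆ U ∩ ψ ⁻¹' ((M ∩ O) \ A)` null by `ct_vol_null_pre`.   `ct_out_of_null`: the same.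
* `ct_vol_in_diff`: `ct_vol_null_of_charts`; `Z = U ∩ ψ ⁻¹' (ctIn d M A \ A) = {u ∈ U | ∃ r > 0, volume (ball u r \ S) = 0} \ S` (`ct_in_iff`) is locally null: `measure_null_of_locally_null` (`ball u r ∩ Z ⊆ ball u r \ S`).   `ct_vol_out_inter`: the same.
-/

set_option autoImplicit false
open scoped ContDiff ENNReal Topology
open MeasureTheory Claims.C0499 Set Filter

namespace Claimed.Agent.R315

variable {V : Type} [NormedAddCommGroup V] [NormedSpace ℝ V] [FiniteDimensional ℝ V]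
variable {d : ℕ} {M : Set V} {h : Ten V} {t p : V → ℝ}

/-- `|dφ| > 0` in a chart. -/
theorem ct_fderiv_ne (hG : CtGeo d M h t) {φ : V → ℝ} (hφ : SmoothAlong d M φ) {ψ : E d → V}
    {U : Set (E d)} (hψ : IsParam M ψ U) {u : E d} (hu : u ∈ U) :
    0 < gradSq d M h φ (ψ u) ↔ fderiv ℝ (φ ∘ ψ) u ≠ 0 := by
  rw [gs_sq_eq hG.met hφ hψ hu]
  have hm := gs_met hG.met hψ
  have h0 := rm_sq_nonneg hm hu (fun w => φ (ψ w))
  have h1 := rm_sq_eq_zero hm hu (fun w => φ (ψ w))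
  constructor
  · intro hpos hz
    have h2 : gradSqC (cm h ψ) (fun w => φ (ψ w)) u = 0 := h1.2 fun i => by
      show fderiv ℝ (φ ∘ ψ) u _ = 0
      rw [hz]
      rfl
    linarith
  · intro hne
    refine lt_of_le_of_ne h0 fun h2 => hne ?_
    have h3 := h1.1 h2.symm
    refine ContinuousLinearMap.ext fun X => ?_
    rw [if_clm_expand]
    refine Finset.sum_eq_zero fun k _ => ?_
    rw [show fderiv ℝ (φ ∘ ψ) u (eb k) = 0 from h3 k, mul_zero]

variable [MeasurableSpace V] [BorelSpace V]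

/-- null sets in a chart. -/
theorem ct_vol_null_chart (hG : CtGeo d M h t) {ψ : E d → V} {U : Set (E d)}
    (hψ : IsParam M ψ U) {B : Set (E d)} (hB : B ⊆ U) :
    vol d M h (ψ '' B) = 0 ↔ volume B = 0 := by
  have hspec := (ct_vol_spec hG).2 ψ U hψ
  constructor
  · intro h0
    set N' := toMeasurable (vol d M h) (ψ '' B) with hN'
    have hN0 : vol d M h N' = 0 := by rw [hN', measure_toMeasurable]; exact h0
    have hNm : MeasurableSet N' := measurableSet_toMeasurable _ _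
    set B' := U ∩ ψ ⁻¹' N' with hB'
    have hB'm : MeasurableSet B' := if_measurableSet_preimage hψ hNm
    have hBB' : B ⊆ B' := fun u hu =>
      ⟨hB hu, subset_toMeasurable _ _ (mem_image_of_mem ψ hu)⟩
    have h1 : vol d M h (ψ '' B') = 0 := by
      refine measure_mono_null ?_ hN0
      rintro _ ⟨u, hu, rfl⟩
      exact hu.2
    rw [hspec B' inter_subset_left hB'm] at h1
    have hae : AEMeasurable (fun u => ENNReal.ofReal (Real.sqrt (cm h ψ u).det))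
        ((volume : Measure (E d)).restrict B') := by
      have h2 : AEMeasurable (if_vd h ψ) ((volume : Measure (E d)).restrict U) :=
        (if_vd_continuousOn hG.ten hψ).aemeasurable (if_open hψ).measurableSet
      exact (h2.mono_measure (Measure.restrict_mono inter_subset_left le_rfl)).ennreal_ofReal
    rw [lintegral_eq_zero_iff' hae, Filter.EventuallyEq, ae_restrict_iff' hB'm] at h1
    refine measure_mono_null hBB' ?_
    rw [measure_eq_zero_iff_ae_notMem]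
    filter_upwards [h1] with u hu huB
    have h3 := hu huB
    have h4 : 0 < if_vd h ψ u := if_vd_pos hG.met hψ huB.1
    simp only [Pi.zero_apply, ENNReal.ofReal_eq_zero] at h3
    exact absurd h3 (not_le.2 h4)
  · intro h0
    set B' := toMeasurable volume B ∩ U with hB'
    have hB'm : MeasurableSet B' := (measurableSet_toMeasurable _ _).inter (if_open hψ).measurableSet
    have hB0 : volume B' = 0 :=
      measure_mono_null inter_subset_left (by rw [measure_toMeasurable]; exact h0)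
    have hBB' : B ⊆ B' := fun u hu => ⟨subset_toMeasurable _ _ hu, hB hu⟩
    refine measure_mono_null (image_mono hBB') ?_
    rw [hspec B' inter_subset_right hB'm]
    exact setLIntegral_measure_zero _ _ hB0

theorem ct_vol_null_pre (hG : CtGeo d M h t) {ψ : E d → V} {U : Set (E d)}
    (hψ : IsParam M ψ U) {N : Set V} (hN : vol d M h N = 0) : volume (U ∩ ψ ⁻¹' N) = 0 := by
  rw [← ct_vol_null_chart hG hψ inter_subset_left]
  refine measure_mono_null ?_ hN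
  rintro _ ⟨u, hu, rfl⟩
  exact hu.2

theorem ct_vol_null_of_charts (hG : CtGeo d M h t) {N : Set V}
    (hN : ∀ (ψ : E d → V) (U : Set (E d)), IsParam M ψ U → volume (U ∩ ψ ⁻¹' N) = 0) :
    vol d M h N = 0 := by
  obtain ⟨ψ, U, hp, he⟩ := if_exists_atlas hG.mfd
  have hsub : N ⊆ Mᶜ ∪ ⋃ k, ψ k '' (U k ∩ ψ k ⁻¹' N) := by
    intro x hx
    by_cases hxM : x ∈ M
    · right
      rw [he] at hxM
      obtain ⟨k, u, hu, rfl⟩ := mem_iUnion.1 hxM
      exact mem_iUnion.2 ⟨k, u, ⟨hu, hx⟩, rfl⟩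
    · exact Or.inl hxM
  refine measure_mono_null hsub (measure_union_null (ct_vol_spec hG).1 ?_)
  exact measure_iUnion_null fun k =>
    (ct_vol_null_chart hG (hp k) inter_subset_left).2 (hN _ _ (hp k))

/-- a defining function read in a chart. -/
theorem CtDef.chart (hG : CtGeo d M h t) {A : Set V} {φ : V → ℝ} (hφ : CtDef d M h A φ)
    {ψ : E d → V} {U : Set (E d)} (hψ : IsParam M ψ U) :
    ContDiffOn ℝ ∞ (φ ∘ ψ) U ∧ (∀ u ∈ U, fderiv ℝ (φ ∘ ψ) u ≠ 0) ∧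
      ((ctPre ψ U A : Set (E d)) =ᵐ[volume] ({u | u ∈ U ∧ φ (ψ u) < 0} : Set (E d))) := by
  refine ⟨hφ.smooth ψ U hψ, fun u hu =>
    (ct_fderiv_ne hG hφ.smooth hψ hu).1 (hφ.reg _ (if_mem hψ hu)), ?_⟩
  rw [← measure_symmDiff_eq_zero_iff]
  refine measure_mono_null ?_ (ct_vol_null_pre hG hψ hφ.eq)
  intro u hu
  rcases hu with ⟨h1, h2⟩ | ⟨h1, h2⟩
  · refine ⟨h1.2, Or.inl ⟨h1.1, fun h3 => h2 ⟨h1.2, h3.2⟩⟩⟩
  · refine ⟨h1.1, Or.inr ⟨⟨if_mem hψ h1.1, h1.2⟩, fun h3 => h2 ⟨h3, h1.1⟩⟩⟩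

/-- a defining function in a chart gives a defining function on the chart piece of `M`. -/
theorem ct_def_of_chart (hG : CtGeo d M h t) {A : Set V} {ψ : E d → V} {U : Set (E d)}
    (hψ : IsParam M ψ U) {O : Set V} (hO : IsOpen O) (hOU : ψ '' U = M ∩ O) {φ₀ : E d → ℝ}
    (h1 : ContDiffOn ℝ ∞ φ₀ U) (h2 : ∀ u ∈ U, fderiv ℝ φ₀ u ≠ 0)
    (h3 : (ctPre ψ U A : Set (E d)) =ᵐ[volume] ({u | u ∈ U ∧ φ₀ u < 0} : Set (E d))) :
    CtDef d (M ∩ O) h (A ∩ O) (φ₀ ∘ Function.invFunOn ψ U) := by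
  have hψ' : IsParam (M ∩ O) ψ U := if_param_inter hψ (hOU ▸ inter_subset_right)
  have hG' : CtGeo d (M ∩ O) h t := hG.inter hO
  have hval : ∀ u ∈ U, (φ₀ ∘ Function.invFunOn ψ U) (ψ u) = φ₀ u := fun u hu => by
    rw [Function.comp_apply, if_leftInv hψ hu]
  have hsm : SmoothAlong d (M ∩ O) (φ₀ ∘ Function.invFunOn ψ U) := by
    intro χ W hχ
    have hdom : if_trDom χ W ψ U = W := by
      refine Subset.antisymm if_trDom_subset fun w hw => ⟨hw, ?_⟩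
      rw [mem_preimage, hOU]
      exact if_mem hχ hw
    have h4 : ContDiffOn ℝ ∞ (if_tr ψ U χ) W := hdom ▸ if_tr_contDiffOn hχ hψ'
    have h5 : MapsTo (if_tr ψ U χ) W U := fun w hw =>
      if_tr_mem (U := W) (hdom.symm ▸ hw)
    exact h1.comp h4 h5
  refine ⟨hsm, ?_, ?_⟩
  · intro x hx
    rw [← hOU] at hx
    obtain ⟨u, hu, rfl⟩ := hx
    rw [ct_fderiv_ne hG' hsm hψ' hu]
    have h6 : (φ₀ ∘ Function.invFunOn ψ U) ∘ ψ =ᶠ[𝓝 u] φ₀ := by
      filter_upwards [(if_open hψ).mem_nhds hu] with w hw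
      exact hval w hw
    rw [h6.fderiv_eq]
    exact h2 u hu
  · have hsub : symmDiff (A ∩ O) {x | x ∈ M ∩ O ∧ (φ₀ ∘ Function.invFunOn ψ U) x < 0} ⊆
        (M ∩ O)ᶜ ∪ ψ '' (symmDiff (ctPre ψ U A) {u | u ∈ U ∧ φ₀ u < 0}) := by
      intro x hx
      by_cases hxM : x ∈ M ∩ O
      · right
        have hxM' := hxM
        rw [← hOU] at hxM'
        obtain ⟨u, hu, rfl⟩ := hxM'
        refine ⟨u, ?_, rfl⟩
        rcases hx with ⟨h7, h8⟩ | ⟨h7, h8⟩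
        · refine Or.inl ⟨⟨h7.1, hu⟩, fun h9 => h8 ⟨hxM, ?_⟩⟩
          rw [hval u hu]
          exact h9.2
        · refine Or.inr ⟨⟨hu, ?_⟩, fun h9 => h8 ⟨h9.1, hxM.2⟩⟩
          have := h7.2
          rwa [hval u hu] at this
      · exact Or.inl hxM
    refine measure_mono_null hsub (measure_union_null (ct_vol_spec hG').1 ?_)
    have hsU : symmDiff (ctPre ψ U A) {u | u ∈ U ∧ φ₀ u < 0} ⊆ U := by
      rintro u (⟨h7, -⟩ | ⟨h7, -⟩)
      · exact h7.2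
      · exact h7.1
    rw [ct_vol_null_chart hG' hψ' hsU, measure_symmDiff_eq_zero_iff]
    exact h3

/-- `A` has full measure in an open piece: the piece lies in the plus phase. -/
theorem ct_in_of_null (hG : CtGeo d M h t) {A O : Set V} (hO : IsOpen O)
    (h0 : vol d M h ((M ∩ O) \ A) = 0) : M ∩ O ⊆ ctIn d M A := by
  rintro x ⟨hxM, hxO⟩
  obtain ⟨ψ, U, hψ, u, hu, rfl⟩ := hG.mfd x hxM
  have hW : IsOpen (U ∩ ψ ⁻¹' O) := (if_continuousOn hψ).isOpen_inter_preimage (if_open hψ) hO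
  obtain ⟨r, hr, hball⟩ := Metric.isOpen_iff.1 hW u ⟨hu, hxO⟩
  refine ⟨ψ, U, u, hψ, hu, rfl, r, hr, ?_⟩
  refine measure_mono_null ?_ (ct_vol_null_pre hG hψ h0)
  rintro v ⟨hv, hvS⟩
  have hvW := hball hv
  exact ⟨hvW.1, ⟨if_mem hψ hvW.1, hvW.2⟩, fun hA => hvS ⟨hA, hvW.1⟩⟩

theorem ct_out_of_null (hG : CtGeo d M h t) {A O : Set V} (hO : IsOpen O)
    (h0 : vol d M h ((M ∩ O) ∩ A) = 0) : M ∩ O ⊆ ctOut d M A := by
  rintro x ⟨hxM, hxO⟩
  obtain ⟨ψ, U, hψ, u, hu, rfl⟩ := hG.mfd x hxM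
  have hW : IsOpen (U ∩ ψ ⁻¹' O) := (if_continuousOn hψ).isOpen_inter_preimage (if_open hψ) hO
  obtain ⟨r, hr, hball⟩ := Metric.isOpen_iff.1 hW u ⟨hu, hxO⟩
  refine ⟨ψ, U, u, hψ, hu, rfl, r, hr, ?_⟩
  refine measure_mono_null ?_ (ct_vol_null_pre hG hψ h0)
  rintro v ⟨hv, hvS⟩
  have hvW := hball hv
  exact ⟨hvW.1, ⟨if_mem hψ hvW.1, hvW.2⟩, hvS.1⟩

theorem ct_vol_in_diff (hG : CtGeo d M h t) (A : Set V) : vol d M h (ctIn d M A \ A) = 0 := by
  refine ct_vol_null_of_charts hG fun ψ U hψ => ?_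
  refine measure_null_of_locally_null _ fun u hu => ?_
  obtain ⟨r, hr, h0⟩ := (ct_in_iff hψ A hu.1).1 hu.2.1
  refine ⟨Metric.ball u r ∩ (U ∩ ψ ⁻¹' (ctIn d M A \ A)),
    Filter.inter_mem (mem_nhdsWithin_of_mem_nhds (Metric.ball_mem_nhds u hr)) self_mem_nhdsWithin,
    measure_mono_null ?_ h0⟩
  rintro v ⟨hv, hvZ⟩
  exact ⟨hv, fun hS => hvZ.2.2 hS.1⟩

theorem ct_vol_out_inter (hG : CtGeo d M h t) (A : Set V) : vol d M h (ctOut d M A ∩ A) = 0 := by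
  refine ct_vol_null_of_charts hG fun ψ U hψ => ?_
  refine measure_null_of_locally_null _ fun u hu => ?_
  obtain ⟨r, hr, h0⟩ := (ct_out_iff hψ A hu.1).1 hu.2.1
  refine ⟨Metric.ball u r ∩ (U ∩ ψ ⁻¹' (ctOut d M A ∩ A)),
    Filter.inter_mem (mem_nhdsWithin_of_mem_nhds (Metric.ball_mem_nhds u hr)) self_mem_nhdsWithin,
    measure_mono_null ?_ h0⟩
  rintro v ⟨hv, hvZ⟩
  exact ⟨hv, hvZ.2.2, hvZ.1⟩

end Claimed.Agent.R315
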