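import Claimed.Agent.R315.Ct.RegC
import Claimed.Agent.R315.Pack008
import Claimed.Agent.R315.Pack002

/-!
# Row 315, package Ct/RegD (R3b): smooth domains are explicit; the wall is a hypersurface   (architect: helper184)

PLAN OF PROOFS
* `ct_level_mfd`, `ct_level_smooth`, `ct_wall_smooth` (proved): `Rm/Orth.lean` (`rm_level_mfd`, `rm_level_metric`, `rm_level_smooth`, `rm_sub_smooth`).
* `CtDef.sets`.  Fix a chart `(ψ, U)`, `f = φ ∘ ψ`, `S = ctPre ψ U A`; `CtDef.chart`: `f` smooth on `U`, `fderiv f ≠ 0`, `S =ᵐ {u ∈ U | f u < 0}`.  For `u ∈ U`: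
  (a) `f u < 0` ⇒ `f < 0` on some `ball u r ⊆ U` (continuity) ⇒ `ball u r \ S` null ⇒ `ψ u ∈ ctIn` (`ct_in_iff`);   (b) `0 < f u` ⇒ `ψ u ∈ ctOut`;
  (c) `f u = 0` ⇒ `Gmt.GmtReg S u` with the datum `(r, f)`, `ball u r ⊆ U` [`S ∩ ball u r =ᵐ {y ∈ ball u r | f y < 0}`: intersect the a.e. equality with the ball, `Filter.EventuallyEq.inter`] ⇒ `ψ u ∈ ctWall ⊆ ctBd` (`ct_reg_iff`, `ct_wall_subset_bd`).
  Every `x ∈ M` is some `ψ u`; the three cases are exhaustive and `ctIn`, `ctOut`, `ctBd` are pairwise disjoint subsets of `M` (`ct_trichotomy'`): the four equalities follow by set algebra.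
* `ct_reg_def'` (no measurability).  `hx = ⟨ψ, U, u, hψ, hu, rfl, r, hr, φ₀, ..⟩`.  Shrink `r` so that `ball u r ⊆ U`.  `(ψ, ball u r)` is a parametrisation (`if_mono`), `ψ '' ball u r = M ∩ O` (`if_image`), `ctPre ψ (ball u r) A = ctPre ψ U A ∩ ball u r`; `ct_def_of_chart`.
* `ct_wall_inter_def`: `ct_bd_inter` (wall of the piece = wall ∩ `O`) and `CtDef.sets` on `M ∩ O` (`CtGeo.inter`).
* `ct_wall_geo`.  `met`: `rm_sub_metric` (`ctWall ⊆ M`), `drift`: `rm_sub_smooth`.  `mfd`: `if_mfd_of_pieces`: for `x` in the wall take `(O, φ)` from `ct_reg_def'`; `ctWall (d+1) M A ∩ O = {y | y ∈ M ∩ O ∧ φ y = 0}` (`ct_wall_inter_def`), a manifold by `ct_level_mfd` on `M ∩ O` (`hφ.reg`).   The statement has no `MeasurableSpace V`: start with `letI : MeasurableSpace V := borel V; haveI : BorelSpace V := ⟨rfl⟩`.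
-/

set_option autoImplicit false
open scoped ContDiff ENNReal Topology
open MeasureTheory Claims.C0499 Set Filter

namespace Claimed.Agent.R315

variable {V : Type} [NormedAddCommGroup V] [NormedSpace ℝ V] [FiniteDimensional ℝ V]
variable {d : ℕ} {M : Set V} {h : Ten V} {t p : V → ℝ}

/-! ### R3: the wall is a hypersurface -/

/-- the zero set of a function without critical points is a hypersurface. -/
theorem ct_level_mfd (hG : CtGeo (d + 1) M h t) {φ : V → ℝ} (hφ : SmoothAlong (d + 1) M φ)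
    (hreg : ∀ x ∈ M, φ x = 0 → 0 < gradSq (d + 1) M h φ x) :
    CtGeo d {x | x ∈ M ∧ φ x = 0} h t :=
  ⟨rm_level_mfd hG.mfd hG.met hφ hreg, rm_level_metric hG.mfd hG.met hφ hreg,
    rm_level_smooth hG.mfd hG.met hφ hreg hG.drift⟩

/-- restriction of smooth functions to a level set. -/
theorem ct_level_smooth (hG : CtGeo (d + 1) M h t) {φ : V → ℝ} (hφ : SmoothAlong (d + 1) M φ)
    (hreg : ∀ x ∈ M, φ x = 0 → 0 < gradSq (d + 1) M h φ x) {f : V → ℝ}
    (hf : SmoothAlong (d + 1) M f) : SmoothAlong d {x | x ∈ M ∧ φ x = 0} f :=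
  rm_level_smooth hG.mfd hG.met hφ hreg hf

theorem ct_wall_smooth (hG : CtGeo (d + 1) M h t) (A : Set V) {f : V → ℝ}
    (hf : SmoothAlong (d + 1) M f) : SmoothAlong d (ctWall (d + 1) M A) f :=
  rm_sub_smooth ((ct_wall_subset_bd A).trans (ct_bd_subset A)) hG.mfd hf

section
variable [MeasurableSpace V] [BorelSpace V]

/-- for a smooth domain everything is explicit. -/
theorem CtDef.sets (hG : CtGeo d M h t) {A : Set V} {φ : V → ℝ} (hφ : CtDef d M h A φ) :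
    ctBd d M A = {x | x ∈ M ∧ φ x = 0} ∧ ctWall d M A = {x | x ∈ M ∧ φ x = 0} ∧
      ctIn d M A = {x | x ∈ M ∧ φ x < 0} ∧ ctOut d M A = {x | x ∈ M ∧ 0 < φ x} := by
  have hneg : ∀ x ∈ M, φ x < 0 → x ∈ ctIn d M A := by
    intro x hx hlt
    obtain ⟨ψ, U, hψ, u, hu, rfl⟩ := hG.mfd x hx
    obtain ⟨hs, _, hae⟩ := hφ.chart hG hψ
    have hop : IsOpen (U ∩ (φ ∘ ψ) ⁻¹' Iio 0) :=
      hs.continuousOn.isOpen_inter_preimage (if_open hψ) isOpen_Iio
    obtain ⟨r, hr, hsub⟩ := Metric.isOpen_iff.1 hop u ⟨hu, hlt⟩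
    refine (ct_in_iff hψ A hu).2 ⟨r, hr, measure_mono_null ?_ (ae_eq_set.1 hae).2⟩
    rintro y ⟨hy, hyS⟩
    exact ⟨⟨(hsub hy).1, (hsub hy).2⟩, hyS⟩
  have hpos : ∀ x ∈ M, 0 < φ x → x ∈ ctOut d M A := by
    intro x hx hlt
    obtain ⟨ψ, U, hψ, u, hu, rfl⟩ := hG.mfd x hx
    obtain ⟨hs, _, hae⟩ := hφ.chart hG hψ
    have hop : IsOpen (U ∩ (φ ∘ ψ) ⁻¹' Ioi 0) :=
      hs.continuousOn.isOpen_inter_preimage (if_open hψ) isOpen_Ioi
    obtain ⟨r, hr, hsub⟩ := Metric.isOpen_iff.1 hop u ⟨hu, hlt⟩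
    refine (ct_out_iff hψ A hu).2 ⟨r, hr, measure_mono_null ?_ (ae_eq_set.1 hae).1⟩
    rintro y ⟨hy, hyS⟩
    refine ⟨hyS, fun hyT => ?_⟩
    have h1 : 0 < φ (ψ y) := (hsub hy).2
    exact lt_asymm h1 hyT.2
  have hzero : ∀ x ∈ M, φ x = 0 → x ∈ ctWall d M A := by
    intro x hx h0
    obtain ⟨ψ, U, hψ, u, hu, rfl⟩ := hG.mfd x hx
    obtain ⟨hs, hne, hae⟩ := hφ.chart hG hψ
    obtain ⟨r, hr, hsub⟩ := Metric.isOpen_iff.1 (if_open hψ) u hu
    refine (ct_reg_iff hψ A hu).2 ⟨r, hr, φ ∘ ψ, hs.mono hsub, h0, fun y hy => hne y (hsub hy), ?_⟩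
    have h1 := hae.inter (ae_eq_refl (Metric.ball u r))
    have e : ({u | u ∈ U ∧ φ (ψ u) < 0} ∩ Metric.ball u r : Set (E d))
        = {y | y ∈ Metric.ball u r ∧ (φ ∘ ψ) y < 0} := by
      ext y
      constructor
      · rintro ⟨⟨_, h2⟩, h3⟩
        exact ⟨h3, h2⟩
      · rintro ⟨h3, h2⟩
        exact ⟨⟨hsub h3, h2⟩, h3⟩
    rw [e] at h1
    exact h1
  obtain ⟨hun, hio, hib, hob⟩ := ct_trichotomy' hG.mfd A
  have hbM := ct_bd_subset (d := d) (M := M) A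
  have hwb := ct_wall_subset_bd (d := d) (M := M) A
  have hiM : ctIn d M A ⊆ M := fun x hx => hun ▸ Or.inl (Or.inl hx)
  have hoM : ctOut d M A ⊆ M := fun x hx => hun ▸ Or.inl (Or.inr hx)
  have hbd : ctBd d M A = {x | x ∈ M ∧ φ x = 0} := by
    ext x
    constructor
    · intro hx
      refine ⟨hbM hx, ?_⟩
      rcases lt_trichotomy (φ x) 0 with h1 | h1 | h1
      · exact absurd hx (Set.disjoint_left.1 hib (hneg x (hbM hx) h1))
      · exact h1
      · exact absurd hx (Set.disjoint_left.1 hob (hpos x (hbM hx) h1))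
    · rintro ⟨hx, h0⟩
      exact hwb (hzero x hx h0)
  refine ⟨hbd, ?_, ?_, ?_⟩
  · ext x
    constructor
    · intro hx
      have := hwb hx
      rw [hbd] at this
      exact this
    · rintro ⟨hx, h0⟩
      exact hzero x hx h0
  · ext x
    constructor
    · intro hx
      refine ⟨hiM hx, ?_⟩
      rcases lt_trichotomy (φ x) 0 with h1 | h1 | h1
      · exact h1
      · exact absurd (hwb (hzero x (hiM hx) h1)) (Set.disjoint_left.1 hib hx)
      · exact absurd (hpos x (hiM hx) h1) (Set.disjoint_left.1 hio hx)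
    · rintro ⟨hx, h0⟩
      exact hneg x hx h0
  · ext x
    constructor
    · intro hx
      refine ⟨hoM hx, ?_⟩
      rcases lt_trichotomy (φ x) 0 with h1 | h1 | h1
      · exact absurd hx (Set.disjoint_left.1 hio (hneg x (hoM hx) h1))
      · exact absurd (hwb (hzero x (hoM hx) h1)) (Set.disjoint_left.1 hob hx)
      · exact h1
    · rintro ⟨hx, h0⟩
      exact hpos x hx h0

/-- local defining functions at regular points (no measurability needed). -/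
theorem ct_reg_def' (hG : CtGeo d M h t) {A : Set V} {x : V} (hx : CtReg d M A x) :
    ∃ (O : Set V) (φ : V → ℝ), IsOpen O ∧ x ∈ O ∧ CtDef d (M ∩ O) h (A ∩ O) φ := by
  obtain ⟨ψ, U, u, hψ, hu, rfl, r, hr, φ₀, h1, _, h3, h4⟩ := hx
  obtain ⟨ρ, hρ, hsub⟩ := Metric.isOpen_iff.1 (if_open hψ) u hu
  have hr' : 0 < min r ρ := lt_min hr hρ
  have hbr : Metric.ball u (min r ρ) ⊆ Metric.ball u r := Metric.ball_subset_ball (min_le_left _ _)
  have hbU : Metric.ball u (min r ρ) ⊆ U := (Metric.ball_subset_ball (min_le_right _ _)).trans hsub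
  have hψ' : IsParam M ψ (Metric.ball u (min r ρ)) := if_mono hψ Metric.isOpen_ball hbU
  obtain ⟨O, hO, hOU⟩ := if_image hψ'
  refine ⟨O, φ₀ ∘ Function.invFunOn ψ (Metric.ball u (min r ρ)), hO, ?_, ?_⟩
  · have h5 : ψ u ∈ ψ '' Metric.ball u (min r ρ) := mem_image_of_mem ψ (Metric.mem_ball_self hr')
    rw [hOU] at h5
    exact h5.2
  · refine ct_def_of_chart hG hψ' hO hOU (h1.mono hbr) (fun y hy => h3 y (hbr hy)) ?_
    have h6 := h4.inter (ae_eq_refl (Metric.ball u (min r ρ)))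
    have e1 : (ctPre ψ U A ∩ Metric.ball u r ∩ Metric.ball u (min r ρ) : Set (E d))
        = ctPre ψ (Metric.ball u (min r ρ)) A := by
      ext y
      constructor
      · rintro ⟨⟨⟨hA, _⟩, _⟩, hy⟩
        exact ⟨hA, hy⟩
      · rintro ⟨hA, hy⟩
        exact ⟨⟨⟨hA, hbU hy⟩, hbr hy⟩, hy⟩
    have e2 : ({y | y ∈ Metric.ball u r ∧ φ₀ y < 0} ∩ Metric.ball u (min r ρ) : Set (E d))
        = {y | y ∈ Metric.ball u (min r ρ) ∧ φ₀ y < 0} := by
      ext y
      constructor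
      · rintro ⟨⟨_, h7⟩, hy⟩
        exact ⟨hy, h7⟩
      · rintro ⟨hy, h7⟩
        exact ⟨⟨hbr hy, h7⟩, hy⟩
    rw [e1, e2] at h6
    exact h6

/-- local defining functions at regular points. -/
theorem ct_reg_def (hG : CtGeo d M h t) {A : Set V} (_hA : MeasurableSet A) {x : V}
    (hx : CtReg d M A x) :
    ∃ (O : Set V) (φ : V → ℝ), IsOpen O ∧ x ∈ O ∧ CtDef d (M ∩ O) h (A ∩ O) φ :=
  ct_reg_def' hG hx

/-- the wall inside a piece with a defining function. -/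
theorem ct_wall_inter_def (hG : CtGeo d M h t) {A O : Set V} (hO : IsOpen O) {φ : V → ℝ}
    (hφ : CtDef d (M ∩ O) h (A ∩ O) φ) :
    ctWall d M A ∩ O = {y | y ∈ M ∩ O ∧ φ y = 0} ∧ ctBd d M A ∩ O = {y | y ∈ M ∩ O ∧ φ y = 0} ∧
      ctIn d M A ∩ O = {y | y ∈ M ∩ O ∧ φ y < 0} ∧ ctOut d M A ∩ O = {y | y ∈ M ∩ O ∧ 0 < φ y} := by
  obtain ⟨hb, hw, _, hi, ho⟩ := ct_bd_inter hG.mfd A hO
  obtain ⟨h1, h2, h3, h4⟩ := hφ.sets (hG.inter hO)
  exact ⟨hw.symm.trans h2, hb.symm.trans h1, hi.symm.trans h3, ho.symm.trans h4⟩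

end

theorem ct_wall_geo (hG : CtGeo (d + 1) M h t) (A : Set V) :
    CtGeo d (ctWall (d + 1) M A) h t := by
  letI : MeasurableSpace V := borel V
  haveI : BorelSpace V := ⟨rfl⟩
  have hsub : ctWall (d + 1) M A ⊆ M := (ct_wall_subset_bd A).trans (ct_bd_subset A)
  refine ⟨if_mfd_of_pieces fun x hx => ?_, rm_sub_metric hsub hG.mfd hG.met,
    rm_sub_smooth hsub hG.mfd hG.drift⟩
  obtain ⟨O, φ, hO, hxO, hφ⟩ := ct_reg_def' hG hx
  refine ⟨O, hO, hxO, ?_⟩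
  rw [(ct_wall_inter_def hG hO hφ).1]
  exact (ct_level_mfd (hG.inter hO) hφ.smooth fun y hy _ => hφ.reg y hy).mfd

end Claimed.Agent.R315
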