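import Claimed.Agent.R315.Ct.RegD
import Claimed.Agent.R315.Pack003

/-!
# Row 315, package Ct/RegE: normalised defining function near a compact part of the wall (`ct_def_near`)   (architect: helper184)

The only global construction of `Ct/Reg*`: glue local defining functions with a partition of unity.
`CtSgn d M h A φ` := `φ` is smooth along `M`, negative on `ctIn`, positive on `ctOut`, and on `ctBd`: `φ = 0`, `|dφ| = 1`; `A = {φ < 0}` a.e.   (No condition `dφ ≠ 0` away from the boundary: this class is stable under convex combinations.)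
Calculus: `Gs/Calc.lean` (`gs_sm_*`, `gs_ip_*`, `gs_sq_*`), `If/Loc.lean` (`if_gradIp_inter'`, `if_gradSq_inter'`, `if_smoothAlong_cutoff`), `If/Pou.lean`.

PLAN OF PROOFS
* `CtDef.sgn`: `φ̃ = φ · a`, `a = (gradN φ)⁻¹ > 0` smooth (`if_gradSq_smoothAlong`, `gs_sm_sqrt`, `gs_sm_inv`).  Signs: `CtDef.sets`, `a > 0`.  At `φ x = 0`: `gs_sq_mul`: `|dφ̃|² = φ²|da|² + 2 φ a ⟨dφ,da⟩ + a²|dφ|² = a² |dφ|² = 1` (`Real.sq_sqrt`).  `eq`: `{φ̃ < 0} = {φ < 0}` on `M`.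
* `ct_covector_aux` (linear algebra): `ℓ₁ ≠ 0`, `∀ v, ℓ₁ v < 0 → ℓ₂ v ≤ 0` ⇒ `∃ c ≥ 0, ℓ₂ = c • ℓ₁`.   Pick `w` with `ℓ₁ w < 0`.  For `v ∈ ker ℓ₁`, `ε > 0`: `ℓ₁ (± v + ε w) < 0` ⇒ `± ℓ₂ v ≤ - ε ℓ₂ w` for all `ε > 0` ⇒ `ℓ₂ v = 0`.  General `v`: `v - (ℓ₁ v/ℓ₁ w) w ∈ ker ℓ₁` ⇒ `ℓ₂ v = (ℓ₂ w/ℓ₁ w) ℓ₁ v`, `c = ℓ₂ w/ℓ₁ w ≥ 0`.
* `CtSgn.ip_eq_one`.  Chart `(ψ, U, u)` at `x`, `f_i = φ_i ∘ ψ`.  By `ct_trichotomy'` and the sign conditions: `f₁ y < 0 → f₂ y < 0` for `y ∈ U` [`f₁ y < 0` excludes `ψ y ∈ ctOut ∪ ctBd`].  `ℓ_i = fderiv f_i u`; `ℓ₁ ≠ 0` (`ct_fderiv_ne`, `gradSq = 1`).  If `ℓ₁ v < 0` then `f₁ (u + s v) < 0` for small `s > 0`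
  (`HasFDerivAt` ⇒ `HasDerivAt (fun s => f₁ (u + s • v)) (ℓ₁ v) 0`; `HasDerivAt.eventually_lt`-type argument / `hasDerivAt_iff_tendsto_slope`), so `f₂ (u + s v) < 0 = f₂ u` and `ℓ₂ v = lim (f₂ (u + s v) - f₂ u)/s ≤ 0`.  `ct_covector_aux`: `ℓ₂ = c ℓ₁`.
  `gs_ip_eq`, `gs_sq_eq`: `gradIpC G f₁ f₂ u = c · gradSqC G f₁ u = c`, `1 = gradSqC G f₂ u = c²` ⇒ `c = 1`.
* `ct_sgn_glue`.  `φ = ∑ i, χ i · φ i`.  Smooth along `M ∩ N`: each `χ i · φ i` is smooth along `M` by `if_smoothAlong_cutoff` (`tsupport (χ i) ⊆ O i`), `gs_sm_sum`, `if_smoothAlong_inter`.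
  Signs at `x ∈ M ∩ N`: for `i` with `χ i x ≠ 0`: `x ∈ O i`, and `x ∈ ctIn d M A ↔ x ∈ ctIn d (M ∩ O i) (A ∩ O i)` (`ct_bd_inter`), so all the `φ i x` with `χ i x ≠ 0` have the sign of the phase of `x`; `∑ χ i x = 1`, `χ i ≥ 0` (`Finset.sum_pos'`/`sum_neg`).
  At `x ∈ ctBd`: `|dφ|² = ∑_{i,j} ⟨d(χ_i φ_i), d(χ_j φ_j)⟩` (bilinearity: `gs_ip_add_*` by `Finset.induction`); `gs_ip_mul_left/right` and `φ_i x = 0` or `χ_i = 0` near `x` [if `x ∉ tsupport (χ i)`: `gs_ip_congr_near`] give `⟨d(χ_iφ_i), d(χ_jφ_j)⟩ = χ_i χ_j ⟨dφ_i, dφ_j⟩ = χ_i χ_j` (`CtSgn.ip_eq_one` on `M ∩ (O i ∩ O j)`, `CtSgn.inter`, `if_gradIp_inter'`); `(∑ χ_i)² = 1`.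
  `eq`: `symmDiff (A ∩ N) {x ∈ M ∩ N | φ x < 0} ⊆ ⋃ i, symmDiff (A ∩ O i) {x ∈ M ∩ O i | φ i x < 0} ∪ (M ∩ N)ᶜ`-part; `ct_vol_inter` (`vol d (M ∩ O) h = (vol d M h).restrict O`).
* `CtSgn.def_near`: `Q = {x ∈ M | 0 < gradSq d M h φ x}` is relatively open: `ct_open_of_charts` (`if_gradSq_smoothAlong`, continuity in charts); `M ∩ O = Q ⊇ ctBd d M A`.  `CtDef` on `M ∩ O`: `if_smoothAlong_inter`, `if_gradSq_inter'`, `eq` by restriction (`ct_vol_inter`).
* `ct_def_near`.  For `x ∈ K`: `(O_x, φ_x)` from `ct_reg_def'`; finite subcover `O_i`, `i ∈ Fin n` or a `Finset` (`IsCompact.elim_finite_subcover`); `CtDef.sgn` on `M ∩ O_i`.  `if_exists_pou_closed` with `s = K` gives only `∑ χ_i = 1` ON `K`: apply it to the closed set `s = closure N₀`/a compact neighbourhood: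
  choose `N₀` open, `K ⊆ N₀`, `closure N₀ ⊆ ⋃ O_i` compact (`exists_compact_between`), `s = closure N₀`, `N = N₀` (`finsum_eq_sum_of_fintype`).  `ct_sgn_glue` ⇒ `CtSgn d (M ∩ N) h (A ∩ N) φ`; `CtSgn.def_near` ⇒ `O'`; `O = N ∩ O'` (`inter_assoc`); `K ⊆ ctWall ⊆ ctBd`, `ct_bd_inter`.  On the zero set: `CtDef.sets` ⇒ zero set `= ctBd` of the piece ⇒ `gradSq = 1` (`if_gradSq_inter'`).
-/

set_option autoImplicit false
open scoped ContDiff ENNReal Topology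
open MeasureTheory Claims.C0499 Set Filter

namespace Claimed.Agent.R315

variable {V : Type} [NormedAddCommGroup V] [NormedSpace ℝ V] [FiniteDimensional ℝ V]
variable {d : ℕ} {M : Set V} {h : Ten V} {t p : V → ℝ}
variable [MeasurableSpace V] [BorelSpace V]

/-- `φ` is a signed function of the phase `A`, normalised on the boundary. -/
structure CtSgn (d : ℕ) (M : Set V) (h : Ten V) (A : Set V) (φ : V → ℝ) : Prop where
  smooth : SmoothAlong d M φ
  neg : ∀ x ∈ ctIn d M A, φ x < 0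
  pos : ∀ x ∈ ctOut d M A, 0 < φ x
  zero : ∀ x ∈ ctBd d M A, φ x = 0 ∧ gradSq d M h φ x = 1
  eq : vol d M h (symmDiff A {x | x ∈ M ∧ φ x < 0}) = 0

omit [NormedAddCommGroup V] [NormedSpace ℝ V] [FiniteDimensional ℝ V] [BorelSpace V] in
theorem ct_restrict_null {μ : Measure V} {O S : Set V} (hS : μ S = 0) : μ.restrict O S = 0 :=
  le_antisymm ((Measure.restrict_le_self S).trans_eq hS) zero_le

/-- normalisation of a defining function. -/
theorem CtDef.sgn (hG : CtGeo d M h t) {A : Set V} {φ : V → ℝ} (hφ : CtDef d M h A φ) :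
    CtSgn d M h A (fun x => φ x * (gradN d M h φ x)⁻¹) := by
  obtain ⟨hbd, -, hin, hout⟩ := hφ.sets hG
  have hNpos : ∀ x ∈ M, 0 < gradN d M h φ x := fun x hx => Real.sqrt_pos.2 (hφ.reg x hx)
  have hNsm : SmoothAlong d M (gradN d M h φ) :=
    gs_sm_sqrt (if_gradSq_smoothAlong hG.met hφ.smooth) hφ.reg
  have hasm : SmoothAlong d M (fun x => (gradN d M h φ x)⁻¹) :=
    gs_sm_inv hNsm fun x hx => (hNpos x hx).ne'
  refine ⟨gs_sm_mul hφ.smooth hasm, fun x hx => ?_, fun x hx => ?_, fun x hx => ?_, ?_⟩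
  · rw [hin] at hx
    exact mul_neg_of_neg_of_pos hx.2 (inv_pos.2 (hNpos x hx.1))
  · rw [hout] at hx
    exact mul_pos hx.2 (inv_pos.2 (hNpos x hx.1))
  · rw [hbd] at hx
    obtain ⟨hxM, hx0⟩ := hx
    refine ⟨by simp only [hx0, zero_mul], ?_⟩
    rw [gs_sq_mul hG.mfd hG.met hφ.smooth hasm hxM, hx0]
    have h1 : gradN d M h φ x ^ 2 = gradSq d M h φ x := Real.sq_sqrt (hφ.reg x hxM).le
    have h2 := (hNpos x hxM).ne'
    rw [← h1]
    field_simp
    ring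
  · have hset : {x | x ∈ M ∧ φ x * (gradN d M h φ x)⁻¹ < 0} = {x | x ∈ M ∧ φ x < 0} := by
      ext x
      constructor
      · rintro ⟨hxM, hx⟩
        refine ⟨hxM, ?_⟩
        by_contra h4
        exact absurd hx (not_lt.2 (mul_nonneg (not_lt.1 h4) (inv_pos.2 (hNpos x hxM)).le))
      · rintro ⟨hxM, hx⟩
        exact ⟨hxM, mul_neg_of_neg_of_pos hx (inv_pos.2 (hNpos x hxM))⟩
    rw [hset]
    exact hφ.eq

theorem CtSgn.inter (hG : CtGeo d M h t) {A : Set V} {φ : V → ℝ} (hφ : CtSgn d M h A φ)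
    {O : Set V} (hO : IsOpen O) : CtSgn d (M ∩ O) h (A ∩ O) φ := by
  obtain ⟨hbd, -, -, hin, hout⟩ := ct_bd_inter hG.mfd A hO
  refine ⟨if_smoothAlong_inter hφ.smooth hO, fun x hx => ?_, fun x hx => ?_, fun x hx => ?_, ?_⟩
  · rw [hin] at hx
    exact hφ.neg x hx.1
  · rw [hout] at hx
    exact hφ.pos x hx.1
  · rw [hbd] at hx
    rw [if_gradSq_inter' h φ hO hx.2]
    exact hφ.zero x hx.1
  · rw [ct_vol_inter hG hO]
    refine measure_mono_null ?_ (ct_restrict_null hφ.eq)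
    intro x hx
    rcases hx with ⟨⟨hxA, hxO⟩, hx2⟩ | ⟨⟨⟨hxM, hxO⟩, hx1⟩, hx2⟩
    · exact Or.inl ⟨hxA, fun hx3 => hx2 ⟨⟨hx3.1, hxO⟩, hx3.2⟩⟩
    · exact Or.inr ⟨⟨hxM, hx1⟩, fun hx3 => hx2 ⟨hx3, hxO⟩⟩

omit [MeasurableSpace V] [BorelSpace V] [FiniteDimensional ℝ V] in
theorem ct_covector_aux {ℓ₁ ℓ₂ : V →L[ℝ] ℝ} (h1 : ℓ₁ ≠ 0) (h12 : ∀ v, ℓ₁ v < 0 → ℓ₂ v ≤ 0) :
    ∃ c : ℝ, 0 ≤ c ∧ ℓ₂ = c • ℓ₁ := by
  obtain ⟨w, hw⟩ : ∃ w, ℓ₁ w < 0 := by
    obtain ⟨w0, hw0⟩ : ∃ w0, ℓ₁ w0 ≠ 0 := by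
      by_contra hcon
      push Not at hcon
      exact h1 (ContinuousLinearMap.ext hcon)
    rcases lt_or_gt_of_ne hw0 with h | h
    · exact ⟨w0, h⟩
    · exact ⟨-w0, by rw [map_neg]; linarith⟩
  have hb : ℓ₂ w ≤ 0 := h12 w hw
  have hker : ∀ v, ℓ₁ v = 0 → ℓ₂ v ≤ 0 := by
    intro v hv
    refine le_of_forall_pos_le_add fun ε hε => ?_
    have hδ : 0 < ε / (-ℓ₂ w + 1) := div_pos hε (by linarith)
    have h3 : ℓ₁ (v + (ε / (-ℓ₂ w + 1)) • w) < 0 := by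
      rw [map_add, map_smul, hv, zero_add, smul_eq_mul]
      exact mul_neg_of_pos_of_neg hδ hw
    have h4 := h12 _ h3
    rw [map_add, map_smul, smul_eq_mul] at h4
    have h5 : ε / (-ℓ₂ w + 1) * (-ℓ₂ w) ≤ ε := by
      rw [div_mul_eq_mul_div, div_le_iff₀ (by linarith)]
      nlinarith
    linarith
  have hker0 : ∀ v, ℓ₁ v = 0 → ℓ₂ v = 0 := fun v hv =>
    le_antisymm (hker v hv) (by
      have := hker (-v) (by rw [map_neg, hv, neg_zero])
      rw [map_neg] at this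
      linarith)
  refine ⟨ℓ₂ w / ℓ₁ w, div_nonneg_of_nonpos hb hw.le, ContinuousLinearMap.ext fun v => ?_⟩
  have h6 := hker0 (v - (ℓ₁ v / ℓ₁ w) • w) (by
    rw [map_sub, map_smul, smul_eq_mul, div_mul_cancel₀ _ hw.ne, sub_self])
  rw [map_sub, map_smul, smul_eq_mul, sub_eq_zero] at h6
  rw [h6, smul_apply, smul_eq_mul]
  field_simp

/-- two normalised signed functions have the same differential on the boundary. -/
theorem CtSgn.ip_eq_one (hG : CtGeo d M h t) {A : Set V} {φ₁ φ₂ : V → ℝ}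
    (h₁ : CtSgn d M h A φ₁) (h₂ : CtSgn d M h A φ₂) {x : V} (hx : x ∈ ctBd d M A) :
    gradIp d M h φ₁ φ₂ x = 1 := by
  have hxM : x ∈ M := ct_bd_subset A hx
  obtain ⟨ψ, U, hp, u, hu, rfl⟩ := hG.mfd x hxM
  obtain ⟨hcov, -, -, -⟩ := ct_trichotomy' hG.mfd A
  have hsign : ∀ y ∈ U, φ₁ (ψ y) < 0 → φ₂ (ψ y) < 0 := by
    intro y hy h1
    have hyM : ψ y ∈ M := if_mem hp hy
    rw [← hcov] at hyM
    rcases hyM with (hin | hout) | hbd
    · exact h₂.neg _ hin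
    · exact absurd (h₁.pos _ hout) (by linarith)
    · exact absurd (h₁.zero _ hbd).1 (by linarith)
  have hd₁ : DifferentiableAt ℝ (fun w => φ₁ (ψ w)) u := gs_da h₁.smooth hp hu
  have hd₂ : DifferentiableAt ℝ (fun w => φ₂ (ψ w)) u := gs_da h₂.smooth hp hu
  have hf10 : φ₁ (ψ u) = 0 := (h₁.zero _ hx).1
  have hf20 : φ₂ (ψ u) = 0 := (h₂.zero _ hx).1
  have hne : fderiv ℝ (fun w => φ₁ (ψ w)) u ≠ 0 :=
    (ct_fderiv_ne hG h₁.smooth hp hu).1 (by rw [(h₁.zero _ hx).2]; exact one_pos)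
  have h12 : ∀ v, fderiv ℝ (fun w => φ₁ (ψ w)) u v < 0 → fderiv ℝ (fun w => φ₂ (ψ w)) u v ≤ 0 := by
    intro v hv
    by_contra hcon
    push Not at hcon
    have hc : HasDerivAt (fun s : ℝ => u + s • v) v 0 := by
      simpa using ((hasDerivAt_id (0 : ℝ)).smul_const v).const_add u
    have h0 : u + (0 : ℝ) • v = u := by simp
    have hg₁ : HasDerivAt (fun s : ℝ => φ₁ (ψ (u + s • v))) (fderiv ℝ (fun w => φ₁ (ψ w)) u v) 0 :=
      HasFDerivAt.comp_hasDerivAt (l := fun w => φ₁ (ψ w)) (0 : ℝ)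
        (by rw [h0]; exact hd₁.hasFDerivAt) hc
    have hg₂ : HasDerivAt (fun s : ℝ => φ₂ (ψ (u + s • v))) (fderiv ℝ (fun w => φ₂ (ψ w)) u v) 0 :=
      HasFDerivAt.comp_hasDerivAt (l := fun w => φ₂ (ψ w)) (0 : ℝ)
        (by rw [h0]; exact hd₂.hasFDerivAt) hc
    have e₁ := ((hasDerivAt_iff_tendsto_slope.1 hg₁).eventually (gt_mem_nhds hv)).filter_mono
      (nhdsGT_le_nhdsNE (0 : ℝ))
    have e₂ := ((hasDerivAt_iff_tendsto_slope.1 hg₂).eventually (lt_mem_nhds hcon)).filter_mono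
      (nhdsGT_le_nhdsNE (0 : ℝ))
    have e₃ : ∀ᶠ s : ℝ in 𝓝[>] 0, u + s • v ∈ U :=
      (hc.continuousAt.eventually ((if_open hp).mem_nhds
        (by show u + (0 : ℝ) • v ∈ U; rw [h0]; exact hu))).filter_mono nhdsWithin_le_nhds
    have e₄ : ∀ᶠ s : ℝ in 𝓝[>] 0, 0 < s := self_mem_nhdsWithin
    obtain ⟨s, hs1, hs2, hs3, hs4⟩ := (e₁.and (e₂.and (e₃.and e₄))).exists
    rw [slope_def_field, h0, hf10, sub_zero, sub_zero] at hs1
    rw [slope_def_field, h0, hf20, sub_zero, sub_zero] at hs2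
    have h5 : φ₁ (ψ (u + s • v)) < 0 := by
      by_contra h6
      exact absurd hs1 (not_lt.2 (div_nonneg (not_lt.1 h6) hs4.le))
    have h7 := hsign _ hs3 h5
    exact absurd hs2 (not_lt.2 (div_nonpos_of_nonpos_of_nonneg h7.le hs4.le))
  obtain ⟨c, hc0, hc⟩ := ct_covector_aux hne h12
  have e1 := gs_sq_eq hG.met h₁.smooth hp hu
  have e2 := gs_sq_eq hG.met h₂.smooth hp hu
  rw [(h₁.zero _ hx).2] at e1
  rw [(h₂.zero _ hx).2] at e2
  have hp2 : ∀ j, pdiff (fun w => φ₂ (ψ w)) j u = c * pdiff (fun w => φ₁ (ψ w)) j u := by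
    intro j
    unfold pdiff
    rw [hc]
    rfl
  have e3 : gradIpC (cm h ψ) (fun w => φ₁ (ψ w)) (fun w => φ₂ (ψ w)) u =
      c * gradSqC (cm h ψ) (fun w => φ₁ (ψ w)) u := by
    unfold gradIpC gradSqC
    simp only [hp2, Finset.mul_sum]
    exact Finset.sum_congr rfl fun i _ => Finset.sum_congr rfl fun j _ => by ring
  have e4 : gradSqC (cm h ψ) (fun w => φ₂ (ψ w)) u =
      c ^ 2 * gradSqC (cm h ψ) (fun w => φ₁ (ψ w)) u := by
    unfold gradSqC
    simp only [hp2, Finset.mul_sum]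
    exact Finset.sum_congr rfl fun i _ => Finset.sum_congr rfl fun j _ => by ring
  rw [gs_ip_eq hG.met h₁.smooth h₂.smooth hp hu, e3, ← e1, mul_one]
  rw [e4, ← e1, mul_one] at e2
  nlinarith

omit [MeasurableSpace V] [BorelSpace V] in
theorem ct_ip_sum_left (hG : CtGeo d M h t) {ι : Type} (s : Finset ι) {F : ι → V → ℝ}
    (hF : ∀ i ∈ s, SmoothAlong d M (F i)) {l : V → ℝ} (hl : SmoothAlong d M l) {x : V}
    (hx : x ∈ M) :
    gradIp d M h (fun y => ∑ i ∈ s, F i y) l x = ∑ i ∈ s, gradIp d M h (F i) l x := by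
  classical
  induction s using Finset.induction_on with
  | empty => simpa using gs_ip_const_left hG.mfd hG.met 0 hl hx
  | insert a s ha ih =>
    have h1 : (fun y => ∑ i ∈ insert a s, F i y) = fun y => F a y + ∑ i ∈ s, F i y := by
      funext y
      rw [Finset.sum_insert ha]
    rw [h1, gs_ip_add_left hG.mfd hG.met (hF a (Finset.mem_insert_self a s))
      (gs_sm_sum s fun i hi => hF i (Finset.mem_insert_of_mem hi)) hl hx, Finset.sum_insert ha,
      ih fun i hi => hF i (Finset.mem_insert_of_mem hi)]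

omit [MeasurableSpace V] [BorelSpace V] in
theorem ct_ip_sum_right (hG : CtGeo d M h t) {ι : Type} (s : Finset ι) {F : ι → V → ℝ}
    (hF : ∀ i ∈ s, SmoothAlong d M (F i)) {l : V → ℝ} (hl : SmoothAlong d M l) {x : V}
    (hx : x ∈ M) :
    gradIp d M h l (fun y => ∑ i ∈ s, F i y) x = ∑ i ∈ s, gradIp d M h l (F i) x := by
  classical
  induction s using Finset.induction_on with
  | empty => simpa using gs_ip_const_right hG.mfd hG.met 0 hl hx
  | insert a s ha ih =>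
    have h1 : (fun y => ∑ i ∈ insert a s, F i y) = fun y => F a y + ∑ i ∈ s, F i y := by
      funext y
      rw [Finset.sum_insert ha]
    rw [h1, gs_ip_add_right hG.mfd hG.met (hF a (Finset.mem_insert_self a s))
      (gs_sm_sum s fun i hi => hF i (Finset.mem_insert_of_mem hi)) hl hx, Finset.sum_insert ha,
      ih fun i hi => hF i (Finset.mem_insert_of_mem hi)]

/-- gluing with a partition of unity. -/
theorem ct_sgn_glue (hG : CtGeo d M h t) {A : Set V} {ι : Type} [Fintype ι] {O : ι → Set V}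
    (hO : ∀ i, IsOpen (O i)) {φ : ι → V → ℝ} (hφ : ∀ i, CtSgn d (M ∩ O i) h (A ∩ O i) (φ i))
    {χ : ι → V → ℝ} (hχ : ∀ i, ContDiff ℝ ∞ (χ i)) (hχ0 : ∀ i x, 0 ≤ χ i x)
    (hχs : ∀ i, tsupport (χ i) ⊆ O i) {N : Set V} (hN : IsOpen N)
    (hsum : ∀ x ∈ N, ∑ i, χ i x = 1) :
    CtSgn d (M ∩ N) h (A ∩ N) (fun x => ∑ i, χ i x * φ i x) := by
  classical
  have hFsm : ∀ i, SmoothAlong d M (fun y => χ i y * φ i y) := fun i =>
    if_smoothAlong_cutoff (hO i) (if_smoothAlong_of_contDiff (hχ i)) (hχs i) (hφ i).smooth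
  have hsupp : ∀ i x, χ i x ≠ 0 → x ∈ O i := fun i x hx => hχs i (subset_tsupport _ hx)
  obtain ⟨hbd, -, -, hin, hout⟩ := ct_bd_inter hG.mfd A hN
  have hex : ∀ x ∈ N, ∃ i, 0 < χ i x := by
    intro x hx
    by_contra hcon
    push Not at hcon
    have h0 : ∑ i, χ i x = 0 := Finset.sum_eq_zero fun i _ => le_antisymm (hcon i) (hχ0 i x)
    rw [hsum x hx] at h0
    exact one_ne_zero h0
  have hpossum : ∀ (a : ι → ℝ) (x : V), x ∈ N → (∀ i, 0 < χ i x → 0 < a i) →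
      0 < ∑ i, χ i x * a i := by
    intro a x hx ha
    obtain ⟨i0, hi0⟩ := hex x hx
    refine Finset.sum_pos' (fun i _ => ?_) ⟨i0, Finset.mem_univ _, mul_pos hi0 (ha i0 hi0)⟩
    rcases (hχ0 i x).eq_or_lt with h0 | h0
    · rw [← h0, zero_mul]
    · exact (mul_pos h0 (ha i h0)).le
  have hnegsum : ∀ (a : ι → ℝ) (x : V), x ∈ N → (∀ i, 0 < χ i x → a i < 0) →
      ∑ i, χ i x * a i < 0 := by
    intro a x hx ha
    have h1 := hpossum (fun i => - a i) x hx fun i hi => neg_pos.2 (ha i hi)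
    simp only [mul_neg, Finset.sum_neg_distrib] at h1
    linarith
  refine ⟨if_smoothAlong_inter (gs_sm_sum Finset.univ fun i _ => hFsm i) hN, fun x hx => ?_,
    fun x hx => ?_, fun x hx => ?_, ?_⟩
  · rw [hin] at hx
    refine hnegsum (fun i => φ i x) x hx.2 fun i hi => (hφ i).neg x ?_
    rw [(ct_bd_inter hG.mfd A (hO i)).2.2.2.1]
    exact ⟨hx.1, hsupp i x hi.ne'⟩
  · rw [hout] at hx
    refine hpossum (fun i => φ i x) x hx.2 fun i hi => (hφ i).pos x ?_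
    rw [(ct_bd_inter hG.mfd A (hO i)).2.2.2.2]
    exact ⟨hx.1, hsupp i x hi.ne'⟩
  · rw [hbd] at hx
    obtain ⟨hxb, hxN⟩ := hx
    have hxM : x ∈ M := ct_bd_subset A hxb
    have hz : ∀ i, x ∈ O i → φ i x = 0 := fun i hi =>
      ((hφ i).zero x (by rw [(ct_bd_inter hG.mfd A (hO i)).1]; exact ⟨hxb, hi⟩)).1
    refine ⟨Finset.sum_eq_zero fun i _ => ?_, ?_⟩
    · by_cases h0 : χ i x = 0
      · rw [h0, zero_mul]
      · rw [hz i (hsupp i x h0), mul_zero]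
    · have key : ∀ i j, gradIp d M h (fun y => χ i y * φ i y) (fun y => χ j y * φ j y) x =
          χ i x * χ j x := by
        intro i j
        by_cases hi : x ∈ tsupport (χ i)
        · by_cases hj : x ∈ tsupport (χ j)
          · have hW : IsOpen (O i ∩ O j) := (hO i).inter (hO j)
            have hxW : x ∈ O i ∩ O j := ⟨hχs i hi, hχs j hj⟩
            have GW := hG.inter hW
            have hi' := (hφ i).inter (hG.inter (hO i)) (hO j)
            rw [inter_assoc, inter_assoc] at hi'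
            have hj' := (hφ j).inter (hG.inter (hO j)) (hO i)
            rw [inter_assoc, inter_assoc, inter_comm (O j) (O i)] at hj'
            have hxbW : x ∈ ctBd d (M ∩ (O i ∩ O j)) (A ∩ (O i ∩ O j)) := by
              rw [(ct_bd_inter hG.mfd A hW).1]
              exact ⟨hxb, hxW⟩
            have one := CtSgn.ip_eq_one GW hi' hj' hxbW
            rw [← if_gradIp_inter' h (fun y => χ i y * φ i y) (fun y => χ j y * φ j y) hW hxW,
              gs_ip_mul_left GW.mfd GW.met (if_smoothAlong_of_contDiff (hχ i)) hi'.smooth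
                (if_smoothAlong_inter (hFsm j) hW) ⟨hxM, hxW⟩,
              gs_ip_mul_right GW.mfd GW.met (if_smoothAlong_of_contDiff (hχ j)) hj'.smooth
                hi'.smooth ⟨hxM, hxW⟩, one, hz i hxW.1, hz j hxW.2]
            ring
          · rw [gs_ip_congr_near (f' := fun y => χ i y * φ i y) (k' := fun _ => (0 : ℝ))
              ((isClosed_tsupport (χ j)).isOpen_compl.mem_nhds hj) (fun _ _ => rfl)
              (fun y hy => by rw [image_eq_zero_of_notMem_tsupport hy.2, zero_mul]),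
              gs_ip_const_right hG.mfd hG.met 0 (hFsm i) hxM,
              image_eq_zero_of_notMem_tsupport hj, mul_zero]
        · rw [gs_ip_congr_near (f' := fun _ => (0 : ℝ)) (k' := fun y => χ j y * φ j y)
            ((isClosed_tsupport (χ i)).isOpen_compl.mem_nhds hi)
            (fun y hy => by rw [image_eq_zero_of_notMem_tsupport hy.2, zero_mul]) (fun _ _ => rfl),
            gs_ip_const_left hG.mfd hG.met 0 (hFsm j) hxM,
            image_eq_zero_of_notMem_tsupport hi, zero_mul]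
      rw [if_gradSq_inter' h _ hN hxN, if_gradSq_eq_gradIp,
        ct_ip_sum_left hG Finset.univ (fun i _ => hFsm i)
          (gs_sm_sum Finset.univ fun i _ => hFsm i) hxM]
      have h2 : ∀ i, gradIp d M h (fun y => χ i y * φ i y) (fun y => ∑ j, χ j y * φ j y) x =
          ∑ j, χ i x * χ j x := by
        intro i
        rw [ct_ip_sum_right hG Finset.univ (fun j _ => hFsm j) (hFsm i) hxM]
        exact Finset.sum_congr rfl fun j _ => key i j
      rw [Finset.sum_congr rfl fun i _ => h2 i, ← Finset.sum_mul_sum, hsum x hxN, mul_one]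
  · rw [ct_vol_inter hG hN]
    have hnull : ∀ i, vol d M h (symmDiff (A ∩ O i) {x | x ∈ M ∩ O i ∧ φ i x < 0}) = 0 := by
      intro i
      have h1 := (hφ i).eq
      rw [ct_vol_inter hG (hO i), Measure.restrict_apply' (hO i).measurableSet] at h1
      refine measure_mono_null ?_ h1
      intro x hx
      refine ⟨hx, ?_⟩
      rcases hx with ⟨h3, -⟩ | ⟨h3, -⟩
      · exact h3.2
      · exact h3.1.2
    have hM0 : vol d M h Mᶜ = 0 := if_vol_compl hG.mfd h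
    refine ct_restrict_null (measure_mono_null ?_
      (measure_union_null hM0 (measure_iUnion_null hnull)))
    intro x hx
    by_cases hxM : x ∈ M
    · refine Or.inr (mem_iUnion.2 ?_)
      rcases hx with ⟨⟨hxA, hxN⟩, hx2⟩ | ⟨⟨⟨-, hxN⟩, hneg⟩, hx2⟩
      · obtain ⟨i, hi, hi2⟩ : ∃ i, 0 < χ i x ∧ 0 ≤ φ i x := by
          by_contra hcon
          push Not at hcon
          exact hx2 ⟨⟨hxM, hxN⟩, hnegsum (fun i => φ i x) x hxN hcon⟩
        exact ⟨i, Or.inl ⟨⟨hxA, hsupp i x hi.ne'⟩, fun h3 => absurd h3.2 (not_lt.2 hi2)⟩⟩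
      · obtain ⟨i, hi⟩ : ∃ i, χ i x * φ i x < 0 := by
          by_contra hcon
          push Not at hcon
          exact absurd hneg (not_lt.2 (Finset.sum_nonneg fun i _ => hcon i))
        have hi1 : χ i x ≠ 0 := fun h0 => by rw [h0, zero_mul] at hi; exact lt_irrefl _ hi
        have hi2 : φ i x < 0 := by
          by_contra h4
          exact absurd hi (not_lt.2 (mul_nonneg (hχ0 i x) (not_lt.1 h4)))
        exact ⟨i, Or.inr ⟨⟨⟨hxM, hsupp i x hi1⟩, hi2⟩, fun h3 => hx2 ⟨h3.1, hxN⟩⟩⟩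
    · exact Or.inl hxM

/-- a normalised signed function is a defining function near the boundary. -/
theorem CtSgn.def_near (hG : CtGeo d M h t) {A : Set V} {φ : V → ℝ} (hφ : CtSgn d M h A φ) :
    ∃ O : Set V, IsOpen O ∧ ctBd d M A ⊆ O ∧ CtDef d (M ∩ O) h (A ∩ O) φ := by
  obtain ⟨O, hO, hMO⟩ := ct_open_of_charts hG.mfd
    (Q := {x | x ∈ M ∧ 0 < gradSq d M h φ x}) (fun x hx => hx.1) (by
      intro ψ U hp
      have hc : ContinuousOn (gradSq d M h φ ∘ ψ) U :=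
        (if_gradSq_smoothAlong hG.met hφ.smooth ψ U hp).continuousOn
      have he : U ∩ ψ ⁻¹' {x | x ∈ M ∧ 0 < gradSq d M h φ x} =
          U ∩ (gradSq d M h φ ∘ ψ) ⁻¹' Set.Ioi 0 := by
        ext u
        constructor
        · rintro ⟨hu, -, h2⟩
          exact ⟨hu, h2⟩
        · rintro ⟨hu, h2⟩
          exact ⟨hu, if_mem hp hu, h2⟩
      rw [he]
      exact hc.isOpen_inter_preimage (if_open hp) isOpen_Ioi)
  refine ⟨O, hO, fun x hx => ?_, if_smoothAlong_inter hφ.smooth hO, fun x hx => ?_,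
    (hφ.inter hG hO).eq⟩
  · have h1 : x ∈ M ∩ O := by
      rw [hMO]
      exact ⟨ct_bd_subset A hx, by rw [(hφ.zero x hx).2]; exact one_pos⟩
    exact h1.2
  · rw [if_gradSq_inter' h φ hO hx.2]
    rw [hMO] at hx
    exact hx.2

/-- **normalised defining function near a compact part of the wall**: `|dφ| = 1` on the wall. -/
theorem ct_def_near (hG : CtGeo d M h t) {A : Set V} (hA : MeasurableSet A) {K : Set V}
    (hK : IsCompact K) (hKW : K ⊆ ctWall d M A) :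
    ∃ (O : Set V) (φ : V → ℝ), IsOpen O ∧ K ⊆ O ∧ CtDef d (M ∩ O) h (A ∩ O) φ ∧
      ∀ x ∈ M ∩ O, φ x = 0 → gradSq d (M ∩ O) h φ x = 1 := by
  classical
  have H : ∀ x : K, ∃ (O : Set V) (φ : V → ℝ), IsOpen O ∧ (x : V) ∈ O ∧
      CtDef d (M ∩ O) h (A ∩ O) φ := fun x => ct_reg_def' hG (hKW x.2)
  choose Ox φx hOx hxOx hdef using H
  obtain ⟨T, hT⟩ := hK.elim_finite_subcover Ox hOx fun x hx => mem_iUnion.2 ⟨⟨x, hx⟩, hxOx _⟩
  have hcov : K ⊆ ⋃ i : T, Ox i.1 := by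
    intro x hx
    obtain ⟨i, hi, hxi⟩ := mem_iUnion₂.1 (hT hx)
    exact mem_iUnion.2 ⟨⟨i, hi⟩, hxi⟩
  obtain ⟨L, hL, hKL, hLO⟩ := exists_compact_between hK
    (isOpen_iUnion fun i : T => hOx i.1) hcov
  obtain ⟨χ, hχ, hχ0, hχs, -, hχ1, -⟩ := if_exists_pou_closed hL.isClosed
    (fun i : T => Ox i.1) (fun i => hOx i.1) hLO
  have hN : IsOpen (interior L) := isOpen_interior
  have hS := ct_sgn_glue hG (fun i : T => hOx i.1)
    (fun i : T => (hdef i.1).sgn (hG.inter (hOx i.1))) hχ hχ0 hχs hN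
    (fun x hx => by rw [← finsum_eq_sum_of_fintype]; exact hχ1 x (interior_subset hx))
  obtain ⟨O', hO', hbO', hD⟩ := hS.def_near (hG.inter hN)
  have e1 : M ∩ (interior L ∩ O') = M ∩ interior L ∩ O' := (inter_assoc _ _ _).symm
  have e2 : A ∩ (interior L ∩ O') = A ∩ interior L ∩ O' := (inter_assoc _ _ _).symm
  refine ⟨interior L ∩ O', fun x => ∑ i : T, χ i x * (φx i.1 x * (gradN d (M ∩ Ox i.1) h (φx i.1) x)⁻¹),
    hN.inter hO', fun x hx => ⟨hKL hx, hbO' ?_⟩, ?_, ?_⟩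
  · rw [(ct_bd_inter hG.mfd A hN).1]
    exact ⟨ct_wall_subset_bd A (hKW hx), hKL hx⟩
  · rw [e1, e2]
    exact hD
  · rw [e1]
    intro x hx hx0
    have h1 : x ∈ ctBd d (M ∩ interior L ∩ O') (A ∩ interior L ∩ O') := by
      rw [(hD.sets ((hG.inter hN).inter hO')).1]
      exact ⟨hx, hx0⟩
    exact ((hS.inter (hG.inter hN) hO').zero x h1).2

end Claimed.Agent.R315
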