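import Claimed.Agent.R315.Ct.RegD
import Claimed.Agent.R315.Ct.Bv
import Claimed.Agent.Lib.Gmt.HsM

/-!
# Row 315, package Ct/RegF (R4): the perimeter measure off the singular set is the weighted volume of the wall (`ct_wper_wall`)   (architect: helper184)

PROVED (helper184); black boxes: `Ct/RegB-D` (`ct_reg_def'`, `ct_wall_inter_def`, `ct_wall_geo`, `CtDef.chart`, `ct_trichotomy'`, ...), `Gmt.gmt_half_perM`, `Rm/Orth`.

IDEA: in LAPSE COORDINATES of a local defining function `φ` (`Rm/Orth.lean`: `rm_orth_param`, `rm_LapseP`) the phase is the half space `{w 0 < 0}`, the wall is the slice `{w 0 = 0}`, `G = v² dw₀² + γ`, and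
`ctA (eb 0) (eb 0) = ω² det G (G⁻¹)₀₀ = ω² det γ = (density of the weighted volume of the slice)²`.  The flat computation is `Gmt.gmt_half_perM` (`Lib/Gmt/HsM.lean`) with `J = rm_in d`, `e = eb 0`.

PLAN OF PROOFS
* `ct_measure_ext_local` (pure measure theory): Lindelöf: countably many `N k` cover `L` (`TopologicalSpace.isOpen_iUnion_countable`/`countable_cover_nhds`-type: choose `N x` for `x ∈ L`, `∃` countable `T ⊆ L` with `⋃_{x∈T} N x = ⋃_{x ∈ L} N x`); `D k = N k \ ⋃_{j<k} N j` (`disjointed`) measurable, disjoint;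
  for measurable `Y`: `μ Y = μ (Y ∩ ⋃ D k) = ∑' μ (Y ∩ D k)` [`Y \ ⋃ N k ⊆ Lᶜ` null], and `μ (Y ∩ D k) = μ.restrict (N k) (Y ∩ D k)`.
* `ct_in_norm`, `ct_in_orth`: `‖rm_in d y‖² = ∑ (rm_in d y i)² = ∑_a (y a)²` (`EuclideanSpace.norm_sq_eq`, `Fin.sum_univ_succ`, `rm_in_zero`, `rm_in_succ`); `⟪rm_in d y, eb 0⟫ = rm_in d y 0 = 0`; `‖eb 0‖ = 1`.
* `ct_A_lapse`: `w = rm_J 0 y ∈ box`.  `ctA h t ψ w (eb 0) (eb 0) = e^{-2t} det G · (G⁻¹) 0 0` (`if_bil_eb`, `Matrix.smul_apply`); `rm_blk_inv00`, `rm_blk_det` (`hL.met`, `hL.orth`): `= e^{-2t} det (rm_tan G w)`; `rm_LapseP.slice_cm`: `cm h χ y = rm_sl G 0 y = rm_tan G w`; `ctRho h t χ y = e^{-t} √det`;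
  `Real.sqrt (a² b) = a √b` (`Real.exp_mul`/`Real.exp_add`, `Real.sqrt_mul_self`).
* `ct_pre_lapse`: `CtDef.chart` on `M ∩ O` with the parametrisation `hL.par`: `ctPre ψ box (A ∩ O) =ᵐ {w ∈ box | φ (ψ w) < 0} = {w ∈ box | w 0 < 0}` (`hL.lvl`) `= gmtHalf 0 (eb 0) ∩ box` (`⟪w - 0, eb 0⟫ = w 0`); `ctPre ψ box (A ∩ O) = ctPre ψ box A` as `ψ '' box ⊆ O`.
* `ct_wper_lapse`: `ψ` is a parametrisation of `M` (`if_param_of_inter hO hL.par`); `(ct_wper_spec hG hA).2 ψ box _ B hB hBm`; `Gmt.gmt_half_perM` (`ct_gmtInt`, `ct_measurableSet_pre`, `ct_pre_lapse`); `rm_in d y = rm_J 0 y` (`zero_smul`, `zero_add`); `ct_A_lapse` under the integral (`setLIntegral_congr_fun`; `y ∈ rm_in ⁻¹' B ⇒ rm_J 0 y ∈ box ⇒ y ∈ ball 0 r` by `rm_tl_J`).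
* `ct_wvol_lapse`: `χ = fun y => ψ (rm_J 0 y)` parametrises `{x ∈ M ∩ O | φ x = 0} = ctWall ∩ O` (`rm_LapseP.slice` with `c = 0 = φ x0`, `ct_wall_inter_def`), hence `ctWall` (`if_param_of_inter`); `ct_wvol_chart (ct_wall_geo hG A)`; `ψ '' B ∩ ctWall = χ '' (rm_in ⁻¹' B)` [a point `ψ w`, `w ∈ B`, lies in the wall iff `φ (ψ w) = w 0 = 0` iff `w = rm_J 0 (rm_tl w)`: `rm_J_tl`];
  `wvol d ctWall .. (ψ '' B) = wvol .. (ψ '' B ∩ ctWall)` (`ct_wvol_compl`, `measure_inter_conull`).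
* `ct_wper_wall`.  `L = ctWall (d+1) M A`, `μ = (wper A).restrict Singᶜ`, `μ' = wvol d L h t`.  `μ' Lᶜ = 0`: `ct_wvol_compl`.  `L` is measurable (`ct_wall_open`, `ct_trichotomy'`, `ct_in_open`, `ct_out_open`, `ct_measurableSet`).  `μ Lᶜ = wper (Lᶜ ∩ Singᶜ) ≤ wper (ctBd)ᶜ = 0` (`ct_wper_compl_bd`; `Measure.restrict_apply` for the measurable set `Lᶜ`).
  Local equality at `x0 ∈ L`: `(O, φ)` from `ct_reg_def'`, `φ x0 = 0` (`ct_wall_inter_def`), `(ψ, r)` from `rm_orth_param` on `M ∩ O`; `ψ '' box = (M ∩ O) ∩ N'` (`if_image`), `N = O ∩ N'`.  For measurable `Y ⊆ N`: `B = box ∩ ψ ⁻¹' Y`, `Y ∩ M = ψ '' B`;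
  `μ Y = wper (Y ∩ Singᶜ) = wper (ψ '' B)` [`Sing ∩ O = ∅`: in `O` every boundary point is regular, `ct_wall_inter_def`; `wper Mᶜ = 0`] `= μ' (ψ '' B) = μ' Y` by `ct_wper_lapse`, `ct_wvol_lapse`.   `ct_measure_ext_local`.
-/

set_option autoImplicit false
set_option linter.unusedVariables false
set_option linter.deprecated false
set_option linter.unusedSectionVars false
set_option linter.style.haveILetI false
open scoped ContDiff ENNReal Topology RealInnerProductSpace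
open MeasureTheory Claims.C0499 Set Filter

namespace Claimed.Agent.R315

variable {V : Type} [NormedAddCommGroup V] [NormedSpace ℝ V] [FiniteDimensional ℝ V]
variable {d : ℕ} {M : Set V} {h : Ten V} {t p : V → ℝ}

theorem ct_in_norm (y : E d) : ‖rm_in d y‖ = ‖y‖ := by
  rw [EuclideanSpace.norm_eq, EuclideanSpace.norm_eq, Fin.sum_univ_succ, rm_in_zero]
  simp only [rm_in_succ]
  simp

theorem ct_in_orth (y : E d) : ⟪rm_in d y, (eb 0 : E (d + 1))⟫ = 0 := by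
  rw [EuclideanSpace.inner_single_right, rm_in_zero]
  simp

theorem ct_eb_norm : ‖(eb 0 : E (d + 1))‖ = 1 := by
  simp [eb]

theorem ct_J_mem_box {r : ℝ} {y : E d} (hy : y ∈ Metric.ball (0 : E d) r) (hr : 0 < r) :
    rm_J 0 y ∈ rm_box d 0 r := by
  refine ⟨by rw [rm_J_zero]; simpa using hr, ?_⟩
  rw [rm_tl_J]
  exact mem_ball_zero_iff.1 hy

/-- the perimeter integrand in the normal direction is the square of the area density of the slice. -/
theorem ct_A_lapse (hG : CtGeo (d + 1) M h t) {φ : V → ℝ} {x0 : V} {ψ : E (d + 1) → V} {r : ℝ}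
    (hL : rm_LapseP M h φ x0 ψ r) (h0 : φ x0 = 0) {y : E d} (hy : y ∈ Metric.ball (0 : E d) r) :
    Real.sqrt (ctA h t ψ (rm_J 0 y) (eb 0) (eb 0)) = ctRho h t (fun y => ψ (rm_J 0 y)) y := by
  letI : MeasurableSpace V := borel V
  haveI : BorelSpace V := ⟨rfl⟩
  have hmet := hL.met hG.met
  have horth := hL.orth
  have hc : |(0 : ℝ) - φ x0| < r := by rw [h0]; simpa using hL.pos
  have hw : rm_J 0 y ∈ rm_box d (φ x0) r := by rw [h0]; exact ct_J_mem_box hy hL.pos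
  have hpd := hmet.pos _ hw
  have h00 : 0 < cm h ψ (rm_J 0 y) 0 0 := hpd.diag_pos
  rw [ct_A_apply, if_bil_eb, rm_blk_inv00 hmet horth hw, rm_blk_det hmet horth hw]
  unfold ctRho
  rw [hL.slice_cm hc hy]
  show _ = Real.exp (-t (ψ (rm_J 0 y))) * Real.sqrt (rm_tan (cm h ψ) (rm_J 0 y)).det
  have e1 : Real.exp (-(2 * t (ψ (rm_J 0 y)))) * (cm h ψ (rm_J 0 y) 0 0 *
      (rm_tan (cm h ψ) (rm_J 0 y)).det) * (cm h ψ (rm_J 0 y) 0 0)⁻¹ =
      Real.exp (-t (ψ (rm_J 0 y))) ^ 2 * (rm_tan (cm h ψ) (rm_J 0 y)).det := by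
    rw [← Real.exp_nat_mul]
    have : ((2 : ℕ) : ℝ) * -t (ψ (rm_J 0 y)) = -(2 * t (ψ (rm_J 0 y))) := by push_cast; ring
    rw [this]
    field_simp
  rw [e1, Real.sqrt_mul (sq_nonneg _), Real.sqrt_sq (Real.exp_pos _).le]

theorem ct_in_eq_J (y : E d) : rm_in d y = rm_J 0 y := by
  unfold rm_J
  rw [zero_smul, zero_add]

variable [MeasurableSpace V] [BorelSpace V]

omit [NormedSpace ℝ V] [FiniteDimensional ℝ V] in
/-- two measures concentrated on `L` which agree near every point of `L` are equal. -/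
theorem ct_measure_ext_local [SecondCountableTopology V] {μ μ' : Measure V} {L : Set V}
    (h0 : μ Lᶜ = 0) (h0' : μ' Lᶜ = 0)
    (H : ∀ x ∈ L, ∃ N : Set V, IsOpen N ∧ x ∈ N ∧ μ.restrict N = μ'.restrict N) : μ = μ' := by
  choose! N hNo hxN hN using H
  obtain ⟨T, hT, hTe⟩ := TopologicalSpace.isOpen_iUnion_countable (fun x : L => N x)
    fun x => hNo x x.2
  have hcov : L ⊆ ⋃ i ∈ T, N (i : V) := by
    rw [hTe]
    exact fun x hx => mem_iUnion.2 ⟨⟨x, hx⟩, hxN x hx⟩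
  have hr : μ.restrict (⋃ i ∈ T, N (i : V)) = μ'.restrict (⋃ i ∈ T, N (i : V)) :=
    (Measure.restrict_biUnion_congr hT).2 fun i _ => hN i i.2
  have e : ∀ ν : Measure V, ν Lᶜ = 0 → ν.restrict (⋃ i ∈ T, N (i : V)) = ν := fun ν hν =>
    Measure.restrict_eq_self_of_ae_mem (by
      rw [ae_iff]
      exact measure_mono_null (fun x hx hxL => hx (hcov hxL)) hν)
  rw [← e μ h0, hr, e μ' h0']

/-- in lapse coordinates of a defining function the phase is a half space. -/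
theorem ct_pre_lapse (hG : CtGeo (d + 1) M h t) {A O : Set V} (hO : IsOpen O) {φ : V → ℝ}
    (hφ : CtDef (d + 1) (M ∩ O) h (A ∩ O) φ) {x0 : V} {ψ : E (d + 1) → V} {r : ℝ}
    (hL : rm_LapseP (M ∩ O) h φ x0 ψ r) (h0 : φ x0 = 0) :
    (ctPre ψ (rm_box d 0 r) A ∩ rm_box d 0 r : Set (E (d + 1))) =ᵐ[volume]
      (Gmt.gmtHalf 0 (eb 0) ∩ rm_box d 0 r : Set (E (d + 1))) := by
  have hpar : IsParam (M ∩ O) ψ (rm_box d 0 r) := h0 ▸ hL.par
  have hlvl : ∀ w ∈ rm_box d 0 r, φ (ψ w) = w 0 := h0 ▸ hL.lvl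
  have h3 := (hφ.chart (hG.inter hO) hpar).2.2
  have e1 : ctPre ψ (rm_box d 0 r) A ∩ rm_box d 0 r = ctPre ψ (rm_box d 0 r) (A ∩ O) := by
    ext u
    constructor
    · rintro ⟨⟨a, b⟩, -⟩
      exact ⟨⟨a, (if_mem hpar b).2⟩, b⟩
    · rintro ⟨⟨a, -⟩, b⟩
      exact ⟨⟨a, b⟩, b⟩
  have e2 : Gmt.gmtHalf 0 (eb 0) ∩ rm_box d 0 r = {u | u ∈ rm_box d 0 r ∧ φ (ψ u) < 0} := by
    ext u
    have hu0 : ⟪u - 0, (eb 0 : E (d + 1))⟫ = u 0 := by
      rw [sub_zero, EuclideanSpace.inner_single_right]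
      simp
    constructor
    · rintro ⟨a, b⟩
      refine ⟨b, ?_⟩
      rw [hlvl u b, ← hu0]
      exact a
    · rintro ⟨b, a⟩
      refine ⟨?_, b⟩
      show ⟪u - 0, (eb 0 : E (d + 1))⟫ < 0
      rw [hu0, ← hlvl u b]
      exact a
  rw [e1, e2]
  exact h3

theorem ct_wper_lapse (hG : CtGeo (d + 1) M h t) {A O : Set V} (hA : MeasurableSet A)
    (hO : IsOpen O) {φ : V → ℝ} (hφ : CtDef (d + 1) (M ∩ O) h (A ∩ O) φ) {x0 : V}
    {ψ : E (d + 1) → V} {r : ℝ} (hL : rm_LapseP (M ∩ O) h φ x0 ψ r) (h0 : φ x0 = 0)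
    {B : Set (E (d + 1))} (hB : B ⊆ rm_box d 0 r) (hBm : MeasurableSet B) :
    wper (d + 1) M h t A (ψ '' B) =
      ∫⁻ y in rm_in d ⁻¹' B, ENNReal.ofReal (ctRho h t (fun y => ψ (rm_J 0 y)) y) := by
  have hpar : IsParam (M ∩ O) ψ (rm_box d 0 r) := h0 ▸ hL.par
  have hψM : IsParam M ψ (rm_box d 0 r) := if_param_of_inter hO hpar
  rw [ct_wper_chart hG hψM hA hB hBm,
    Gmt.gmt_half_perM (J := rm_in d) ct_in_norm ct_eb_norm ct_in_orth (rm_box_open 0 r)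
      (ct_gmtInt hG hψM) (ct_measurableSet_pre hψM hA) (ct_pre_lapse hG hO hφ hL h0) hBm hB]
  refine setLIntegral_congr_fun ((rm_in d).continuous.measurable hBm) fun y hy => ?_
  have hyb : y ∈ Metric.ball (0 : E d) r := by
    have h1 : rm_in d y ∈ rm_box d 0 r := hB hy
    rw [ct_in_eq_J] at h1
    have h2 := h1.2
    rw [rm_tl_J] at h2
    exact mem_ball_zero_iff.2 h2
  show ENNReal.ofReal (Real.sqrt (ctA h t ψ (rm_in d y) (eb 0) (eb 0))) = _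
  rw [ct_in_eq_J, ct_A_lapse (hG.inter hO) hL h0 hyb]

theorem ct_wvol_lapse (hG : CtGeo (d + 1) M h t) {A O : Set V} (hO : IsOpen O) {φ : V → ℝ}
    (hφ : CtDef (d + 1) (M ∩ O) h (A ∩ O) φ) {x0 : V}
    {ψ : E (d + 1) → V} {r : ℝ} (hL : rm_LapseP (M ∩ O) h φ x0 ψ r) (h0 : φ x0 = 0)
    {B : Set (E (d + 1))} (hB : B ⊆ rm_box d 0 r) (hBm : MeasurableSet B) :
    wvol d (ctWall (d + 1) M A) h t (ψ '' B) =
      ∫⁻ y in rm_in d ⁻¹' B, ENNReal.ofReal (ctRho h t (fun y => ψ (rm_J 0 y)) y) := by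
  have hpar : IsParam (M ∩ O) ψ (rm_box d 0 r) := h0 ▸ hL.par
  have hlvl : ∀ w ∈ rm_box d 0 r, φ (ψ w) = w 0 := h0 ▸ hL.lvl
  have hGW := ct_wall_geo hG A
  have hc : |(0 : ℝ) - φ x0| < r := by rw [h0]; simpa using hL.pos
  have hwall := (ct_wall_inter_def hG hO hφ).1
  have hχ : IsParam (ctWall (d + 1) M A) (fun y => ψ (rm_J 0 y)) (Metric.ball 0 r) := by
    have h1 := hL.slice hc
    rw [← hwall] at h1
    exact if_param_of_inter hO h1
  have hpre : rm_in d ⁻¹' B ⊆ Metric.ball (0 : E d) r := by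
    intro y hy
    have h1 : rm_in d y ∈ rm_box d 0 r := hB hy
    rw [ct_in_eq_J] at h1
    have h2 := h1.2
    rw [rm_tl_J] at h2
    exact mem_ball_zero_iff.2 h2
  have hset : ψ '' B ∩ ctWall (d + 1) M A = (fun y => ψ (rm_J 0 y)) '' (rm_in d ⁻¹' B) := by
    ext x
    constructor
    · rintro ⟨⟨w, hw, rfl⟩, hx⟩
      have hxO : ψ w ∈ O := (if_mem hpar (hB hw)).2
      have h1 : ψ w ∈ {y | y ∈ M ∩ O ∧ φ y = 0} := hwall ▸ (⟨hx, hxO⟩ : ψ w ∈ _ ∩ O)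
      have h2 : w 0 = 0 := by rw [← hlvl w (hB hw)]; exact h1.2
      have h3 : rm_J 0 (rm_tl d w) = w := by rw [← h2]; exact rm_J_tl w
      refine ⟨rm_tl d w, ?_, by show ψ (rm_J 0 (rm_tl d w)) = ψ w; rw [h3]⟩
      show rm_in d (rm_tl d w) ∈ B
      rw [ct_in_eq_J, h3]
      exact hw
    · rintro ⟨y, hy, rfl⟩
      have hyB : rm_J 0 y ∈ B := by rw [← ct_in_eq_J]; exact hy
      refine ⟨⟨rm_J 0 y, hyB, rfl⟩, ?_⟩
      exact if_mem hχ (hpre hy)
  have hnull : wvol d (ctWall (d + 1) M A) h t (ψ '' B) =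
      wvol d (ctWall (d + 1) M A) h t (ψ '' B ∩ ctWall (d + 1) M A) := by
    refine le_antisymm ?_ (measure_mono inter_subset_left)
    have hsub : ψ '' B ⊆ (ψ '' B ∩ ctWall (d + 1) M A) ∪ (ctWall (d + 1) M A)ᶜ := by
      intro x hx
      by_cases hxW : x ∈ ctWall (d + 1) M A
      · exact Or.inl ⟨hx, hxW⟩
      · exact Or.inr hxW
    calc wvol d (ctWall (d + 1) M A) h t (ψ '' B) ≤ _ := measure_mono hsub
      _ ≤ _ + _ := measure_union_le _ _
      _ = _ := by rw [ct_wvol_compl hGW, add_zero]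
  rw [hnull, hset, ct_wvol_chart hGW hχ hpre ((rm_in d).continuous.measurable hBm)]

theorem ct_measurableSet_bd (hM : IsMfd d M) (A : Set V) : MeasurableSet (ctBd d M A) := by
  obtain ⟨O₁, hO₁, h1⟩ := ct_in_open hM A
  obtain ⟨O₂, hO₂, h2⟩ := ct_out_open hM A
  obtain ⟨hu, -, d1, d2⟩ := ct_trichotomy' hM A
  have hMm := ct_measurableSet hM
  have e : ctBd d M A = M \ ((M ∩ O₁) ∪ (M ∩ O₂)) := by
    rw [h1, h2]
    ext x
    constructor
    · intro hx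
      refine ⟨hu ▸ Or.inr hx, ?_⟩
      rintro (hx' | hx')
      · exact (Set.disjoint_left.1 d1) hx' hx
      · exact (Set.disjoint_left.1 d2) hx' hx
    · rintro ⟨hxM, hx'⟩
      rw [← hu] at hxM
      rcases hxM with hx | hx
      · exact absurd hx hx'
      · exact hx
  rw [e]
  exact hMm.diff ((hMm.inter hO₁.measurableSet).union (hMm.inter hO₂.measurableSet))

theorem ct_measurableSet_wall (hM : IsMfd d M) (A : Set V) : MeasurableSet (ctWall d M A) := by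
  obtain ⟨O, hO, hOe⟩ := ct_wall_open hM A
  rw [← hOe]
  exact (ct_measurableSet_bd hM A).inter hO.measurableSet

/-! ### R4: the perimeter measure is the weighted volume of the wall -/

theorem ct_wper_wall (hG : CtGeo (d + 1) M h t) {A : Set V} (hA : MeasurableSet A) :
    (wper (d + 1) M h t A).restrict (ctSing (d + 1) M A)ᶜ = wvol d (ctWall (d + 1) M A) h t := by
  have hGW := ct_wall_geo hG A
  have hWm := ct_measurableSet_wall hG.mfd A
  have hWM : ctWall (d + 1) M A ⊆ M := (ct_wall_subset_bd A).trans (ct_bd_subset A)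
  have hμ' := ct_wvol_compl hGW
  refine ct_measure_ext_local (L := ctWall (d + 1) M A) ?_ hμ' fun x0 hx0 => ?_
  · rw [Measure.restrict_apply hWm.compl]
    refine measure_mono_null ?_ (ct_wper_compl_bd hG hA)
    rintro x ⟨hxW, hxS⟩ hxB
    exact hxS ⟨hxB, hxW⟩
  · obtain ⟨O, φ, hO, hx0O, hφ⟩ := ct_reg_def' hG (hx0 : CtReg (d + 1) M A x0)
    obtain ⟨hwall, hbd, -, -⟩ := ct_wall_inter_def hG hO hφ
    have hx0' : x0 ∈ {y | y ∈ M ∩ O ∧ φ y = 0} := hwall ▸ (⟨hx0, hx0O⟩ : x0 ∈ _ ∩ O)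
    have h0 : φ x0 = 0 := hx0'.2
    have hG' := hG.inter hO
    obtain ⟨ψ, r, hL⟩ := rm_orth_param hG'.mfd hG'.met hφ.smooth hx0'.1 (hφ.reg x0 hx0'.1)
    have hpar : IsParam (M ∩ O) ψ (rm_box d 0 r) := h0 ▸ hL.par
    obtain ⟨N', hN', hN'e⟩ := if_image hpar
    have hx0N : x0 ∈ (M ∩ O) ∩ N' := by
      rw [← hN'e]
      refine ⟨rm_J 0 0, ⟨by rw [rm_J_zero]; simpa using hL.pos, ?_⟩, ?_⟩
      · rw [rm_tl_J]
        simpa using hL.pos
      · have := hL.base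
        rwa [h0] at this
    refine ⟨O ∩ N', hO.inter hN', ⟨hx0O, hx0N.2⟩, ?_⟩
    ext Y hY
    have hNm : MeasurableSet (O ∩ N') := (hO.inter hN').measurableSet
    rw [Measure.restrict_apply hY, Measure.restrict_apply hY,
      Measure.restrict_apply (hY.inter hNm)]
    set Y' := Y ∩ (O ∩ N') with hY'
    have hY'm : MeasurableSet Y' := hY.inter hNm
    have hBm : MeasurableSet (rm_box d 0 r ∩ ψ ⁻¹' Y') := if_measurableSet_preimage hpar hY'm
    have himg : ψ '' (rm_box d 0 r ∩ ψ ⁻¹' Y') = Y' ∩ M := by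
      ext x
      constructor
      · rintro ⟨w, ⟨hw, hwY⟩, rfl⟩
        exact ⟨hwY, (if_mem hpar hw).1⟩
      · rintro ⟨hxY, hxM⟩
        have : x ∈ ψ '' rm_box d 0 r := hN'e ▸ (⟨⟨hxM, hxY.2.1⟩, hxY.2.2⟩ : x ∈ (M ∩ O) ∩ N')
        obtain ⟨w, hw, rfl⟩ := this
        exact ⟨w, ⟨hw, hxY⟩, rfl⟩
    have hS : Y' ∩ (ctSing (d + 1) M A)ᶜ = Y' := by
      refine inter_eq_left.2 fun x hx hxS => ?_
      have h1 : x ∈ {y | y ∈ M ∩ O ∧ φ y = 0} := hbd ▸ (⟨hxS.1, hx.2.1⟩ : x ∈ _ ∩ O)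
      have h2 : x ∈ ctWall (d + 1) M A ∩ O := hwall ▸ h1
      exact hxS.2 h2.1
    rw [hS, ← measure_inter_conull (ct_wper_compl_M hG hA),
      ← measure_inter_conull (s := Y') (t := M) (μ := wvol d (ctWall (d + 1) M A) h t)
        (measure_mono_null (compl_subset_compl.2 hWM) hμ'), ← himg,
      ct_wper_lapse hG hA hO hφ hL h0 inter_subset_left hBm,
      ct_wvol_lapse hG hO hφ hL h0 inter_subset_left hBm]

end Claimed.Agent.R315
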