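import Claimed.Agent.R315.Ct.RegF
import Claimed.Agent.R315.Ct.LamC
import Claimed.Agent.Lib.Gmt.PcE

/-!
# Row 315, package Ct/RegG (R5): minimisers: null boundary, open representative, the singular set   (architect: helper184)

Everything is `CtLAM.chart` (`Ct/LamC.lean`: a minimiser read in a chart is a `Gmt.GmtLAM (ctA h t ψ) (ctF h t p ψ) U (ctPre ψ U A)`), `ct_gmtData`, the chart characterisations of `Ct/RegA.lean` and a countable atlas.

PLAN OF PROOFS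
* `CtLAM.vol_bd`: `ct_vol_null_of_charts`: `U ∩ ψ ⁻¹' ctBd d M A = gmtBd S ∩ U` (`ct_bd_iff`), null by `Gmt.GmtLAM.volume_gmtBd` (`1 ≤ d`; `(ct_gmtData hG hp hψ)`: `.opn`, `.int`/`ct_gmtInt`, continuity of `ctF` from its smoothness).
* `CtLAM.ae_eq_in`: `A ⊆ M` (`hA.lf.sub`), `ct_trichotomy'`: `symmDiff A (ctIn) ⊆ (ctIn \ A) ∪ (ctOut ∩ A) ∪ ctBd`; `ct_vol_in_diff`, `ct_vol_out_inter`, `CtLAM.vol_bd`; `measure_mono_null`, `measure_union_null`.
* `ct_sing_closed'` (any `A`): `O₁`, `O₂`, `O₃` from `ct_in_open`, `ct_out_open`, `ct_wall_open`; `O = O₁ ∪ O₂ ∪ O₃`.  `M \ ctSing = ctIn ∪ ctOut ∪ ctWall` (`ct_trichotomy'`, `ct_wall_subset_bd`), and `M ∩ O₃ ⊆ (ctBd ∩ O₃) ∪ (M \ ctBd) = ctWall ∪ ctIn ∪ ctOut`.   `CtLAM.sing_closed` (proved from it).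
* `CtLAM.sing_empty`: if `x ∈ ctSing`, `x ∈ M` (`ct_bd_subset`), chart `(ψ, U, u)`, `ct_sing_iff` ⇒ `u ∈ gmtSing S U = ∅` (`Gmt.gmt_sing_empty hd hd' (ct_gmtData ..) (hA.chart ..)`).
* `ct_wper_null_of_charts`: like `ct_vol_null_of_charts`: countable atlas, `wper Mᶜ = 0` (`ct_wper_compl_M`), `wper (ψ '' B) = gmtPerM .. B` for measurable `B ⊆ U` (`ct_wper_spec`); for a non measurable `B = U ∩ ψ ⁻¹' N` pass to `toMeasurable (gmtPerM ..) B ∩ U`.
* `CtLAM.wper_sing`: `ct_wper_null_of_charts`, `U ∩ ψ ⁻¹' ctSing = gmtSing S U` (`ct_sing_iff`), `Gmt.gmt_sing_perM_null hd`.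
* `CtLAM.wper_eq`: `ct_wper_wall` and `Measure.restrict_eq_self_of_ae_mem` (`wper (ctSing) = 0` ⇒ a.e. point is in the complement: `measure_eq_zero_iff_ae_notMem`/`compl_compl`).
-/

set_option autoImplicit false
open scoped ContDiff ENNReal Topology
open MeasureTheory Claims.C0499 Set Filter

namespace Claimed.Agent.R315

variable {V : Type} [NormedAddCommGroup V] [NormedSpace ℝ V] [FiniteDimensional ℝ V]
variable {d : ℕ} {M : Set V} {h : Ten V} {t p : V → ℝ}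

/-- the singular set is relatively closed (any phase). -/
theorem ct_sing_closed' (hM : IsMfd d M) (A : Set V) :
    ∃ O : Set V, IsOpen O ∧ M ∩ O = M \ ctSing d M A := by
  obtain ⟨O₁, hO₁, h₁⟩ := ct_in_open hM A
  obtain ⟨O₂, hO₂, h₂⟩ := ct_out_open hM A
  obtain ⟨O₃, hO₃, h₃⟩ := ct_wall_open hM A
  obtain ⟨hun, -, hd₁, hd₂⟩ := ct_trichotomy' hM A
  refine ⟨O₁ ∪ O₂ ∪ O₃, (hO₁.union hO₂).union hO₃, ?_⟩
  ext x
  constructor
  · rintro ⟨hxM, (hx | hx) | hx⟩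
    · refine ⟨hxM, fun hs => ?_⟩
      have h4 : x ∈ ctIn d M A := h₁ ▸ (⟨hxM, hx⟩ : x ∈ M ∩ O₁)
      exact Set.disjoint_left.1 hd₁ h4 hs.1
    · refine ⟨hxM, fun hs => ?_⟩
      have h4 : x ∈ ctOut d M A := h₂ ▸ (⟨hxM, hx⟩ : x ∈ M ∩ O₂)
      exact Set.disjoint_left.1 hd₂ h4 hs.1
    · refine ⟨hxM, fun hs => ?_⟩
      have h4 : x ∈ ctWall d M A := h₃ ▸ (⟨hs.1, hx⟩ : x ∈ ctBd d M A ∩ O₃)
      exact hs.2 h4
  · rintro ⟨hxM, hs⟩
    refine ⟨hxM, ?_⟩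
    rw [← hun] at hxM
    rcases hxM with (hx | hx) | hx
    · rw [← h₁] at hx
      exact Or.inl (Or.inl hx.2)
    · rw [← h₂] at hx
      exact Or.inl (Or.inr hx.2)
    · have h4 : x ∈ ctWall d M A := by
        by_contra hn
        exact hs ⟨hx, hn⟩
      rw [← h₃] at h4
      exact Or.inr h4.2

variable [MeasurableSpace V] [BorelSpace V]

/-! ### R5: minimisers -/

theorem CtLAM.vol_bd (hG : CtGeo d M h t) (hp : SmoothAlong d M p) {A : Set V}
    (hA : CtLAM d M h t p A) (hd : 2 ≤ d) : vol d M h (ctBd d M A) = 0 := by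
  refine ct_vol_null_of_charts hG (fun ψ U hψ => ?_)
  have e : U ∩ ψ ⁻¹' ctBd d M A = Gmt.gmtBd (ctPre ψ U A) ∩ U := by
    ext u
    constructor
    · rintro ⟨hu, hb⟩
      exact ⟨(ct_bd_iff hψ A hu).1 hb, hu⟩
    · rintro ⟨hb, hu⟩
      exact ⟨hu, (ct_bd_iff hψ A hu).2 hb⟩
  rw [e]
  exact Gmt.GmtLAM.volume_gmtBd (by omega) (if_open hψ) (ct_gmtInt hG hψ)
    (ct_gmtData hG hp hψ).f.continuousOn (hA.chart hG hp hψ)

/-- the open representative. -/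
theorem CtLAM.ae_eq_in (hG : CtGeo d M h t) (hp : SmoothAlong d M p) {A : Set V}
    (hA : CtLAM d M h t p A) (hd : 2 ≤ d) : vol d M h (symmDiff A (ctIn d M A)) = 0 := by
  obtain ⟨hun, -, -, -⟩ := ct_trichotomy' hG.mfd A
  refine measure_mono_null (t := (ctIn d M A \ A) ∪ (ctOut d M A ∩ A) ∪ ctBd d M A) ?_
    (measure_union_null (measure_union_null (ct_vol_in_diff hG A) (ct_vol_out_inter hG A))
      (hA.vol_bd hG hp hd))
  rintro x (⟨hxA, hxI⟩ | ⟨hxI, hxA⟩)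
  · have hxM : x ∈ M := hA.lf.sub hxA
    rw [← hun] at hxM
    rcases hxM with (hx | hx) | hx
    · exact absurd hx hxI
    · exact Or.inl (Or.inr ⟨hx, hxA⟩)
    · exact Or.inr hx
  · exact Or.inl (Or.inl ⟨hxI, hxA⟩)

theorem CtLAM.sing_closed (hG : CtGeo d M h t) (_hp : SmoothAlong d M p) {A : Set V}
    (_hA : CtLAM d M h t p A) : ∃ O : Set V, IsOpen O ∧ M ∩ O = M \ ctSing d M A :=
  ct_sing_closed' hG.mfd A

theorem CtLAM.sing_empty (hG : CtGeo d M h t) (hp : SmoothAlong d M p) {A : Set V}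
    (hA : CtLAM d M h t p A) (hd : 2 ≤ d) (hd' : d ≤ 7) : ctSing d M A = ∅ := by
  rw [Set.eq_empty_iff_forall_notMem]
  intro x hx
  obtain ⟨ψ, U, hψ, u, hu, rfl⟩ := hG.mfd x (ct_bd_subset A hx.1)
  have h1 := (ct_sing_iff hψ A hu).1 hx
  rw [Gmt.gmt_sing_empty hd hd' (ct_gmtData hG hp hψ) (hA.chart hG hp hψ)] at h1
  exact h1

/-- null sets of the perimeter measure in charts. -/
theorem ct_wper_null_of_charts (hG : CtGeo d M h t) {A : Set V} (hA : MeasurableSet A)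
    {N : Set V} (hN : ∀ (ψ : E d → V) (U : Set (E d)), IsParam M ψ U →
      Gmt.gmtPerM (ctA h t ψ) (ctPre ψ U A) (U ∩ ψ ⁻¹' N) = 0) : wper d M h t A N = 0 := by
  obtain ⟨ψ, U, hp, he⟩ := if_exists_atlas hG.mfd
  have hk : ∀ k, wper d M h t A (ψ k '' (U k ∩ ψ k ⁻¹' N)) = 0 := by
    intro k
    set μ := Gmt.gmtPerM (ctA h t (ψ k)) (ctPre (ψ k) (U k) A) with hμ
    have hB' : MeasurableSet (toMeasurable μ (U k ∩ ψ k ⁻¹' N) ∩ U k) :=
      (measurableSet_toMeasurable _ _).inter (if_open (hp k)).measurableSet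
    have h1 := ct_wper_chart hG (hp k) hA inter_subset_right hB'
    have h2 : μ (toMeasurable μ (U k ∩ ψ k ⁻¹' N) ∩ U k) = 0 := by
      refine measure_mono_null inter_subset_left ?_
      rw [measure_toMeasurable]
      exact hN (ψ k) (U k) (hp k)
    rw [h2] at h1
    refine measure_mono_null (image_mono ?_) h1
    exact fun u hu => ⟨subset_toMeasurable _ _ hu, hu.1⟩
  refine measure_mono_null (t := Mᶜ ∪ ⋃ k, ψ k '' (U k ∩ ψ k ⁻¹' N)) ?_
    (measure_union_null (ct_wper_compl_M hG hA) (measure_iUnion_null hk))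
  intro x hx
  by_cases hxM : x ∈ M
  · right
    rw [he] at hxM
    obtain ⟨k, u, hu, rfl⟩ := mem_iUnion.1 hxM
    exact mem_iUnion.2 ⟨k, u, ⟨hu, hx⟩, rfl⟩
  · exact Or.inl hxM

theorem CtLAM.wper_sing (hG : CtGeo d M h t) (hp : SmoothAlong d M p) {A : Set V}
    (hA : CtLAM d M h t p A) (hd : 2 ≤ d) : wper d M h t A (ctSing d M A) = 0 := by
  refine ct_wper_null_of_charts hG hA.lf.meas (fun ψ U hψ => ?_)
  have e : U ∩ ψ ⁻¹' ctSing d M A = Gmt.gmtSing (ctPre ψ U A) U := by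
    ext u
    constructor
    · rintro ⟨hu, hb⟩
      exact (ct_sing_iff hψ A hu).1 hb
    · intro hb
      exact ⟨hb.1, (ct_sing_iff hψ A hb.1).2 hb⟩
  rw [e]
  exact Gmt.gmt_sing_perM_null hd (ct_gmtData hG hp hψ) (hA.chart hG hp hψ)

theorem CtLAM.wper_eq (hG : CtGeo (d + 1) M h t) (hp : SmoothAlong (d + 1) M p) {A : Set V}
    (hA : CtLAM (d + 1) M h t p A) (hd : 1 ≤ d) :
    wper (d + 1) M h t A = wvol d (ctWall (d + 1) M A) h t := by
  rw [← ct_wper_wall hG hA.lf.meas]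
  refine (Measure.restrict_eq_self_of_ae_mem ?_).symm
  exact measure_eq_zero_iff_ae_notMem.1 (hA.wper_sing hG hp (by omega))

end Claimed.Agent.R315
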