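import Claimed.Agent.R315.Ct.RegD
import Claimed.Agent.R315.Ct.LamC
import Claimed.Agent.R315.Ct.FieldA

/-!
# Row 315, package Ct/RegH: the Euler-Lagrange equation `H_t = p` on the wall (`CtLAM.el`)   (architect: helper184)

Chart dictionary: `ρ = ctRho h t ψ = ω √det G`, `Ā = ctA h t ψ = ρ² G⁻¹` (as a form on covectors), `f̄ = ctF h t p ψ = p ρ`.  For `f` smooth along `M`, `f̄ = f ∘ ψ`, `ξ = gradient f̄ u` (`ξ i = pdiff f̄ i u`).
`Gmt.gmt_reg_el` says: `gmtDiv (z ↦ (√(Ā ∇φ̄ ∇φ̄))⁻¹ • gmtSharp Ā ∇φ̄) = f̄` on `{φ̄ = 0}`.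

PLAN OF PROOFS
* `ct_el_grad`: `(gradient g u) i = ⟪gradient g u, eb i⟫ = fderiv g u (eb i) = pdiff g i u` (`inner_gradient_left`-type: `gradient` is `(toDual).symm (fderiv ..)`, `InnerProductSpace.toDual_symm_apply`; `EuclideanSpace.inner_single_right`).
* `ct_el_sharp`: `(gmtSharp (if_bil B) ξ) i = ⟪gmtSharp .., eb i⟫ = if_bil B ξ (eb i) = ∑ k, ξ k * B k i` (`Gmt.gmtSharp`, `InnerProductSpace.toDual_symm_apply`, `if_bil_eb_right`/`if_bil_apply`).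
* `ct_el_norm`: `Ā ξ ξ = ρ² ∑ G⁻¹ i j ξ i ξ j = ρ² gradSqC G f̄ u = ρ² gradSq f (ψ u)` (`if_bil_apply`, `gs_sq_eq`; `ρ² = e^{-2t} det G`: `Real.sq_sqrt` (`det_pos`), `Real.exp_add`/`← Real.exp_nat_mul`).
* `ct_el_div` (the chart formula of the weighted divergence).  SHORTCUT: the product rule computation is `ct_field_div` of `Ct/BvF.lean` (helper75; black box): `gmtDiv (ctField h t ψ U a f) u = wdiv .. (ψ u) * ρ u`, `ctField .. = U.indicator (z ↦ (ρ a∘ψ) • toLp (G⁻¹ *ᵥ ∂(f∘ψ)))`.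
  So it suffices to show that the field of the statement coincides with `ctField h t ψ U a f` on the open set `U` (then `Filter.EventuallyEq.fderiv_eq` ⇒ equal `gmtDiv` at `u`): componentwise (`ct_el_sharp`, `ct_el_grad`): `(ρ⁻¹ a) ∑ k, ∂_k f̄ · (ρ² G⁻¹) k i = ρ a ∑ k, G⁻¹ i k ∂_k f̄`
  (symmetry of `G⁻¹`: `(if_metC ..).posDef.isHermitian.inv`/`Matrix.IsSymm`; `ρ⁻¹ ρ² = ρ`, `ρ² = e^{-2t} det G`: as in `ct_el_norm`; `Matrix.mulVec`, `dotProduct`, `Set.indicator_of_mem`).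
* `ct_el_wmc`: `a = (gradN φ)⁻¹ = F(|dφ|²)`, `F s = (√s)⁻¹` smooth on `Ioi 0`, `deriv F s = -1/(2 (√s)³)`; `gs_ip_comp_left` (with `I = Ioi 0`): `⟨da, dφ⟩ = F'(|dφ|²) ⟨d|dφ|², dφ⟩`; `gs_ip_comm`; unfold `wmc`, `wdiv`; `div_eq_mul_inv`, `ring`/`field_simp`.
* `CtLAM.el`.  Chart `(ψ, U, u)` at `x`, `ball u r ⊆ U`, `φ̄ = φ ∘ ψ`.  `CtDef.chart` gives the hypotheses of `Gmt.gmt_reg_el (ct_gmtData hG hp hψ) (hA.chart hG hp hψ) u r` (restrict to the ball; intersect the a.e. equality with the ball).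
  On `U`: `(√(Ā ∇φ̄ ∇φ̄))⁻¹ = ρ⁻¹ (gradN φ ∘ ψ)⁻¹` (`ct_el_norm`, `Real.sqrt_mul_self`, `ct_rho_pos`), so the field of `gmt_reg_el` coincides near `u` with the field of `ct_el_div` for `a = (gradN φ)⁻¹` (smooth: `gs_sm_inv`, `gs_sm_sqrt`, `if_gradSq_smoothAlong`); `gmtDiv` depends only on the germ.
  Hence `ρ · wdiv a φ (ψ u) = p ρ`, cancel `ρ > 0`, `ct_el_wmc`.
-/

set_option autoImplicit false
open scoped ContDiff ENNReal Topology
open MeasureTheory Claims.C0499 Set Filter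

namespace Claimed.Agent.R315

variable {V : Type} [NormedAddCommGroup V] [NormedSpace ℝ V] [FiniteDimensional ℝ V]
variable {d : ℕ} {M : Set V} {h : Ten V} {t p : V → ℝ}

-- `ct_el_grad`, `ct_el_sharp`, `ct_el_norm` are proved in `Ct/FieldA.lean`.

/-- the weighted divergence in a chart. -/
theorem ct_el_div (hG : CtGeo d M h t) {a f : V → ℝ} (ha : SmoothAlong d M a)
    (hf : SmoothAlong d M f) {ψ : E d → V} {U : Set (E d)} (hψ : IsParam M ψ U) {u : E d}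
    (hu : u ∈ U) :
    Gmt.gmtDiv (fun z => ((ctRho h t ψ z)⁻¹ * a (ψ z)) •
      Gmt.gmtSharp (ctA h t ψ z) (gradient (f ∘ ψ) z)) u =
      ctRho h t ψ u * wdiv d M h t a f (ψ u) := by
  have he : (fun z => ((ctRho h t ψ z)⁻¹ * a (ψ z)) •
      Gmt.gmtSharp (ctA h t ψ z) (gradient (f ∘ ψ) z)) =ᶠ[𝓝 u] ctRaw h t ψ a f :=
    Filter.eventuallyEq_of_mem ((if_open hψ).mem_nhds hu) fun z hz => ctRaw_sharp hG a f hψ hz
  rw [ctfa_div_congr he, ctRaw_div hG ha hf hψ hu, mul_comm]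

/-- `H_t[φ] = Div_ω (∇φ/|∇φ|)`. -/
theorem ct_el_wmc (hG : CtGeo d M h t) {φ : V → ℝ} (hφ : SmoothAlong d M φ)
    (hreg : ∀ x ∈ M, 0 < gradSq d M h φ x) {x : V} (hx : x ∈ M) :
    wmc d M h t φ x = wdiv d M h t (fun y => (gradN d M h φ y)⁻¹) φ x := by
  have hσ : SmoothAlong d M (gradSq d M h φ) := if_gradSq_smoothAlong hG.met hφ
  have hF : ContDiffOn ℝ ∞ (fun s : ℝ => (Real.sqrt s)⁻¹) (Set.Ioi 0) := fun s hs =>
    ((Real.contDiffAt_sqrt (ne_of_gt hs)).inv (Real.sqrt_pos.2 hs).ne').contDiffWithinAt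
  have h1 := gs_ip_comp_left hG.mfd hG.met isOpen_Ioi hF hσ (fun y hy => hreg y hy) hφ hx
  have hs := hreg x hx
  have hN : 0 < Real.sqrt (gradSq d M h φ x) := Real.sqrt_pos.2 hs
  have hd : deriv (fun s : ℝ => (Real.sqrt s)⁻¹) (gradSq d M h φ x) =
      -(1 / (2 * Real.sqrt (gradSq d M h φ x))) / Real.sqrt (gradSq d M h φ x) ^ 2 :=
    ((Real.hasDerivAt_sqrt hs.ne').inv hN.ne').deriv
  rw [hd, gs_ip_comm hG.mfd hG.met hσ hφ hx] at h1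
  unfold wmc wdiv gradN
  rw [h1]
  field_simp
  ring

variable [MeasurableSpace V] [BorelSpace V]

/-- **Euler-Lagrange equation** `H_t = p` on the wall. -/
theorem CtLAM.el (hG : CtGeo d M h t) (hp : SmoothAlong d M p) {A : Set V}
    (hA : CtLAM d M h t p A) {φ : V → ℝ} (hφ : CtDef d M h A φ) {x : V} (hx : x ∈ M)
    (hx0 : φ x = 0) : wmc d M h t φ x = p x := by
  obtain ⟨ψ, U, hψ, u, hu, rfl⟩ := hG.mfd x hx
  obtain ⟨r, hr, hrU⟩ := Metric.isOpen_iff.1 (if_open hψ) u hu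
  obtain ⟨c1, c2, c3⟩ := hφ.chart hG hψ
  have hae : ((ctPre ψ U A ∩ Metric.ball u r : Set (E d)) =ᵐ[volume]
      ({y | y ∈ Metric.ball u r ∧ (φ ∘ ψ) y < 0} : Set (E d))) := by
    have e1 := c3.inter (ae_eq_refl (Metric.ball u r))
    have e2 : ({u | u ∈ U ∧ φ (ψ u) < 0} ∩ Metric.ball u r : Set (E d)) =
        {y | y ∈ Metric.ball u r ∧ (φ ∘ ψ) y < 0} := by
      ext y
      constructor
      · rintro ⟨⟨_, h2⟩, h3⟩
        exact ⟨h3, h2⟩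
      · rintro ⟨h3, h2⟩
        exact ⟨⟨hrU h3, h2⟩, h3⟩
    rwa [e2] at e1
  have key := Gmt.gmt_reg_el (ct_gmtData hG hp hψ) (hA.chart hG hp hψ) u r hr hrU (φ ∘ ψ)
    (c1.mono hrU) (fun y hy => c2 y (hrU hy)) hae u (Metric.mem_ball_self hr) hx0
  have hN : SmoothAlong d M (fun y => (gradN d M h φ y)⁻¹) :=
    gs_sm_inv (gs_sm_sqrt (if_gradSq_smoothAlong hG.met hφ.smooth) hφ.reg)
      fun y hy => (Real.sqrt_pos.2 (hφ.reg y hy)).ne'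
  have he : (fun z => (Real.sqrt (ctA h t ψ z (gradient (φ ∘ ψ) z) (gradient (φ ∘ ψ) z)))⁻¹ •
      Gmt.gmtSharp (ctA h t ψ z) (gradient (φ ∘ ψ) z)) =ᶠ[𝓝 u]
      (fun z => ((ctRho h t ψ z)⁻¹ * (gradN d M h φ (ψ z))⁻¹) •
        Gmt.gmtSharp (ctA h t ψ z) (gradient (φ ∘ ψ) z)) := by
    refine Filter.eventuallyEq_of_mem ((if_open hψ).mem_nhds hu) fun z hz => ?_
    show (Real.sqrt (ctA h t ψ z (gradient (φ ∘ ψ) z) (gradient (φ ∘ ψ) z)))⁻¹ • _ = _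
    rw [ct_el_norm hG hφ.smooth hψ hz, Real.sqrt_mul (sq_nonneg _),
      Real.sqrt_sq (ctfa_rho_pos hG hψ hz).le, mul_inv]
    rfl
  rw [ctfa_div_congr he, ct_el_div hG hN hφ.smooth hψ hu] at key
  rw [ct_el_wmc hG hφ.smooth hφ.reg hx]
  unfold ctF at key
  rw [mul_comm (p (ψ u))] at key
  exact mul_left_cancel₀ (ctfa_rho_pos hG hψ hu).ne' key

end Claimed.Agent.R315
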