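import Claimed.Agent.R315.Ct.RegD
import Claimed.Agent.R315.Ct.LamC
import Claimed.Agent.Lib.Gmt.SmC

/-!
# Row 315, package Ct/RegI (R7): convergence of minimisers on exhausting open pieces (`CtSeq`)   (architect: helper184)

PROVED (helper184), sorry-free.

Transfer of `Gmt.gmt_lam_bd_lim`, `gmt_lam_bd_approx` (`IFa`), `gmt_sing_lim`, `gmt_reg_conv` (`IFb`, both need `2 ≤ d`) to `M`.
CHANGES w.r.t. the first version: `bd_lim`, `sing_lim` take EVENTUAL hypotheses (`∀ᶠ k`); `sing_lim`, `reg_conv` carry `(hd : 2 ≤ d)`.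

SET UP in a chart `(ψ, U)` of `M` (`CtSeq.chart`): `U k = U ∩ ψ ⁻¹' O k`, `S k = ctPre ψ U (A k)`, `S' = ctPre ψ U A'`:
 `Gmt.GmtDataConv U_k Ā f̄ U Ā f̄` (`ct_dataConv H.geo H.psm H.opn H.exh hψ`), `∀ k, GmtLAM Ā f̄ (U k) (S k)` (`ct_lam_chart_seq H.geo H.psm (H.opn k) (H.lam k) hψ`), `MeasurableSet S'` (`ct_measurableSet_pre`, `H.lam'.lf.meas`), `GmtConv U S S'` (`ct_conv_chart`, `(H.lam k).lf.meas`).

PLAN OF PROOFS
* `CtSeq.shift`: all fields are stable under `k ↦ k + N` (`Filter.tendsto_add_atTop_iff_nat`, `(tendsto_add_atTop_nat N).eventually`).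
* `ct_seq_pull`: `x k → x' = ψ u'`, `x k ∈ M` eventually ⇒ eventually `x k ∈ ψ '' U` (`if_image_mem_nhdsWithin hψ hu' : ψ '' U ∈ 𝓝[M] (ψ u')`, `tendsto_nhdsWithin_iff`), and `u k := invFunOn ψ U (x k) → u'` (`if_contInv`: `ContinuousOn.continuousWithinAt`, `if_leftInv`), `ψ (u k) = x k`, `u k ∈ U` (`if_rightInv`, `if_inv_mem`).
* `CtSeq.bd_lim`: `x' ∈ M` (`H.closed.mem_of_tendsto`, `ct_bd_subset`); chart at `x'` (`H.geo.mfd`); `ct_seq_pull`; choose `N` such that for `k ≥ N` everything holds, replace `H` by `H.shift N` (so that the hypotheses hold for ALL `k`); `u k ∈ gmtBd (S k)` (`ct_bd_iff`); `Gmt.gmt_lam_bd_lim`; `ct_bd_iff`.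
* `CtSeq.bd_approx`: chart at `x' = ψ u'`, `u' ∈ gmtBd S'`; `Gmt.gmt_lam_bd_approx` gives `u k → u'`; eventually `u k ∈ U`; `x k = ψ (u k)` (`ct_bd_iff`; continuity of `ψ` at `u'`).
* `CtSeq.sing_lim`: as `bd_lim` with `Gmt.gmt_sing_lim hd`: `u k ∈ gmtSing (S k) (U k)`: `ct_sing_iff` gives `u k ∈ gmtSing (S k) U`, and `ψ (u k) = x k ∈ O k`.
* `CtSeq.reg_conv`: chart `(ψ, U, u')` at `x'`, `GmtReg S' u'` (`ct_reg_iff`); `Gmt.gmt_reg_conv hd` ⇒ `r`, `φ̄ k`, `φ̄'` on `b = ball u' r ⊆ U`.  `(ψ, b)` is a parametrisation (`if_mono`), `ψ '' b = M ∩ N` (`if_image`).  `φ k = φ̄ k ∘ invFunOn ψ b`, `φ' = φ̄' ∘ invFunOn ψ b`.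
  `CtDef`: `ct_def_of_chart H.geo (if_mono ..) hN hNb` (`ctPre ψ b A = ctPre ψ U A ∩ b`).
  Last clause: for a parametrisation `(χ, W)` of `M ∩ N`: `φ k ∘ χ = φ̄ k ∘ τ` with `τ = if_tr ψ b χ` (rfl), `if_trDom χ W ψ b = W`, `τ` smooth on `W`, `MapsTo τ W b` (`if_tr_contDiffOn`, `if_tr_mapsTo`; `ψ` is a parametrisation of `M ∩ N` by `if_param_inter`); `Gmt.GmtSmoothConv.comp_right`.
-/

set_option autoImplicit false
set_option linter.unusedVariables false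
set_option linter.unusedSectionVars false
open scoped ContDiff ENNReal Topology
open MeasureTheory Claims.C0499 Set Filter

namespace Claimed.Agent.R315

variable {V : Type} [NormedAddCommGroup V] [NormedSpace ℝ V] [FiniteDimensional ℝ V]
variable {d : ℕ} {M : Set V} {h : Ten V} {t p : V → ℝ}
variable [MeasurableSpace V] [BorelSpace V]

/-! ### R7: convergence of minimisers on exhausting open pieces -/

/-- the standing hypotheses of the closure theorem. -/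
structure CtSeq (d : ℕ) (M : Set V) (h : Ten V) (t p : V → ℝ) (O : ℕ → Set V) (A : ℕ → Set V)
    (A' : Set V) : Prop where
  geo : CtGeo d M h t
  closed : IsClosed M
  psm : SmoothAlong d M p
  opn : ∀ k, IsOpen (O k)
  exh : ∀ K, IsCompact K → K ⊆ M → ∀ᶠ k in atTop, K ⊆ O k
  lam : ∀ k, CtLAM d (M ∩ O k) h t p (A k)
  lam' : CtLAM d M h t p A'
  conv : CtConv d M h A A'

variable {O : ℕ → Set V} {A : ℕ → Set V} {A' : Set V}

theorem CtSeq.shift (H : CtSeq d M h t p O A A') (N : ℕ) :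
    CtSeq d M h t p (fun k => O (k + N)) (fun k => A (k + N)) A' := by
  refine ⟨H.geo, H.closed, H.psm, fun k => H.opn _, fun K hK hKM => ?_, fun k => H.lam _, H.lam',
    fun K hK hKM => ?_⟩
  · exact (tendsto_add_atTop_nat N).eventually (H.exh K hK hKM)
  · exact (H.conv K hK hKM).comp (tendsto_add_atTop_nat N)

/-- the chart problem of a `CtSeq`. -/
theorem CtSeq.chart (H : CtSeq d M h t p O A A') {ψ : E d → V} {U : Set (E d)}
    (hψ : IsParam M ψ U) :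
    Gmt.GmtDataConv (fun k => U ∩ ψ ⁻¹' O k) (fun _ => ctA h t ψ) (fun _ => ctF h t p ψ) U
      (ctA h t ψ) (ctF h t p ψ) ∧
    (∀ k, Gmt.GmtLAM (ctA h t ψ) (ctF h t p ψ) (U ∩ ψ ⁻¹' O k) (ctPre ψ U (A k))) ∧
    MeasurableSet (ctPre ψ U A') ∧ Gmt.GmtConv U (fun k => ctPre ψ U (A k)) (ctPre ψ U A') :=
  ⟨ct_dataConv H.geo H.psm H.opn H.exh hψ,
    fun k => ct_lam_chart_seq H.geo H.psm (H.opn k) (H.lam k) hψ,
    ct_measurableSet_pre hψ H.lam'.lf.meas,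
    ct_conv_chart H.geo (fun k => (H.lam k).lf.meas) H.lam'.lf.meas H.conv hψ⟩

omit [MeasurableSpace V] [BorelSpace V] [FiniteDimensional ℝ V] in
/-- a convergent sequence of `M` read in a chart at the limit. -/
theorem ct_seq_pull {ψ : E d → V} {U : Set (E d)} (hψ : IsParam M ψ U) {u' : E d} (hu' : u' ∈ U)
    {x : ℕ → V} (hx : ∀ᶠ k in atTop, x k ∈ M) (hlim : Tendsto x atTop (𝓝 (ψ u'))) :
    ∃ u : ℕ → E d, (∀ᶠ k in atTop, u k ∈ U ∧ ψ (u k) = x k) ∧ Tendsto u atTop (𝓝 u') := by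
  have h1 : Tendsto x atTop (𝓝[M] (ψ u')) := tendsto_nhdsWithin_iff.2 ⟨hlim, hx⟩
  have h2 : ∀ᶠ k in atTop, x k ∈ ψ '' U := h1.eventually (if_image_mem_nhdsWithin hψ hu')
  refine ⟨fun k => Function.invFunOn ψ U (x k), ?_, ?_⟩
  · filter_upwards [h2] with k hk
    exact ⟨if_inv_mem hk, if_rightInv hk⟩
  · have h3 : ContinuousWithinAt (Function.invFunOn ψ U) (ψ '' U) (ψ u') :=
      if_contInv hψ _ (mem_image_of_mem ψ hu')
    have h4 : Tendsto x atTop (𝓝[ψ '' U] (ψ u')) := tendsto_nhdsWithin_iff.2 ⟨hlim, h2⟩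
    have := h3.tendsto.comp h4
    rwa [if_leftInv hψ hu'] at this

/-- limits of boundary points are boundary points. -/
theorem CtSeq.bd_lim (H : CtSeq d M h t p O A A') {x : ℕ → V} {x' : V}
    (hx : ∀ᶠ k in atTop, x k ∈ ctBd d M (A k) ∩ O k) (hlim : Tendsto x atTop (𝓝 x')) :
    x' ∈ ctBd d M A' := by
  have hxM : ∀ᶠ k in atTop, x k ∈ M := hx.mono fun k hk => ct_bd_subset _ hk.1
  have hx'M : x' ∈ M := H.closed.mem_of_tendsto hlim hxM
  obtain ⟨ψ, U, hψ, u', hu', rfl⟩ := H.geo.mfd x' hx'M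
  obtain ⟨u, hu, hul⟩ := ct_seq_pull hψ hu' hxM hlim
  obtain ⟨N, hN⟩ := eventually_atTop.1 (hu.and hx)
  obtain ⟨c1, c2, c3, c4⟩ := (H.shift N).chart hψ
  rw [ct_bd_iff hψ A' hu']
  refine Gmt.gmt_lam_bd_lim c1 _ c2 _ c3 c4 (fun k => u (k + N)) u' hu' (fun k => ?_)
    (hul.comp (tendsto_add_atTop_nat N))
  obtain ⟨⟨h1, h2⟩, h3, h4⟩ := hN (k + N) (by omega)
  show u (k + N) ∈ Gmt.gmtBd (ctPre ψ U (A (k + N)))
  rw [← ct_bd_iff hψ _ h1, h2]
  exact h3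

/-- boundary points of the limit are limits of boundary points. -/
theorem CtSeq.bd_approx (H : CtSeq d M h t p O A A') {x' : V} (hx' : x' ∈ ctBd d M A') :
    ∃ x : ℕ → V, (∀ᶠ k in atTop, x k ∈ ctBd d M (A k)) ∧ Tendsto x atTop (𝓝 x') := by
  obtain ⟨ψ, U, hψ, u', hu', rfl⟩ := H.geo.mfd x' (ct_bd_subset _ hx')
  obtain ⟨c1, c2, c3, c4⟩ := H.chart hψ
  obtain ⟨u, hu, hul⟩ := Gmt.gmt_lam_bd_approx c1 _ c2 _ c3 c4 u' hu' ((ct_bd_iff hψ A' hu').1 hx')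
  refine ⟨fun k => ψ (u k), ?_, ?_⟩
  · filter_upwards [hu, hul.eventually ((if_open hψ).mem_nhds hu')] with k h1 h2
    exact (ct_bd_iff hψ _ h2).2 h1
  · exact ((if_continuousOn hψ).continuousAt ((if_open hψ).mem_nhds hu')).tendsto.comp hul

/-- limits of singular points are singular. -/
theorem CtSeq.sing_lim (hd : 2 ≤ d) (H : CtSeq d M h t p O A A') {x : ℕ → V} {x' : V}
    (hx : ∀ᶠ k in atTop, x k ∈ ctSing d M (A k) ∩ O k) (hlim : Tendsto x atTop (𝓝 x')) :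
    x' ∈ ctSing d M A' := by
  have hxM : ∀ᶠ k in atTop, x k ∈ M := hx.mono fun k hk => ct_bd_subset _ hk.1.1
  have hx'M : x' ∈ M := H.closed.mem_of_tendsto hlim hxM
  obtain ⟨ψ, U, hψ, u', hu', rfl⟩ := H.geo.mfd x' hx'M
  obtain ⟨u, hu, hul⟩ := ct_seq_pull hψ hu' hxM hlim
  obtain ⟨N, hN⟩ := eventually_atTop.1 (hu.and hx)
  obtain ⟨c1, c2, c3, c4⟩ := (H.shift N).chart hψ
  rw [ct_sing_iff hψ A' hu']
  refine Gmt.gmt_sing_lim hd c1 _ c2 _ c3 c4 (fun k => u (k + N)) u' hu' (fun k => ?_)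
    (hul.comp (tendsto_add_atTop_nat N))
  obtain ⟨⟨h1, h2⟩, h3, h4⟩ := hN (k + N) (by omega)
  have h5 := (ct_sing_iff hψ (A (k + N)) h1).1 (h2 ▸ h3)
  exact ⟨⟨h1, by rw [mem_preimage, h2]; exact h4⟩, h5.2⟩

/-- smooth one-sheeted convergence near a regular point of the limit. -/
theorem CtSeq.reg_conv (hd : 2 ≤ d) (H : CtSeq d M h t p O A A') {x' : V}
    (hx' : CtReg d M A' x') :
    ∃ (N : Set V) (φ : ℕ → V → ℝ) (φ' : V → ℝ), IsOpen N ∧ x' ∈ N ∧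
      CtDef d (M ∩ N) h (A' ∩ N) φ' ∧ (∀ᶠ k in atTop, CtDef d (M ∩ N) h (A k ∩ N) (φ k)) ∧
      ∀ (ψ : E d → V) (U : Set (E d)), IsParam (M ∩ N) ψ U →
        Gmt.GmtSmoothConv U (fun k => φ k ∘ ψ) (φ' ∘ ψ) := by
  obtain ⟨ψ, U, u', hψ, hu', rfl, hreg⟩ := hx'
  obtain ⟨c1, c2, c3, c4⟩ := H.chart hψ
  obtain ⟨r, hr, φb, φb', hbU, s1, s2, s3, s4, s5, s6⟩ :=
    Gmt.gmt_reg_conv hd c1 _ c2 _ c3 c4 u' hu' hreg
  have hψb : IsParam M ψ (Metric.ball u' r) := if_mono hψ Metric.isOpen_ball hbU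
  obtain ⟨N, hN, hNb⟩ := if_image hψb
  have hpre : ∀ B : Set V, ctPre ψ (Metric.ball u' r) B = ctPre ψ U B ∩ Metric.ball u' r := by
    intro B
    ext v
    simp only [ctPre, mem_inter_iff, mem_preimage]
    exact ⟨fun hv => ⟨⟨hv.1, hbU hv.2⟩, hv.2⟩, fun hv => ⟨hv.1.1, hv.2⟩⟩
  refine ⟨N, fun k => φb k ∘ Function.invFunOn ψ (Metric.ball u' r),
    φb' ∘ Function.invFunOn ψ (Metric.ball u' r), hN, ?_, ?_, ?_, ?_⟩
  · have : ψ u' ∈ M ∩ N := hNb ▸ mem_image_of_mem ψ (Metric.mem_ball_self hr)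
    exact this.2
  · exact ct_def_of_chart H.geo hψb hN hNb s1 s3 (by rw [hpre]; exact s4)
  · filter_upwards [s6] with k hk
    exact ct_def_of_chart H.geo hψb hN hNb hk.1 hk.2.1 (by rw [hpre]; exact hk.2.2)
  · intro χ W hχ
    have hψ' : IsParam (M ∩ N) ψ (Metric.ball u' r) :=
      if_param_inter hψb (hNb ▸ inter_subset_right)
    have hdom : if_trDom χ W ψ (Metric.ball u' r) = W := by
      refine Subset.antisymm if_trDom_subset fun w hw => ⟨hw, ?_⟩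
      rw [mem_preimage, hNb]
      exact if_mem hχ hw
    have h4 : ContDiffOn ℝ ∞ (if_tr ψ (Metric.ball u' r) χ) W := hdom ▸ if_tr_contDiffOn hχ hψ'
    have h5 : MapsTo (if_tr ψ (Metric.ball u' r) χ) W (Metric.ball u' r) := fun w hw =>
      if_tr_mem (U := W) (hdom.symm ▸ hw)
    exact Gmt.GmtSmoothConv.comp_right Metric.isOpen_ball (if_open hχ) s5
      (s6.mono fun k hk => hk.1) s1 h4 h5

end Claimed.Agent.R315
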