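import Claimed.Agent.R315.Ct.RegI

/-!
# Row 315, package Ct/RegJ (R7, continued): compact subsets of the open phases of the limit lie eventually in the phases (`CtSeq.in_lim`, `CtSeq.out_lim`)   (architect: helper184)

PROVED (helper184), sorry-free.

PLAN OF PROOFS
* `CtSeq.subseq`: all fields are stable under a strictly monotone reindexing `σ` (`σ.tendsto_atTop`, `Tendsto.comp`, `Tendsto.eventually`).
* `CtSeq.no_bd`: `K ⊆ M \ ctBd d M A'` compact ⇒ eventually `K ∩ ctBd d M (A k) = ∅`.  By contradiction: `∃ᶠ k, (K ∩ ctBd d M (A k)).Nonempty` ⇒ `σ` strictly monotone with points `x k ∈ K ∩ ctBd d M (A (σ k))` (`Filter.extraction_of_frequently_atTop`);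
  `K` is sequentially compact (`IsCompact.tendsto_subseq`): a further subsequence converges to `x' ∈ K`; eventually `K ⊆ O (σ k)` (`H.exh`); `(H.subseq _).bd_lim` ⇒ `x' ∈ ctBd d M A'`: contradiction.
* `ct_ball_phase`: chart `(ψ, U)`, `closedBall u r ⊆ U`, no point of `ψ '' ball u r` in `ctBd d M A` ⇒ `ψ '' ball u r ⊆ ctIn d M A` or `⊆ ctOut d M A`: `ball u r` is preconnected (`(convex_ball u r).isPreconnected`), covered by the two disjoint open sets `U ∩ ψ ⁻¹' ctIn`, `U ∩ ψ ⁻¹' ctOut`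
  (`ct_trichotomy'`; open by `ct_in_iff` + `ct_isOpen_full`, resp. `ct_out_iff` + `ct_isOpen_null`): `IsPreconnected.subset_or_subset`.
* `ct_ball_null`: `ψ '' ball u r ⊆ ctOut d M A` ⇒ `volume (ball u r ∩ ctPre ψ U A) = 0` (locally null by `ct_out_iff`; `measure_null_of_locally_null`).   Same for `ctIn`: `volume (ball u r \ ctPre ψ U A) = 0`.
* `CtSeq.in_lim_pt` (local version): for `x' ∈ ctIn d M A'` there is an open `N ∋ x'` with `∀ᶠ k, M ∩ N ⊆ ctIn d M (A k)`.  Chart `(ψ, U, u')`, `r` with `closedBall u' r ⊆ U ∩ ψ ⁻¹' ctIn d M A'` (open set).  `K₀ = ψ '' closedBall u' r` is a compact subset of `ctIn d M A' ⊆ M \ ctBd d M A'`: by `CtSeq.no_bd` and `ct_ball_phase`, for large `k`: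
  `ψ '' ball u' r ⊆ ctIn (A k)` or `⊆ ctOut (A k)`.  The second alternative is impossible for large `k`: then `ball u' r ∩ S k` is null and `ball u' r \ S'` is null (`ct_ball_null`), so `volume (symmDiff (S k) S' ∩ closedBall u' r) ≥ volume (ball u' r) > 0`,
  but this tends to `0` (`(H.chart hψ).2.2.2`, `ENNReal.tendsto_nhds_zero`/`Tendsto.eventually_lt`).   `N` := open set with `ψ '' ball u' r = M ∩ N` (`if_image_open`).
* `CtSeq.in_lim`: cover `K` by the `N_x`, finite subcover (`IsCompact.elim_nhds_subcover`), finite intersection of eventual statements (`Filter.eventually_all_finset`); `K ⊆ M`.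
* `CtSeq.out_lim`: the same proof with the roles of `ctIn`, `ctOut` exchanged (write `in_lim_pt` for both at once, or apply `in_lim` to the complements: `CtLAM.diff` (`LamB`), `ct_out_eq`, with pressure `-p`: `M ∩ O k \ A k`; the direct proof is shorter).
-/

set_option autoImplicit false
set_option linter.unusedVariables false
set_option linter.unusedSectionVars false
open scoped ContDiff ENNReal Topology
open MeasureTheory Claims.C0499 Set Filter

namespace Claimed.Agent.R315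

variable {V : Type} [NormedAddCommGroup V] [NormedSpace ℝ V] [FiniteDimensional ℝ V]
variable {d : ℕ} {M : Set V} {h : Ten V} {t p : V → ℝ}

/-- a chart ball without boundary points lies in one phase. -/
theorem ct_ball_phase (hM : IsMfd d M) {ψ : E d → V} {U : Set (E d)} (hψ : IsParam M ψ U)
    (A : Set V) {u : E d} {r : ℝ} (hr : Metric.ball u r ⊆ U)
    (hb : ∀ v ∈ Metric.ball u r, ψ v ∉ ctBd d M A) :
    ψ '' Metric.ball u r ⊆ ctIn d M A ∨ ψ '' Metric.ball u r ⊆ ctOut d M A := by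
  have hF : IsOpen {u : E d | ∃ r > 0, volume (Metric.ball u r \ ctPre ψ U A) = 0} :=
    ct_isOpen_full _
  have hG : IsOpen {u : E d | ∃ r > 0, volume (Metric.ball u r ∩ ctPre ψ U A) = 0} :=
    ct_isOpen_null _
  have hdis : Disjoint {u : E d | ∃ r > 0, volume (Metric.ball u r \ ctPre ψ U A) = 0}
      {u : E d | ∃ r > 0, volume (Metric.ball u r ∩ ctPre ψ U A) = 0} :=
    Set.disjoint_left.2 fun v h1 h2 => ct_not_full_null _ v h1 h2
  have hcov : Metric.ball u r ⊆ {u : E d | ∃ r > 0, volume (Metric.ball u r \ ctPre ψ U A) = 0} ∪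
      {u : E d | ∃ r > 0, volume (Metric.ball u r ∩ ctPre ψ U A) = 0} := by
    intro v hv
    have h1 : v ∉ Gmt.gmtBd (ctPre ψ U A) := fun h => hb v hv ((ct_bd_iff hψ A (hr hv)).2 h)
    rcases (ct_not_bd_iff _ _).1 h1 with h2 | h2
    · exact Or.inr h2
    · exact Or.inl h2
  rcases (convex_ball u r).isPreconnected.subset_or_subset hF hG hdis hcov with h1 | h1
  · left
    rintro _ ⟨v, hv, rfl⟩
    exact (ct_in_iff hψ A (hr hv)).2 (h1 hv)
  · right
    rintro _ ⟨v, hv, rfl⟩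
    exact (ct_out_iff hψ A (hr hv)).2 (h1 hv)

theorem ct_ball_null {ψ : E d → V} {U : Set (E d)} (hψ : IsParam M ψ U)
    (A : Set V) {u : E d} {r : ℝ} (hr : Metric.ball u r ⊆ U) :
    (ψ '' Metric.ball u r ⊆ ctOut d M A → volume (Metric.ball u r ∩ ctPre ψ U A) = 0) ∧
    (ψ '' Metric.ball u r ⊆ ctIn d M A → volume (Metric.ball u r \ ctPre ψ U A) = 0) := by
  constructor
  · intro h1
    refine measure_null_of_locally_null _ fun v hv => ?_
    obtain ⟨ρ, hρ, h0⟩ := (ct_out_iff hψ A (hr hv.1)).1 (h1 (mem_image_of_mem ψ hv.1))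
    exact ⟨Metric.ball v ρ ∩ ctPre ψ U A, mem_nhdsWithin.2 ⟨Metric.ball v ρ, Metric.isOpen_ball,
      Metric.mem_ball_self hρ, fun y hy => ⟨hy.1, hy.2.2⟩⟩, h0⟩
  · intro h1
    refine measure_null_of_locally_null _ fun v hv => ?_
    obtain ⟨ρ, hρ, h0⟩ := (ct_in_iff hψ A (hr hv.1)).1 (h1 (mem_image_of_mem ψ hv.1))
    exact ⟨Metric.ball v ρ \ ctPre ψ U A, mem_nhdsWithin.2 ⟨Metric.ball v ρ, Metric.isOpen_ball,
      Metric.mem_ball_self hρ, fun y hy => ⟨hy.1, hy.2.2⟩⟩, h0⟩

variable [MeasurableSpace V] [BorelSpace V]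
variable {O : ℕ → Set V} {A : ℕ → Set V} {A' : Set V}

theorem CtSeq.subseq (H : CtSeq d M h t p O A A') {σ : ℕ → ℕ} (hσ : StrictMono σ) :
    CtSeq d M h t p (fun k => O (σ k)) (fun k => A (σ k)) A' := by
  refine ⟨H.geo, H.closed, H.psm, fun k => H.opn _, fun K hK hKM => ?_, fun k => H.lam _, H.lam',
    fun K hK hKM => ?_⟩
  · exact hσ.tendsto_atTop.eventually (H.exh K hK hKM)
  · exact (H.conv K hK hKM).comp hσ.tendsto_atTop

/-- eventually no boundary points on compact sets which avoid the boundary of the limit. -/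
theorem CtSeq.no_bd (H : CtSeq d M h t p O A A') {K : Set V} (hK : IsCompact K) (hKM : K ⊆ M)
    (hKb : Disjoint K (ctBd d M A')) : ∀ᶠ k in atTop, Disjoint K (ctBd d M (A k)) := by
  by_contra hcon
  rw [not_eventually] at hcon
  obtain ⟨σ, hσ, hσ'⟩ := extraction_of_frequently_atTop hcon
  have hex : ∀ k, ∃ x, x ∈ K ∧ x ∈ ctBd d M (A (σ k)) := fun k => Set.not_disjoint_iff.1 (hσ' k)
  choose x hxK hxb using hex
  obtain ⟨x', hx'K, τ, hτ, hlim⟩ := hK.tendsto_subseq hxK
  have H' := H.subseq (hσ.comp hτ)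
  have h1 : x' ∈ ctBd d M A' := by
    refine H'.bd_lim (x := x ∘ τ) ?_ hlim
    filter_upwards [H'.exh K hK hKM] with k hk
    exact ⟨hxb (τ k), hk (hxK _)⟩
  exact Set.disjoint_left.1 hKb hx'K h1

theorem CtSeq.in_lim_pt (H : CtSeq d M h t p O A A') {x' : V} (hx' : x' ∈ ctIn d M A') :
    ∃ N : Set V, IsOpen N ∧ x' ∈ N ∧ ∀ᶠ k in atTop, M ∩ N ⊆ ctIn d M (A k) := by
  obtain ⟨ψ, U, hψ, u', hu', rfl⟩ := H.geo.mfd x' (ct_in_subset _ hx')
  have hW : IsOpen (U ∩ {u : E d | ∃ r > 0, volume (Metric.ball u r \ ctPre ψ U A') = 0}) :=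
    (if_open hψ).inter (ct_isOpen_full _)
  have hu'W : u' ∈ U ∩ {u : E d | ∃ r > 0, volume (Metric.ball u r \ ctPre ψ U A') = 0} :=
    ⟨hu', (ct_in_iff hψ A' hu').1 hx'⟩
  obtain ⟨r, hr, hrW⟩ := Metric.nhds_basis_closedBall.mem_iff.1 (hW.mem_nhds hu'W)
  have hbU : Metric.ball u' r ⊆ U := fun v hv => (hrW (Metric.ball_subset_closedBall hv)).1
  have hK0 : IsCompact (ψ '' Metric.closedBall u' r) :=
    (isCompact_closedBall u' r).image_of_continuousOn
      ((if_continuousOn hψ).mono fun v hv => (hrW hv).1)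
  have hK0in : ψ '' Metric.closedBall u' r ⊆ ctIn d M A' := by
    rintro _ ⟨v, hv, rfl⟩
    exact (ct_in_iff hψ A' (hrW hv).1).2 (hrW hv).2
  have hdisj : Disjoint (ψ '' Metric.closedBall u' r) (ctBd d M A') :=
    (ct_trichotomy' H.geo.mfd A').2.2.1.mono_left hK0in
  have h1 := H.no_bd hK0 (hK0in.trans (ct_in_subset _)) hdisj
  obtain ⟨N, hN, hNb⟩ := if_image_open hψ Metric.isOpen_ball hbU
  refine ⟨N, hN, ?_, ?_⟩
  · have : ψ u' ∈ M ∩ N := hNb ▸ mem_image_of_mem ψ (Metric.mem_ball_self hr)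
    exact this.2
  have hconv := (H.chart hψ).2.2.2 (Metric.closedBall u' r) (isCompact_closedBall u' r)
    (fun v hv => (hrW hv).1)
  have hpos : 0 < volume (Metric.ball u' r) := Metric.measure_ball_pos _ _ hr
  filter_upwards [h1, hconv.eventually (gt_mem_nhds hpos)] with k hk1 hk2
  rw [← hNb]
  rcases ct_ball_phase H.geo.mfd hψ (A k) hbU (fun v hv hb => Set.disjoint_left.1 hk1
    (mem_image_of_mem ψ (Metric.ball_subset_closedBall hv)) hb) with h2 | h2
  · exact h2
  · exfalso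
    have n1 := (ct_ball_null hψ (A k) hbU).1 h2
    have n2 := (ct_ball_null hψ A' hbU).2 ((image_mono Metric.ball_subset_closedBall).trans hK0in)
    have hsub : Metric.ball u' r ⊆ (Metric.ball u' r ∩ ctPre ψ U (A k)) ∪
        (Metric.ball u' r \ ctPre ψ U A') ∪
        (symmDiff (ctPre ψ U (A k)) (ctPre ψ U A') ∩ Metric.closedBall u' r) := by
      intro v hv
      by_cases a1 : v ∈ ctPre ψ U (A k)
      · exact Or.inl (Or.inl ⟨hv, a1⟩)
      · by_cases a2 : v ∈ ctPre ψ U A'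
        · exact Or.inr ⟨Or.inr ⟨a2, a1⟩, Metric.ball_subset_closedBall hv⟩
        · exact Or.inl (Or.inr ⟨hv, a2⟩)
    have h3 : volume (Metric.ball u' r) ≤
        volume (symmDiff (ctPre ψ U (A k)) (ctPre ψ U A') ∩ Metric.closedBall u' r) := by
      refine (measure_mono hsub).trans ((measure_union_le _ _).trans ?_)
      rw [measure_union_null n1 n2, zero_add]
    exact absurd hk2 (not_lt.2 h3)

theorem CtSeq.out_lim_pt (H : CtSeq d M h t p O A A') {x' : V} (hx' : x' ∈ ctOut d M A') :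
    ∃ N : Set V, IsOpen N ∧ x' ∈ N ∧ ∀ᶠ k in atTop, M ∩ N ⊆ ctOut d M (A k) := by
  obtain ⟨ψ, U, hψ, u', hu', rfl⟩ := H.geo.mfd x' (ct_out_subset _ hx')
  have hW : IsOpen (U ∩ {u : E d | ∃ r > 0, volume (Metric.ball u r ∩ ctPre ψ U A') = 0}) :=
    (if_open hψ).inter (ct_isOpen_null _)
  have hu'W : u' ∈ U ∩ {u : E d | ∃ r > 0, volume (Metric.ball u r ∩ ctPre ψ U A') = 0} :=
    ⟨hu', (ct_out_iff hψ A' hu').1 hx'⟩
  obtain ⟨r, hr, hrW⟩ := Metric.nhds_basis_closedBall.mem_iff.1 (hW.mem_nhds hu'W)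
  have hbU : Metric.ball u' r ⊆ U := fun v hv => (hrW (Metric.ball_subset_closedBall hv)).1
  have hK0 : IsCompact (ψ '' Metric.closedBall u' r) :=
    (isCompact_closedBall u' r).image_of_continuousOn
      ((if_continuousOn hψ).mono fun v hv => (hrW hv).1)
  have hK0in : ψ '' Metric.closedBall u' r ⊆ ctOut d M A' := by
    rintro _ ⟨v, hv, rfl⟩
    exact (ct_out_iff hψ A' (hrW hv).1).2 (hrW hv).2
  have hdisj : Disjoint (ψ '' Metric.closedBall u' r) (ctBd d M A') :=
    (ct_trichotomy' H.geo.mfd A').2.2.2.mono_left hK0in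
  have h1 := H.no_bd hK0 (hK0in.trans (ct_out_subset _)) hdisj
  obtain ⟨N, hN, hNb⟩ := if_image_open hψ Metric.isOpen_ball hbU
  refine ⟨N, hN, ?_, ?_⟩
  · have : ψ u' ∈ M ∩ N := hNb ▸ mem_image_of_mem ψ (Metric.mem_ball_self hr)
    exact this.2
  have hconv := (H.chart hψ).2.2.2 (Metric.closedBall u' r) (isCompact_closedBall u' r)
    (fun v hv => (hrW hv).1)
  have hpos : 0 < volume (Metric.ball u' r) := Metric.measure_ball_pos _ _ hr
  filter_upwards [h1, hconv.eventually (gt_mem_nhds hpos)] with k hk1 hk2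
  rw [← hNb]
  rcases ct_ball_phase H.geo.mfd hψ (A k) hbU (fun v hv hb => Set.disjoint_left.1 hk1
    (mem_image_of_mem ψ (Metric.ball_subset_closedBall hv)) hb) with h2 | h2
  · exfalso
    have n1 := (ct_ball_null hψ (A k) hbU).2 h2
    have n2 := (ct_ball_null hψ A' hbU).1 ((image_mono Metric.ball_subset_closedBall).trans hK0in)
    have hsub : Metric.ball u' r ⊆ (Metric.ball u' r \ ctPre ψ U (A k)) ∪
        (Metric.ball u' r ∩ ctPre ψ U A') ∪
        (symmDiff (ctPre ψ U (A k)) (ctPre ψ U A') ∩ Metric.closedBall u' r) := by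
      intro v hv
      by_cases a1 : v ∈ ctPre ψ U (A k)
      · by_cases a2 : v ∈ ctPre ψ U A'
        · exact Or.inl (Or.inr ⟨hv, a2⟩)
        · exact Or.inr ⟨Or.inl ⟨a1, a2⟩, Metric.ball_subset_closedBall hv⟩
      · exact Or.inl (Or.inl ⟨hv, a1⟩)
    have h3 : volume (Metric.ball u' r) ≤
        volume (symmDiff (ctPre ψ U (A k)) (ctPre ψ U A') ∩ Metric.closedBall u' r) := by
      refine (measure_mono hsub).trans ((measure_union_le _ _).trans ?_)
      rw [measure_union_null n1 n2, zero_add]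
    exact absurd hk2 (not_lt.2 h3)
  · exact h2

/-- compact subsets of the plus phase of the limit lie eventually in the plus phases. -/
theorem CtSeq.in_lim (H : CtSeq d M h t p O A A') {K : Set V} (hK : IsCompact K)
    (hKin : K ⊆ ctIn d M A') : ∀ᶠ k in atTop, K ⊆ ctIn d M (A k) := by
  choose! N hN hxN hev using fun x (hx : x ∈ ctIn d M A') => H.in_lim_pt hx
  obtain ⟨T, hTK, hcov⟩ := hK.elim_nhds_subcover N
    (fun x hx => (hN x (hKin hx)).mem_nhds (hxN x (hKin hx)))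
  have hall : ∀ᶠ k in atTop, ∀ x ∈ T, M ∩ N x ⊆ ctIn d M (A k) :=
    (Filter.eventually_all_finset T).2 fun x hx => hev x (hKin (hTK x hx))
  filter_upwards [hall] with k hk y hy
  obtain ⟨x, hx, hyx⟩ := mem_iUnion₂.1 (hcov hy)
  exact hk x hx ⟨ct_in_subset _ (hKin hy), hyx⟩

theorem CtSeq.out_lim (H : CtSeq d M h t p O A A') {K : Set V} (hK : IsCompact K)
    (hKout : K ⊆ ctOut d M A') : ∀ᶠ k in atTop, K ⊆ ctOut d M (A k) := by
  choose! N hN hxN hev using fun x (hx : x ∈ ctOut d M A') => H.out_lim_pt hx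
  obtain ⟨T, hTK, hcov⟩ := hK.elim_nhds_subcover N
    (fun x hx => (hN x (hKout hx)).mem_nhds (hxN x (hKout hx)))
  have hall : ∀ᶠ k in atTop, ∀ x ∈ T, M ∩ N x ⊆ ctOut d M (A k) :=
    (Filter.eventually_all_finset T).2 fun x hx => hev x (hKout (hTK x hx))
  filter_upwards [hall] with k hk y hy
  obtain ⟨x, hx, hyx⟩ := mem_iUnion₂.1 (hcov hy)
  exact hk x hx ⟨ct_out_subset _ (hKout hy), hyx⟩

end Claimed.Agent.R315
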