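import Claimed.Agent.R315.Ct.Reg

/-!
# Row 315, package Ct, part 4: stability of the wall (B.8) and the deletion inequality (B.9)

Architect post **A5**.

## B.9 (`ct_delete`, `ct_side_form`)
For a.e. `τ > 0` compare `A` with `ctGlue f τ A ∅ = A ∩ {f < τ}` (`ct_glue_level`, sharp constant):
`P(A; {f ≥ τ}) ≤ I'(τ) + ∫_{A ∩ {f ≥ τ}} p`, `I(s) = ∫_{A ∩ {0 < f < s}} |df|`.  Integrate in `τ`:
layer cake on the left and for the pressure term, `ct_iface_integral_le` for `I'`.
NO condition on the singular set.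

## B.8 (`ct_stab`): global second variation with scalar functions only
`K = supp η ∩ ctBd` is a compact part of the wall; `φ` = normalised defining function on `M ∩ O`
(`ct_def_near`).  Competitors `A_ε = {φ < ε η}` in `O`, `= A` outside.  With
`ν_ε = ∇(φ - εη)/|∇(φ - εη)|`, `H_ε = wmc (φ - εη)`, two applications of `ct_gg_def` give the EXACT
identity (`ct_var_identity`)
`F(A_ε) - F(A) = ∫ (χ_{A_ε} - χ_A)(H_ε - p) dμ - ∫ (1 - ⟨ν_ε, ν_0⟩) dP(A)`.
* `H_ε - p = φ κ - ε L η + O(ε²)` on a compact neighbourhood (`H_0 = p` on `{φ = 0}`: `CtLAM.el`;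
  Hadamard), `κ = ⟨dφ, d(H_0 - p)⟩` on the wall, `L η = Div_ω (P∇η/|∇φ|)`;
* thin layers (`ct_layer_one`, `ct_layer_two`): `ε⁻² ∫ (χ_{A_ε} - χ_A)(φ κ - ε Lη) → ∫ (κ η²/2 - η Lη) dP`;
* `1 - ⟨ν_ε, ν_0⟩ = ε² |P∇η|²/2 + O(ε³)` on the wall;
* `∫ Div_ω(Z)/|dφ| dP = 0` for `Z = η P∇η/|∇φ|` tangent to the levels (`ct_tangential`: from
  `∫ θ(φ) Div_ω Z dμ = 0` and thin layers), i.e. `-∫ η Lη dP = ∫ |P∇η|² dP`.
Hence `0 ≤ ∫ (|P∇η|² + κ η²) dP` (`ct_stab_ext`).  Finally RIEM (`Rm/Glob`):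
`|P∇η|² = gradSq_S η` and `Dsc_S = Dsc_M + |II|² + H_0² + 2 ⟨dφ, dH_0⟩` on the wall.

PACKAGE L-Ct-VarA (P Lemma B.9: deletion and the seam estimate).  See the plan in the header above (section B.9).
-/

set_option autoImplicit false
open scoped ContDiff ENNReal Topology
open MeasureTheory Claims.C0499 Set Filter

namespace Claimed.Agent.R315


variable {V : Type} [NormedAddCommGroup V] [NormedSpace ℝ V] [FiniteDimensional ℝ V]
  [MeasurableSpace V] [BorelSpace V]
variable {d : ℕ} {M : Set V} {h : Ten V} {t p : V → ℝ}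

/-! ### B.9 -/

/-- the deletion inequality at one good level. -/
theorem ct_del_level (hG : CtGeo d M h t) (hp : SmoothAlong d M p) {A K : Set V}
    (hA : CtLAM d M h t p A) {f : V → ℝ} (hf : SmoothAlong d M f) (hfm : Measurable f)
    (hK : IsCompact K) (hKM : K ⊆ M) (hfK : ∀ x, x ∉ K → f x = 0) {τ ε : ℝ} (hτ : 0 < τ)
    (hlf : CtLF d M h t (ctGlue f τ A ∅)) (hε0 : 0 ≤ ε)
    (hε : wper d M h t (ctGlue f τ A ∅) {x | f x = τ} ≤ ENNReal.ofReal ε) :
    (wper d M h t A {x | τ ≤ f x}).toReal ≤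
      ε + ∫ x in A ∩ {x | τ ≤ f x}, p x ∂(wvol d M h t) := by
  have hL : MeasurableSet {x | f x < τ} := measurableSet_lt hfm measurable_const
  have hS : MeasurableSet {x | τ ≤ f x} := measurableSet_le measurable_const hfm
  have hSK : {x | τ ≤ f x} ⊆ K := by
    intro x hx
    by_contra hxK
    have h1 : f x = 0 := hfK x hxK
    have h2 : τ ≤ f x := hx
    linarith
  have hsd : symmDiff A (ctGlue f τ A ∅) ⊆ K := by
    intro x hx
    apply hSK
    show τ ≤ f x
    by_contra hlt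
    rw [not_le] at hlt
    rcases hx with ⟨h1, h2⟩ | ⟨h1, h2⟩
    · exact h2 (Or.inl ⟨h1, hlt⟩)
    · rcases h1 with h1 | h1
      · exact h2 h1.1
      · exact h1.1
  have hmin := hA.min K _ hK hKM hlf hsd
  have sG := ct_meas_split3 (wper d M h t (ctGlue f τ A ∅)) hfm τ K
  rw [ct_glue_lt hG hf hA.lf (ctLF_empty hG), ct_glue_gt hG hf hA.lf (ctLF_empty hG),
    ct_wper_empty hG] at sG
  have sA := measure_inter_add_sdiff (μ := wper d M h t A) K hL
  have eKS : K \ {x | f x < τ} = {x | τ ≤ f x} := by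
    ext x
    simp only [Set.mem_sdiff, mem_ofPred_eq, not_lt]
    exact ⟨fun hx => hx.2, fun hx => ⟨hSK hx, hx⟩⟩
  rw [eKS] at sA
  have fA := hA.lf.fin K hK hKM
  have fG := hlf.fin K hK hKM
  have f1 : wper d M h t A (K ∩ {x | f x < τ}) ≠ ⊤ :=
    ne_top_of_le_ne_top fA (measure_mono inter_subset_left)
  have f2 : wper d M h t A {x | τ ≤ f x} ≠ ⊤ := ne_top_of_le_ne_top fA (measure_mono hSK)
  have f3 : wper d M h t (ctGlue f τ A ∅) (K ∩ {x | f x = τ}) ≠ ⊤ :=
    ne_top_of_le_ne_top fG (measure_mono inter_subset_left)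
  have sA' : (wper d M h t A K).toReal = (wper d M h t A (K ∩ {x | f x < τ})).toReal +
      (wper d M h t A {x | τ ≤ f x}).toReal := by
    rw [← sA, ENNReal.toReal_add f1 f2]
  have sG' : (wper d M h t (ctGlue f τ A ∅) K).toReal =
      (wper d M h t A (K ∩ {x | f x < τ})).toReal +
      (wper d M h t (ctGlue f τ A ∅) (K ∩ {x | f x = τ})).toReal := by
    rw [sG, Measure.coe_zero, Pi.zero_apply, add_zero, ENNReal.toReal_add f1 f3]
  have hz : (wper d M h t (ctGlue f τ A ∅) (K ∩ {x | f x = τ})).toReal ≤ ε :=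
    ENNReal.toReal_le_of_le_ofReal hε0 ((measure_mono inter_subset_right).trans hε)
  have hpi : IntegrableOn p K (wvol d M h t) :=
    ct_integrableOn hG (if_smoothAlong_continuousOn hG.mfd hp) hK hKM
  have eA : A ∩ K = (ctGlue f τ A ∅ ∩ K) ∪ (A ∩ {x | τ ≤ f x}) := by
    ext x
    simp only [ctGlue, mem_inter_iff, mem_union, Set.mem_sdiff, mem_ofPred_eq, mem_empty_iff_false,
      false_and, or_false]
    constructor
    · rintro ⟨a, b⟩
      by_cases c : f x < τ
      · exact Or.inl ⟨⟨a, c⟩, b⟩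
      · exact Or.inr ⟨a, not_lt.1 c⟩
    · rintro (⟨⟨a, -⟩, b⟩ | ⟨a, c⟩)
      · exact ⟨a, b⟩
      · exact ⟨a, hSK c⟩
  have hdisj : Disjoint (ctGlue f τ A ∅ ∩ K) (A ∩ {x | τ ≤ f x}) := by
    rw [Set.disjoint_left]
    rintro x ⟨hx, -⟩ ⟨-, c⟩
    rcases hx with hx | hx
    · exact absurd (show f x < τ from hx.2) (not_lt.2 c)
    · exact hx.1
  have iA : ∫ x in A ∩ K, p x ∂(wvol d M h t) =
      (∫ x in ctGlue f τ A ∅ ∩ K, p x ∂(wvol d M h t)) +
        ∫ x in A ∩ {x | τ ≤ f x}, p x ∂(wvol d M h t) := by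
    rw [eA, setIntegral_union hdisj (hA.lf.meas.inter hS) (hpi.mono_set inter_subset_right)
      (hpi.mono_set (inter_subset_right.trans hSK))]
  unfold ctEn at hmin
  rw [sA', sG', iA] at hmin
  linarith

/-- the deletion inequality for a measurable function which vanishes off a compact subset of `M`. -/
theorem ct_delete_aux (hG : CtGeo d M h t) (hp : SmoothAlong d M p) {A K : Set V}
    (hA : CtLAM d M h t p A) {f : V → ℝ} (hf : SmoothAlong d M f) (hfm : Measurable f)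
    (hf0 : ∀ x, 0 ≤ f x) (hK : IsCompact K) (hKM : K ⊆ M) (hfK : ∀ x, x ∉ K → f x = 0) :
    ∫ x, f x ∂(wper d M h t A) ≤ ∫ x in A, (gradN d M h f x + p x * f x) ∂(wvol d M h t) := by
  classical
  have hfc : ContinuousOn f M := if_smoothAlong_continuousOn hG.mfd hf
  have hpc : ContinuousOn p M := if_smoothAlong_continuousOn hG.mfd hp
  obtain ⟨b₀, hb₀⟩ := hK.exists_bound_of_continuousOn (hfc.mono hKM)
  obtain ⟨b, hb⟩ : ∃ b : ℝ, b = max b₀ 0 + 1 := ⟨_, rfl⟩
  have hb0 : 0 < b := by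
    have := le_max_right b₀ 0
    linarith
  have hfb : ∀ x, f x < b := by
    intro x
    by_cases hx : x ∈ K
    · have h1 := hb₀ x hx
      rw [Real.norm_eq_abs] at h1
      have h2 := le_abs_self (f x)
      have h3 := le_max_left b₀ 0
      linarith
    · rw [hfK x hx]
      exact hb0
  have hPK : wper d M h t A K ≠ ⊤ := hA.lf.fin K hK hKM
  have hμK : wvol d M h t K ≠ ⊤ := ct_wvol_compact hG hK hKM
  have hfi : Integrable f (wper d M h t A) := by
    rw [← integrableOn_iff_integrable_of_support_subset (s := K) (fun x hx => by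
      by_contra hxK
      exact hx (hfK x hxK))]
    exact IntegrableOn.of_bound hPK.lt_top hfm.aestronglyMeasurable b (Eventually.of_forall fun x => by
      rw [Real.norm_eq_abs, abs_of_nonneg (hf0 x)]
      exact (hfb x).le)
  have hlc : ∫ x, f x ∂(wper d M h t A) = ∫ τ in Ioc 0 b, (wper d M h t A).real {x | τ ≤ f x} :=
    hfi.integral_eq_integral_Ioc_meas_le (Eventually.of_forall hf0)
      (Eventually.of_forall fun x => (hfb x).le)
  -- the good levels
  have hD : symmDiff A ∅ ∩ {x | 0 < f x ∧ f x < b} ⊆ K := by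
    rintro x ⟨-, hx, -⟩
    by_contra hxK
    rw [hfK x hxK] at hx
    exact lt_irrefl _ hx
  have hgl := ct_glue_level hG hf hA.lf (ctLF_empty hG) hK hKM hD
  have hmono := ct_iface_mono hG hf hK hKM hD
  have hIle := ct_iface_integral_le hG hf hb0.le hK hKM hD
  obtain ⟨I, hI⟩ : ∃ I : ℝ → ℝ, I = ctIface d M h t f (symmDiff A ∅) 0 := ⟨_, rfl⟩
  rw [← hI] at hgl hmono hIle
  have hder0 : ∀ τ < b, 0 ≤ deriv I τ := by
    intro τ hτ
    rw [← derivWithin_of_mem_nhds (Iic_mem_nhds hτ)]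
    exact hmono.derivWithin_nonneg
  have hae : ∀ᵐ τ : ℝ, τ ∈ Ioo 0 b → (wper d M h t A).real {x | τ ≤ f x} ≤
      deriv I τ + ∫ x in A ∩ {x | τ ≤ f x}, p x ∂(wvol d M h t) := by
    filter_upwards [hgl] with τ hτ hmem
    obtain ⟨hlf, hlev⟩ := hτ hmem
    exact ct_del_level hG hp hA hf hfm hK hKM hfK hmem.1 hlf (hder0 τ hmem.2) hlev
  have hIint : IntegrableOn (deriv I) (Ioc 0 b) :=
    (intervalIntegrable_iff_integrableOn_Ioc_of_le hb0.le).1
      (MonotoneOn.intervalIntegrable_deriv (hmono.mono (by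
        rw [uIcc_of_le hb0.le]
        exact fun x hx => hx.2)))
  -- Fubini for the pressure term
  obtain ⟨c, hc⟩ := hK.exists_bound_of_continuousOn (hpc.mono hKM)
  obtain ⟨q, hq⟩ : ∃ q : V → ℝ, q = K.piecewise p fun _ => 0 := ⟨_, rfl⟩
  have hqm : Measurable q := by
    rw [hq]
    exact (hpc.mono hKM).measurable_piecewise continuousOn_const hK.measurableSet
  have hqK : ∀ x ∈ K, q x = p x := fun x hx => by rw [hq, piecewise_eq_of_mem _ _ _ hx]
  have hc0 : 0 ≤ c ∨ K = ∅ := by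
    rcases K.eq_empty_or_nonempty with h0 | ⟨x, hx⟩
    · exact Or.inr h0
    · exact Or.inl ((norm_nonneg _).trans (hc x hx))
  have hqb : ∀ x, ‖q x‖ ≤ |c| := by
    intro x
    by_cases hx : x ∈ K
    · rw [hqK x hx]
      exact (hc x hx).trans (le_abs_self c)
    · rw [hq, piecewise_eq_of_notMem _ _ _ hx, norm_zero]
      exact abs_nonneg c
  have hν : IsFiniteMeasure ((wvol d M h t).restrict (A ∩ K)) :=
    ⟨by
      rw [Measure.restrict_apply_univ]
      exact lt_of_le_of_lt (measure_mono inter_subset_right) hμK.lt_top⟩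
  obtain ⟨F, hF⟩ : ∃ F : ℝ → V → ℝ, F = fun τ x => if τ ≤ f x then q x else 0 := ⟨_, rfl⟩
  have hFm : Measurable (Function.uncurry F) := by
    rw [hF]
    exact Measurable.ite (measurableSet_le measurable_fst (hfm.comp measurable_snd))
      (hqm.comp measurable_snd) measurable_const
  have hFi : Integrable (Function.uncurry F)
      ((volume.restrict (Ioc 0 b)).prod ((wvol d M h t).restrict (A ∩ K))) := by
    refine Integrable.of_bound hFm.aestronglyMeasurable |c| (Eventually.of_forall fun z => ?_)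
    rw [hF]
    show ‖if z.1 ≤ f z.2 then q z.2 else 0‖ ≤ |c|
    split_ifs
    · exact hqb _
    · rw [norm_zero]
      exact abs_nonneg c
  have hJeq : ∀ τ ∈ Ioc 0 b, ∫ x in A ∩ {x | τ ≤ f x}, p x ∂(wvol d M h t) =
      ∫ x, F τ x ∂((wvol d M h t).restrict (A ∩ K)) := by
    intro τ hτ
    have hS : MeasurableSet {x | τ ≤ f x} := measurableSet_le measurable_const hfm
    have hSK : {x | τ ≤ f x} ⊆ K := by
      intro x hx
      by_contra hxK
      have h1 : f x = 0 := hfK x hxK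
      have h2 : τ ≤ f x := hx
      linarith [hτ.1]
    have e1 : F τ = {x | τ ≤ f x}.indicator q := by
      rw [hF]
      funext x
      by_cases hx : τ ≤ f x
      · rw [indicator_of_mem (show x ∈ {x | τ ≤ f x} from hx)]
        exact if_pos hx
      · rw [indicator_of_notMem (show x ∉ {x | τ ≤ f x} from hx)]
        exact if_neg hx
    have e2 : {x | τ ≤ f x} ∩ (A ∩ K) = A ∩ {x | τ ≤ f x} := by
      ext x
      simp only [mem_inter_iff]
      exact ⟨fun hx => ⟨hx.2.1, hx.1⟩, fun hx => ⟨hx.2, hx.1, hSK hx.2⟩⟩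
    rw [e1, integral_indicator hS, Measure.restrict_restrict hS, e2]
    exact setIntegral_congr_fun (hA.lf.meas.inter hS) fun x hx => (hqK x (hSK hx.2)).symm
  have hJint : IntegrableOn (fun τ => ∫ x in A ∩ {x | τ ≤ f x}, p x ∂(wvol d M h t)) (Ioc 0 b) := by
    refine (hFi.integral_prod_left).congr ?_
    refine (ae_restrict_iff' measurableSet_Ioc).2 (Eventually.of_forall fun τ hτ => ?_)
    exact (hJeq τ hτ).symm
  have hinner : ∀ x, ∫ τ in Ioc 0 b, F τ x = q x * f x := by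
    intro x
    have e1 : (fun τ => F τ x) = (Iic (f x)).indicator fun _ => q x := by
      rw [hF]
      funext τ
      by_cases hx : τ ≤ f x
      · rw [indicator_of_mem (show τ ∈ Iic (f x) from hx)]
        exact if_pos hx
      · rw [indicator_of_notMem (show τ ∉ Iic (f x) from hx)]
        exact if_neg hx
    have e2 : Iic (f x) ∩ Ioc 0 b = Ioc 0 (f x) := by
      ext τ
      simp only [mem_inter_iff, mem_Iic, mem_Ioc]
      exact ⟨fun hx => ⟨hx.2.1, hx.1⟩, fun hx => ⟨hx.2, hx.1, hx.2.trans (hfb x).le⟩⟩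
    rw [e1, integral_indicator measurableSet_Iic, Measure.restrict_restrict measurableSet_Iic, e2,
      setIntegral_const, Real.volume_real_Ioc_of_le (hf0 x), sub_zero, smul_eq_mul, mul_comm]
  have hJval : ∫ τ in Ioc 0 b, ∫ x in A ∩ {x | τ ≤ f x}, p x ∂(wvol d M h t) =
      ∫ x in A, p x * f x ∂(wvol d M h t) := by
    rw [setIntegral_congr_fun measurableSet_Ioc hJeq, integral_integral_swap hFi]
    simp only [hinner]
    rw [setIntegral_congr_fun (hA.lf.meas.inter hK.measurableSet)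
      (g := fun x => p x * f x) fun x hx => by
        show q x * f x = p x * f x
        rw [hqK x hx.2]]
    refine (setIntegral_eq_of_subset_of_forall_sdiff_eq_zero hA.lf.meas inter_subset_left
      fun x hx => ?_).symm
    rw [hfK x fun hxK => hx.2 ⟨hx.1, hxK⟩, mul_zero]
  -- integrability on `A`
  have hgc := ct_gradN_continuousOn hG hf
  have hg0 : ∀ x ∈ M, x ∉ K → gradN d M h f x = 0 := by
    intro x hx hxK
    have h0 : f =ᶠ[𝓝 x] 0 := by
      filter_upwards [hK.isClosed.isOpen_compl.mem_nhds hxK] with y hy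
      exact hfK y hy
    unfold gradN
    rw [if_gradSq_eq_zero hG.mfd hG.met hf hx h0, Real.sqrt_zero]
  have hgi : IntegrableOn (gradN d M h f) A (wvol d M h t) :=
    ((ct_integrableOn hG hgc hK hKM).mono_set (inter_subset_right : A ∩ K ⊆ K)).of_forall_sdiff_eq_zero
      hA.lf.meas fun x hx => hg0 x (hA.lf.sub hx.1) fun hxK => hx.2 ⟨hx.1, hxK⟩
  have hpfi : IntegrableOn (fun x => p x * f x) A (wvol d M h t) :=
    ((ct_integrableOn hG (hpc.mul hfc) hK hKM).mono_set
      (inter_subset_right : A ∩ K ⊆ K)).of_forall_sdiff_eq_zero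
      hA.lf.meas fun x hx => by
        show p x * f x = 0
        rw [hfK x fun hxK => hx.2 ⟨hx.1, hxK⟩, mul_zero]
  have h3 : I b ≤ ∫ x in A, gradN d M h f x ∂(wvol d M h t) := by
    have e := ofReal_integral_eq_lintegral_ofReal hgi (Eventually.of_forall fun x => Real.sqrt_nonneg _)
    have hnn : 0 ≤ ∫ x in A, gradN d M h f x ∂(wvol d M h t) :=
      integral_nonneg fun x => Real.sqrt_nonneg _
    rw [hI]
    unfold ctIface
    rw [← ENNReal.toReal_ofReal hnn, e]
    refine ENNReal.toReal_mono (by rw [← e]; exact ENNReal.ofReal_ne_top) (lintegral_mono_set ?_)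
    rintro x ⟨hx, -⟩
    rcases hx with hx | hx
    · exact hx.1
    · exact absurd hx.1 (notMem_empty x)
  -- integration over the levels
  have h1 : ∫ τ in Ioc 0 b, (wper d M h t A).real {x | τ ≤ f x} ≤
      ∫ τ in Ioc 0 b, (deriv I τ + ∫ x in A ∩ {x | τ ≤ f x}, p x ∂(wvol d M h t)) := by
    refine integral_mono_of_nonneg (Eventually.of_forall fun τ => measureReal_nonneg)
      (hIint.add hJint) ?_
    refine (ae_restrict_iff' measurableSet_Ioc).2 ?_
    have hne : ∀ᵐ τ : ℝ, τ ≠ b := by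
      rw [ae_iff]
      simp
    filter_upwards [hae, hne] with τ h1 h2 h3
    exact h1 ⟨h3.1, lt_of_le_of_ne h3.2 h2⟩
  rw [integral_add hIint hJint, hJval] at h1
  have h2 : ∫ τ in Ioc 0 b, deriv I τ ≤ I b := by
    rw [← intervalIntegral.integral_of_le hb0.le]
    exact hIle
  rw [integral_add hgi hpfi, hlc]
  linarith

/-- **deletion inequality** (P (B.13)): `∫ f dP_ω(A) ≤ ∫_A (|df| + p f) dμ`. -/
theorem ct_delete (hG : CtGeo d M h t) (hp : SmoothAlong d M p) {A : Set V}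
    (hA : CtLAM d M h t p A) {f : V → ℝ} (hf : SmoothAlong d M f) (hf0 : ∀ x ∈ M, 0 ≤ f x)
    (hc : CtCS M f) :
    ∫ x, f x ∂(wper d M h t A) ≤ ∫ x in A, (gradN d M h f x + p x * f x) ∂(wvol d M h t) := by
  classical
  obtain ⟨K, hK, hKM, hfK⟩ := hc
  have hfc : ContinuousOn f M := if_smoothAlong_continuousOn hG.mfd hf
  have hMm := ct_measurableSet hG.mfd
  obtain ⟨g, hg⟩ : ∃ g : V → ℝ, g = M.piecewise f fun _ => 0 := ⟨_, rfl⟩
  have hgm : Measurable g := by
    rw [hg]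
    exact hfc.measurable_piecewise continuousOn_const hMm
  have hgM : ∀ x ∈ M, g x = f x := fun x hx => by rw [hg, piecewise_eq_of_mem _ _ _ hx]
  have hgN : ∀ x, x ∉ M → g x = 0 := fun x hx => by rw [hg, piecewise_eq_of_notMem _ _ _ hx]
  have hgs : SmoothAlong d M g := gs_sm_congr hf hgM
  have hg0 : ∀ x, 0 ≤ g x := by
    intro x
    by_cases hx : x ∈ M
    · rw [hgM x hx]
      exact hf0 x hx
    · rw [hgN x hx]
  have hgK : ∀ x, x ∉ K → g x = 0 := by
    intro x hxK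
    by_cases hx : x ∈ M
    · rw [hgM x hx]
      exact hfK x hx hxK
    · exact hgN x hx
  have key := ct_delete_aux hG hp hA hgs hgm hg0 hK hKM hgK
  have e1 : ∫ x, f x ∂(wper d M h t A) = ∫ x, g x ∂(wper d M h t A) := by
    refine integral_congr_ae ?_
    have h0 : ∀ᵐ x ∂(wper d M h t A), x ∈ M := by
      rw [ae_iff]
      exact ct_wper_compl_M hG hA.lf.meas
    filter_upwards [h0] with x hx
    exact (hgM x hx).symm
  have e2 : ∫ x in A, (gradN d M h f x + p x * f x) ∂(wvol d M h t) =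
      ∫ x in A, (gradN d M h g x + p x * g x) ∂(wvol d M h t) := by
    refine setIntegral_congr_fun hA.lf.meas fun x hx => ?_
    show gradN d M h f x + p x * f x = gradN d M h g x + p x * g x
    rw [hgM x (hA.lf.sub hx)]
    unfold gradN
    rw [gs_sq_congr fun y hy => (hgM y hy).symm]
  rw [e1, e2]
  exact key

/-- a function which is continuous on `M` and vanishes on `M` off a compact set is integrable on phases. -/
theorem ct_var_int_wvol (hG : CtGeo d M h t) {g : V → ℝ} (hg : ContinuousOn g M) {K : Set V}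
    (hK : IsCompact K) (hKM : K ⊆ M) (hgK : ∀ x ∈ M, x ∉ K → g x = 0) {A : Set V}
    (hAm : MeasurableSet A) (hAM : A ⊆ M) : IntegrableOn g A (wvol d M h t) :=
  ((ct_integrableOn hG hg hK hKM).mono_set (inter_subset_right : A ∩ K ⊆ K)).of_forall_sdiff_eq_zero
    hAm fun x hx => hgK x (hAM hx.1) fun hxK => hx.2 ⟨hx.1, hxK⟩

/-- the same for the perimeter measure. -/
theorem ct_var_int_wper (hG : CtGeo d M h t) {A : Set V} (hA : CtLF d M h t A) {g : V → ℝ}
    (hg : ContinuousOn g M) {K : Set V} (hK : IsCompact K) (hKM : K ⊆ M)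
    (hgK : ∀ x ∈ M, x ∉ K → g x = 0) : Integrable g (wper d M h t A) := by
  obtain ⟨C, hC⟩ := hK.exists_bound_of_continuousOn (hg.mono hKM)
  have h1 : IntegrableOn g K (wper d M h t A) :=
    IntegrableOn.of_bound (hA.fin K hK hKM).lt_top
      ((hg.mono hKM).aestronglyMeasurable hK.measurableSet) C
      ((ae_restrict_iff' hK.measurableSet).2 (Eventually.of_forall hC))
  have h2 : IntegrableOn g M (wper d M h t A) :=
    h1.of_forall_sdiff_eq_zero (ct_measurableSet hG.mfd) fun x hx => hgK x hx.1 hx.2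
  have h3 : (wper d M h t A).restrict M = wper d M h t A :=
    Measure.restrict_eq_self_of_ae_mem (by
      rw [ae_iff]
      exact ct_wper_compl_M hG hA.meas)
  rwa [IntegrableOn, h3] at h2

omit [MeasurableSpace V] [BorelSpace V] in
/-- Leibniz inequality for `|d(fk)|`. -/
theorem ct_var_gradN_mul_le (hG : CtGeo d M h t) {f k : V → ℝ} (hf : SmoothAlong d M f)
    (hk : SmoothAlong d M k) {x : V} (hx : x ∈ M) :
    gradN d M h (fun y => f y * k y) x ≤ |f x| * gradN d M h k x + |k x| * gradN d M h f x := by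
  have hF := gs_sq_nonneg hG.mfd hG.met hf hx
  have hK := gs_sq_nonneg hG.mfd hG.met hk hx
  have hcs := gs_ip_cs hG.mfd hG.met hf hk hx
  have h1 : |gradIp d M h f k x| ≤ gradN d M h f x * gradN d M h k x := by
    unfold gradN
    rw [← Real.sqrt_mul hF]
    exact Real.abs_le_sqrt hcs
  have hNf : gradN d M h f x ^ 2 = gradSq d M h f x := Real.sq_sqrt hF
  have hNk : gradN d M h k x ^ 2 = gradSq d M h k x := Real.sq_sqrt hK
  have hNf0 : 0 ≤ gradN d M h f x := Real.sqrt_nonneg _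
  have hNk0 : 0 ≤ gradN d M h k x := Real.sqrt_nonneg _
  have h2 : gradN d M h (fun y => f y * k y) x = Real.sqrt (gradSq d M h (fun y => f y * k y) x) := rfl
  rw [h2, Real.sqrt_le_iff]
  refine ⟨by positivity, ?_⟩
  rw [gs_sq_mul hG.mfd hG.met hf hk hx, ← hNf, ← hNk]
  have h3 : f x * k x * gradIp d M h f k x ≤ |f x| * |k x| * (gradN d M h f x * gradN d M h k x) := by
    calc f x * k x * gradIp d M h f k x ≤ |f x * k x * gradIp d M h f k x| := le_abs_self _
      _ = |f x| * |k x| * |gradIp d M h f k x| := by rw [abs_mul, abs_mul]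
      _ ≤ |f x| * |k x| * (gradN d M h f x * gradN d M h k x) :=
          mul_le_mul_of_nonneg_left h1 (by positivity)
  have h4 : (|f x| * gradN d M h k x + |k x| * gradN d M h f x) ^ 2 =
      f x ^ 2 * gradN d M h k x ^ 2 + 2 * (|f x| * |k x| * (gradN d M h f x * gradN d M h k x)) +
        k x ^ 2 * gradN d M h f x ^ 2 := by
    rw [← sq_abs (f x), ← sq_abs (k x)]
    ring
  rw [h4]
  linarith

/-- the numerical inequality of the seam estimate. -/
theorem ct_var_num {P0 r X Y N Q ε G : ℝ} (hr : 0 < r) (hr2 : r ^ 2 = P0 ^ 2 + ε ^ 2)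
    (hQ : 0 ≤ Q) (hgrad : 2 * N ≤ 0.67 * P0 ^ 2 + 1.02 * Q)
    (hG : G ≤ (r - P0) * (2 * Y * X) + Y ^ 2 * ((r - P0) / r * N)) :
    G + P0 * ((r - P0) * Y ^ 2) ≤ 3.05 * X ^ 2 + 1.02 * (Q * Y ^ 2) + 0.67 * ε ^ 2 * Y ^ 2 := by
  obtain ⟨a, ha⟩ : ∃ a : ℝ, a = (r - P0) / 2 := ⟨_, rfl⟩
  obtain ⟨b, hb⟩ : ∃ b : ℝ, b = (r + P0) / 2 := ⟨_, rfl⟩
  have hε : 0 ≤ ε ^ 2 := sq_nonneg ε
  have ha0 : 0 ≤ a := by
    rw [ha]
    by_contra hcon
    have h1 : r < P0 := by linarith
    nlinarith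
  have hb0 : 0 ≤ b := by
    rw [hb]
    by_contra hcon
    have h1 : r < -P0 := by linarith
    nlinarith
  have hrab : r = a + b := by rw [ha, hb]; ring
  have hPab : P0 = b - a := by rw [ha, hb]; ring
  have hab : 4 * (a * b) = ε ^ 2 := by
    have : 4 * (a * b) = r ^ 2 - P0 ^ 2 := by rw [ha, hb]; ring
    linarith
  obtain ⟨s, hs⟩ : ∃ s : ℝ, s = a / r := ⟨_, rfl⟩
  have hs0 : 0 ≤ s := by rw [hs]; positivity
  have hs1 : s ≤ 1 := by
    rw [hs, div_le_one hr]
    linarith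
  have hsr : s * r = a := by rw [hs]; field_simp
  have e1 : (r - P0) / r * N = s * (2 * N) := by
    rw [hs, ha]
    field_simp
  have h1 : s * (2 * N) ≤ 0.67 * (a * r) + 1.02 * Q := by
    have h2 : s * (2 * N) ≤ s * (0.67 * P0 ^ 2 + 1.02 * Q) := mul_le_mul_of_nonneg_left hgrad hs0
    have h3 : s * P0 ^ 2 ≤ s * r ^ 2 := mul_le_mul_of_nonneg_left (by linarith) hs0
    have h4 : s * r ^ 2 = a * r := by rw [← hsr]; ring
    have h5 : s * Q ≤ 1 * Q := mul_le_mul_of_nonneg_right hs1 hQ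
    nlinarith
  have hY2 : 0 ≤ Y ^ 2 := sq_nonneg Y
  have h2 : Y ^ 2 * ((r - P0) / r * N) ≤ Y ^ 2 * (0.67 * (a * r) + 1.02 * Q) := by
    rw [e1]
    exact mul_le_mul_of_nonneg_left h1 hY2
  have h3 : 4 * a * (Y * X) ≤ 3.05 * X ^ 2 + 4 / 3.05 * (a ^ 2 * Y ^ 2) := by
    have h4 : 0 ≤ (3.05 * X - 2 * (a * Y)) ^ 2 := sq_nonneg _
    have h5 : (3.05 * X - 2 * (a * Y)) ^ 2 =
        3.05 * (3.05 * X ^ 2 + 4 / 3.05 * (a ^ 2 * Y ^ 2) - 4 * a * (Y * X)) := by
      field_simp
      ring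
    rw [h5] at h4
    have h6 := nonneg_of_mul_nonneg_right h4 (by norm_num : (0 : ℝ) < 3.05)
    linarith
  have h4 : 4 / 3.05 * a ^ 2 + 0.67 * (a * (a + b)) + 2 * (a * (b - a)) ≤ 0.67 * (4 * (a * b)) := by
    have h5 : 0 ≤ a * b := mul_nonneg ha0 hb0
    have h6 : 0 ≤ a ^ 2 := sq_nonneg a
    have h7 : (4 : ℝ) / 3.05 ≤ 1.32 := by norm_num
    nlinarith
  have h5 := mul_le_mul_of_nonneg_right h4 hY2
  have e2 : r - P0 = 2 * a := by rw [ha]; ring
  have h2' : Y ^ 2 * ((r - P0) / r * N) ≤ Y ^ 2 * (0.67 * (a * (a + b)) + 1.02 * Q) := by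
    rw [← hrab]
    exact h2
  have hG' : G ≤ 4 * a * (Y * X) + Y ^ 2 * ((r - P0) / r * N) := by
    have e4 : 4 * a * (Y * X) = (r - P0) * (2 * Y * X) := by rw [e2]; ring
    rw [e4]
    exact hG
  have e3 : P0 * ((r - P0) * Y ^ 2) = 2 * (a * (b - a)) * Y ^ 2 := by
    rw [e2]
    nth_rewrite 1 [hPab]
    ring
  rw [e3, ← hab]
  have e5 : (4 / 3.05 * a ^ 2 + 0.67 * (a * (a + b)) + 2 * (a * (b - a))) * Y ^ 2 =
      4 / 3.05 * (a ^ 2 * Y ^ 2) + Y ^ 2 * (0.67 * (a * (a + b)) + 1.02 * Q) - 1.02 * (Q * Y ^ 2) +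
        2 * (a * (b - a)) * Y ^ 2 := by ring
  rw [e5] at h5
  linarith

omit [MeasurableSpace V] [BorelSpace V] in
/-- the gradient vanishes where the function vanishes on a relatively open set. -/
theorem ct_var_sq_zero (hG : CtGeo d M h t) {g : V → ℝ} {K : Set V} (hK : IsCompact K)
    (hgK : ∀ x ∈ M, x ∉ K → g x = 0) {x : V} (hx : x ∈ M) (hxK : x ∉ K) :
    gradSq d M h g x = 0 := by
  rw [gs_sq_congr_near (f' := fun _ => 0) (hK.isClosed.isOpen_compl.mem_nhds hxK)
    (fun y hy => hgK y hy.1 hy.2), gs_sq_const hG.mfd hG.met 0 hx]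

/-- the seam estimate with the smooth approximation `√(p² + ε²) - p` of `2 (-p)₊`. -/
theorem ct_side_form_eps (hG : CtGeo d M h t) (hp : SmoothAlong d M p) {A : Set V}
    (hA : CtLAM d M h t p A) {pot : V → ℝ} (hpot : ContinuousOn pot M) (hpot0 : ∀ x ∈ M, 0 ≤ pot x)
    (hgrad : ∀ x ∈ M, 2 * gradN d M h p x ≤ 0.67 * p x ^ 2 + 1.02 * pot x) {v : V → ℝ}
    (hv : SmoothAlong d M v) (hc : CtCS M v) {ε : ℝ} (hε : 0 < ε) :
    -(2 * ∫ x, p x * v x ^ 2 ∂(wper d M h t A)) ≤
      3.05 * ∫ x in A, gradSq d M h v x ∂(wvol d M h t) +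
        1.02 * ∫ x in A, pot x * v x ^ 2 ∂(wvol d M h t) +
        0.67 * ε ^ 2 * ∫ x in A, v x ^ 2 ∂(wvol d M h t) := by
  obtain ⟨K, hK, hKM, hvK⟩ := hc
  have hpc : ContinuousOn p M := if_smoothAlong_continuousOn hG.mfd hp
  have hvc : ContinuousOn v M := if_smoothAlong_continuousOn hG.mfd hv
  have hAm := hA.lf.meas
  have hAM := hA.lf.sub
  have i1 : IntegrableOn (gradSq d M h v) A (wvol d M h t) :=
    ct_var_int_wvol hG (if_smoothAlong_continuousOn hG.mfd (if_gradSq_smoothAlong hG.met hv)) hK hKM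
      (fun x hx hxK => ct_var_sq_zero hG hK hvK hx hxK) hAm hAM
  have i2 : IntegrableOn (fun x => pot x * v x ^ 2) A (wvol d M h t) :=
    ct_var_int_wvol hG (hpot.mul (hvc.pow 2)) hK hKM
      (fun x hx hxK => by
        show pot x * v x ^ 2 = 0
        rw [hvK x hx hxK]
        simp) hAm hAM
  have i3 : IntegrableOn (fun x => v x ^ 2) A (wvol d M h t) :=
    ct_var_int_wvol hG (hvc.pow 2) hK hKM
      (fun x hx hxK => by
        show v x ^ 2 = 0
        rw [hvK x hx hxK]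
        simp) hAm hAM
  have i4 : Integrable (fun x => p x * v x ^ 2) (wper d M h t A) :=
    ct_var_int_wper hG hA.lf (hpc.mul (hvc.pow 2)) hK hKM
      (fun x hx hxK => by
        show p x * v x ^ 2 = 0
        rw [hvK x hx hxK]
        simp)
  -- the profile
  obtain ⟨φ, hφdef⟩ : ∃ φ : ℝ → ℝ, φ = fun s => Real.sqrt (s ^ 2 + ε ^ 2) - s := ⟨_, rfl⟩
  have hpos : ∀ s : ℝ, 0 < s ^ 2 + ε ^ 2 := fun s => by positivity
  have hφ : ContDiff ℝ ∞ φ := by
    rw [hφdef]
    exact (((contDiff_id.pow 2).add contDiff_const).sqrt fun s => (hpos s).ne').sub contDiff_id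
  have hφd : ∀ s, deriv φ s = s / Real.sqrt (s ^ 2 + ε ^ 2) - 1 := by
    intro s
    have h1 : HasDerivAt (fun y : ℝ => y ^ 2 + ε ^ 2) (2 * s) s := by
      have := (hasDerivAt_pow 2 s).add_const (ε ^ 2)
      simpa using this
    have h2 := (h1.sqrt (hpos s).ne').sub (hasDerivAt_id s)
    rw [hφdef]
    rw [show (fun s => Real.sqrt (s ^ 2 + ε ^ 2) - s) =
      (fun y => Real.sqrt (y ^ 2 + ε ^ 2)) - id from rfl, h2.deriv]
    have h3 : Real.sqrt (s ^ 2 + ε ^ 2) ≠ 0 := (Real.sqrt_pos.2 (hpos s)).ne'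
    field_simp
  have habs : ∀ s : ℝ, |s| ≤ Real.sqrt (s ^ 2 + ε ^ 2) := fun s =>
    Real.abs_le_sqrt (by nlinarith [sq_nonneg ε])
  have hφv : ∀ s, φ s = Real.sqrt (s ^ 2 + ε ^ 2) - s := fun s => by rw [hφdef]
  have hφ0 : ∀ s, 0 ≤ φ s := fun s => by
    rw [hφv]
    linarith [habs s, le_abs_self s]
  have hq : SmoothAlong d M (fun x => φ (p x)) := gs_sm_comp' hφ hp
  have hvv : SmoothAlong d M (fun x => v x * v x) := gs_sm_mul hv hv
  have hf : SmoothAlong d M (fun x => φ (p x) * (v x * v x)) := gs_sm_mul hq hvv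
  have hfK : ∀ x ∈ M, x ∉ K → φ (p x) * (v x * v x) = 0 := fun x hx hxK => by
    rw [hvK x hx hxK]
    simp
  have hdel := ct_delete hG hp hA hf (fun x _ => mul_nonneg (hφ0 _) (mul_self_nonneg _))
    ⟨K, hK, hKM, hfK⟩
  -- the pointwise bound
  have hpt : ∀ x ∈ A, gradN d M h (fun x => φ (p x) * (v x * v x)) x +
      p x * (φ (p x) * (v x * v x)) ≤
      3.05 * gradSq d M h v x + 1.02 * (pot x * v x ^ 2) + 0.67 * ε ^ 2 * v x ^ 2 := by
    intro x hxA
    have hx := hAM hxA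
    have hr : 0 < Real.sqrt (p x ^ 2 + ε ^ 2) := Real.sqrt_pos.2 (hpos _)
    have hr2 : Real.sqrt (p x ^ 2 + ε ^ 2) ^ 2 = p x ^ 2 + ε ^ 2 := Real.sq_sqrt (hpos _).le
    have h1 := ct_var_gradN_mul_le hG hq hvv hx
    have h2 := ct_var_gradN_mul_le hG hv hv hx
    have h3 : gradN d M h (fun x => φ (p x)) x =
        (Real.sqrt (p x ^ 2 + ε ^ 2) - p x) / Real.sqrt (p x ^ 2 + ε ^ 2) * gradN d M h p x := by
      unfold gradN
      rw [gs_sq_comp hG.mfd hG.met isOpen_univ hφ.contDiffOn hp (fun _ _ => mem_univ _) hx,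
        Real.sqrt_mul (sq_nonneg _), Real.sqrt_sq_eq_abs, hφd]
      congr 1
      have h4 : p x / Real.sqrt (p x ^ 2 + ε ^ 2) - 1 =
          -((Real.sqrt (p x ^ 2 + ε ^ 2) - p x) / Real.sqrt (p x ^ 2 + ε ^ 2)) := by
        field_simp
        ring
      rw [h4, abs_neg, abs_of_nonneg]
      have := hφ0 (p x)
      rw [hφv] at this
      positivity
    have h5 : gradN d M h (fun x => φ (p x) * (v x * v x)) x ≤
        (Real.sqrt (p x ^ 2 + ε ^ 2) - p x) * (2 * |v x| * gradN d M h v x) + |v x| ^ 2 *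
          ((Real.sqrt (p x ^ 2 + ε ^ 2) - p x) / Real.sqrt (p x ^ 2 + ε ^ 2) * gradN d M h p x) := by
      rw [h3, abs_of_nonneg (hφ0 _), hφv, abs_mul] at h1
      have h6 : (Real.sqrt (p x ^ 2 + ε ^ 2) - p x) * gradN d M h (fun x => v x * v x) x ≤
          (Real.sqrt (p x ^ 2 + ε ^ 2) - p x) * (2 * |v x| * gradN d M h v x) := by
        refine mul_le_mul_of_nonneg_left (by linarith) ?_
        have := hφ0 (p x)
        rwa [hφv] at this
      rw [sq |v x|]
      linarith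
    have h7 := ct_var_num hr hr2 (hpot0 x hx) (hgrad x hx) h5
    have h8 : gradN d M h v x ^ 2 = gradSq d M h v x :=
      Real.sq_sqrt (gs_sq_nonneg hG.mfd hG.met hv hx)
    rw [sq_abs, h8] at h7
    rw [hφv, ← sq]
    exact h7
  have j1 : IntegrableOn (fun x => gradN d M h (fun x => φ (p x) * (v x * v x)) x +
      p x * (φ (p x) * (v x * v x))) A (wvol d M h t) := by
    refine (ct_var_int_wvol hG (ct_gradN_continuousOn hG hf) hK hKM (fun x hx hxK => ?_) hAm hAM).add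
      (ct_var_int_wvol hG (hpc.mul (if_smoothAlong_continuousOn hG.mfd hf)) hK hKM
        (fun x hx hxK => ?_) hAm hAM)
    · unfold gradN
      rw [ct_var_sq_zero hG hK hfK hx hxK, Real.sqrt_zero]
    · show p x * (φ (p x) * (v x * v x)) = 0
      rw [hfK x hx hxK, mul_zero]
  have j2 : IntegrableOn (fun x => 3.05 * gradSq d M h v x + 1.02 * (pot x * v x ^ 2) +
      0.67 * ε ^ 2 * v x ^ 2) A (wvol d M h t) :=
    ((i1.const_mul 3.05).add (i2.const_mul 1.02)).add (i3.const_mul (0.67 * ε ^ 2))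
  have h1 := setIntegral_mono_on j1 j2 hAm hpt
  have e1 : ∫ x in A, (3.05 * gradSq d M h v x + 1.02 * (pot x * v x ^ 2) +
      0.67 * ε ^ 2 * v x ^ 2) ∂(wvol d M h t) =
      3.05 * ∫ x in A, gradSq d M h v x ∂(wvol d M h t) +
        1.02 * ∫ x in A, pot x * v x ^ 2 ∂(wvol d M h t) +
        0.67 * ε ^ 2 * ∫ x in A, v x ^ 2 ∂(wvol d M h t) := by
    have k1 : IntegrableOn (fun x => 3.05 * gradSq d M h v x + 1.02 * (pot x * v x ^ 2)) A
      (wvol d M h t) := (i1.const_mul 3.05).add (i2.const_mul 1.02)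
    rw [integral_add k1 (i3.const_mul (0.67 * ε ^ 2)),
      integral_add (i1.const_mul 3.05) (i2.const_mul 1.02), integral_const_mul, integral_const_mul,
      integral_const_mul]
  rw [e1] at h1
  have j3 : Integrable (fun x => φ (p x) * (v x * v x)) (wper d M h t A) :=
    ct_var_int_wper hG hA.lf (if_smoothAlong_continuousOn hG.mfd hf) hK hKM hfK
  have h2 : -(2 * ∫ x, p x * v x ^ 2 ∂(wper d M h t A)) ≤
      ∫ x, φ (p x) * (v x * v x) ∂(wper d M h t A) := by
    rw [← integral_const_mul, ← integral_neg]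
    refine integral_mono (i4.const_mul 2).neg j3 fun x => ?_
    show -(2 * (p x * v x ^ 2)) ≤ φ (p x) * (v x * v x)
    rw [hφv, ← sq]
    have h3 : -(2 * p x) ≤ Real.sqrt (p x ^ 2 + ε ^ 2) - p x := by
      linarith [habs (p x), neg_abs_le (p x)]
    have h4 := mul_le_mul_of_nonneg_right h3 (sq_nonneg (v x))
    linarith
  linarith

/-- **seam estimate** (P (B.14)) on the plus side (for the minus side use `CtLAM.diff`). -/
theorem ct_side_form (hG : CtGeo d M h t) (hp : SmoothAlong d M p) {A : Set V}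
    (hA : CtLAM d M h t p A) {pot : V → ℝ} (hpot : ContinuousOn pot M) (hpot0 : ∀ x ∈ M, 0 ≤ pot x)
    (hgrad : ∀ x ∈ M, 2 * gradN d M h p x ≤ 0.67 * p x ^ 2 + 1.02 * pot x) {v : V → ℝ}
    (hv : SmoothAlong d M v) (hc : CtCS M v) :
    -(1.02 * ∫ x in A, pot x * v x ^ 2 ∂(wvol d M h t)) ≤
      3.05 * ∫ x in A, gradSq d M h v x ∂(wvol d M h t) +
        2 * ∫ x, p x * v x ^ 2 ∂(wper d M h t A) := by
  obtain ⟨C, hC⟩ : ∃ C : ℝ, C = 0.67 * ∫ x in A, v x ^ 2 ∂(wvol d M h t) := ⟨_, rfl⟩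
  have hC0 : 0 ≤ C := by
    rw [hC]
    exact mul_nonneg (by norm_num) (integral_nonneg fun x => sq_nonneg _)
  have key : -(2 * ∫ x, p x * v x ^ 2 ∂(wper d M h t A)) ≤
      3.05 * ∫ x in A, gradSq d M h v x ∂(wvol d M h t) +
        1.02 * ∫ x in A, pot x * v x ^ 2 ∂(wvol d M h t) := by
    refine le_of_forall_pos_le_add fun δ hδ => ?_
    have hε : 0 < Real.sqrt (δ / (C + 1)) := Real.sqrt_pos.2 (by positivity)
    have h1 := ct_side_form_eps hG hp hA hpot hpot0 hgrad hv hc hε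
    rw [Real.sq_sqrt (by positivity)] at h1
    have h2 : 0.67 * (δ / (C + 1)) * ∫ x in A, v x ^ 2 ∂(wvol d M h t) ≤ δ := by
      have e : 0.67 * (δ / (C + 1)) * ∫ x in A, v x ^ 2 ∂(wvol d M h t) = δ * (C / (C + 1)) := by
        rw [hC]
        ring
      rw [e]
      have h3 : C / (C + 1) ≤ 1 := by
        rw [div_le_one (by positivity)]
        linarith
      calc δ * (C / (C + 1)) ≤ δ * 1 := mul_le_mul_of_nonneg_left h3 hδ.le
        _ = δ := mul_one δ
    linarith
  linarith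

end Claimed.Agent.R315
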