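-- KEEP
import Claimed.Agent.R315.Ct.VarA
import Claimed.Agent.R315.Rm.Var

/-!
# Row 315, package Ct: `Var.lean` = B.9 (`VarA.lean`) + B.8 (proved by helper39 in `Rm/Var*.lean`, `Rm/Glob.lean`)
-/

set_option autoImplicit false
open scoped ContDiff ENNReal Topology
open MeasureTheory Claims.C0499 Set Filter

namespace Claimed.Agent.R315

variable {V : Type} [NormedAddCommGroup V] [NormedSpace ℝ V] [FiniteDimensional ℝ V]
  [MeasurableSpace V] [BorelSpace V]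
variable {d : ℕ} {M : Set V} {h : Ten V} {t p : V → ℝ}

/-- **stability, extrinsic scalar form**. -/
theorem ct_stab_ext (hG : CtGeo d M h t) (hp : SmoothAlong d M p) {A : Set V}
    (hA : CtLAM d M h t p A) {φ : V → ℝ} (hφ : CtDef d M h A φ)
    (hn : ∀ x ∈ M, φ x = 0 → gradSq d M h φ x = 1) {η : V → ℝ} (hη : SmoothAlong d M η)
    (hc : CtCS M η) :
    0 ≤ ∫ x, (gradSq d M h η x - gradIp d M h η φ x ^ 2 +
      (gradIp d M h φ (wmc d M h t φ) x - gradIp d M h φ p x) * η x ^ 2) ∂(wper d M h t A) :=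
  rm_stab_ext hG hp hA hφ hn hη hc

/-- tangential gradient on a level set. -/
theorem ct_rm_level_gradSq (hG : CtGeo (d + 1) M h t) {φ : V → ℝ} (hφ : SmoothAlong (d + 1) M φ)
    {η : V → ℝ} (hη : SmoothAlong (d + 1) M η) {x : V} (hx : x ∈ M) (hx0 : φ x = 0)
    (hn : gradSq (d + 1) M h φ x = 1) :
    gradSq d {y | y ∈ M ∧ φ y = 0} h η x =
      gradSq (d + 1) M h η x - gradIp (d + 1) M h η φ x ^ 2 :=
  rm_level_gradSq hG hφ hη hx hx0 hn

/-- drift Gauss inequality for a level set of a function with `|dφ| = 1` ALONG the level set. -/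
theorem ct_rm_level_Dsc (hG : CtGeo (d + 1) M h t) {φ : V → ℝ} (hφ : SmoothAlong (d + 1) M φ)
    (hreg : ∀ y ∈ M, 0 < gradSq (d + 1) M h φ y)
    (hn : ∀ y ∈ M, φ y = 0 → gradSq (d + 1) M h φ y = 1) {x : V} (hx : x ∈ M) (hx0 : φ x = 0) :
    Dsc (d + 1) M h t x + wmc (d + 1) M h t φ x ^ 2 +
        2 * gradIp (d + 1) M h φ (wmc (d + 1) M h t φ) x ≤
      Dsc d {y | y ∈ M ∧ φ y = 0} h t x :=
  rm_level_Dsc hG hφ hreg hn hx hx0

/-- **the wall stability form** (P Lemma B.8), drift form: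
`∫_S (2|dη|²_S + D_S η²) ≥ ∫_S (D_M + p² - 2|dp|) η²`, `η` with compact support off `Σ`. -/
theorem ct_stab (hG : CtGeo (d + 1) M h t) (hd : 1 ≤ d) (hp : SmoothAlong (d + 1) M p) {A : Set V}
    (hA : CtLAM (d + 1) M h t p A) {η : V → ℝ} (hη : SmoothAlong (d + 1) M η) {K : Set V}
    (hK : IsCompact K) (hKM : K ⊆ M) (hKS : Disjoint K (ctSing (d + 1) M A))
    (hηK : ∀ x ∈ M, x ∉ K → η x = 0) :
    ∫ x, (Dsc (d + 1) M h t x + p x ^ 2 - 2 * gradN (d + 1) M h p x) * η x ^ 2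
        ∂(wper (d + 1) M h t A) ≤
      ∫ x, (2 * gradSq d (ctWall (d + 1) M A) h η x +
        Dsc d (ctWall (d + 1) M A) h t x * η x ^ 2) ∂(wper (d + 1) M h t A) :=
  rm_stab hG hd hp hA hη hK hKM hKS hηK

end Claimed.Agent.R315
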